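import Claimed.Open.R032.SanityCM

/-!
# Complex tori with periods in an imaginary quadratic field are CM abelian varieties

Let `A = V / Λ`, `Λ = lattice b`, and suppose that in some `ℂ`-basis `w` of `V` all the coordinates
of the periods `b i` lie in `K = ℚ + ℚ ω`, `ω ∉ ℝ`  (so `A` is isogenous to `E^n`, `E = ℂ/(ℤ + ℤω)`).

* `isPolarizable_of_quadratic_periods` : `A` is polarisable;
* `isCM_of_quadratic_periods` : if moreover `ω² ∈ ℚ + ℚ ω` (i.e. `K` is an imaginary quadratic
  field), then `A` is of CM type, by the algebra `K^n`.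

So these tori satisfy the hypotheses of `Statement`.
-/

open Module Complex

namespace Claimed.Open.R032

variable {V : Type*} [NormedAddCommGroup V] [InnerProductSpace ℂ V] [FiniteDimensional ℂ V]
variable {ι : Type*}

/-- A common denominator of finitely many rational numbers. -/
theorem exists_common_den {α : Type*} [Finite α] (q : α → ℚ) :
    ∃ M : ℕ, 0 < M ∧ ∀ a, ∃ z : ℤ, (M : ℚ) * q a = z := by
  classical
  have := Fintype.ofFinite α
  refine ⟨∏ a, (q a).den, Finset.prod_pos fun a _ => (q a).den_pos, fun a => ?_⟩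
  obtain ⟨t, ht⟩ := Finset.dvd_prod_of_mem (fun a => (q a).den) (Finset.mem_univ a)
  refine ⟨t * (q a).num, ?_⟩
  rw [ht]
  push_cast
  rw [mul_comm ((q a).den : ℚ), mul_assoc, Rat.den_mul_eq_num]

omit [FiniteDimensional ℂ V] in
/-- A bilinear form which is integral on a period basis is integral on the lattice. -/
theorem integral_on_lattice_of_basis (b : Basis ι ℝ V) (E : V →ₗ[ℝ] V →ₗ[ℝ] ℝ)
    (h : ∀ i j, ∃ z : ℤ, E (b i) (b j) = z) :
    ∀ v ∈ lattice b, ∀ w ∈ lattice b, ∃ z : ℤ, E v w = z := by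
  intro v hv w hw
  induction hv using Submodule.span_induction with
  | mem x hx =>
    obtain ⟨i, rfl⟩ := hx
    induction hw using Submodule.span_induction with
    | mem y hy =>
      obtain ⟨j, rfl⟩ := hy
      exact h i j
    | zero => exact ⟨0, by simp⟩
    | add x y _ _ hx hy =>
      obtain ⟨m, hm⟩ := hx
      obtain ⟨m', hm'⟩ := hy
      exact ⟨m + m', by rw [map_add, hm, hm']; push_cast; ring⟩
    | smul a x _ hx =>
      obtain ⟨m, hm⟩ := hx
      exact ⟨a * m, by rw [map_zsmul, hm]; simp⟩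
  | zero => exact ⟨0, by simp⟩
  | add x y _ _ hx hy =>
    obtain ⟨m, hm⟩ := hx
    obtain ⟨m', hm'⟩ := hy
    exact ⟨m + m', by rw [map_add, LinearMap.add_apply, hm, hm']; push_cast; ring⟩
  | smul a x _ hx =>
    obtain ⟨m, hm⟩ := hx
    exact ⟨a * m, by rw [map_zsmul, LinearMap.smul_apply, hm]; simp⟩

/-- The form `E(x,y) = ∑_k Im (x_k conj y_k)` in the coordinates of the `ℂ`-basis `w`. -/
noncomputable def coordRiemannForm {n : ℕ} (w : Basis (Fin n) ℂ V) : V →ₗ[ℝ] V →ₗ[ℝ] ℝ :=
  ∑ k, gaussForm.compl₁₂ ((w.coord k).restrictScalars ℝ) ((w.coord k).restrictScalars ℝ)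

omit [FiniteDimensional ℂ V] in
theorem coordRiemannForm_apply {n : ℕ} (w : Basis (Fin n) ℂ V) (x y : V) :
    coordRiemannForm w x y
      = ∑ k, ((w.repr x k).im * (w.repr y k).re - (w.repr x k).re * (w.repr y k).im) := by
  simp [coordRiemannForm, LinearMap.sum_apply, gaussForm_apply]

/-- A complex torus whose periods have coordinates in `ℚ + ℚ ω`, `ω ∉ ℝ`, is polarisable. -/
theorem isPolarizable_of_quadratic_periods (b : Basis ι ℝ V) {n : ℕ} (w : Basis (Fin n) ℂ V)
    (ω : ℂ) (hω : ω.im ≠ 0) (hb : ∀ i k, ∃ r s : ℚ, w.repr (b i) k = r + s * ω) :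
    IsPolarizable (lattice b) := by
  have : Finite ι := Module.Finite.finite_basis b
  choose r s hrs using hb
  obtain ⟨M, hM, hMq⟩ := exists_common_den
    (fun ij : ι × ι => ∑ k, (s ij.1 k * r ij.2 k - r ij.1 k * s ij.2 k))
  have hval : ∀ i j, coordRiemannForm w (b i) (b j)
      = ((∑ k, (s i k * r j k - r i k * s j k) : ℚ) : ℝ) * ω.im := by
    intro i j
    rw [coordRiemannForm_apply]
    push_cast
    rw [Finset.sum_mul]
    refine Finset.sum_congr rfl fun k _ => ?_
    rw [hrs i k, hrs j k]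
    simp
    ring
  have hc : 0 < (M : ℝ) / |ω.im| := by positivity
  refine ⟨((M : ℝ) / |ω.im|) • coordRiemannForm w, ?_, ?_, ?_, ?_⟩
  · intro v
    rw [LinearMap.smul_apply, LinearMap.smul_apply, coordRiemannForm_apply]
    simp [mul_comm]
  · apply integral_on_lattice_of_basis
    intro i j
    obtain ⟨z, hz⟩ := hMq (i, j)
    have hz' : (M : ℝ) * ((∑ k, (s i k * r j k - r i k * s j k) : ℚ) : ℝ) = z := by
      exact_mod_cast congrArg (fun q : ℚ => (q : ℝ)) hz
    rw [LinearMap.smul_apply, LinearMap.smul_apply, hval, smul_eq_mul]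
    generalize ((∑ k, (s i k * r j k - r i k * s j k) : ℚ) : ℝ) = Q at hz' ⊢
    rcases lt_or_gt_of_ne hω with h | h
    · refine ⟨-z, ?_⟩
      rw [abs_of_neg h]
      push_cast
      rw [← hz']
      field_simp
    · refine ⟨z, ?_⟩
      rw [abs_of_pos h, ← hz']
      field_simp
  · intro v v'
    simp only [LinearMap.smul_apply, coordRiemannForm_apply, map_smul, Finsupp.smul_apply,
      smul_eq_mul]
    congr 1
    refine Finset.sum_congr rfl fun k _ => ?_
    simp
    ring
  · intro v hv
    rw [LinearMap.smul_apply, LinearMap.smul_apply, smul_eq_mul]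
    refine mul_pos hc ?_
    rw [coordRiemannForm_apply]
    have hk : ∃ k, w.repr v k ≠ 0 := by
      by_contra hcon
      push Not at hcon
      apply hv
      apply w.repr.injective
      ext k
      simp [hcon k]
    obtain ⟨k, hk⟩ := hk
    have hterm : ∀ k, (w.repr (I • v) k).im * (w.repr v k).re - (w.repr (I • v) k).re * (w.repr v k).im
        = Complex.normSq (w.repr v k) := by
      intro k
      rw [map_smul, Finsupp.smul_apply, Complex.normSq_apply]
      simp
    simp only [hterm]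
    exact Finset.sum_pos' (fun k _ => Complex.normSq_nonneg _)
      ⟨k, Finset.mem_univ k, Complex.normSq_pos.2 hk⟩

/-! ### Complex multiplication -/

/-- The endomorphisms of `V` which are diagonal in the basis `w`. -/
noncomputable def diagEnd {n : ℕ} (w : Basis (Fin n) ℂ V) : (Fin n → ℂ) →+* Module.End ℂ V :=
  (w.equivFun.symm.conjRingEquiv : Module.End ℂ (Fin n → ℂ) →+* Module.End ℂ V).comp
    (Algebra.lmul ℂ (Fin n → ℂ)).toRingHom

omit [FiniteDimensional ℂ V] in
theorem repr_diagEnd {n : ℕ} (w : Basis (Fin n) ℂ V) (a : Fin n → ℂ) (v : V) (k : Fin n) :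
    w.repr (diagEnd w a v) k = a k * w.repr v k := by
  have h : diagEnd w a v = w.equivFun.symm (a * w.equivFun v) := rfl
  rw [h, ← Basis.equivFun_apply, LinearEquiv.apply_symm_apply, Pi.mul_apply, Basis.equivFun_apply]

omit [FiniteDimensional ℂ V] in
theorem diagEnd_injective {n : ℕ} (w : Basis (Fin n) ℂ V) : Function.Injective (diagEnd w) := by
  have h1 : Function.Injective (Algebra.lmul ℂ (Fin n → ℂ)) := Algebra.lmul_injective
  exact (w.equivFun.symm.conjRingEquiv.injective).comp h1

omit [FiniteDimensional ℂ V] in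
/-- `Λ ⊗ ℚ` consists of ALL the vectors with coordinates in `ℚ + ℚ ω` (count dimensions). -/
theorem exists_rat_combination_of_coords [Fintype ι] (b : Basis ι ℝ V) {n : ℕ}
    (w : Basis (Fin n) ℂ V) (ω : ℂ) (hb : ∀ i k, ∃ r s : ℚ, w.repr (b i) k = r + s * ω) (v : V)
    (hv : ∀ k, ∃ r s : ℚ, w.repr v k = r + s * ω) :
    ∃ c : ι → ℚ, v = ∑ i, (c i : ℝ) • b i := by
  classical
  choose r s hrs using hb
  choose r' s' hrs' using hv
  let A : Matrix (Fin n ⊕ Fin n) ι ℚ := Matrix.of fun x i => Sum.elim (r i) (s i) x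
  have hcoord : ∀ (c : ι → ℚ) (k : Fin n), w.repr (∑ i, (c i : ℝ) • b i) k
      = ((A.mulVec c (Sum.inl k) : ℚ) : ℂ) + ((A.mulVec c (Sum.inr k) : ℚ) : ℂ) * ω := by
    intro c k
    have h1 : ∀ i, w.repr ((c i : ℝ) • b i) k = (c i : ℂ) * (r i k + s i k * ω) := by
      intro i
      rw [← Complex.coe_smul, map_smul, Finsupp.smul_apply, hrs]
      simp
    rw [map_sum, Finsupp.finsetSum_apply]
    simp only [h1, Matrix.mulVec, dotProduct, A, Matrix.of_apply, Sum.elim_inl, Sum.elim_inr]
    push_cast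
    rw [Finset.sum_mul, ← Finset.sum_add_distrib]
    refine Finset.sum_congr rfl fun i _ => ?_
    ring
  have hinj : Function.Injective A.mulVecLin := by
    rw [← LinearMap.ker_eq_bot, LinearMap.ker_eq_bot']
    intro c hc
    have hc' : A.mulVec c = 0 := hc
    have h0 : ∑ i, (c i : ℝ) • b i = 0 := by
      apply w.repr.injective
      ext k
      rw [hcoord, hc']
      simp
    have := Fintype.linearIndependent_iff.1 b.linearIndependent _ h0
    funext i
    exact_mod_cast this i
  have hdim : finrank ℚ (ι → ℚ) = finrank ℚ (Fin n ⊕ Fin n → ℚ) := by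
    rw [Module.finrank_fintype_fun_eq_card, Module.finrank_fintype_fun_eq_card,
      ← Module.finrank_eq_card_basis b, finrank_real_of_complex, Module.finrank_eq_card_basis w]
    simp [two_mul]
  have hsurj : Function.Surjective A.mulVecLin :=
    (LinearMap.injective_iff_surjective_of_finrank_eq_finrank hdim).1 hinj
  obtain ⟨c, hc⟩ := hsurj (Sum.elim r' s')
  have hc' : A.mulVec c = Sum.elim r' s' := hc
  refine ⟨c, ?_⟩
  apply w.repr.injective
  ext k
  rw [hcoord, hc', hrs']
  simp

/-- A `ℂ`-linear map which maps the periods to vectors with coordinates in `ℚ + ℚ ω` is in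
`End(A) ⊗ ℚ`. -/
theorem isRationalEndomorphism_of_coords (b : Basis ι ℝ V) {n : ℕ}
    (w : Basis (Fin n) ℂ V) (ω : ℂ) (hb : ∀ i k, ∃ r s : ℚ, w.repr (b i) k = r + s * ω)
    (f : Module.End ℂ V) (hf : ∀ i k, ∃ r s : ℚ, w.repr (f (b i)) k = r + s * ω) :
    IsRationalEndomorphism (lattice b) f := by
  have : Finite ι := Module.Finite.finite_basis b
  have := Fintype.ofFinite ι
  choose c hc using fun i => exists_rat_combination_of_coords b w ω hb (f (b i)) (hf i)
  obtain ⟨M, hM, hMc⟩ := exists_common_den (fun ij : ι × ι => c ij.1 ij.2)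
  refine ⟨M, hM, ?_⟩
  have hle : lattice b ≤ (lattice b).comap ((M • f).restrictScalars ℤ) := by
    refine Submodule.span_le.2 ?_
    rintro _ ⟨i, rfl⟩
    show M • f (b i) ∈ lattice b
    rw [hc i, Finset.smul_sum]
    refine Submodule.sum_mem _ fun j _ => ?_
    obtain ⟨z, hz⟩ := hMc (i, j)
    have hz' : (M : ℝ) * (c i j : ℝ) = z := by exact_mod_cast congrArg (fun q : ℚ => (q : ℝ)) hz
    have : M • ((c i j : ℝ) • b j) = z • b j := by
      rw [← Nat.cast_smul_eq_nsmul ℝ, smul_smul, hz', Int.cast_smul_eq_zsmul]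
    rw [this]
    exact Submodule.smul_mem _ _ (Submodule.subset_span ⟨j, rfl⟩)
  intro v hv
  exact hle hv

/-- A complex torus whose periods have coordinates in the imaginary quadratic field `ℚ + ℚ ω` is of
CM type. -/
theorem isCM_of_quadratic_periods (b : Basis ι ℝ V) {n : ℕ} (w : Basis (Fin n) ℂ V)
    (ω : ℂ) (hω : ω.im ≠ 0) (hω2 : ∃ r s : ℚ, ω ^ 2 = r + s * ω)
    (hb : ∀ i k, ∃ r s : ℚ, w.repr (b i) k = r + s * ω) : IsCM (lattice b) := by
  obtain ⟨r₀, s₀, h₀⟩ := hω2
  have : Fact (∀ x : ℚ, x ^ 2 ≠ r₀ + s₀ * x) := by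
    refine ⟨fun x hx => hω ?_⟩
    have hx' : (x : ℂ) ^ 2 = r₀ + s₀ * x := by exact_mod_cast congrArg (fun q : ℚ => (q : ℂ)) hx
    have h1 : (ω - x) * (ω + x - s₀) = 0 := by linear_combination h₀ - hx'
    rcases mul_eq_zero.1 h1 with h | h
    · have : ω = x := by linear_combination h
      rw [this]; simp
    · have : ω = ((s₀ - x : ℚ) : ℂ) := by push_cast; linear_combination h
      rw [this]; exact Complex.ratCast_im _
  let emb : QuadraticAlgebra ℚ r₀ s₀ →ₐ[ℚ] ℂ :=
    QuadraticAlgebra.lift ⟨ω, by rw [← sq, h₀]; simp [Rat.smul_def]⟩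
  have hemb : ∀ a, emb a = (a.re : ℂ) + (a.im : ℂ) * ω := by
    intro a
    have h : emb a = a.re • (1 : ℂ) + a.im • ω := rfl
    rw [h]
    simp [Rat.smul_def]
  refine ⟨Fin n → QuadraticAlgebra ℚ r₀ s₀, inferInstance, inferInstance,
    (diagEnd w).comp (emb.toRingHom.compLeft (Fin n)), inferInstance, ?_, ?_, ?_⟩
  · rw [Module.finrank_pi_fintype, Module.finrank_eq_card_basis w]
    simp [QuadraticAlgebra.finrank_eq_two, mul_comm]
  · refine (diagEnd_injective w).comp ?_
    intro a a' h
    funext k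
    exact emb.toRingHom.injective (congrFun h k)
  · intro a
    refine isRationalEndomorphism_of_coords b w ω hb _ fun i k => ?_
    obtain ⟨r, s, hrs⟩ := hb i k
    refine ⟨(a k).re * r + (a k).im * s * r₀, (a k).re * s + (a k).im * r + (a k).im * s * s₀, ?_⟩
    have : w.repr (((diagEnd w).comp (emb.toRingHom.compLeft (Fin n))) a (b i)) k
        = emb (a k) * w.repr (b i) k := repr_diagEnd w _ _ k
    rw [this, hemb, hrs]
    push_cast
    linear_combination ((a k).im : ℂ) * s * h₀

end Claimed.Open.R032
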