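import Claimed.Open.R032.SanityHodge

/-!
# Sanity checks for R032: evaluation of wedge products

* `wedgeOfForms_eq_det`: `(ℓ₀ ∧ ⋯ ∧ ℓ_{n-1})(v₀, …, v_{n-1}) = det (ℓ_i (v_j))`;
* `wedge_wedgeOfForms`: `(ℓ₀ ∧ ⋯ ∧ ℓ_{a-1}) ∧ (ℓ'₀ ∧ ⋯ ∧ ℓ'_{k-1})` is the wedge product of the
  concatenated family, so that `wedge` (defined through shuffles) and `wedgeOfForms` (defined through
  determinants) have compatible normalisations;
* `wedge_apply_of_vanish`: if `α` vanishes as soon as one of its arguments is one of the last `k`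
  vectors of `v`, then `(α ∧ β)(v) = α(v₀, …, v_{a-1}) β(v_a, …, v_{a+k-1})`
  (only the trivial shuffle contributes);
* `wedge_wedgeOfForms_apply_of_dual`: the case `α = ℓ₀ ∧ ⋯ ∧ ℓ_{a-1}` where the `ℓ_i` are dual to the
  first `a` vectors and vanish on the last `k` vectors.
-/

open Module TensorProduct

namespace Claimed.Open.R032

variable {V : Type*} [NormedAddCommGroup V] [InnerProductSpace ℂ V]

/-! ### `wedgeOfForms` is a determinant -/

theorem wedgeOfForms_eq_det {n : ℕ} (ℓ : Fin n → V →ₗ[ℝ] ℂ) (v : Fin n → V) :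
    wedgeOfForms ℓ v = Matrix.det (Matrix.of fun i j => ℓ i (v j)) := by
  rw [wedgeOfForms_apply, Matrix.det_apply']
  rw [← Equiv.sum_comp (Equiv.inv (Equiv.Perm (Fin n)))]
  refine Finset.sum_congr rfl fun σ _ => ?_
  rw [Equiv.inv_apply, Equiv.Perm.sign_inv]
  have : ∏ i, ℓ i (v (σ⁻¹ i)) = ∏ i, ℓ (σ i) (v i) := by
    rw [← Equiv.prod_comp σ]
    simp
  rw [this]
  simp [Units.smul_def]

/-- `ℓ₀ ∧ ⋯ ∧ ℓ_{n-1}` vanishes on `v` if all the `ℓ_i` vanish on one of the vectors `v_j`. -/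
theorem wedgeOfForms_apply_eq_zero {n : ℕ} (ℓ : Fin n → V →ₗ[ℝ] ℂ) (v : Fin n → V) (j : Fin n)
    (h : ∀ i, ℓ i (v j) = 0) : wedgeOfForms ℓ v = 0 := by
  rw [wedgeOfForms_eq_det]
  exact Matrix.det_eq_zero_of_column_eq_zero j h

/-- `ℓ₀ ∧ ⋯ ∧ ℓ_{n-1}` takes the value `1` on a dual family of vectors. -/
theorem wedgeOfForms_apply_of_dual {n : ℕ} (ℓ : Fin n → V →ₗ[ℝ] ℂ) (v : Fin n → V)
    (h : ∀ i j, ℓ i (v j) = if i = j then 1 else 0) : wedgeOfForms ℓ v = 1 := by
  rw [wedgeOfForms_eq_det]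
  have : (Matrix.of fun i j => ℓ i (v j)) = (1 : Matrix (Fin n) (Fin n) ℂ) := by
    ext i j
    simp [h, Matrix.one_apply]
  rw [this, Matrix.det_one]

/-! ### Only the trivial shuffle contributes -/

section
variable {ιa ιb : Type*} [Fintype ιa] [Fintype ιb] [DecidableEq ιa] [DecidableEq ιb]

theorem domCoprod_apply_of_vanish {R M N₁ N₂ : Type*} [CommSemiring R] [AddCommGroup N₁]
    [Module R N₁] [AddCommGroup N₂] [Module R N₂] [AddCommMonoid M] [Module R M]
    (a : M [⋀^ιa]→ₗ[R] N₁) (b : M [⋀^ιb]→ₗ[R] N₂) (v : ιa ⊕ ιb → M)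
    (h : ∀ u : ιa → M, (∃ i j, u i = v (Sum.inr j)) → a u = 0) :
    a.domCoprod b v = a (fun i => v (Sum.inl i)) ⊗ₜ[R] b (fun i => v (Sum.inr i)) := by
  rw [AlternatingMap.domCoprod_apply, _root_.sum_apply]
  refine (Finset.sum_eq_single (Quotient.mk'' 1 : Equiv.Perm.ModSumCongr ιa ιb) ?_ ?_).trans ?_
  rotate_left
  · intro h; exact absurd (Finset.mem_univ _) h
  · rw [AlternatingMap.domCoprod.summand_mk'']
    simp
  · intro σ _ hσ
    induction σ using Quotient.inductionOn' with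
    | h σ =>
      rw [AlternatingMap.domCoprod.summand_mk'']
      by_cases hm : Set.MapsTo σ (Set.range Sum.inl) (Set.range Sum.inl)
      · exfalso
        apply hσ
        have := Equiv.Perm.mem_sumCongrHom_range_of_perm_mapsTo_inl hm
        apply Quotient.sound'
        rw [QuotientGroup.leftRel_apply]
        simpa using (Subgroup.inv_mem _ this)
      · have : ∃ i j, σ (Sum.inl i) = Sum.inr j := by
          by_contra hcon
          push Not at hcon
          apply hm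
          rintro _ ⟨i, rfl⟩
          rcases hx : σ (Sum.inl i) with l | r
          · exact ⟨l, rfl⟩
          · exact absurd hx (hcon i r)
        obtain ⟨i, j, hij⟩ := this
        have h0 : a (fun i => v (σ (Sum.inl i))) = 0 := h _ ⟨i, j, by rw [hij]⟩
        simp [h0]

end

/-- **Wedge evaluation lemma.**  If `α` vanishes as soon as one of its arguments is one of the last
`k` vectors of the family `v`, then `(α ∧ β)(v) = α(v₀, …, v_{a-1}) β(v_a, …, v_{a+k-1})`. -/
theorem wedge_apply_of_vanish {a k : ℕ} (α : Form V a) (β : Form V k) (v : Fin (a + k) → V)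
    (h : ∀ u : Fin a → V, (∃ i j, u i = v (Fin.natAdd a j)) → α u = 0) :
    wedge α β v = α (v ∘ Fin.castAdd k) * β (v ∘ Fin.natAdd a) := by
  rw [wedge, AlternatingMap.domDomCongr_apply, LinearMap.compAlternatingMap_apply,
    domCoprod_apply_of_vanish]
  · simp [Function.comp_def]
  · rintro u ⟨i, j, hij⟩
    exact h u ⟨i, j, by simpa using hij⟩

/-- The case of the wedge evaluation lemma which computes the class of a subtorus: the forms `ℓ_i`
are dual to the first `a` vectors of `v` and vanish on the last `k` vectors. -/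
theorem wedge_wedgeOfForms_apply_of_dual {a k : ℕ} (ℓ : Fin a → V →ₗ[ℝ] ℂ) (β : Form V k)
    (v : Fin (a + k) → V)
    (h₁ : ∀ i j, ℓ i (v (Fin.castAdd k j)) = if i = j then 1 else 0)
    (h₂ : ∀ i j, ℓ i (v (Fin.natAdd a j)) = 0) :
    wedge (wedgeOfForms ℓ) β v = β (v ∘ Fin.natAdd a) := by
  rw [wedge_apply_of_vanish, wedgeOfForms_apply_of_dual ℓ (v ∘ Fin.castAdd k) h₁, one_mul]
  rintro u ⟨i, j, hij⟩
  exact wedgeOfForms_apply_eq_zero ℓ u i fun r => by rw [hij, h₂]

/-! ### `wedge` and `wedgeOfForms` are compatible -/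

section
variable {ι ι' : Type*} [Fintype ι] [Fintype ι'] [DecidableEq ι] [DecidableEq ι']

theorem alternatization_domDomCongr {R M N : Type*} [CommRing R] [AddCommGroup M] [Module R M]
    [AddCommGroup N] [Module R N] (e : ι ≃ ι') (m : MultilinearMap R (fun _ : ι => M) N) :
    MultilinearMap.alternatization (m.domDomCongr e)
      = (MultilinearMap.alternatization m).domDomCongr e := by
  ext v
  rw [AlternatingMap.domDomCongr_apply, MultilinearMap.alternatization_apply,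
    MultilinearMap.alternatization_apply, ← Equiv.sum_comp e.permCongr]
  refine Finset.sum_congr rfl fun σ _ => ?_
  simp [Equiv.Perm.sign_permCongr, Function.comp_def]

end

/-- `(ℓ₀ ∧ ⋯ ∧ ℓ_{a-1}) ∧ (ℓ'₀ ∧ ⋯ ∧ ℓ'_{k-1}) = ℓ₀ ∧ ⋯ ∧ ℓ_{a-1} ∧ ℓ'₀ ∧ ⋯ ∧ ℓ'_{k-1}`. -/
theorem wedge_wedgeOfForms {a k : ℕ} (ℓ : Fin a → V →ₗ[ℝ] ℂ) (ℓ' : Fin k → V →ₗ[ℝ] ℂ) :
    wedge (wedgeOfForms ℓ) (wedgeOfForms ℓ') = wedgeOfForms (Fin.append ℓ ℓ') := by
  rw [wedge, wedgeOfForms, wedgeOfForms, wedgeOfForms, ← MultilinearMap.domCoprod_alternization,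
    ← LinearMap.compMultilinearMap_alternatization, ← alternatization_domDomCongr]
  congr 1
  ext v
  simp [Fin.prod_univ_add]

end Claimed.Open.R032
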