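import Claimed.Open.R032.Statement
import Claimed.Open.R032.SanityWedge

/-!
# Powers of a CM elliptic curve: shared definitions

Notation for the proof (files `Power*.lean`) that the conclusion of `Statement` holds for all powers
`E^n` of an elliptic curve `E = ℂ / L` with complex multiplication.
-/

open Module Complex

namespace Claimed.Open.R032

noncomputable section

/-- `ℂ^n` with its standard Hermitian structure (`= EuclideanSpace ℂ (Fin n)`). -/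
abbrev Cn (n : ℕ) := PiLp 2 (fun _ : Fin n => ℂ)

/-- The coordinate form `dz_k` on `ℂ^n`. -/
def dz {n : ℕ} (k : Fin n) : Cn n →ₗ[ℝ] ℂ :=
  (PiLp.proj (𝕜 := ℂ) 2 (fun _ : Fin n => ℂ) k).toLinearMap.restrictScalars ℝ

@[simp] theorem dz_apply {n : ℕ} (k : Fin n) (z : Cn n) : dz k z = z k := rfl

variable {V : Type*} [NormedAddCommGroup V] [InnerProductSpace ℂ V]

/-- The complex conjugate `v ↦ conj (ℓ v)` of a form. -/
def conjForm (ℓ : V →ₗ[ℝ] ℂ) : V →ₗ[ℝ] ℂ := Complex.conjAe.toLinearMap ∘ₗ ℓ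

@[simp] theorem conjForm_apply (ℓ : V →ₗ[ℝ] ℂ) (v : V) :
    conjForm ℓ v = (starRingEnd ℂ) (ℓ v) := rfl

/-- `(α₀, β₀, α₁, β₁, …)`. -/
def interleave {X : Type*} {p : ℕ} (α β : Fin p → X) : Fin (2 * p) → X :=
  fun i => if (i : ℕ) % 2 = 0 then α ⟨(i : ℕ) / 2, by omega⟩ else β ⟨(i : ℕ) / 2, by omega⟩

/-- `α₀ ∧ β₀ ∧ α₁ ∧ β₁ ∧ ⋯`. -/
def pairWedge {p : ℕ} (α β : Fin p → V →ₗ[ℝ] ℂ) : Form V (2 * p) :=
  wedgeOfForms (interleave α β)

/-- `m₀ ∧ conj m₀ ∧ m₁ ∧ conj m₁ ∧ ⋯`. -/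
def hermSquare {p : ℕ} (m : Fin p → V →ₗ[ℝ] ℂ) : Form V (2 * p) :=
  pairWedge m (fun j => conjForm (m j))

/-- The `ℂ`-linear map `ℂ^n → ℂ^p`, `z ↦ (z_{s j} + c_j z_{t j})_j`. -/
def twoTermMap {n p : ℕ} (s t : Fin p → Fin n) (c : Fin p → ℂ) : Cn n →L[ℂ] Cn p :=
  (PiLp.continuousLinearEquiv 2 ℂ (fun _ : Fin p => ℂ)).symm.toContinuousLinearMap.comp
    (ContinuousLinearMap.pi fun j =>
      PiLp.proj (𝕜 := ℂ) 2 (fun _ : Fin n => ℂ) (s j) +
        c j • PiLp.proj (𝕜 := ℂ) 2 (fun _ : Fin n => ℂ) (t j))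

@[simp] theorem twoTermMap_apply {n p : ℕ} (s t : Fin p → Fin n) (c : Fin p → ℂ) (z : Cn n)
    (j : Fin p) : twoTermMap s t c z j = z (s j) + c j * z (t j) := rfl

/-- The data `(s, t, c)` define a homomorphism `E^n → E^p` which is surjective with connected
kernel, for `E = ℂ / L`. -/
structure IsGoodTriple (L : Submodule ℤ ℂ) {n p : ℕ} (s t : Fin p → Fin n) (c : Fin p → ℂ) :
    Prop where
  inj : Function.Injective s
  mul_mem : ∀ j, ∀ x ∈ L, c j * x ∈ L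
  ne : ∀ j j', c j' = 0 ∨ t j' ≠ s j

end

end Claimed.Open.R032
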