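import Claimed.Open.R032.Statement

/-!
# Descent of spans from `ℂ` to `ℚ`

`mem_span_rat_of_mem_span_complex`: a rational class which is a `ℂ`-linear combination of rational
classes is a `ℚ`-linear combination of the same classes.  (`H^n(A,ℂ) = H^n(A,ℚ) ⊗ ℂ`.)
-/

open Module

namespace Claimed.Open.R032

variable {V : Type*} [NormedAddCommGroup V] [InnerProductSpace ℂ V]

/-- A `ℚ`-linear retraction `ℂ → ℚ` of the inclusion. -/
theorem exists_rat_retraction : ∃ π : ℂ →ₗ[ℚ] ℚ, ∀ q : ℚ, π (q : ℂ) = q := by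
  obtain ⟨π, hπ⟩ := LinearMap.exists_leftInverse_of_injective (Algebra.linearMap ℚ ℂ)
    (LinearMap.ker_eq_bot.2 (algebraMap ℚ ℂ).injective)
  exact ⟨π, fun q => by simpa using LinearMap.congr_fun hπ q⟩

theorem mem_span_rat_of_mem_span_complex {ι : Type*} (b : Basis ι ℝ V) {n : ℕ} (S : Set (Form V n))
    (hS : ∀ c ∈ S, IsRational (lattice b) c) (φ : Form V n) (hφ : IsRational (lattice b) φ)
    (h : φ ∈ Submodule.span ℂ S) : φ ∈ Submodule.span ℚ S := by
  obtain ⟨π, hπ⟩ := exists_rat_retraction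
  have key : ∀ ψ ∈ Submodule.span ℂ S, ∀ c : ℂ, ∃ x ∈ Submodule.span ℚ S, ∀ v : Fin n → V,
      (∀ i, v i ∈ lattice b) → ((π (c * ψ v) : ℚ) : ℂ) = x v := by
    intro ψ hψ
    induction hψ using Submodule.span_induction with
    | mem s hs =>
      intro c
      refine ⟨π c • s, Submodule.smul_mem _ _ (Submodule.subset_span hs), fun v hv => ?_⟩
      obtain ⟨q, hq⟩ := hS s hs v hv
      have h1 : c * (q : ℂ) = q • c := by rw [Rat.smul_def, mul_comm]
      rw [hq, h1, map_smul, AlternatingMap.smul_apply, hq, smul_eq_mul, Rat.smul_def (π c)]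
      push_cast
      ring
    | zero => exact fun c => ⟨0, Submodule.zero_mem _, fun v _ => by simp⟩
    | add a a' _ _ ha ha' =>
      intro c
      obtain ⟨x, hx, hxv⟩ := ha c
      obtain ⟨x', hx', hxv'⟩ := ha' c
      refine ⟨x + x', Submodule.add_mem _ hx hx', fun v hv => ?_⟩
      rw [AlternatingMap.add_apply, mul_add, map_add, AlternatingMap.add_apply, ← hxv v hv,
        ← hxv' v hv]
      push_cast
      ring
    | smul c' a _ ha =>
      intro c
      obtain ⟨x, hx, hxv⟩ := ha (c * c')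
      refine ⟨x, hx, fun v hv => ?_⟩
      rw [AlternatingMap.smul_apply, smul_eq_mul, ← mul_assoc, hxv v hv]
  obtain ⟨x, hx, hxv⟩ := key φ h 1
  have : φ = x := by
    apply Basis.ext_alternating b
    intro f _
    have hmem : ∀ i, b (f i) ∈ lattice b := fun i => Submodule.subset_span ⟨_, rfl⟩
    obtain ⟨q, hq⟩ := hφ _ hmem
    rw [← hxv _ hmem, one_mul, hq, hπ]
  rw [this]
  exact hx

end Claimed.Open.R032
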