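import Claimed.Open.R032.SanitySubtorusClass
import Claimed.Open.R032.PowerDefs

/-!
# Homomorphisms of complex tori onto `ℂ^p / (lattice)`

Lattice-theoretic part of the proof of the Hodge conjecture for the complex tori whose period matrix
has entries in an imaginary quadratic field.
-/

open MeasureTheory Module

set_option linter.unusedSectionVars false

namespace Claimed.Open.R032

variable {V : Type*} [NormedAddCommGroup V] [InnerProductSpace ℂ V] [FiniteDimensional ℂ V]
variable {V' : Type*} [NormedAddCommGroup V'] [InnerProductSpace ℂ V'] [FiniteDimensional ℂ V']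
variable {ι ι₀ : Type*}

/-- The image of a lattice under a surjective `ℂ`-linear map is a lattice as soon as it is contained
in a lattice. -/
theorem exists_basis_mapsLatticeOnto (b : Basis ι ℝ V) (b₀ : Basis ι₀ ℝ V') (N : V →L[ℂ] V')
    (hsurj : Function.Surjective N) (h : ∀ l ∈ lattice b, N l ∈ lattice b₀) :
    ∃ b' : Basis (Fin (2 * finrank ℂ V')) ℝ V', MapsLatticeOnto b b' N := by
  have := finite_index b₀
  let Λ' : Submodule ℤ V' := (lattice b).map (N.toLinearMap.restrictScalars ℤ)
  have hmem : ∀ y, y ∈ Λ' ↔ ∃ l ∈ lattice b, N l = y := fun y => Iff.rfl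
  have hle : ∀ y ∈ Λ', y ∈ lattice b₀ := by
    rintro y ⟨l, hl, rfl⟩
    exact h l hl
  have h1 : DiscreteTopology (lattice b₀) :=
    inferInstanceAs (DiscreteTopology (Submodule.span ℤ (Set.range b₀)))
  have h2 : DiscreteTopology Λ' := by
    let f : Λ' → lattice b₀ := fun y => ⟨(y : V'), hle _ y.2⟩
    have hf : Continuous f := Continuous.subtype_mk continuous_subtype_val _
    have hinj : Function.Injective f := by
      intro x y hxy
      exact Subtype.ext (congrArg (fun z : lattice b₀ => (z : V')) hxy)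
    exact DiscreteTopology.of_continuous_injective hf hinj
  have h3 : IsZLattice ℝ Λ' := by
    refine ⟨?_⟩
    rw [eq_top_iff]
    intro y _
    obtain ⟨x, rfl⟩ := hsurj y
    have hx : x ∈ Submodule.span ℝ (Set.range b) := by rw [b.span_eq]; trivial
    have h4 := Submodule.mem_map_of_mem (f := ((N.restrictScalars ℝ : V →L[ℝ] V') : V →ₗ[ℝ] V')) hx
    rw [Submodule.map_span] at h4
    refine Submodule.span_mono ?_ h4
    rintro _ ⟨_, ⟨i, rfl⟩, rfl⟩
    exact ⟨b i, Submodule.subset_span ⟨i, rfl⟩, rfl⟩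
  have h5 : Module.Free ℤ Λ' := ZLattice.module_free ℝ _
  have h6 : Module.Finite ℤ Λ' := ZLattice.module_finite ℝ _
  let μ₀ := (Module.Free.chooseBasis ℤ Λ').ofZLatticeBasis ℝ _
  have hcard : Fintype.card (Module.Free.ChooseBasisIndex ℤ Λ') = 2 * finrank ℂ V' := by
    rw [← Module.finrank_eq_card_basis μ₀, finrank_real_of_complex]
  let e := Fintype.equivFinOfCardEq hcard
  refine ⟨μ₀.reindex e, ?_⟩
  intro y
  rw [← hmem, lattice, Basis.range_reindex, Basis.ofZLatticeBasis_span ℝ]

/-- The pull-back of a class of top degree under a homomorphism which is not surjective is `0`. -/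
theorem pullback_eq_zero_of_not_surjective (N : V →L[ℂ] V') (hN : ¬ Function.Surjective N) {n : ℕ}
    (hn : n = 2 * finrank ℂ V') (τ : Form V' n) : pullback N τ = 0 := by
  ext v
  rw [pullback_apply]
  refine τ.map_linearDependent _ ?_
  intro hli
  apply hN
  have hcard : Fintype.card (Fin n) = finrank ℝ V' := by
    rw [Fintype.card_fin, hn, finrank_real_of_complex]
  have hspan := hli.span_eq_top_of_card_eq_finrank' hcard
  have hle : Submodule.span ℝ (Set.range fun i => N (v i)) ≤
      (LinearMap.range N.toLinearMap).restrictScalars ℝ := by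
    rw [Submodule.span_le]
    rintro _ ⟨i, rfl⟩
    exact ⟨v i, rfl⟩
  intro y
  have : y ∈ Submodule.span ℝ (Set.range fun i => N (v i)) := by rw [hspan]; trivial
  exact hle this

omit [FiniteDimensional ℂ V] [FiniteDimensional ℂ V'] in
theorem pullback_wedgeOfForms (N : V →L[ℂ] V') {n : ℕ} (ℓ : Fin n → V' →ₗ[ℝ] ℂ) :
    pullback N (wedgeOfForms ℓ) =
      wedgeOfForms (fun i => ℓ i ∘ₗ ((N.restrictScalars ℝ : V →L[ℝ] V') : V →ₗ[ℝ] V')) := by
  ext v
  rw [pullback_apply, wedgeOfForms_eq_det, wedgeOfForms_eq_det]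
  rfl

/-- The `ℂ`-linear map `V → ℂ^p` with components `m_j`. -/
noncomputable def formsMap {p : ℕ} (m : Fin p → V →ₗ[ℂ] ℂ) : V →L[ℂ] Cn p :=
  LinearMap.toContinuousLinearMap
    ((WithLp.linearEquiv 2 ℂ (Fin p → ℂ)).symm.toLinearMap ∘ₗ LinearMap.pi m)

@[simp] theorem formsMap_apply {p : ℕ} (m : Fin p → V →ₗ[ℂ] ℂ) (v : V) (j : Fin p) :
    formsMap m v j = m j v := rfl

theorem hermSquare_eq_pullback {p : ℕ} (m : Fin p → V →ₗ[ℂ] ℂ) :
    hermSquare (fun j => (m j).restrictScalars ℝ) =
      pullback (formsMap m) (hermSquare (fun j : Fin p => dz j)) := by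
  rw [hermSquare, hermSquare, pairWedge, pairWedge, pullback_wedgeOfForms]
  congr 1
  funext i
  ext v
  unfold interleave
  split_ifs <;> rfl

/-- An `ℝ`-linear form which commutes with `i` is `ℂ`-linear. -/
noncomputable def complexify (m : V →ₗ[ℝ] ℂ) (h : ∀ v, m (Complex.I • v) = Complex.I * m v) :
    V →ₗ[ℂ] ℂ where
  toFun := m
  map_add' := m.map_add
  map_smul' := by
    intro z v
    have hz : z • v = z.re • v + z.im • (Complex.I • v) := by
      conv_lhs => rw [← Complex.re_add_im z, add_smul, mul_smul]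
      rfl
    rw [hz, map_add, map_smul, map_smul, h]
    simp only [RingHom.id_apply, Complex.real_smul, smul_eq_mul]
    conv_rhs => rw [← Complex.re_add_im z]
    ring

omit [FiniteDimensional ℂ V] in
@[simp] theorem restrictScalars_complexify (m : V →ₗ[ℝ] ℂ)
    (h : ∀ v, m (Complex.I • v) = Complex.I * m v) : (complexify m h).restrictScalars ℝ = m := rfl

/-- The determinant form of a period basis is rational (even integral) on the lattice. -/
theorem isRational_det {n : ℕ} (β : Basis (Fin n) ℝ V) :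
    IsRational (lattice β) (Complex.ofRealCLM.toLinearMap.compAlternatingMap β.det) := by
  intro v hv
  have h1 : ∀ i j, ∃ a : ℤ, β.repr (v i) j = a := by
    intro i j
    obtain ⟨a, ha⟩ := (Basis.mem_span_iff_repr_mem ℤ β (v i)).1 (hv i) j
    exact ⟨a, by rw [← ha]; simp⟩
  choose A hA using h1
  refine ⟨((Matrix.of fun j i => A i j).det : ℤ), ?_⟩
  have h2 : β.det v = (((Matrix.of fun j i => A i j).det : ℤ) : ℝ) := by
    rw [Basis.det_apply, Int.cast_det]
    congr 1
    ext j i
    simp [Basis.toMatrix_apply, hA]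
  simp [h2]

/-- Every class of top degree is a complex multiple of a rational class. -/
theorem exists_eq_smul_isRational (b : Basis ι ℝ V) {n : ℕ} (hn : n = 2 * finrank ℂ V)
    (τ : Form V n) : ∃ (z : ℂ) (δ : Form V n), IsRational (lattice b) δ ∧ τ = z • δ := by
  have := finite_index b
  have := Fintype.ofFinite ι
  have hcard : Fintype.card ι = n := by
    rw [← Module.finrank_eq_card_basis b, finrank_real_of_complex, hn]
  let β := b.reindex (Fintype.equivFinOfCardEq hcard)
  have hβ : lattice β = lattice b := by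
    rw [lattice, lattice, Basis.range_reindex]
  refine ⟨τ β, _, hβ ▸ isRational_det β, ?_⟩
  ext v
  rw [form_eq_det_mul β τ v]
  simp [mul_comm]

/-- `Λ^n ⊆ lattice (powerBasis β n)`. -/
theorem mem_lattice_powerBasis_of_forall (β : Basis ι ℝ V) (n : ℕ)
    (z : PiLp 2 fun _ : Fin n => V) (hz : ∀ k, z k ∈ lattice β) :
    z ∈ lattice (powerBasis β n) := by
  classical
  have h1 : ∀ (k : Fin n) (x : V), x ∈ lattice β →
      (WithLp.linearEquiv 2 ℝ (Fin n → V)).symm (Pi.single k x) ∈ lattice (powerBasis β n) := by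
    intro k x hx
    let f : V →ₗ[ℤ] PiLp 2 fun _ : Fin n => V :=
      ((WithLp.linearEquiv 2 ℝ (Fin n → V)).symm.toLinearMap.restrictScalars ℤ) ∘ₗ
        (LinearMap.single ℤ (fun _ : Fin n => V) k)
    have h2 : (lattice β).map f ≤ lattice (powerBasis β n) := by
      rw [lattice, Submodule.map_span, Submodule.span_le]
      rintro _ ⟨_, ⟨i, rfl⟩, rfl⟩
      refine Submodule.subset_span ⟨⟨k, i⟩, ?_⟩
      simp [powerBasis, f, Pi.basis_apply]
    exact h2 ⟨x, hx, rfl⟩
  have h3 : z = ∑ k, (WithLp.linearEquiv 2 ℝ (Fin n → V)).symm (Pi.single k (z k)) := by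
    rw [← map_sum]
    apply (WithLp.linearEquiv 2 ℝ (Fin n → V)).injective
    rw [LinearEquiv.apply_symm_apply]
    funext j
    simp [Finset.sum_apply, Pi.single_apply]
  rw [h3]
  exact Submodule.sum_mem _ fun k _ => h1 k _ (hz k)

/-- Finitely many elements of `ℚ + ℚ ω` lie in a common lattice of `ℂ`. -/
theorem exists_basis_forall_mem_lattice (ω : ℂ) (hω : ω.im ≠ 0) {κ : Type*} [Finite κ] (x : κ → ℂ)
    (hx : ∀ i, ∃ r s : ℚ, x i = r + s * ω) :
    ∃ β : Basis (Fin 2) ℝ ℂ, ∀ i, x i ∈ lattice β := by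
  classical
  have := Fintype.ofFinite κ
  choose r s hrs using hx
  let M : ℕ := ∏ i, ((r i).den * (s i).den)
  have hM : (M : ℝ) ≠ 0 := by
    have : M ≠ 0 := Finset.prod_ne_zero_iff.2 fun i _ =>
      Nat.mul_ne_zero (r i).den_ne_zero (s i).den_ne_zero
    exact_mod_cast this
  have hMc : (M : ℂ) ≠ 0 := by exact_mod_cast hM
  have hli : LinearIndependent ℝ ![(1 : ℂ) / M, ω / M] := by
    rw [LinearIndependent.pair_iff]
    intro a c hac
    have h1 : (a : ℂ) + c * ω = 0 := by
      have : ((a : ℂ) + c * ω) / M = 0 := by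
        rw [← hac]; simp only [Complex.real_smul]; ring
      rcases div_eq_zero_iff.1 this with h | h
      · exact h
      · exact absurd h hMc
    have h2 := congrArg Complex.im h1
    have h3 := congrArg Complex.re h1
    simp at h2 h3
    have hc : c = 0 := by
      rcases h2 with h | h
      · exact h
      · exact absurd h hω
    refine ⟨?_, hc⟩
    rw [hc] at h3
    simpa using h3
  have hcard : Fintype.card (Fin 2) = finrank ℝ ℂ := by simp
  let β := basisOfLinearIndependentOfCardEqFinrank hli hcard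
  have hβ0 : β 0 = (1 : ℂ) / M := by simp [β]
  have hβ1 : β 1 = ω / M := by simp [β]
  refine ⟨β, fun i => ?_⟩
  have hdr : ∃ a : ℤ, (M : ℚ) * r i = a := by
    have hdvd : (r i).den ∣ M :=
      (Dvd.intro _ rfl).trans (Finset.dvd_prod_of_mem (fun i => (r i).den * (s i).den)
        (Finset.mem_univ i))
    obtain ⟨c, hc⟩ := hdvd
    refine ⟨c * (r i).num, ?_⟩
    rw [hc]
    push_cast
    have := Rat.den_mul_eq_num (r i)
    linear_combination (c : ℚ) * this
  have hds : ∃ a : ℤ, (M : ℚ) * s i = a := by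
    have hdvd : (s i).den ∣ M :=
      (Dvd.intro_left _ rfl).trans (Finset.dvd_prod_of_mem (fun i => (r i).den * (s i).den)
        (Finset.mem_univ i))
    obtain ⟨c, hc⟩ := hdvd
    refine ⟨c * (s i).num, ?_⟩
    rw [hc]
    push_cast
    have := Rat.den_mul_eq_num (s i)
    linear_combination (c : ℚ) * this
  obtain ⟨a, ha⟩ := hdr
  obtain ⟨c, hc⟩ := hds
  have hx : x i = a • β 0 + c • β 1 := by
    rw [hrs, hβ0, hβ1]
    have ha' : (M : ℂ) * r i = a := by exact_mod_cast congrArg (fun q : ℚ => (q : ℂ)) ha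
    have hc' : (M : ℂ) * s i = c := by exact_mod_cast congrArg (fun q : ℚ => (q : ℂ)) hc
    simp only [zsmul_eq_mul]
    rw [← ha', ← hc']
    field_simp
  rw [hx]
  exact Submodule.add_mem _ (Submodule.smul_mem _ _ (Submodule.subset_span ⟨0, rfl⟩))
    (Submodule.smul_mem _ _ (Submodule.subset_span ⟨1, rfl⟩))

/-- The `ℂ`-linear forms on `V` whose values on the period basis lie in `K = ℚ + ℚ ω`. -/
def quadForms (b : Basis ι ℝ V) (ω : ℂ) : AddSubgroup (V →ₗ[ℝ] ℂ) where
  carrier := {m | (∀ v, m (Complex.I • v) = Complex.I * m v) ∧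
    ∀ i, ∃ r s : ℚ, m (b i) = r + s * ω}
  zero_mem' := ⟨fun v => by simp, fun i => ⟨0, 0, by simp⟩⟩
  add_mem' := by
    rintro m m' ⟨h1, h2⟩ ⟨h1', h2'⟩
    refine ⟨fun v => by simp [h1, h1', mul_add], fun i => ?_⟩
    obtain ⟨r, s, h⟩ := h2 i
    obtain ⟨r', s', h'⟩ := h2' i
    exact ⟨r + r', s + s', by rw [LinearMap.add_apply, h, h']; push_cast; ring⟩
  neg_mem' := by
    rintro m ⟨h1, h2⟩
    refine ⟨fun v => by simp [h1], fun i => ?_⟩
    obtain ⟨r, s, h⟩ := h2 i
    exact ⟨-r, -s, by rw [LinearMap.neg_apply, h]; push_cast; ring⟩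

omit [FiniteDimensional ℂ V] in
theorem smul_mem_quadForms (b : Basis ι ℝ V) {ω : ℂ} (hω2 : ∃ r s : ℚ, ω ^ 2 = r + s * ω)
    {m : V →ₗ[ℝ] ℂ} (hm : m ∈ quadForms b ω) : ω • m ∈ quadForms b ω := by
  obtain ⟨h1, h2⟩ := hm
  refine ⟨fun v => by simp [h1]; ring, fun i => ?_⟩
  obtain ⟨r, s, h⟩ := h2 i
  obtain ⟨r₀, s₀, h₀⟩ := hω2
  refine ⟨s * r₀, r + s * s₀, ?_⟩
  rw [LinearMap.smul_apply, h, smul_eq_mul]
  push_cast
  linear_combination (s : ℂ) * h₀

variable [MeasurableSpace V] [BorelSpace V]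

/-- If the `ℂ`-linear forms `m_j` take values in `K = ℚ + ℚ ω` on the lattice, then
`m₀ ∧ conj m₀ ∧ m₁ ∧ conj m₁ ∧ ⋯` is a complex multiple of a rational algebraic class, namely of the
class of the connected component of the kernel of `(m_j)_j : V / Λ → ℂ^p / (m_j)_j(Λ)`. -/
theorem hermSquare_mem_span_algebraic (b : Basis ι ℝ V) (ω : ℂ) (hω : ω.im ≠ 0) {p : ℕ}
    (m : Fin p → V →ₗ[ℝ] ℂ) (hm : ∀ j, m j ∈ quadForms b ω) :
    hermSquare m ∈ Submodule.span ℂ
      {c : Form V (2 * p) | IsRational (lattice b) c ∧ c ∈ algebraicClasses b p} := by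
  have := finite_index b
  let m' : Fin p → V →ₗ[ℂ] ℂ := fun j => complexify (m j) (hm j).1
  have hmm' : m = fun j => (m' j).restrictScalars ℝ := rfl
  have hp : p = finrank ℂ (Cn p) := by simp
  rw [hmm', hermSquare_eq_pullback]
  by_cases hsurj : Function.Surjective (formsMap m')
  swap
  · rw [pullback_eq_zero_of_not_surjective _ hsurj (by rw [← hp])]
    exact Submodule.zero_mem _
  obtain ⟨β, hβ⟩ := exists_basis_forall_mem_lattice ω hω
    (fun x : Fin p × ι => m x.1 (b x.2)) (fun x => (hm x.1).2 x.2)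
  have hsub : ∀ l ∈ lattice b, formsMap m' l ∈ lattice (powerBasis β p) := by
    intro l hl
    have h2 : (lattice b).map ((formsMap m').toLinearMap.restrictScalars ℤ) ≤
        lattice (powerBasis β p) := by
      rw [lattice, Submodule.map_span, Submodule.span_le]
      rintro _ ⟨_, ⟨i, rfl⟩, rfl⟩
      exact mem_lattice_powerBasis_of_forall β p _ fun k => hβ (k, i)
    exact h2 ⟨l, hl, rfl⟩
  obtain ⟨b', hb'⟩ := exists_basis_mapsLatticeOnto b (powerBasis β p) (formsMap m') hsurj hsub
  obtain ⟨z, δ, hδ, hz⟩ := exists_eq_smul_isRational b' (n := 2 * p) (by rw [← hp])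
    (hermSquare (fun j : Fin p => dz j))
  rw [hz, pullback_smul]
  refine Submodule.smul_mem _ _ (Submodule.subset_span ⟨?_, hb'.pullback_mem_algebraicClasses hp δ hδ⟩)
  intro v hv
  exact hδ _ fun i => (hb' _).2 ⟨v i, hv i, rfl⟩

end Claimed.Open.R032
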