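import Claimed.Open.R032.SanityPowerLA

/-!
# Polarisation

`pairWedge_mem_span_hermSquare`: let `L` be a group of `ℝ`-linear forms `V → ℂ` which is stable under
multiplication by a non-real number `ω`.  Then every form
`α₀ ∧ conj β₀ ∧ α₁ ∧ conj β₁ ∧ ⋯` with `α_j, β_j ∈ L` is a `ℂ`-linear combination of forms
`m₀ ∧ conj m₀ ∧ m₁ ∧ conj m₁ ∧ ⋯` with `m_j ∈ L`.
-/

open Module

namespace Claimed.Open.R032

variable {V : Type*} [NormedAddCommGroup V] [InnerProductSpace ℂ V]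

theorem pairWedge_succ {p : ℕ} (α β : Fin (p + 1) → V →ₗ[ℝ] ℂ) :
    pairWedge α β = wedge (pairWedge (α ∘ Fin.castSucc) (β ∘ Fin.castSucc))
      (wedgeOfForms ![α (Fin.last p), β (Fin.last p)]) :=
  wedgeOfForms_interleave_succ α β

/-- Polarisation in one slot. -/
theorem pair_mem_span_square (ω : ℂ) (hω : ω.im ≠ 0) (L : AddSubgroup (V →ₗ[ℝ] ℂ))
    (hL : ∀ m ∈ L, ω • m ∈ L) {a c : V →ₗ[ℝ] ℂ} (ha : a ∈ L) (hc : c ∈ L) :
    wedgeOfForms ![a, conjForm c] ∈ Submodule.span ℂ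
      {φ : Form V 2 | ∃ m ∈ L, φ = wedgeOfForms ![m, conjForm m]} := by
  have h0 : ω - (starRingEnd ℂ) ω ≠ 0 := by
    intro h
    have := congrArg Complex.im h
    simp at this
    exact hω (by linarith)
  have key : wedgeOfForms ![a, conjForm c] = (ω - (starRingEnd ℂ) ω)⁻¹ •
      (ω • (wedgeOfForms ![a + c, conjForm (a + c)] - wedgeOfForms ![a, conjForm a]
          - wedgeOfForms ![c, conjForm c])
        - (wedgeOfForms ![a + ω • c, conjForm (a + ω • c)] - wedgeOfForms ![a, conjForm a]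
          - (ω * (starRingEnd ℂ) ω) • wedgeOfForms ![c, conjForm c])) := by
    rw [eq_inv_smul_iff₀ h0]
    ext v
    simp only [AlternatingMap.smul_apply, AlternatingMap.sub_apply, wedgeOfForms_pair_apply,
      conjForm_apply, LinearMap.add_apply, LinearMap.smul_apply, map_add, smul_eq_mul, map_mul]
    ring
  rw [key]
  have hm : ∀ m ∈ L, wedgeOfForms ![m, conjForm m] ∈ Submodule.span ℂ
      {φ : Form V 2 | ∃ m ∈ L, φ = wedgeOfForms ![m, conjForm m]} :=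
    fun m hm => Submodule.subset_span ⟨m, hm, rfl⟩
  refine Submodule.smul_mem _ _ (Submodule.sub_mem _ (Submodule.smul_mem _ _ ?_) ?_)
  · exact Submodule.sub_mem _ (Submodule.sub_mem _ (hm _ (L.add_mem ha hc)) (hm _ ha)) (hm _ hc)
  · exact Submodule.sub_mem _ (Submodule.sub_mem _ (hm _ (L.add_mem ha (hL _ hc))) (hm _ ha))
      (Submodule.smul_mem _ _ (hm _ hc))

theorem wedge_mem_span_hermSquare (L : AddSubgroup (V →ₗ[ℝ] ℂ)) {p : ℕ} {x : Form V (2 * p)}
    {y : Form V 2}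
    (hx : x ∈ Submodule.span ℂ {φ : Form V (2 * p) | ∃ m : Fin p → V →ₗ[ℝ] ℂ,
      (∀ j, m j ∈ L) ∧ φ = hermSquare m})
    (hy : y ∈ Submodule.span ℂ {φ : Form V 2 | ∃ m ∈ L, φ = wedgeOfForms ![m, conjForm m]}) :
    wedge x y ∈ Submodule.span ℂ {φ : Form V (2 * (p + 1)) | ∃ m : Fin (p + 1) → V →ₗ[ℝ] ℂ,
      (∀ j, m j ∈ L) ∧ φ = hermSquare m} := by
  have h1 := Submodule.apply_mem_map₂ (wedgeLM V (2 * p) 2) hx hy
  rw [Submodule.map₂_span_span] at h1
  refine (Submodule.span_le.2 ?_) h1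
  rintro _ ⟨_, ⟨m, hm, rfl⟩, _, ⟨m', hm', rfl⟩, rfl⟩
  refine Submodule.subset_span ⟨Fin.snoc (α := fun _ => V →ₗ[ℝ] ℂ) m m', ?_, ?_⟩
  · intro k
    refine Fin.lastCases ?_ (fun k => ?_) k
    · simpa using hm'
    · simpa using hm k
  · show wedge (hermSquare m) (wedgeOfForms ![m', conjForm m']) = _
    rw [hermSquare, hermSquare, pairWedge_succ]
    congr 1
    · congr 1
      · funext k; simp
      · funext k; simp
    · simp

/-- **Polarisation.** -/
theorem pairWedge_mem_span_hermSquare (ω : ℂ) (hω : ω.im ≠ 0) (L : AddSubgroup (V →ₗ[ℝ] ℂ))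
    (hL : ∀ m ∈ L, ω • m ∈ L) : ∀ {p : ℕ} (α β : Fin p → V →ₗ[ℝ] ℂ), (∀ j, α j ∈ L) →
    (∀ j, β j ∈ L) → pairWedge α (fun j => conjForm (β j)) ∈ Submodule.span ℂ
      {φ : Form V (2 * p) | ∃ m : Fin p → V →ₗ[ℝ] ℂ, (∀ j, m j ∈ L) ∧ φ = hermSquare m}
  | 0, α, β, _, _ => by
    refine Submodule.subset_span ⟨α, fun j => j.elim0, ?_⟩
    rw [hermSquare]
    congr 1
    funext j
    exact j.elim0
  | p + 1, α, β, hα, hβ => by
    rw [pairWedge_succ]
    exact wedge_mem_span_hermSquare L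
      (pairWedge_mem_span_hermSquare ω hω L hL (α ∘ Fin.castSucc) (β ∘ Fin.castSucc)
        (fun j => hα _) (fun j => hβ _))
      (pair_mem_span_square ω hω L hL (hα _) (hβ _))

end Claimed.Open.R032
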