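import Claimed.Open.R032.PowerDefs

/-!
# Powers of a CM elliptic curve: multilinearity of `pairWedge`, monomials span `H^{p,p}`  [P3]

* `wedgeOfFormsML` : `wedgeOfForms` as a `ℂ`-multilinear map of the linear forms;
  `wedgeOfForms_update_add`, `wedgeOfForms_update_smul`, `wedgeOfForms_eq_zero_of_eq`.
* `evenOddEquiv`, `interleave_eq`, `interleave_update_left`, `interleave_update_right`.
* `pairWedge_update_left_add`, `pairWedge_update_left_smul`, `pairWedge_update_right_add`,
  `pairWedge_update_right_smul`, `pairWedge_comp_perm_right`, `pairWedge_comp_perm_left`,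
  `pairWedge_eq_zero_of_left_eq`, `pairWedge_eq_zero_of_right_eq`.
* `eq_sum_coord_of_linear`, `eq_sum_conj_coord_of_antilinear`, `blockEquiv`, `wedgeOfForms_block`.
* `hodgePiece_le_span_pairWedge` : for a `ℂ`-basis `w` of `V` with coordinates `z_k`, the space
  `H^{p,p}` is spanned by the monomials `dz_{k₀} ∧ dz̄_{l₀} ∧ dz_{k₁} ∧ dz̄_{l₁} ∧ ⋯`.
-/

open Module Complex

namespace Claimed.Open.R032

variable {V : Type*} [NormedAddCommGroup V] [InnerProductSpace ℂ V]

/-! ### `wedgeOfForms` is multilinear and alternating in the forms -/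

theorem wedgeOfForms_update_add {n : ℕ} (ℓ : Fin n → V →ₗ[ℝ] ℂ) (i : Fin n) (a a' : V →ₗ[ℝ] ℂ) :
    wedgeOfForms (Function.update ℓ i (a + a'))
      = wedgeOfForms (Function.update ℓ i a) + wedgeOfForms (Function.update ℓ i a') := by
  ext v
  have h : ∀ x : V →ₗ[ℝ] ℂ, (Matrix.of fun i' j => (Function.update ℓ i x) i' (v j))
      = Matrix.updateRow (Matrix.of fun i' j => ℓ i' (v j)) i (fun j => x (v j)) := by
    intro x
    ext i' j
    by_cases hi : i' = i
    · subst hi; simp
    · simp [hi]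
  rw [AlternatingMap.add_apply, wedgeOfForms_eq_det, wedgeOfForms_eq_det, wedgeOfForms_eq_det,
    h, h, h, ← Matrix.det_updateRow_add]
  rfl

theorem wedgeOfForms_update_smul {n : ℕ} (ℓ : Fin n → V →ₗ[ℝ] ℂ) (i : Fin n) (r : ℂ)
    (a : V →ₗ[ℝ] ℂ) :
    wedgeOfForms (Function.update ℓ i (r • a)) = r • wedgeOfForms (Function.update ℓ i a) := by
  ext v
  have h : ∀ x : V →ₗ[ℝ] ℂ, (Matrix.of fun i' j => (Function.update ℓ i x) i' (v j))
      = Matrix.updateRow (Matrix.of fun i' j => ℓ i' (v j)) i (fun j => x (v j)) := by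
    intro x
    ext i' j
    by_cases hi : i' = i
    · subst hi; simp
    · simp [hi]
  rw [AlternatingMap.smul_apply, wedgeOfForms_eq_det, wedgeOfForms_eq_det, h, h, smul_eq_mul,
    ← Matrix.det_updateRow_smul]
  rfl

/-- `wedgeOfForms` as a `ℂ`-multilinear map. -/
noncomputable def wedgeOfFormsML (V : Type*) [NormedAddCommGroup V] [InnerProductSpace ℂ V]
    (n : ℕ) : MultilinearMap ℂ (fun _ : Fin n => V →ₗ[ℝ] ℂ) (Form V n) where
  toFun := wedgeOfForms
  map_update_add' := by
    intro _ ℓ i a a'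
    convert wedgeOfForms_update_add ℓ i a a'
  map_update_smul' := by
    intro _ ℓ i r a
    convert wedgeOfForms_update_smul ℓ i r a

@[simp] theorem wedgeOfFormsML_apply {n : ℕ} (ℓ : Fin n → V →ₗ[ℝ] ℂ) :
    wedgeOfFormsML V n ℓ = wedgeOfForms ℓ := rfl

/-- A wedge product with a repeated factor vanishes. -/
theorem wedgeOfForms_eq_zero_of_eq {n : ℕ} (ℓ : Fin n → V →ₗ[ℝ] ℂ) {i j : Fin n} (hij : i ≠ j)
    (h : ℓ i = ℓ j) : wedgeOfForms ℓ = 0 := by
  ext v
  rw [wedgeOfForms_eq_det, AlternatingMap.zero_apply]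
  exact Matrix.det_zero_of_row_eq hij (by funext k; simp [h])

/-! ### Interleaving -/

/-- `Fin p ⊕ Fin p ≃ Fin (2 p)`: the left summand goes to the even, the right one to the odd
numbers. -/
def evenOddEquiv (p : ℕ) : Fin p ⊕ Fin p ≃ Fin (2 * p) where
  toFun := Sum.elim (fun j => ⟨2 * (j : ℕ), by omega⟩) (fun j => ⟨2 * (j : ℕ) + 1, by omega⟩)
  invFun i := if (i : ℕ) % 2 = 0 then Sum.inl ⟨(i : ℕ) / 2, by omega⟩
    else Sum.inr ⟨(i : ℕ) / 2, by omega⟩
  left_inv := by
    rintro (j | j)
    · simp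
    · have h1 : (2 * (j : ℕ) + 1) % 2 = 1 := by omega
      have h2 : (2 * (j : ℕ) + 1) / 2 = j := by omega
      simp [h1, h2]
  right_inv := by
    intro i
    by_cases h : (i : ℕ) % 2 = 0
    · simp only [h, if_true, Sum.elim_inl]
      ext; simp only; omega
    · simp only [h, if_false, Sum.elim_inr]
      ext; simp only; omega

theorem interleave_eq {X : Type*} {p : ℕ} (α β : Fin p → X) (i : Fin (2 * p)) :
    interleave α β i = Sum.elim α β ((evenOddEquiv p).symm i) := by
  unfold interleave evenOddEquiv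
  by_cases h : (i : ℕ) % 2 = 0 <;> simp [h]

theorem interleave_evenOddEquiv_inl {X : Type*} {p : ℕ} (α β : Fin p → X) (j : Fin p) :
    interleave α β (evenOddEquiv p (Sum.inl j)) = α j := by
  rw [interleave_eq, Equiv.symm_apply_apply, Sum.elim_inl]

theorem interleave_evenOddEquiv_inr {X : Type*} {p : ℕ} (α β : Fin p → X) (j : Fin p) :
    interleave α β (evenOddEquiv p (Sum.inr j)) = β j := by
  rw [interleave_eq, Equiv.symm_apply_apply, Sum.elim_inr]

theorem interleave_update_left {X : Type*} {p : ℕ} (α β : Fin p → X) (j : Fin p) (a : X) :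
    interleave (Function.update α j a) β
      = Function.update (interleave α β) (evenOddEquiv p (Sum.inl j)) a := by
  funext i
  obtain ⟨x, rfl⟩ := (evenOddEquiv p).surjective i
  rcases x with k | k
  · rw [interleave_evenOddEquiv_inl]
    by_cases h : k = j
    · subst h; simp
    · rw [Function.update_of_ne h, Function.update_of_ne (by simpa using h),
        interleave_evenOddEquiv_inl]
  · rw [interleave_evenOddEquiv_inr, Function.update_of_ne (by simp),
      interleave_evenOddEquiv_inr]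

theorem interleave_update_right {X : Type*} {p : ℕ} (α β : Fin p → X) (j : Fin p) (a : X) :
    interleave α (Function.update β j a)
      = Function.update (interleave α β) (evenOddEquiv p (Sum.inr j)) a := by
  funext i
  obtain ⟨x, rfl⟩ := (evenOddEquiv p).surjective i
  rcases x with k | k
  · rw [interleave_evenOddEquiv_inl, Function.update_of_ne (by simp),
      interleave_evenOddEquiv_inl]
  · rw [interleave_evenOddEquiv_inr]
    by_cases h : k = j
    · subst h; simp
    · rw [Function.update_of_ne h, Function.update_of_ne (by simpa using h),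
        interleave_evenOddEquiv_inr]

/-! ### `pairWedge` is multilinear and alternating on each side -/

theorem pairWedge_update_left_add {p : ℕ} (α β : Fin p → V →ₗ[ℝ] ℂ) (j : Fin p)
    (a a' : V →ₗ[ℝ] ℂ) :
    pairWedge (Function.update α j (a + a')) β
      = pairWedge (Function.update α j a) β + pairWedge (Function.update α j a') β := by
  simp only [pairWedge, interleave_update_left, wedgeOfForms_update_add]

theorem pairWedge_update_left_smul {p : ℕ} (α β : Fin p → V →ₗ[ℝ] ℂ) (j : Fin p) (r : ℂ)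
    (a : V →ₗ[ℝ] ℂ) :
    pairWedge (Function.update α j (r • a)) β = r • pairWedge (Function.update α j a) β := by
  simp only [pairWedge, interleave_update_left, wedgeOfForms_update_smul]

theorem pairWedge_update_right_add {p : ℕ} (α β : Fin p → V →ₗ[ℝ] ℂ) (j : Fin p)
    (a a' : V →ₗ[ℝ] ℂ) :
    pairWedge α (Function.update β j (a + a'))
      = pairWedge α (Function.update β j a) + pairWedge α (Function.update β j a') := by
  simp only [pairWedge, interleave_update_right, wedgeOfForms_update_add]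

theorem pairWedge_update_right_smul {p : ℕ} (α β : Fin p → V →ₗ[ℝ] ℂ) (j : Fin p) (r : ℂ)
    (a : V →ₗ[ℝ] ℂ) :
    pairWedge α (Function.update β j (r • a)) = r • pairWedge α (Function.update β j a) := by
  simp only [pairWedge, interleave_update_right, wedgeOfForms_update_smul]

theorem interleave_comp_perm {X : Type*} {p : ℕ} (α β : Fin p → X) (σ τ : Equiv.Perm (Fin p))
    (i : Fin (2 * p)) :
    interleave (α ∘ σ) (β ∘ τ) i
      = interleave α β ((evenOddEquiv p).permCongr (Equiv.Perm.sumCongr σ τ) i) := by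
  obtain ⟨x, rfl⟩ := (evenOddEquiv p).surjective i
  rcases x with k | k
  · simp [Equiv.permCongr_apply, interleave_evenOddEquiv_inl]
  · simp [Equiv.permCongr_apply, interleave_evenOddEquiv_inr]

theorem pairWedge_comp_perm {p : ℕ} (α β : Fin p → V →ₗ[ℝ] ℂ) (σ τ : Equiv.Perm (Fin p)) :
    pairWedge (α ∘ σ) (β ∘ τ)
      = (Equiv.Perm.sign σ * Equiv.Perm.sign τ) • pairWedge α β := by
  have h : interleave (α ∘ σ) (β ∘ τ) = fun i =>
      interleave α β ((evenOddEquiv p).permCongr (Equiv.Perm.sumCongr σ τ) i) :=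
    funext (interleave_comp_perm α β σ τ)
  rw [pairWedge, h, wedgeOfForms_comp_perm, Equiv.Perm.sign_permCongr, Equiv.Perm.sign_sumCongr]
  rfl

theorem pairWedge_comp_perm_right {p : ℕ} (α β : Fin p → V →ₗ[ℝ] ℂ) (τ : Equiv.Perm (Fin p)) :
    pairWedge α (β ∘ τ) = Equiv.Perm.sign τ • pairWedge α β := by
  have := pairWedge_comp_perm α β 1 τ
  simpa using this

theorem pairWedge_comp_perm_left {p : ℕ} (α β : Fin p → V →ₗ[ℝ] ℂ) (σ : Equiv.Perm (Fin p)) :
    pairWedge (α ∘ σ) β = Equiv.Perm.sign σ • pairWedge α β := by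
  have := pairWedge_comp_perm α β σ 1
  simpa using this

theorem pairWedge_eq_zero_of_left_eq {p : ℕ} (α β : Fin p → V →ₗ[ℝ] ℂ) {j j' : Fin p}
    (hj : j ≠ j') (h : α j = α j') : pairWedge α β = 0 := by
  apply wedgeOfForms_eq_zero_of_eq (i := evenOddEquiv p (Sum.inl j))
    (j := evenOddEquiv p (Sum.inl j')) _ (by simpa using hj)
  rw [interleave_evenOddEquiv_inl, interleave_evenOddEquiv_inl, h]

theorem pairWedge_eq_zero_of_right_eq {p : ℕ} (α β : Fin p → V →ₗ[ℝ] ℂ) {j j' : Fin p}
    (hj : j ≠ j') (h : β j = β j') : pairWedge α β = 0 := by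
  apply wedgeOfForms_eq_zero_of_eq (i := evenOddEquiv p (Sum.inr j))
    (j := evenOddEquiv p (Sum.inr j')) _ (by simpa using hj)
  rw [interleave_evenOddEquiv_inr, interleave_evenOddEquiv_inr, h]

/-! ### Monomials in the coordinates of a `ℂ`-basis span `H^{p,p}` -/

/-- A `ℂ`-linear form is a combination of the coordinate forms. -/
theorem eq_sum_coord_of_linear {n : ℕ} (w : Basis (Fin n) ℂ V) {ℓ : V →ₗ[ℝ] ℂ}
    (h : ∀ v, ℓ (I • v) = I * ℓ v) :
    ℓ = ∑ k, ℓ (w k) • (w.coord k).restrictScalars ℝ := by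
  ext v
  conv_lhs => rw [← w.sum_repr v]
  rw [map_sum]
  simp [LinearMap.sum_apply, map_smul_of_linear h, mul_comm]

/-- A `ℂ`-antilinear form is a combination of the conjugates of the coordinate forms. -/
theorem eq_sum_conj_coord_of_antilinear {n : ℕ} (w : Basis (Fin n) ℂ V) {ℓ : V →ₗ[ℝ] ℂ}
    (h : ∀ v, ℓ (I • v) = -I * ℓ v) :
    ℓ = ∑ k, ℓ (w k) • conjForm ((w.coord k).restrictScalars ℝ) := by
  ext v
  conv_lhs => rw [← w.sum_repr v]
  rw [map_sum]
  simp [LinearMap.sum_apply, map_smul_of_antilinear h, mul_comm]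

/-- `Fin p ⊕ Fin p ≃ Fin (2 p)`: the left summand goes to the first `p`, the right one to the last
`p` numbers. -/
def blockEquiv (p : ℕ) : Fin p ⊕ Fin p ≃ Fin (2 * p) :=
  finSumFinEquiv.trans (finCongr (two_mul p).symm)

@[simp] theorem blockEquiv_inl_val (p : ℕ) (j : Fin p) : (blockEquiv p (Sum.inl j) : ℕ) = j := by
  simp [blockEquiv]

@[simp] theorem blockEquiv_inr_val (p : ℕ) (j : Fin p) :
    (blockEquiv p (Sum.inr j) : ℕ) = p + j := by
  simp [blockEquiv, add_comm]

/-- From block order `α₀ ∧ ⋯ ∧ α_{p-1} ∧ β₀ ∧ ⋯ ∧ β_{p-1}` to the interleaved order. -/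
theorem wedgeOfForms_block {p : ℕ} (α β : Fin p → V →ₗ[ℝ] ℂ) :
    wedgeOfForms (fun i => Sum.elim α β ((blockEquiv p).symm i))
      = Equiv.Perm.sign ((blockEquiv p).symm.trans (evenOddEquiv p)) • pairWedge α β := by
  rw [pairWedge, ← wedgeOfForms_comp_perm]
  congr 1
  funext i
  rw [interleave_eq]
  simp

theorem hodgePiece_le_span_pairWedge {n : ℕ} (w : Basis (Fin n) ℂ V) (p : ℕ) :
    hodgePiece V p (2 * p) ≤ Submodule.span ℂ {φ | ∃ k l : Fin p → Fin n,
      φ = pairWedge (fun j => (w.coord (k j)).restrictScalars ℝ)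
        (fun j => conjForm ((w.coord (l j)).restrictScalars ℝ))} := by
  rw [hodgePiece, Submodule.span_le]
  rintro _ ⟨ℓ, h1, h2, rfl⟩
  set S := Submodule.span ℂ {φ : Form V (2 * p) | ∃ k l : Fin p → Fin n,
      φ = pairWedge (fun j => (w.coord (k j)).restrictScalars ℝ)
        (fun j => conjForm ((w.coord (l j)).restrictScalars ℝ))} with hS
  -- the monomial forms in block order
  let e : Fin (2 * p) → Fin n → V →ₗ[ℝ] ℂ := fun i k =>
    Sum.elim (fun _ => (w.coord k).restrictScalars ℝ)
      (fun _ => conjForm ((w.coord k).restrictScalars ℝ)) ((blockEquiv p).symm i)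
  have hℓ : ℓ = fun i => ∑ k, ℓ i (w k) • e i k := by
    funext i
    obtain ⟨x, rfl⟩ := (blockEquiv p).surjective i
    rcases x with j | j
    · simpa [e] using eq_sum_coord_of_linear w (h1 _ (by simp))
    · simpa [e] using eq_sum_conj_coord_of_antilinear w (h2 _ (by simp))
  have key : wedgeOfForms ℓ = ∑ r : Fin (2 * p) → Fin n,
      (∏ i, ℓ i (w (r i))) • wedgeOfForms (fun i => e i (r i)) := by
    conv_lhs => rw [hℓ]
    rw [← wedgeOfFormsML_apply, MultilinearMap.map_sum]
    refine Finset.sum_congr rfl fun r _ => ?_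
    rw [MultilinearMap.map_smul_univ, wedgeOfFormsML_apply]
  show wedgeOfForms ℓ ∈ S
  rw [key]
  refine Submodule.sum_mem _ fun r _ => Submodule.smul_mem _ _ ?_
  have hr : (fun i => e i (r i)) = fun i =>
      Sum.elim (fun j => (w.coord (r (blockEquiv p (Sum.inl j)))).restrictScalars ℝ)
        (fun j => conjForm ((w.coord (r (blockEquiv p (Sum.inr j)))).restrictScalars ℝ))
        ((blockEquiv p).symm i) := by
    funext i
    obtain ⟨x, rfl⟩ := (blockEquiv p).surjective i
    rcases x with j | j <;> simp [e]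
  rw [hr, wedgeOfForms_block]
  have hmem : pairWedge (fun j => (w.coord (r (blockEquiv p (Sum.inl j)))).restrictScalars ℝ)
        (fun j => conjForm ((w.coord (r (blockEquiv p (Sum.inr j)))).restrictScalars ℝ)) ∈ S :=
    Submodule.subset_span ⟨_, _, rfl⟩
  rcases Int.units_eq_one_or (Equiv.Perm.sign ((blockEquiv p).symm.trans (evenOddEquiv p)))
    with h | h
  · rw [h, one_smul]; exact hmem
  · rw [h, Units.neg_smul, one_smul]; exact S.neg_mem hmem

end Claimed.Open.R032
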