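import Claimed.Open.R032.PowerGlue
import Claimed.Open.R032.PowerSpan
import Claimed.Open.R032.PowerPolarise
import Claimed.Open.R032.PowerDescent

/-!
# The Hodge conjecture for abelian varieties isogenous to a power of a CM elliptic curve

With the definitions of `Statement.lean`:

* `hodgeConjecture_of_quadratic_periods`: let `A = V / Λ` be a complex torus whose period matrix, in
  some `ℂ`-basis `w` of `V`, has entries in an imaginary quadratic field `K = ℚ + ℚ ω`.  Then every
  class in `H^{2p}(A,ℚ) ∩ H^{p,p}(A)` is a `ℚ`-linear combination of classes of subvarieties of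
  codimension `p` (abelian subvarieties, in fact), for every `p`.
* `hodgeConjecture_power`: in particular this holds for all powers `E^n` of an elliptic curve
  `E = ℂ / L` with complex multiplication.

This is the conclusion of `Statement` for these (CM) abelian varieties; the hypotheses of `Statement`
are checked for them in `PowerCM*.lean`.

Proof.  `H^{p,p}` is spanned over `ℂ` by the monomials `dz_{k₁} ∧ dz̄_{l₁} ∧ ⋯ ∧ dz_{k_p} ∧ dz̄_{l_p}`
(`PowerSpan.lean`), which by polarisation are `ℂ`-linear combinations of forms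
`m₁ ∧ m̄₁ ∧ ⋯ ∧ m_p ∧ m̄_p` with `m_j` a `ℂ`-linear form with values in `K` on `Λ`
(`PowerPolarise.lean`).  Such a form is the pull-back of a form of top degree under the homomorphism
`f = (m_j)_j : A → ℂ^p / f(Λ)`, hence a complex multiple of `f^*[pt] = [ker f]`
(`PowerGlue.lean`, `SanitySubtorusClass.lean`).  Finally a rational class which is a `ℂ`-linear
combination of rational classes is a `ℚ`-linear combination of them (`PowerDescent.lean`).
-/

open MeasureTheory Module

namespace Claimed.Open.R032

variable {V : Type*} [NormedAddCommGroup V] [InnerProductSpace ℂ V] [FiniteDimensional ℂ V]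
variable {ι : Type*}

variable [MeasurableSpace V] [BorelSpace V]

/-- **The Hodge conjecture for complex tori with period matrix in an imaginary quadratic field.** -/
theorem hodgeConjecture_of_quadratic_periods (b : Basis ι ℝ V) {n : ℕ} (w : Basis (Fin n) ℂ V)
    (ω : ℂ) (hω : ω.im ≠ 0) (hω2 : ∃ r s : ℚ, ω ^ 2 = r + s * ω)
    (hb : ∀ i k, ∃ r s : ℚ, w.repr (b i) k = r + s * ω) : HodgeConjecture b := by
  intro p φ hφ
  set S : Set (Form V (2 * p)) := {c | IsRational (lattice b) c ∧ c ∈ algebraicClasses b p} with hS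
  have hcoord : ∀ k, (w.coord k).restrictScalars ℝ ∈ quadForms b ω := by
    intro k
    refine ⟨fun v => by simp, fun i => ?_⟩
    simpa using hb i k
  have h1 : φ ∈ Submodule.span ℂ S := by
    refine (hodgePiece_le_span_pairWedge w p).trans ?_ hφ.2
    rw [Submodule.span_le]
    rintro _ ⟨k, l, rfl⟩
    have h2 := pairWedge_mem_span_hermSquare ω hω (quadForms b ω)
      (fun m hm => smul_mem_quadForms b hω2 hm)
      (fun j => (w.coord (k j)).restrictScalars ℝ) (fun j => (w.coord (l j)).restrictScalars ℝ)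
      (fun j => hcoord _) (fun j => hcoord _)
    refine (Submodule.span_le.2 ?_) h2
    rintro _ ⟨m, hm, rfl⟩
    exact hermSquare_mem_span_algebraic b ω hω m hm
  have h3 := mem_span_rat_of_mem_span_complex b S (fun c hc => hc.1) φ hφ.1 h1
  exact (Submodule.span_le.2 fun c hc => hc.2) h3

/-- If `ω L ⊆ L` for a lattice `L ⊆ ℂ` and a non-real `ω`, then `L ⊆ (ℚ + ℚ ω) x₀` for every nonzero
`x₀ ∈ L`. -/
theorem exists_rat_of_mem_lattice (β : Basis ι ℝ ℂ) (ω : ℂ) (hω : ω.im ≠ 0)
    (hL : ∀ x ∈ lattice β, ω * x ∈ lattice β) {x₀ : ℂ} (hx₀ : x₀ ∈ lattice β) (h0 : x₀ ≠ 0)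
    {x : ℂ} (hx : x ∈ lattice β) : ∃ r s : ℚ, x = (r + s * ω) * x₀ := by
  classical
  have := finite_index β
  have := Fintype.ofFinite ι
  let Q : Submodule ℚ ℂ := Submodule.span ℚ (Set.range β)
  have hLQ : ∀ y ∈ lattice β, y ∈ Q := by
    intro y hy
    have : (lattice β : Set ℂ) ⊆ Q := by
      intro y hy
      refine Submodule.span_induction (p := fun y _ => y ∈ Q) ?_ ?_ ?_ ?_ hy
      · intro y hy; exact Submodule.subset_span hy
      · exact Q.zero_mem
      · intro a c _ _ ha hc; exact Q.add_mem ha hc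
      · intro a c _ hc
        rw [← Int.cast_smul_eq_zsmul ℚ]
        exact Q.smul_mem _ hc
    exact this hy
  have hβQ : LinearIndependent ℚ β := β.linearIndependent.restrict_scalars
    (by intro a c h; simpa [Algebra.smul_def] using h)
  have hfin : finrank ℚ Q = 2 := by
    rw [finrank_span_eq_card hβQ, ← Module.finrank_eq_card_basis β, Complex.finrank_real_complex]
  let u : Fin 2 → Q := ![⟨x₀, hLQ _ hx₀⟩, ⟨ω * x₀, hLQ _ (hL _ hx₀)⟩]
  have hu : LinearIndependent ℚ u := by
    rw [LinearIndependent.pair_iff]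
    intro a c hac
    have h1 : (a : ℂ) * x₀ + c * (ω * x₀) = 0 := by
      have := congrArg (fun z : Q => (z : ℂ)) hac
      simpa [Rat.smul_def] using this
    have h2 : (a : ℂ) + c * ω = 0 := by
      have : ((a : ℂ) + c * ω) * x₀ = 0 := by rw [← h1]; ring
      rcases mul_eq_zero.1 this with h | h
      · exact h
      · exact absurd h h0
    have h3 := congrArg Complex.im h2
    have h4 := congrArg Complex.re h2
    simp at h3 h4
    have hc : c = 0 := by
      rcases h3 with h | h
      · exact h
      · exact absurd h hω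
    refine ⟨?_, hc⟩
    rw [hc] at h4
    simpa using h4
  have hfd : FiniteDimensional ℚ Q := FiniteDimensional.span_of_finite ℚ (Set.finite_range β)
  have hspan := hu.span_eq_top_of_card_eq_finrank' (by rw [hfin]; rfl)
  have hxs : (⟨x, hLQ _ hx⟩ : Q) ∈ Submodule.span ℚ (Set.range u) := by rw [hspan]; trivial
  have hrange : Set.range u = {u 0, u 1} := by
    ext y; simp [u, or_comm]
  rw [hrange, Submodule.mem_span_pair] at hxs
  obtain ⟨r, s, hrs⟩ := hxs
  refine ⟨r, s, ?_⟩
  have := congrArg (fun z : Q => (z : ℂ)) hrs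
  simp [u, Rat.smul_def] at this
  rw [← this]; ring


/-- **The Hodge conjecture for all powers `E^n` of an elliptic curve `E = ℂ / L` with complex
multiplication** (`ω L ⊆ L` for some non-real `ω`). -/
theorem hodgeConjecture_power (β : Basis ι ℝ ℂ) (ω : ℂ) (hω : ω.im ≠ 0)
    (hL : ∀ x ∈ lattice β, ω * x ∈ lattice β) (n : ℕ) : HodgeConjecture (powerBasis β n) := by
  classical
  have hne : Nonempty ι := by
    by_contra h
    rw [not_nonempty_iff] at h
    have := Fintype.ofIsEmpty (α := ι)
    have h1 := Module.finrank_eq_card_basis β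
    rw [Complex.finrank_real_complex] at h1
    simp at h1
  obtain ⟨i₀⟩ := hne
  have hmem : ∀ i, β i ∈ lattice β := fun i => Submodule.subset_span ⟨i, rfl⟩
  have h0 : β i₀ ≠ 0 := β.ne_zero i₀
  have h0' : (β i₀)⁻¹ ≠ 0 := inv_ne_zero h0
  let e : Cn n ≃ₗ[ℂ] (Fin n → ℂ) :=
    (WithLp.linearEquiv 2 ℂ (Fin n → ℂ)).trans (LinearEquiv.smulOfNeZero ℂ (Fin n → ℂ) _ h0')
  have he : ∀ z k, e z k = (β i₀)⁻¹ * z k := fun z k => rfl
  refine hodgeConjecture_of_quadratic_periods (powerBasis β n) (Basis.ofEquivFun e) ω hω ?_ ?_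
  · obtain ⟨r, s, h⟩ := exists_rat_of_mem_lattice β ω hω hL (hmem i₀) h0
      (hL _ (hL _ (hmem i₀)))
    refine ⟨r, s, ?_⟩
    have : (ω ^ 2 - (r + s * ω)) * β i₀ = 0 := by linear_combination h
    rcases mul_eq_zero.1 this with h' | h'
    · linear_combination h'
    · exact absurd h' h0
  · rintro ⟨k, i⟩ k'
    rw [Basis.ofEquivFun_repr_apply, he]
    have hpb : (powerBasis β n ⟨k, i⟩ : Cn n) k' = if k' = k then β i else 0 := by
      simp [powerBasis, Pi.basis_apply]
    rw [hpb]
    split_ifs
    · obtain ⟨r, s, h⟩ := exists_rat_of_mem_lattice β ω hω hL (hmem i₀) h0 (hmem i)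
      refine ⟨r, s, ?_⟩
      rw [h]
      field_simp
    · exact ⟨0, 0, by simp⟩

/-- The Hodge conjecture for all powers of the elliptic curve `ℂ / ℤ[i]`. -/
theorem hodgeConjecture_power_gauss (n : ℕ) :
    HodgeConjecture (powerBasis Complex.basisOneI n) := by
  refine hodgeConjecture_power Complex.basisOneI Complex.I (by simp) ?_ n
  intro x hx
  have h2 : (lattice Complex.basisOneI).map
      ((LinearMap.mulLeft ℂ Complex.I).restrictScalars ℤ) ≤ lattice Complex.basisOneI := by
    rw [lattice, Submodule.map_span, Submodule.span_le]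
    rintro _ ⟨_, ⟨i, rfl⟩, rfl⟩
    fin_cases i
    · refine Submodule.subset_span ⟨1, ?_⟩
      simp
    · have : (-1 : ℤ) • Complex.basisOneI 0 ∈
          Submodule.span ℤ (Set.range Complex.basisOneI) :=
        Submodule.smul_mem _ _ (Submodule.subset_span ⟨0, rfl⟩)
      simpa using this
  exact h2 ⟨x, hx, rfl⟩

end Claimed.Open.R032
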