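import Claimed.Open.R032.SanityCycles

/-!
# Sanity checks for R032: basic properties of analytic subsets

General facts about `IsAnalyticSubset` (as defined in `Statement.lean`), which show that the
definition behaves as the closed analytic subsets of complex analysis do:

(closedness and the identity theorem are in `SanityCycles.lean`)

* `IsAnalyticSubset.preimage_affine`: the preimage under a complex affine map is analytic;
* `IsAnalyticSubset.eq_univ_or_eq_univ`: a complex vector space is irreducible.
-/

open Module Complex Topology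

namespace Claimed.Open.R032

variable {V : Type*} [NormedAddCommGroup V] [InnerProductSpace ℂ V]

theorem IsAnalyticSubset.preimage_affine {V' : Type*} [NormedAddCommGroup V']
    [InnerProductSpace ℂ V'] {Z : Set V} (hZ : IsAnalyticSubset Z) (L : V' →L[ℂ] V) (a : V) :
    IsAnalyticSubset ((fun w => a + L w) ⁻¹' Z) := by
  intro x
  obtain ⟨U, hU, hxU, m, f, hf, hZU⟩ := hZ (a + L x)
  have hcont : Continuous (fun w => a + L w) := by fun_prop
  refine ⟨(fun w => a + L w) ⁻¹' U, hU.preimage hcont, hxU, m, fun w => f (a + L w), ?_, ?_⟩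
  · have hg : AnalyticOnNhd ℂ (fun w => a + L w) ((fun w => a + L w) ⁻¹' U) :=
      fun w _ => analyticAt_const.add (L.analyticAt w)
    exact hf.comp hg (fun w hw => hw)
  · ext w
    have := Set.ext_iff.1 hZU (a + L w)
    simpa using this

/-- A complex vector space is irreducible as an analytic set. -/
theorem IsAnalyticSubset.eq_univ_or_eq_univ {Z₁ Z₂ : Set V} (h₁ : IsAnalyticSubset Z₁)
    (h₂ : IsAnalyticSubset Z₂) (h : Z₁ ∪ Z₂ = Set.univ) : Z₁ = Set.univ ∨ Z₂ = Set.univ := by
  by_cases h1 : Z₁ = Set.univ
  · exact Or.inl h1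
  · right
    apply h₂.eq_univ_of_interior_nonempty
    obtain ⟨x, hx⟩ := (Set.ne_univ_iff_exists_notMem _).1 h1
    refine ⟨x, ?_⟩
    rw [mem_interior]
    refine ⟨Z₁ᶜ, ?_, h₁.isClosed.isOpen_compl, hx⟩
    intro y hy
    have : y ∈ Z₁ ∪ Z₂ := h ▸ Set.mem_univ y
    exact this.resolve_left hy

end Claimed.Open.R032
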