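import Claimed.Open.R032.SanityHodge

/-!
# Sanity checks for R032: a polarisation is a Hodge class

For a Riemann form `E` of `A = V / Λ` the `ℂ`-valued alternating `2`-form `(v, w) ↦ E v w`
(the first Chern class of the polarisation) is

* a Hodge class of codimension one in the sense of `Statement.lean`:
  `IsRiemannForm.isHodgeClass`;
* nonzero as soon as `V ≠ 0`: `IsRiemannForm.formOfBilin_ne_zero`.

So on every abelian variety of positive dimension the set of Hodge classes to which `Statement`
applies contains a nonzero class in degree `2`.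
-/

open Module Complex

namespace Claimed.Open.R032

variable {V : Type*} [NormedAddCommGroup V] [InnerProductSpace ℂ V]

/-- The `ℂ`-valued alternating `2`-form defined by an alternating real bilinear form. -/
noncomputable def formOfBilin (E : V →ₗ[ℝ] V →ₗ[ℝ] ℝ) (h : ∀ v, E v v = 0) : Form V (2 * 1) :=
  show Form V 2 from
  { toFun := fun v => ((E (v 0) (v 1) : ℝ) : ℂ)
    map_update_add' := by
      intro _ v i x y
      fin_cases i <;> simp
    map_update_smul' := by
      intro _ v i c x
      fin_cases i <;> simp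
    map_eq_zero_of_eq' := by
      intro v i j hij hne
      fin_cases i <;> fin_cases j <;> simp_all }

theorem formOfBilin_apply (E : V →ₗ[ℝ] V →ₗ[ℝ] ℝ) (h : ∀ v, E v v = 0) (v : Fin 2 → V) :
    formOfBilin E h v = ((E (v 0) (v 1) : ℝ) : ℂ) := rfl

theorem IsRiemannForm.map_smul_smul {Λ : Submodule ℤ V} {E : V →ₗ[ℝ] V →ₗ[ℝ] ℝ}
    (hE : IsRiemannForm Λ E) (z : ℂ) (v w : V) :
    E (z • v) (z • w) = Complex.normSq z * E v w := by
  have hz : ∀ x : V, z • x = z.re • x + z.im • (I • x) := by
    intro x
    conv_lhs => rw [← Complex.re_add_im z]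
    rw [add_smul, mul_smul]
    simp [Complex.coe_smul]
  have h1 : E (I • v) w = -E v (I • w) := by
    have := hE.compat (I • v) w
    rw [smul_smul, I_mul_I, neg_one_smul, map_neg, LinearMap.neg_apply] at this
    linarith
  rw [hz v, hz w]
  simp only [map_add, map_smul, LinearMap.add_apply, LinearMap.smul_apply, smul_eq_mul,
    hE.compat, h1, Complex.normSq_apply]
  ring

/-- A Riemann form is a Hodge class of codimension one. -/
theorem IsRiemannForm.isHodgeClass [FiniteDimensional ℂ V] {Λ : Submodule ℤ V}
    {E : V →ₗ[ℝ] V →ₗ[ℝ] ℝ} (hE : IsRiemannForm Λ E) :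
    IsHodgeClass Λ 1 (formOfBilin E hE.alt) := by
  constructor
  · intro v hv
    obtain ⟨n, hn⟩ := hE.integral _ (hv (0 : Fin 2)) _ (hv (1 : Fin 2))
    exact ⟨n, by rw [formOfBilin_apply, hn]; simp⟩
  · rw [mem_hodgePiece_pp_iff]
    intro z v
    rw [formOfBilin_apply, formOfBilin_apply, hE.map_smul_smul]
    simp

theorem IsRiemannForm.formOfBilin_ne_zero [Nontrivial V] {Λ : Submodule ℤ V}
    {E : V →ₗ[ℝ] V →ₗ[ℝ] ℝ} (hE : IsRiemannForm Λ E) : formOfBilin E hE.alt ≠ 0 := by
  obtain ⟨v, hv⟩ := exists_ne (0 : V)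
  intro h
  have := congrArg (fun φ : Form V (2 * 1) => φ ![I • v, v]) h
  simp only [AlternatingMap.zero_apply] at this
  rw [formOfBilin_apply] at this
  have hpos := hE.pos v hv
  simp at this
  linarith

end Claimed.Open.R032
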