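import Claimed.Open.R032.PowerMain
import Claimed.Open.R032.PowerCM
import Claimed.Open.R032.SanityRiemann

/-!
# Sanity checks for R032: the hypotheses of the other conjuncts of `Statement` can be met

* `QuadraticFive`: the elliptic curve `ℂ / ℤ[i]` satisfies the hypotheses
  (`gauss_isQuadraticAction`, `quadraticFive_example`), and the conclusion holds for it.
* `SplitWeilSixfolds`: `A = (ℂ / ℤ[i])^6` with `u = diag(i,i,i,-i,-i,-i)`, the standard principal
  polarisation and the isotropic vectors `e_j + e_{j+3}` satisfies all the hypotheses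
  (`splitWeilSixfolds_example`), and the conclusion holds for it (`weil_hodgeConjecture_power`).
* `hodgeConjecture_powerBasis_of_quadratic_periods`: the Hodge conjecture for all powers of a torus
  with period matrix in an imaginary quadratic field.
* `GeneralizedHodgeCM`: for every Hodge class `φ` of codimension `p`, the line `W = ℚ φ` is a rational
  Hodge substructure of `H^{2p}(A,ℚ)` such that `W(p)` is effective
  (`IsHodgeClass.isHodgeSubstructure`, `IsHodgeClass.isEffectiveTwist`); e.g. `φ` a Riemann form,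
  `p = 1` (`IsRiemannForm.isHodgeSubstructure`, `IsRiemannForm.isEffectiveTwist`).
-/

open MeasureTheory Module Complex

namespace Claimed.Open.R032

/-! ### `GeneralizedHodgeCM` -/

section ghc

variable {V : Type*} [NormedAddCommGroup V] [InnerProductSpace ℂ V]

/-- Different Hodge components meet in `0`. -/
theorem hodgePiece_inf_hodgePiece {p p' n : ℕ} (hp : p ≤ n) (hp' : p' ≤ n) (h : p ≠ p') :
    hodgePiece V p n ⊓ hodgePiece V p' n = ⊥ := by
  rw [eq_bot_iff]
  rintro φ ⟨h1, h2⟩
  have h3 := eq_component_of_mem_hodgePiece hp h1 (fun a => if a = p' then φ else 0)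
    (fun a => by
      split_ifs with ha
      · rw [ha]; exact h2
      · exact Submodule.zero_mem _)
    (by
      rw [Finset.sum_ite_eq' (Finset.range (n + 1)) p' (fun _ => φ),
        if_pos (Finset.mem_range.2 (Nat.lt_succ_of_le hp'))])
  rw [if_neg h] at h3
  exact h3

theorem complexSpan_span_singleton_le {k : ℕ} (φ : Form V k) (S : Submodule ℂ (Form V k))
    (h : φ ∈ S) : complexSpan (Submodule.span ℚ {φ}) ≤ S := by
  refine Submodule.span_le.2 ?_
  intro ψ hψ
  obtain ⟨q, rfl⟩ := Submodule.mem_span_singleton.1 hψ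
  have : q • φ = (q : ℂ) • φ := by
    ext v; simp [Rat.smul_def]
  rw [this]
  exact S.smul_mem _ h

/-- The line spanned by a Hodge class is a rational Hodge substructure. -/
theorem IsHodgeClass.isHodgeSubstructure {Λ : Submodule ℤ V} {p : ℕ} {φ : Form V (2 * p)}
    (hφ : IsHodgeClass Λ p φ) : IsHodgeSubstructure Λ (Submodule.span ℚ {φ}) where
  rational := by
    intro ψ hψ v hv
    obtain ⟨q, rfl⟩ := Submodule.mem_span_singleton.1 hψ
    obtain ⟨q', hq'⟩ := hφ.1 v hv
    exact ⟨q * q', by rw [AlternatingMap.smul_apply, hq', Rat.smul_def]; push_cast; ring⟩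
  decomp := by
    refine le_trans ?_ (le_iSup _ (⟨p, by omega⟩ : Fin (2 * p + 1)))
    exact le_inf le_rfl (complexSpan_span_singleton_le φ _ hφ.2)

/-- If `φ` is a Hodge class of codimension `p` and `W = ℚ φ`, then `W(p)` is effective. -/
theorem IsHodgeClass.isEffectiveTwist {Λ : Submodule ℤ V} {p : ℕ} {φ : Form V (2 * p)}
    (hφ : IsHodgeClass Λ p φ) : IsEffectiveTwist (Submodule.span ℚ {φ}) p := by
  intro a q haq h
  rw [eq_bot_iff, ← hodgePiece_inf_hodgePiece (V := V) (p := p) (p' := a) (n := 2 * p)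
    (by omega) (by omega) (by omega)]
  exact inf_le_inf_right _ (complexSpan_span_singleton_le φ _ hφ.2)

/-- A nontrivial instance of the hypotheses of `GeneralizedHodgeCM` with `k = 2`, `r = 1`: the line
spanned by the class of a polarisation. -/
theorem IsRiemannForm.isHodgeSubstructure [FiniteDimensional ℂ V] {Λ : Submodule ℤ V}
    {E : V →ₗ[ℝ] V →ₗ[ℝ] ℝ} (hE : IsRiemannForm Λ E) :
    IsHodgeSubstructure Λ (Submodule.span ℚ {formOfBilin E hE.alt}) :=
  hE.isHodgeClass.isHodgeSubstructure

theorem IsRiemannForm.isEffectiveTwist [FiniteDimensional ℂ V] {Λ : Submodule ℤ V}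
    {E : V →ₗ[ℝ] V →ₗ[ℝ] ℝ} (hE : IsRiemannForm Λ E) :
    IsEffectiveTwist (Submodule.span ℚ {formOfBilin E hE.alt}) 1 :=
  hE.isHodgeClass.isEffectiveTwist

end ghc

/-! ### `QuadraticFive` -/

/-- Multiplication by `i` is an action of `ℚ(i) = ℚ(√-1)` on `ℂ / ℤ[i]`. -/
theorem gauss_isQuadraticAction :
    IsQuadraticAction (lattice Complex.basisOneI) 1 (Complex.I • (1 : Module.End ℂ ℂ)) := by
  refine ⟨one_pos, ⟨1, one_pos, ?_⟩, ?_⟩
  · intro v hv
    obtain ⟨m, n, rfl⟩ := (mem_lattice_basisOneI v).1 hv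
    rw [mem_lattice_basisOneI]
    refine ⟨-n, m, ?_⟩
    simp only [one_smul, LinearMap.smul_apply, Module.End.one_apply, smul_eq_mul]
    push_cast
    linear_combination (n : ℂ) * Complex.I_sq
  · ext
    simp

/-- `ℂ / ℤ[i]` satisfies the hypotheses of `QuadraticFive`, and its conclusion. -/
theorem quadraticFive_example :
    IsPolarizable (lattice Complex.basisOneI) ∧ finrank ℂ ℂ ≤ 5 ∧
      (∃ d u, IsQuadraticAction (lattice Complex.basisOneI) d u) ∧
      ∀ m : ℕ, 1 ≤ m → HodgeConjecture (powerBasis Complex.basisOneI m) :=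
  ⟨gauss_isPolarizable, by simp, ⟨1, _, gauss_isQuadraticAction⟩,
    fun m _ => hodgeConjecture_power_gauss m⟩

/-! ### Powers of tori with periods in an imaginary quadratic field -/

section power

variable {V : Type*} [NormedAddCommGroup V] [InnerProductSpace ℂ V] [FiniteDimensional ℂ V]
variable {ι : Type*}

/-- The `ℂ`-basis of `V^m` built from a `ℂ`-basis of `V`. -/
noncomputable def powerBasisC {n : ℕ} (w : Basis (Fin n) ℂ V) (m : ℕ) :
    Basis (Σ _ : Fin m, Fin n) ℂ (PiLp 2 fun _ : Fin m => V) :=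
  (Pi.basis fun _ : Fin m => w).map (WithLp.linearEquiv 2 ℂ (Fin m → V)).symm

omit [FiniteDimensional ℂ V] in
theorem powerBasisC_repr {n : ℕ} (w : Basis (Fin n) ℂ V) (m : ℕ) (z : PiLp 2 fun _ : Fin m => V)
    (k : Fin m) (j : Fin n) : (powerBasisC w m).repr z ⟨k, j⟩ = w.repr (z k) j := by
  simp [powerBasisC, Pi.basis_repr]

omit [FiniteDimensional ℂ V] in
theorem powerBasis_apply (b : Basis ι ℝ V) (m : ℕ) (k : Fin m) (i : ι) (k' : Fin m) :
    (powerBasis b m ⟨k, i⟩ : PiLp 2 fun _ : Fin m => V) k' = if k' = k then b i else 0 := by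
  classical
  simp [powerBasis, Pi.basis_apply]

variable [MeasurableSpace V] [BorelSpace V]

/-- The class of tori with period matrix in an imaginary quadratic field is stable under powers;
so the Hodge conjecture holds for all their powers. -/
theorem hodgeConjecture_powerBasis_of_quadratic_periods (b : Basis ι ℝ V) {n : ℕ}
    (w : Basis (Fin n) ℂ V) (ω : ℂ) (hω : ω.im ≠ 0) (hω2 : ∃ r s : ℚ, ω ^ 2 = r + s * ω)
    (hb : ∀ i k, ∃ r s : ℚ, w.repr (b i) k = r + s * ω) (m : ℕ) :
    HodgeConjecture (powerBasis b m) := by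
  let e := Fintype.equivFin (Σ _ : Fin m, Fin n)
  refine hodgeConjecture_of_quadratic_periods (powerBasis b m) ((powerBasisC w m).reindex e)
    ω hω hω2 ?_
  rintro ⟨k, i⟩ x
  obtain ⟨⟨k', j⟩, rfl⟩ := e.surjective x
  rw [Basis.repr_reindex_apply, Equiv.symm_apply_apply, powerBasisC_repr, powerBasis_apply]
  split_ifs
  · exact hb i j
  · exact ⟨0, 0, by simp⟩

end power

/-! ### `SplitWeilSixfolds` -/

section riemann

variable {V : Type*} [NormedAddCommGroup V] [InnerProductSpace ℂ V] {ι : Type*}

/-- If the periods have Gaussian integers as coordinates, then `∑_k Im (x_k conj y_k)` is a Riemann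
form. -/
theorem isRiemannForm_coordRiemannForm (b : Basis ι ℝ V) {n : ℕ} (w : Basis (Fin n) ℂ V)
    (hb : ∀ i k, ∃ m l : ℤ, w.repr (b i) k = m + l * I) :
    IsRiemannForm (lattice b) (coordRiemannForm w) where
  alt v := by
    rw [coordRiemannForm_apply]
    simp [mul_comm]
  integral := by
    apply integral_on_lattice_of_basis
    intro i j
    choose m l hml using hb
    refine ⟨∑ k, (l i k * m j k - m i k * l j k), ?_⟩
    rw [coordRiemannForm_apply]
    push_cast
    refine Finset.sum_congr rfl fun k _ => ?_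
    rw [hml i k, hml j k]
    simp
  compat v v' := by
    simp only [coordRiemannForm_apply, map_smul, Finsupp.smul_apply, smul_eq_mul]
    refine Finset.sum_congr rfl fun k _ => ?_
    simp
    ring
  pos v hv := by
    rw [coordRiemannForm_apply]
    have hk : ∃ k, w.repr v k ≠ 0 := by
      by_contra hcon
      push Not at hcon
      apply hv
      apply w.repr.injective
      ext k
      simp [hcon k]
    obtain ⟨k, hk⟩ := hk
    have hterm : ∀ k, (w.repr (I • v) k).im * (w.repr v k).re
        - (w.repr (I • v) k).re * (w.repr v k).im = Complex.normSq (w.repr v k) := by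
      intro k
      rw [map_smul, Finsupp.smul_apply, Complex.normSq_apply]
      simp
    simp only [hterm]
    exact Finset.sum_pos' (fun k _ => Complex.normSq_nonneg _)
      ⟨k, Finset.mem_univ k, Complex.normSq_pos.2 hk⟩

end riemann

/-- The standard `ℂ`-basis of `ℂ^6`. -/
noncomputable def weilW : Basis (Fin 6) ℂ (Cn 6) :=
  Basis.ofEquivFun (WithLp.linearEquiv 2 ℂ (Fin 6 → ℂ))

theorem weilW_repr (z : Cn 6) (k : Fin 6) : weilW.repr z k = z k := by
  rw [weilW, Basis.ofEquivFun_repr_apply]
  rfl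

/-- The period basis of `(ℂ / ℤ[i])^6`. -/
noncomputable def weilBasis : Basis (Σ _ : Fin 6, Fin 2) ℝ (Cn 6) :=
  powerBasis Complex.basisOneI 6

/-- `(i, i, i, -i, -i, -i)`. -/
noncomputable def weilA : Fin 6 → ℂ := fun k => if (k : ℕ) < 3 then I else -I

/-- `u = diag(i, i, i, -i, -i, -i)`. -/
noncomputable def weilU : Module.End ℂ (Cn 6) := diagEnd weilW weilA

theorem weilU_apply (z : Cn 6) (k : Fin 6) : weilU z k = weilA k * z k := by
  rw [← weilW_repr, weilU, repr_diagEnd, weilW_repr]

/-- The standard principal polarisation of `(ℂ / ℤ[i])^6`. -/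
noncomputable def weilE : Cn 6 →ₗ[ℝ] Cn 6 →ₗ[ℝ] ℝ := coordRiemannForm weilW

theorem weilE_apply (x y : Cn 6) :
    weilE x y = ∑ k, ((x k).im * (y k).re - (x k).re * (y k).im) := by
  simp only [weilE, coordRiemannForm_apply, weilW_repr]

/-- `x_j = e_j + e_{j+3}`. -/
noncomputable def weilX (j : Fin 3) : Cn 6 :=
  WithLp.toLp 2 fun k : Fin 6 => if (k : ℕ) = j ∨ (k : ℕ) = j + 3 then 1 else 0

theorem weilX_apply (j : Fin 3) (k : Fin 6) :
    weilX j k = if (k : ℕ) = j ∨ (k : ℕ) = j + 3 then 1 else 0 := rfl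

theorem weilBasis_coord (x : Σ _ : Fin 6, Fin 2) (k : Fin 6) :
    ∃ m l : ℤ, weilW.repr (weilBasis x) k = m + l * I := by
  obtain ⟨k', i⟩ := x
  rw [weilW_repr, weilBasis, powerBasis_apply]
  split_ifs
  · fin_cases i
    · exact ⟨1, 0, by simp⟩
    · exact ⟨0, 1, by simp⟩
  · exact ⟨0, 0, by simp⟩

theorem weilBasis_coord_rat (x : Σ _ : Fin 6, Fin 2) (k : Fin 6) :
    ∃ r s : ℚ, weilW.repr (weilBasis x) k = r + s * I := by
  obtain ⟨m, l, h⟩ := weilBasis_coord x k
  exact ⟨m, l, by rw [h]; simp⟩

theorem weil_isRiemannForm : IsRiemannForm (lattice weilBasis) weilE :=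
  isRiemannForm_coordRiemannForm weilBasis weilW weilBasis_coord

theorem weilA_mul_self : weilA * weilA = -1 := by
  funext k
  simp only [Pi.mul_apply, weilA, Pi.neg_apply, Pi.one_apply]
  split_ifs <;> simp

theorem weil_isQuadraticAction : IsQuadraticAction (lattice weilBasis) 1 weilU := by
  refine ⟨one_pos, ?_, ?_⟩
  · refine isRationalEndomorphism_of_coords weilBasis weilW I weilBasis_coord_rat _ fun x k => ?_
    obtain ⟨r, s, h⟩ := weilBasis_coord_rat x k
    rw [weilU, repr_diagEnd, h, weilA]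
    split_ifs
    · exact ⟨-s, r, by push_cast; linear_combination (s : ℂ) * I_sq⟩
    · exact ⟨s, -r, by push_cast; linear_combination -(s : ℂ) * I_sq⟩
  · rw [weilU, ← map_mul, weilA_mul_self, map_neg, map_one]
    simp

theorem weil_compatible (x y : Cn 6) : weilE (weilU x) y = -weilE x (weilU y) := by
  rw [weilE_apply, weilE_apply, ← Finset.sum_neg_distrib]
  refine Finset.sum_congr rfl fun k _ => ?_
  rw [weilU_apply, weilU_apply, weilA]
  split_ifs <;> simp <;> ring

theorem weilX_mem (j : Fin 3) : weilX j ∈ lattice weilBasis := by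
  refine mem_lattice_powerBasis_of_forall _ _ _ fun k => ?_
  rw [weilX_apply, mem_lattice_basisOneI]
  split_ifs
  · exact ⟨1, 0, by simp⟩
  · exact ⟨0, 0, by simp⟩

theorem weil_isotropic (i j : Fin 3) :
    weilE (weilX i) (weilX j) = 0 ∧ weilE (weilX i) (weilU (weilX j)) = 0 := by
  constructor
  · rw [weilE_apply]
    refine Finset.sum_eq_zero fun k _ => ?_
    rw [weilX_apply, weilX_apply]
    split_ifs <;> simp
  · rw [weilE_apply]
    simp only [weilU_apply, weilX_apply, weilA, Fin.sum_univ_six]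
    fin_cases i <;> fin_cases j <;> simp

theorem weil_linearIndependent :
    LinearIndependent ℝ (Sum.elim weilX (fun i => weilU (weilX i))) := by
  rw [Fintype.linearIndependent_iff]
  intro g hg
  rw [Fintype.sum_sum_type] at hg
  simp only [Sum.elim_inl, Sum.elim_inr] at hg
  have key : ∀ j : Fin 3, (g (Sum.inl j) : ℂ) + (g (Sum.inr j) : ℂ) * I = 0 := by
    intro j
    have h1 := congrArg (dz (⟨j, by omega⟩ : Fin 6)) hg
    simp only [map_add, map_smul, dz_apply, weilU_apply, weilX_apply, weilA, map_zero,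
      Fin.sum_univ_three] at h1
    fin_cases j <;> simpa using h1
  have key2 : ∀ j : Fin 3, g (Sum.inl j) = 0 ∧ g (Sum.inr j) = 0 := by
    intro j
    have h1 := congrArg Complex.re (key j)
    have h2 := congrArg Complex.im (key j)
    simp at h1 h2
    exact ⟨h1, h2⟩
  rintro (j | j)
  · exact (key2 j).1
  · exact (key2 j).2

/-- `(ℂ / ℤ[i])^6`, with `u = diag(i,i,i,-i,-i,-i)` and its standard principal polarisation,
satisfies all the hypotheses of `SplitWeilSixfolds`. -/
theorem splitWeilSixfolds_example :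
    finrank ℂ (Cn 6) = 6 ∧ IsQuadraticAction (lattice weilBasis) 1 weilU ∧
      IsRiemannForm (lattice weilBasis) weilE ∧ (∀ x y, weilE (weilU x) y = -weilE x (weilU y)) ∧
      ∃ x : Fin 3 → Cn 6, (∀ i, x i ∈ lattice weilBasis) ∧
        LinearIndependent ℝ (Sum.elim x (fun i => weilU (x i))) ∧
        ∀ i j, weilE (x i) (x j) = 0 ∧ weilE (x i) (weilU (x j)) = 0 :=
  ⟨by rw [Module.finrank_eq_card_basis weilW]; simp, weil_isQuadraticAction, weil_isRiemannForm,
    weil_compatible, weilX, weilX_mem, weil_linearIndependent, weil_isotropic⟩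

/-- The conclusion of `SplitWeilSixfolds` holds for this example. -/
theorem weil_hodgeConjecture_power (m : ℕ) : HodgeConjecture (powerBasis weilBasis m) :=
  hodgeConjecture_powerBasis_of_quadratic_periods weilBasis weilW I (by simp)
    ⟨-1, 0, by simp⟩ weilBasis_coord_rat m

end Claimed.Open.R032
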