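import Claimed.Open.R032.SanityThetaTau

/-!
# `GeneralizedHodgeCM` for `r ≤ 1`, in all degrees `k`

Let `A = V / Λ` be a complex torus whose period matrix, in some `ℂ`-basis of `V`, has entries in an imaginary
quadratic field (these are the abelian varieties isogenous to a power of a CM elliptic curve).

* `generalizedHodge_one_of_quadratic_periods` : **for every `k` and every rational Hodge substructure
  `W ⊆ H^k(A,ℚ)` such that `W(1)` is effective there is a divisor `Z` such that `W` restricts to zero on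
  `A ∖ Z`**; in fact one divisor works for all of `⊕_{p,q ≥ 1} H^{p,q}(A)`
  (`exists_divisor_hodgePiece_quad`).
* `generalizedHodge_le_one_of_quadratic_periods` : the conclusion of `GeneralizedHodgeCM` for `A`, all `k`, all
  `r ≤ 1` and all `W`.

This is the first test of `RestrictsToZero` in degrees `k ≥ 3`.

Proof.  `H^{p,q}`, `p, q ≥ 1`, is spanned by forms `ℓ₀ ∧ ⋯ ∧ ℓ_{k-1}` with `ℓ₀` complex linear and `ℓ_{k-1}`
antilinear; by polarisation in these two slots, by such forms with `ℓ₀ = μ`, `ℓ_{k-1} = μ̄`, where `μ` runs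
through finitely many `ℂ`-linear forms with values in `K` on `Λ`.  Let `N = M μ : A → ℂ / (ℤ + ℤ τ)` and
`g = θ_τ'/θ_τ + 2 π i Im / Im τ` as in `SanityThetaTau.lean`.  Then `dg = (⋯) dz - (π / Im τ) dz̄`, so that
`d ((g ∘ N) ℓ₀ ∧ ⋯ ∧ ℓ_{k-2}) = ± (π M / Im τ) ℓ₀ ∧ ⋯ ∧ ℓ_{k-1}` off `N⁻¹ (zeros of θ_τ)`
(`extDeriv_smul_wedgeCont`, Laplace expansion of the determinant).
-/

open MeasureTheory Module Set Complex
open scoped ContDiff Real

namespace Claimed.Open.R032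

variable {V : Type*} [NormedAddCommGroup V] [InnerProductSpace ℂ V]

/-! ### Conjugation of forms -/

theorem conjForm_add (a c : V →ₗ[ℝ] ℂ) : conjForm (a + c) = conjForm a + conjForm c := by
  ext v; simp

theorem conjForm_smul (r : ℂ) (a : V →ₗ[ℝ] ℂ) :
    conjForm (r • a) = (starRingEnd ℂ) r • conjForm a := by
  ext v; simp

/-! ### Laplace expansion -/

/-- Laplace expansion of `ℓ₀ ∧ ⋯ ∧ λ ∧ ⋯ ∧ ℓ_n` (`λ` in the slot `i₀`) along the slot `i₀`. -/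
theorem sum_removeNth_wedgeOfForms {n : ℕ} (ℓ : Fin (n + 1) → V →ₗ[ℝ] ℂ) (i₀ : Fin (n + 1))
    (lam : V →ₗ[ℝ] ℂ) (v : Fin (n + 1) → V) :
    ∑ j : Fin (n + 1), (-1 : ℂ) ^ (j : ℕ) *
        (lam (v j) * wedgeOfForms (ℓ ∘ i₀.succAbove) (j.removeNth v)) =
      (-1 : ℂ) ^ (i₀ : ℕ) * wedgeOfForms (Function.update ℓ i₀ lam) v := by
  rw [wedgeOfForms_eq_det (Function.update ℓ i₀ lam), Matrix.det_succ_row _ i₀, Finset.mul_sum]
  refine Finset.sum_congr rfl fun j _ => ?_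
  rw [wedgeOfForms_eq_det]
  have h1 : (Matrix.of fun i j => (Function.update ℓ i₀ lam) i (v j)).submatrix i₀.succAbove
      j.succAbove = Matrix.of fun a c => (ℓ ∘ i₀.succAbove) a (j.removeNth v c) := by
    ext a c
    simp [Fin.removeNth]
  rw [h1]
  have h2 : (-1 : ℂ) ^ (i₀ : ℕ) * (-1 : ℂ) ^ ((i₀ : ℕ) + (j : ℕ)) = (-1 : ℂ) ^ (j : ℕ) := by
    rw [pow_add, ← mul_assoc, ← pow_add, ← two_mul, pow_mul]
    simp
  simp only [Matrix.of_apply, Function.update_self]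
  rw [← h2]
  ring

/-! ### `f · ℓ₀ ∧ ⋯ ∧ ℓ_{n-1}` and its exterior derivative -/

section cont

variable [FiniteDimensional ℂ V]

/-- The constant form `ℓ₀ ∧ ⋯ ∧ ℓ_{n-1}` as a continuous alternating map. -/
noncomputable def wedgeCont {n : ℕ} (ℓ : Fin n → V →ₗ[ℝ] ℂ) : V [⋀^Fin n]→L[ℝ] ℂ where
  toMultilinearMap := (wedgeOfForms ℓ).toMultilinearMap
  cont := by
    have h : (fun v : Fin n → V => wedgeOfForms ℓ v) =
        fun v => Matrix.det (Matrix.of fun i j => ℓ i (v j)) := funext (wedgeOfForms_eq_det ℓ)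
    change Continuous (fun v : Fin n → V => wedgeOfForms ℓ v)
    rw [h]
    refine Continuous.matrix_det ?_
    refine continuous_matrix fun i j => ?_
    exact (ℓ i).continuous_of_finiteDimensional.comp (continuous_apply j)
  map_eq_zero_of_eq' := (wedgeOfForms ℓ).map_eq_zero_of_eq'

@[simp] theorem wedgeCont_apply {n : ℕ} (ℓ : Fin n → V →ₗ[ℝ] ℂ) (v : Fin n → V) :
    wedgeCont ℓ v = wedgeOfForms ℓ v := rfl

/-- `c ↦ c ℓ₀ ∧ ⋯ ∧ ℓ_{n-1}`, as a continuous `ℝ`-linear map. -/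
noncomputable def smulWedge {n : ℕ} (ℓ : Fin n → V →ₗ[ℝ] ℂ) : ℂ →L[ℝ] (V [⋀^Fin n]→L[ℝ] ℂ) :=
  (ContinuousLinearMap.id ℝ ℂ).smulRight (wedgeCont ℓ)

theorem smulWedge_apply {n : ℕ} (ℓ : Fin n → V →ₗ[ℝ] ℂ) (c : ℂ) (v : Fin n → V) :
    smulWedge ℓ c v = c * wedgeOfForms ℓ v := rfl

/-- `d (f ℓ₀ ∧ ⋯ ∧ ℓ̂_{i₀} ∧ ⋯ ∧ ℓ_n) = ± ℓ₀ ∧ ⋯ ∧ df ∧ ⋯ ∧ ℓ_n` (`df` in the slot `i₀`). -/
theorem extDeriv_smul_wedgeCont {n : ℕ} (ℓ : Fin (n + 1) → V →ₗ[ℝ] ℂ) (i₀ : Fin (n + 1))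
    {f : V → ℂ} {x : V} {D : V →L[ℝ] ℂ} (hf : HasFDerivAt f D x) (v : Fin (n + 1) → V) :
    extDeriv (fun y => smulWedge (ℓ ∘ i₀.succAbove) (f y)) x v =
      (-1 : ℂ) ^ (i₀ : ℕ) * wedgeOfForms (Function.update ℓ i₀ (D : V →ₗ[ℝ] ℂ)) v := by
  have h : HasFDerivAt (fun y => smulWedge (ℓ ∘ i₀.succAbove) (f y))
      ((smulWedge (ℓ ∘ i₀.succAbove)).comp D) x :=
    (smulWedge (ℓ ∘ i₀.succAbove)).hasFDerivAt.comp x hf
  have hw : ∀ u : Fin n → V, HasFDerivAt (fun y => smulWedge (ℓ ∘ i₀.succAbove) (f y) u)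
      (wedgeOfForms (ℓ ∘ i₀.succAbove) u • D) x := fun u => hf.mul_const _
  rw [extDeriv_apply h.differentiableAt, ← sum_removeNth_wedgeOfForms]
  refine Finset.sum_congr rfl fun j _ => ?_
  rw [(hw _).fderiv]
  simp only [smul_apply, smul_eq_mul, ContinuousLinearMap.coe_coe]
  rcases Nat.even_or_odd (j : ℕ) with hj | hj
  · simp [hj.neg_one_pow, mul_comm]
  · simp [hj.neg_one_pow, mul_comm]

/-- Let `N = M μ : A → ℂ / (ℤ + ℤ τ)` be a homomorphism.  All multiples of a form `ℓ₀ ∧ ⋯ ∧ ℓ_n` with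
`ℓ_{j₀} = μ` and `ℓ_{i₀} = μ̄` restrict to zero on the complement of `N⁻¹ (zeros of θ_τ)`. -/
theorem restrictsToZero_wedgeOfForms_tau {τ : ℂ} (hτ0 : 0 < τ.im) {Λ : Submodule ℤ V}
    (N : V →L[ℂ] ℂ) (hN : ∀ l ∈ Λ, N l ∈ lattice (tauBasis τ hτ0.ne')) {M : ℕ} (hM : M ≠ 0)
    (μ : V →ₗ[ℝ] ℂ) (hNμ : ∀ v, N v = (M : ℂ) * μ v) {n : ℕ} (ℓ : Fin (n + 1) → V →ₗ[ℝ] ℂ)
    {i₀ j₀ : Fin (n + 1)} (hij : i₀ ≠ j₀) (hi : ℓ i₀ = conjForm μ) (hj : ℓ j₀ = μ) (c : ℂ) :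
    RestrictsToZero Λ (N ⁻¹' tauZeros τ) (c • wedgeOfForms ℓ) := by
  have hMc : (M : ℂ) ≠ 0 := by exact_mod_cast hM
  have hic : (τ.im : ℂ) ≠ 0 := by exact_mod_cast hτ0.ne'
  have hpi : (π : ℂ) ≠ 0 := by exact_mod_cast Real.pi_ne_zero
  set B : ℂ := -(π * M / (τ.im : ℂ)) with hB
  have hB0 : B ≠ 0 := by
    rw [hB]; exact neg_ne_zero.2 (div_ne_zero (mul_ne_zero hpi hMc) hic)
  have hs0 : ((-1 : ℂ) ^ (i₀ : ℕ)) ≠ 0 := pow_ne_zero _ (by norm_num)
  set c' : ℂ := c / ((-1 : ℂ) ^ (i₀ : ℕ) * B) with hc'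
  let NR : V →L[ℝ] ℂ := N.restrictScalars ℝ
  refine ⟨fun y => smulWedge (ℓ ∘ i₀.succAbove) (c' * tauLog τ (N y)), ?_, ?_, ?_⟩
  · refine (smulWedge (ℓ ∘ i₀.succAbove)).contDiff.comp_contDiffOn (contDiffOn_const.mul ?_)
    exact (tauLog_contDiffOn hτ0).comp (f := fun y => N y) NR.contDiff.contDiffOn (fun x hx => hx)
  · intro l hl x hx
    have : tauLog τ (N (l + x)) = tauLog τ (N x) := by
      rw [map_add]; exact tauLog_periodic hτ0 (hN l hl) hx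
    simp only [this]
  · intro x hx v
    obtain ⟨ℓ0, D, hD, hDv⟩ := tauLog_hasFDerivAt hτ0 (x := N x) hx
    have hf : HasFDerivAt (fun y => c' * tauLog τ (N y)) (c' • D.comp NR) x :=
      (hD.comp x NR.hasFDerivAt).const_mul c'
    rw [extDeriv_smul_wedgeCont ℓ i₀ hf v]
    have hlin : ((c' • D.comp NR : V →L[ℝ] ℂ) : V →ₗ[ℝ] ℂ) =
        (c' * M * (ℓ0 + π / (τ.im : ℂ))) • μ + (c' * B) • conjForm μ := by
      ext u
      have him : (((M : ℂ) * μ u).im : ℂ) =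
          (M : ℂ) * ((μ u - (starRingEnd ℂ) (μ u)) / (2 * I)) := by
        rw [Complex.sub_conj]
        have : ((M : ℂ) * μ u).im = (M : ℝ) * (μ u).im := by simp
        rw [this]
        push_cast
        field_simp
      simp only [ContinuousLinearMap.coe_coe, smul_apply, ContinuousLinearMap.comp_apply,
        LinearMap.add_apply, LinearMap.smul_apply, conjForm_apply, smul_eq_mul, hDv]
      change c' * (N u * ℓ0 + 2 * π * I / (τ.im : ℂ) * ((N u).im : ℂ)) = _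
      rw [hNμ, him, hB]
      field_simp
      ring
    rw [hlin, wedgeOfForms_update_add, wedgeOfForms_update_smul, wedgeOfForms_update_smul]
    have h1 : wedgeOfForms (Function.update ℓ i₀ μ) = 0 :=
      wedgeOfForms_eq_zero_of_eq _ hij (by
        rw [Function.update_self, Function.update_of_ne hij.symm, hj])
    have h2 : Function.update ℓ i₀ (conjForm μ) = ℓ := by rw [← hi, Function.update_eq_self]
    rw [h1, h2, smul_zero, zero_add, AlternatingMap.smul_apply, AlternatingMap.smul_apply,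
      smul_eq_mul, smul_eq_mul, hc']
    field_simp

end cont

/-! ### Polarisation in two slots -/

/-- `(x, y) ↦ ℓ₀ ∧ ⋯ ∧ x ∧ ⋯ ∧ y ∧ ⋯` (`x` in the slot `j₀`, `y` in the slot `i₀`), as a `ℂ`-bilinear map. -/
noncomputable def wedgeTwo {n : ℕ} (ℓ : Fin n → V →ₗ[ℝ] ℂ) {i₀ j₀ : Fin n} (hij : i₀ ≠ j₀) :
    (V →ₗ[ℝ] ℂ) →ₗ[ℂ] (V →ₗ[ℝ] ℂ) →ₗ[ℂ] Form V n :=
  LinearMap.mk₂ ℂ (fun x y => wedgeOfForms (Function.update (Function.update ℓ j₀ x) i₀ y))
    (fun x x' y => by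
      simp only [Function.update_comm hij.symm]
      exact wedgeOfForms_update_add _ _ _ _)
    (fun r x y => by
      simp only [Function.update_comm hij.symm]
      exact wedgeOfForms_update_smul _ _ _ _)
    (fun x y y' => wedgeOfForms_update_add _ _ _ _)
    (fun r x y => wedgeOfForms_update_smul _ _ _ _)

theorem wedgeTwo_apply {n : ℕ} (ℓ : Fin n → V →ₗ[ℝ] ℂ) {i₀ j₀ : Fin n} (hij : i₀ ≠ j₀)
    (x y : V →ₗ[ℝ] ℂ) :
    wedgeTwo ℓ hij x y = wedgeOfForms (Function.update (Function.update ℓ j₀ x) i₀ y) := rfl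

theorem wedgeTwo_self {n : ℕ} (ℓ : Fin n → V →ₗ[ℝ] ℂ) {i₀ j₀ : Fin n} (hij : i₀ ≠ j₀) :
    wedgeTwo ℓ hij (ℓ j₀) (ℓ i₀) = wedgeOfForms ℓ := by
  rw [wedgeTwo_apply, Function.update_eq_self, Function.update_eq_self]

/-- The polarisation identity. -/
theorem wedgeTwo_polarise (ρ : ℂ) (hρ : ρ.im ≠ 0) {n : ℕ} (ℓ : Fin n → V →ₗ[ℝ] ℂ) {i₀ j₀ : Fin n}
    (hij : i₀ ≠ j₀) (a c : V →ₗ[ℝ] ℂ) :
    wedgeTwo ℓ hij a (conjForm c) = (ρ - (starRingEnd ℂ) ρ)⁻¹ •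
      (ρ • (wedgeTwo ℓ hij (a + c) (conjForm (a + c)) - wedgeTwo ℓ hij a (conjForm a)
          - wedgeTwo ℓ hij c (conjForm c))
        - (wedgeTwo ℓ hij (a + ρ • c) (conjForm (a + ρ • c)) - wedgeTwo ℓ hij a (conjForm a)
          - (ρ * (starRingEnd ℂ) ρ) • wedgeTwo ℓ hij c (conjForm c))) := by
  have h0 : ρ - (starRingEnd ℂ) ρ ≠ 0 := by
    intro h
    have := congrArg Complex.im h
    simp at this
    exact hρ (by linarith)
  rw [eq_inv_smul_iff₀ h0]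
  simp only [conjForm_add, conjForm_smul, map_add, map_smul, LinearMap.add_apply,
    LinearMap.smul_apply]
  module

/-- The finitely many `ℂ`-linear forms used in the polarisation: `dz_a`, `dz_c`, `dz_a + dz_c`,
`dz_a + ρ dz_c`. -/
noncomputable def polFam {d : ℕ} (w : Basis (Fin d) ℂ V) (ρ : ℂ) (x : (Fin d × Fin d) × Fin 4) :
    V →ₗ[ℝ] ℂ :=
  ![(w.coord x.1.1).restrictScalars ℝ, (w.coord x.1.2).restrictScalars ℝ,
    (w.coord x.1.1).restrictScalars ℝ + (w.coord x.1.2).restrictScalars ℝ,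
    (w.coord x.1.1).restrictScalars ℝ + ρ • (w.coord x.1.2).restrictScalars ℝ] x.2

/-- The forms `ℓ₀ ∧ ⋯ ∧ ℓ_n` with `ℓ_{j₀} = μ` and `ℓ_{i₀} = μ̄` for some `i₀ ≠ j₀` and some `μ` in the finite
family `polFam`. -/
def goodForms {d : ℕ} (w : Basis (Fin d) ℂ V) (ρ : ℂ) (n : ℕ) : Set (Form V n) :=
  {φ | ∃ (x : (Fin d × Fin d) × Fin 4) (ℓ : Fin n → V →ₗ[ℝ] ℂ) (i₀ j₀ : Fin n), i₀ ≠ j₀ ∧
    ℓ i₀ = conjForm (polFam w ρ x) ∧ ℓ j₀ = polFam w ρ x ∧ φ = wedgeOfForms ℓ}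

theorem wedgeTwo_mem_goodForms {d : ℕ} (w : Basis (Fin d) ℂ V) (ρ : ℂ) {n : ℕ}
    (ℓ : Fin n → V →ₗ[ℝ] ℂ) {i₀ j₀ : Fin n} (hij : i₀ ≠ j₀) (x : (Fin d × Fin d) × Fin 4) :
    wedgeTwo ℓ hij (polFam w ρ x) (conjForm (polFam w ρ x)) ∈ goodForms w ρ n :=
  ⟨x, _, i₀, j₀, hij, by rw [Function.update_self],
    by rw [Function.update_of_ne hij.symm, Function.update_self], rfl⟩

/-- `H^{p,q}`, `p, q ≥ 1`, is spanned by the forms in `goodForms`. -/
theorem hodgePiece_le_span_goodForms {d : ℕ} (w : Basis (Fin d) ℂ V) (ρ : ℂ) (hρ : ρ.im ≠ 0)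
    {n p : ℕ} (hp1 : 1 ≤ p) (hpn : p ≤ n) :
    hodgePiece V p (n + 1) ≤ Submodule.span ℂ (goodForms w ρ (n + 1)) := by
  rw [hodgePiece, Submodule.span_le]
  rintro _ ⟨ℓ, h1, h2, rfl⟩
  have hij : Fin.last n ≠ (0 : Fin (n + 1)) := by
    intro h
    have := congrArg Fin.val h
    simp at this
    omega
  have hlin := eq_sum_coord_of_linear w (h1 0 (by simp only [Fin.val_zero]; omega))
  have hanti := eq_sum_conj_coord_of_antilinear w (h2 (Fin.last n) (by simpa using hpn))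
  have hgood : ∀ x, wedgeTwo ℓ hij (polFam w ρ x) (conjForm (polFam w ρ x)) ∈
      Submodule.span ℂ (goodForms w ρ (n + 1)) := fun x =>
    Submodule.subset_span (wedgeTwo_mem_goodForms w ρ ℓ hij x)
  have hpair : ∀ a c : Fin d, wedgeTwo ℓ hij ((w.coord a).restrictScalars ℝ)
      (conjForm ((w.coord c).restrictScalars ℝ)) ∈ Submodule.span ℂ (goodForms w ρ (n + 1)) := by
    intro a c
    rw [wedgeTwo_polarise ρ hρ]
    have g0 := hgood ((a, c), 0)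
    have g1 := hgood ((a, c), 1)
    have g2 := hgood ((a, c), 2)
    have g3 := hgood ((a, c), 3)
    simp only [polFam] at g0 g1 g2 g3
    refine Submodule.smul_mem _ _ (Submodule.sub_mem _ (Submodule.smul_mem _ _ ?_) ?_)
    · exact Submodule.sub_mem _ (Submodule.sub_mem _ g2 g0) g1
    · exact Submodule.sub_mem _ (Submodule.sub_mem _ g3 g0) (Submodule.smul_mem _ _ g1)
  change wedgeOfForms ℓ ∈ _
  rw [← wedgeTwo_self ℓ hij, hlin, hanti]
  simp only [map_sum, map_smul, LinearMap.sum_apply, LinearMap.smul_apply]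
  exact Submodule.sum_mem _ fun c _ => Submodule.smul_mem _ _
    (Submodule.sum_mem _ fun a _ => Submodule.smul_mem _ _ (hpair a c))

/-! ### The divisor -/

section divisor

variable [FiniteDimensional ℂ V] {ι : Type*}

/-- For a `ℂ`-linear form `μ` with values in `ℚ + ℚ ρ` on `Λ` there is a divisor `Z` such that all forms
`ℓ₀ ∧ ⋯ ∧ ℓ_n` with two factors `μ` and `μ̄` restrict to zero on `A ∖ Z`. -/
theorem exists_divisor_wedgeOfForms_quad (b : Basis ι ℝ V) (ρ : ℂ) (hρ : ρ.im ≠ 0)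
    (μ : V →ₗ[ℝ] ℂ) (hμ : μ ∈ quadForms b ρ) :
    ∃ Z : Set V, IsAlgebraicSubsetOfCodimGE (lattice b) 1 Z ∧
      ∀ (n : ℕ) (ℓ : Fin (n + 1) → V →ₗ[ℝ] ℂ) (i₀ j₀ : Fin (n + 1)), i₀ ≠ j₀ →
        ℓ i₀ = conjForm μ → ℓ j₀ = μ →
          ∀ c : ℂ, RestrictsToZero (lattice b) Z (c • wedgeOfForms ℓ) := by
  have := finite_index b
  obtain ⟨τ, hτ, hτ0, M, hM, hMx⟩ :=
    exists_tau_common_denominator ρ hρ (fun i => μ (b i)) hμ.2
  let m' : V →L[ℂ] ℂ := LinearMap.toContinuousLinearMap (complexify μ hμ.1)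
  let N : V →L[ℂ] ℂ := (M : ℂ) • m'
  have hNv : ∀ v, N v = (M : ℂ) * μ v := fun v => rfl
  have hN : ∀ l ∈ lattice b, N l ∈ lattice (tauBasis τ hτ0.ne') := by
    intro l hl
    have h2 : (lattice b).map (N.toLinearMap.restrictScalars ℤ) ≤ lattice (tauBasis τ hτ0.ne') := by
      rw [lattice, Submodule.map_span, Submodule.span_le]
      rintro _ ⟨_, ⟨i, rfl⟩, rfl⟩
      exact hMx i
    exact h2 ⟨l, hl, rfl⟩
  exact ⟨N ⁻¹' tauZeros τ, preimage_tauZeros_isAlgebraic hτ hτ0 b N hN,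
    fun n ℓ i₀ j₀ hij hi hj c => restrictsToZero_wedgeOfForms_tau hτ0 N hN hM μ hNv ℓ hij hi hj c⟩

omit [FiniteDimensional ℂ V] in
theorem polFam_mem_quadForms (b : Basis ι ℝ V) {d : ℕ} (w : Basis (Fin d) ℂ V) (ρ : ℂ)
    (hρ2 : ∃ r s : ℚ, ρ ^ 2 = r + s * ρ) (hb : ∀ i k, ∃ r s : ℚ, w.repr (b i) k = r + s * ρ)
    (x : (Fin d × Fin d) × Fin 4) : polFam w ρ x ∈ quadForms b ρ := by
  have hcoord : ∀ k, (w.coord k).restrictScalars ℝ ∈ quadForms b ρ := by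
    intro k
    refine ⟨fun v => by simp, fun i => ?_⟩
    simpa using hb i k
  obtain ⟨⟨a, c⟩, t⟩ := x
  fin_cases t
  · exact hcoord a
  · exact hcoord c
  · exact (quadForms b ρ).add_mem (hcoord a) (hcoord c)
  · exact (quadForms b ρ).add_mem (hcoord a) (smul_mem_quadForms b hρ2 (hcoord c))

/-- The classes which restrict to zero on `A ∖ Z`, `Z` closed, form a complex subspace of `H^k(A,ℂ)`. -/
def restrictKer (Λ : Submodule ℤ V) {Z : Set V} (hZ : IsClosed Z) (k : ℕ) :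
    Submodule ℂ (Form V k) where
  carrier := {φ | RestrictsToZero Λ Z φ}
  add_mem' := fun hx hy => hx.add hZ hy
  zero_mem' := restrictsToZero_zero _ _
  smul_mem' := fun c _ hx => hx.smul hZ c

/-- **One divisor kills `⊕_{p,q ≥ 1} H^{p,q}(A)`, in all degrees**, for every complex torus `A` whose period
matrix has entries in an imaginary quadratic field `ℚ + ℚ ρ`. -/
theorem exists_divisor_hodgePiece_quad (b : Basis ι ℝ V) {d : ℕ} (w : Basis (Fin d) ℂ V)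
    (ρ : ℂ) (hρ : ρ.im ≠ 0) (hρ2 : ∃ r s : ℚ, ρ ^ 2 = r + s * ρ)
    (hb : ∀ i k, ∃ r s : ℚ, w.repr (b i) k = r + s * ρ) :
    ∃ Z : Set V, IsAlgebraicSubsetOfCodimGE (lattice b) 1 Z ∧
      ∀ k p : ℕ, 1 ≤ p → p + 1 ≤ k → ∀ φ ∈ hodgePiece V p k, RestrictsToZero (lattice b) Z φ := by
  have h3 := fun x => exists_divisor_wedgeOfForms_quad b ρ hρ (polFam w ρ x)
    (polFam_mem_quadForms b w ρ hρ2 hb x)
  choose Z hZ hZr using h3
  have hU : IsAlgebraicSubsetOfCodimGE (lattice b) 1 (⋃ x, Z x) :=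
    IsAlgebraicSubsetOfCodimGE.iUnion hZ
  have hcl : IsClosed (⋃ x, Z x) := hU.isClosed
  refine ⟨⋃ x, Z x, hU, fun k p hp1 hpk φ hφ => ?_⟩
  obtain ⟨n, rfl⟩ : ∃ n, k = n + 1 := ⟨k - 1, by omega⟩
  have h4 : Submodule.span ℂ (goodForms w ρ (n + 1)) ≤ restrictKer (lattice b) hcl (n + 1) := by
    rw [Submodule.span_le]
    rintro _ ⟨x, ℓ, i₀, j₀, hij, hi, hj, rfl⟩
    have := (hZr x n ℓ i₀ j₀ hij hi hj 1).mono (Set.subset_iUnion Z x)
    rwa [one_smul] at this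
  exact h4 (hodgePiece_le_span_goodForms w ρ hρ hp1 (by omega) hφ)

/-- **The conclusion of `GeneralizedHodgeCM` for `r = 1`, in every degree `k`**, for every complex torus whose
period matrix has entries in an imaginary quadratic field: a rational Hodge substructure `W ⊆ H^k(A,ℚ)` such
that `W(1)` is effective restricts to zero on the complement of a divisor. -/
theorem generalizedHodge_one_of_quadratic_periods (b : Basis ι ℝ V) {d : ℕ}
    (w : Basis (Fin d) ℂ V) (ρ : ℂ) (hρ : ρ.im ≠ 0) (hρ2 : ∃ r s : ℚ, ρ ^ 2 = r + s * ρ)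
    (hb : ∀ i k, ∃ r s : ℚ, w.repr (b i) k = r + s * ρ) (k : ℕ)
    (W : Submodule ℚ (Form V k)) (hW : IsHodgeSubstructure (lattice b) W)
    (hr : IsEffectiveTwist W 1) :
    ∃ Z : Set V, IsAlgebraicSubsetOfCodimGE (lattice b) 1 Z ∧
      ∀ φ ∈ W, RestrictsToZero (lattice b) Z φ := by
  obtain ⟨Z, hZ, h⟩ := exists_divisor_hodgePiece_quad b w ρ hρ hρ2 hb
  refine ⟨Z, hZ, fun φ hφ => ?_⟩
  have h1 : complexSpan W ≤ restrictKer (lattice b) hZ.isClosed k := by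
    refine hW.decomp.trans (iSup_le fun p => ?_)
    have hp := p.2
    by_cases hp1 : 1 ≤ (p : ℕ) ∧ (p : ℕ) + 1 ≤ k
    · exact inf_le_right.trans fun ψ hψ => h k p hp1.1 hp1.2 ψ hψ
    · rw [hr p (k - p) (by omega) (by omega)]
      exact bot_le
  exact h1 (Submodule.subset_span hφ)

/-- **The conclusion of `GeneralizedHodgeCM` for all `k`, all `r ≤ 1` and all `W`**, for every complex torus whose
period matrix has entries in an imaginary quadratic field, i.e. for all abelian varieties isogenous to a power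
of a CM elliptic curve. -/
theorem generalizedHodge_le_one_of_quadratic_periods (b : Basis ι ℝ V) {d : ℕ}
    (w : Basis (Fin d) ℂ V) (ρ : ℂ) (hρ : ρ.im ≠ 0) (hρ2 : ∃ r s : ℚ, ρ ^ 2 = r + s * ρ)
    (hb : ∀ i k, ∃ r s : ℚ, w.repr (b i) k = r + s * ρ) (k : ℕ) {r : ℕ} (hr1 : r ≤ 1)
    (W : Submodule ℚ (Form V k)) (hW : IsHodgeSubstructure (lattice b) W)
    (hr : IsEffectiveTwist W r) :
    ∃ Z : Set V, IsAlgebraicSubsetOfCodimGE (lattice b) r Z ∧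
      ∀ φ ∈ W, RestrictsToZero (lattice b) Z φ := by
  rcases Nat.eq_zero_or_pos r with rfl | hr0
  · exact generalizedHodge_of_r_eq_zero _ W
  obtain rfl : r = 1 := by omega
  exact generalizedHodge_one_of_quadratic_periods b w ρ hρ hρ2 hb k W hW hr

end divisor

end Claimed.Open.R032
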