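import Claimed.Open.R032.SanityCycles
import Claimed.Open.R032.SanityWedge

/-!
# Sanity checks for R032: Poincaré duality on the torus

`IsCycleClass b p d Z c` asks that `∫_A c ∧ ψ = ∫_Z ψ` for all `ψ ∈ H^{2d}(A,ℂ)`.  Here we check that
this determines the class `c`:

* `exists_wedge_apply_ne_zero`: the wedge pairing `H^a × H^k → H^{a+k}`, `a + k = 2 dim A`, is
  nondegenerate on the left;
* `eq_zero_of_integralOver_wedge_eq_zero`: if `∫_A c ∧ ψ = 0` for all `ψ` then `c = 0`;
* `IsCycleClass.unique`: a set `Z` has at most one cycle class;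
* `poincarePairing_isPerfPair`: Poincaré duality, the pairing `(c, ψ) ↦ ∫_A c ∧ ψ` is perfect;
* `exists_isCycleClass`: `Z` has a cycle class as soon as `ψ ↦ ∫_Z ψ` is linear.

The file also contains the bilinearity of `wedge` (`wedgeLM`) and its expression as a sum over all
permutations (`factorial_mul_wedge_apply`).
-/

open MeasureTheory Module

namespace Claimed.Open.R032

variable {V : Type*} [NormedAddCommGroup V] [InnerProductSpace ℂ V]

/-! ### Bilinearity of the wedge product -/

theorem wedge_add_left {a k : ℕ} (α α' : Form V a) (β : Form V k) :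
    wedge (α + α') β = wedge α β + wedge α' β := by
  ext v
  simp only [wedge, AlternatingMap.domDomCongr_apply, LinearMap.compAlternatingMap_apply,
    AlternatingMap.add_apply, ← AlternatingMap.domCoprod'_apply, TensorProduct.add_tmul, map_add]

theorem wedge_add_right {a k : ℕ} (α : Form V a) (β β' : Form V k) :
    wedge α (β + β') = wedge α β + wedge α β' := by
  ext v
  simp only [wedge, AlternatingMap.domDomCongr_apply, LinearMap.compAlternatingMap_apply,
    AlternatingMap.add_apply, ← AlternatingMap.domCoprod'_apply, TensorProduct.tmul_add, map_add]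

/-- The wedge product as a sum over all permutations (instead of shuffles). -/
theorem factorial_mul_wedge_apply {a k : ℕ} (α : Form V a) (β : Form V k) (v : Fin (a + k) → V) :
    ((a.factorial * k.factorial : ℕ) : ℂ) * wedge α β v
      = ∑ σ : Equiv.Perm (Fin a ⊕ Fin k), Equiv.Perm.sign σ •
          (α (fun i => v (finSumFinEquiv (σ (Sum.inl i))))
            * β (fun j => v (finSumFinEquiv (σ (Sum.inr j))))) := by
  have h := congrArg (fun f => LinearMap.mul' ℝ ℂ (f (v ∘ finSumFinEquiv)))
    (MultilinearMap.domCoprod_alternization_eq α β)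
  simp only [MultilinearMap.alternatization_apply, Fintype.card_fin, AlternatingMap.smul_apply,
    map_sum, map_nsmul] at h
  rw [wedge, AlternatingMap.domDomCongr_apply, LinearMap.compAlternatingMap_apply,
    ← nsmul_eq_mul, ← h]
  refine Finset.sum_congr rfl fun σ _ => ?_
  rw [Units.smul_def, Units.smul_def, map_zsmul]
  simp

theorem wedge_smul_left {a k : ℕ} (z : ℂ) (α : Form V a) (β : Form V k) :
    wedge (z • α) β = z • wedge α β := by
  ext v
  have h0 : ((a.factorial * k.factorial : ℕ) : ℂ) ≠ 0 :=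
    Nat.cast_ne_zero.2 (Nat.mul_ne_zero a.factorial_ne_zero k.factorial_ne_zero)
  apply mul_left_cancel₀ h0
  rw [AlternatingMap.smul_apply, smul_eq_mul, mul_left_comm, factorial_mul_wedge_apply,
    factorial_mul_wedge_apply, Finset.mul_sum]
  refine Finset.sum_congr rfl fun σ _ => ?_
  simp only [AlternatingMap.smul_apply, smul_eq_mul, Units.smul_def, zsmul_eq_mul]
  ring

theorem wedge_smul_right {a k : ℕ} (z : ℂ) (α : Form V a) (β : Form V k) :
    wedge α (z • β) = z • wedge α β := by
  ext v
  have h0 : ((a.factorial * k.factorial : ℕ) : ℂ) ≠ 0 :=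
    Nat.cast_ne_zero.2 (Nat.mul_ne_zero a.factorial_ne_zero k.factorial_ne_zero)
  apply mul_left_cancel₀ h0
  rw [AlternatingMap.smul_apply, smul_eq_mul, mul_left_comm, factorial_mul_wedge_apply,
    factorial_mul_wedge_apply, Finset.mul_sum]
  refine Finset.sum_congr rfl fun σ _ => ?_
  simp only [AlternatingMap.smul_apply, smul_eq_mul, Units.smul_def, zsmul_eq_mul]
  ring

/-- The wedge product as a `ℂ`-bilinear map. -/
noncomputable def wedgeLM (V : Type*) [NormedAddCommGroup V] [InnerProductSpace ℂ V] (a k : ℕ) :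
    Form V a →ₗ[ℂ] Form V k →ₗ[ℂ] Form V (a + k) :=
  LinearMap.mk₂ ℂ wedge wedge_add_left wedge_smul_left wedge_add_right wedge_smul_right

@[simp] theorem wedgeLM_apply {a k : ℕ} (α : Form V a) (β : Form V k) :
    wedgeLM V a k α β = wedge α β := rfl

/-! ### The mirror image of the wedge evaluation lemma -/

section
variable {ιa ιb : Type*} [Fintype ιa] [Fintype ιb] [DecidableEq ιa] [DecidableEq ιb]

open TensorProduct in
theorem domCoprod_apply_of_vanish_right {R M N₁ N₂ : Type*} [CommSemiring R] [AddCommGroup N₁]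
    [Module R N₁] [AddCommGroup N₂] [Module R N₂] [AddCommMonoid M] [Module R M]
    (a : M [⋀^ιa]→ₗ[R] N₁) (b : M [⋀^ιb]→ₗ[R] N₂) (v : ιa ⊕ ιb → M)
    (h : ∀ u : ιb → M, (∃ i j, u i = v (Sum.inl j)) → b u = 0) :
    a.domCoprod b v = a (fun i => v (Sum.inl i)) ⊗ₜ[R] b (fun i => v (Sum.inr i)) := by
  rw [AlternatingMap.domCoprod_apply, _root_.sum_apply]
  refine (Finset.sum_eq_single (Quotient.mk'' 1 : Equiv.Perm.ModSumCongr ιa ιb) ?_ ?_).trans ?_
  rotate_left
  · intro h; exact absurd (Finset.mem_univ _) h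
  · rw [AlternatingMap.domCoprod.summand_mk'']
    simp
  · intro σ _ hσ
    induction σ using Quotient.inductionOn' with
    | h σ =>
      rw [AlternatingMap.domCoprod.summand_mk'']
      by_cases hm : Set.MapsTo σ (Set.range Sum.inl) (Set.range Sum.inl)
      · exfalso
        apply hσ
        have := Equiv.Perm.mem_sumCongrHom_range_of_perm_mapsTo_inl hm
        apply Quotient.sound'
        rw [QuotientGroup.leftRel_apply]
        simpa using (Subgroup.inv_mem _ this)
      · rw [Equiv.Perm.perm_mapsTo_inl_iff_mapsTo_inr] at hm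
        have : ∃ i j, σ (Sum.inr i) = Sum.inl j := by
          by_contra hcon
          push Not at hcon
          apply hm
          rintro _ ⟨i, rfl⟩
          rcases hx : σ (Sum.inr i) with l | r
          · exact absurd hx (hcon i l)
          · exact ⟨r, rfl⟩
        obtain ⟨i, j, hij⟩ := this
        have h0 : b (fun i => v (σ (Sum.inr i))) = 0 := h _ ⟨i, j, by rw [hij]⟩
        simp [h0]

end

/-- If `β` vanishes as soon as one of its arguments is one of the first `a` vectors of the family
`v`, then `(α ∧ β)(v) = α(v₀, …, v_{a-1}) β(v_a, …, v_{a+k-1})`. -/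
theorem wedge_apply_of_vanish_right {a k : ℕ} (α : Form V a) (β : Form V k) (v : Fin (a + k) → V)
    (h : ∀ u : Fin k → V, (∃ i j, u i = v (Fin.castAdd k j)) → β u = 0) :
    wedge α β v = α (v ∘ Fin.castAdd k) * β (v ∘ Fin.natAdd a) := by
  rw [wedge, AlternatingMap.domDomCongr_apply, LinearMap.compAlternatingMap_apply,
    domCoprod_apply_of_vanish_right]
  · simp [Function.comp_def]
  · rintro u ⟨i, j, hij⟩
    exact h u ⟨i, j, by simpa using hij⟩

theorem wedge_wedgeOfForms_apply_of_dual_right {a k : ℕ} (α : Form V a) (ℓ : Fin k → V →ₗ[ℝ] ℂ)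
    (v : Fin (a + k) → V)
    (h₁ : ∀ i j, ℓ i (v (Fin.natAdd a j)) = if i = j then 1 else 0)
    (h₂ : ∀ i j, ℓ i (v (Fin.castAdd k j)) = 0) :
    wedge α (wedgeOfForms ℓ) v = α (v ∘ Fin.castAdd k) := by
  rw [wedge_apply_of_vanish_right, wedgeOfForms_apply_of_dual ℓ (v ∘ Fin.natAdd a) h₁, mul_one]
  rintro u ⟨i, j, hij⟩
  exact wedgeOfForms_apply_eq_zero ℓ u i fun r => by rw [hij, h₂]

/-! ### Nondegeneracy -/

theorem sumExtend_inl {K W ι : Type*} [Field K] [AddCommGroup W] [Module K W] {v : ι → W}
    (hs : LinearIndependent K v) (i : ι) : Basis.sumExtend hs (Sum.inl i) = v i := by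
  simp only [Basis.sumExtend, Basis.reindex_apply, Basis.extend_apply_self]
  rfl

/-- A linearly independent family of `a` vectors is the beginning of a basis. -/
theorem exists_basis_castAdd {W : Type*} [AddCommGroup W] [Module ℝ W] [FiniteDimensional ℝ W]
    {a k : ℕ} (hak : a + k = finrank ℝ W) (v : Fin a → W) (hv : LinearIndependent ℝ v) :
    ∃ B : Basis (Fin (a + k)) ℝ W, ∀ i, B (Fin.castAdd k i) = v i := by
  classical
  let B₀ := Basis.sumExtend hv
  have : Fintype (Basis.sumExtendIndex hv) := by
    have : Finite (Fin a ⊕ Basis.sumExtendIndex hv) := Module.Finite.finite_basis B₀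
    have : Finite (Basis.sumExtendIndex hv) := Finite.sum_right (Fin a)
    exact Fintype.ofFinite _
  have hcard : Fintype.card (Basis.sumExtendIndex hv) = k := by
    have := Module.finrank_eq_card_basis B₀
    rw [Fintype.card_sum, Fintype.card_fin] at this
    omega
  let e : Basis.sumExtendIndex hv ≃ Fin k := Fintype.equivFinOfCardEq hcard
  refine ⟨B₀.reindex ((Equiv.sumCongr (Equiv.refl _) e).trans finSumFinEquiv), fun i => ?_⟩
  rw [Basis.reindex_apply]
  simp [B₀, sumExtend_inl]

variable [FiniteDimensional ℂ V]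

/-- The wedge pairing between forms of complementary degrees is nondegenerate. -/
theorem exists_wedge_apply_ne_zero {a k : ℕ} (hak : a + k = 2 * finrank ℂ V) (c : Form V a)
    (hc : c ≠ 0) : ∃ (ψ : Form V k) (v : Fin (a + k) → V), wedge c ψ v ≠ 0 := by
  have := FiniteDimensional.complexToReal V
  obtain ⟨v₀, hv₀⟩ : ∃ v₀, c v₀ ≠ 0 := by
    by_contra hcon
    push Not at hcon
    exact hc (AlternatingMap.ext hcon)
  have hli : LinearIndependent ℝ v₀ := by
    by_contra h
    exact hv₀ (c.map_linearDependent v₀ h)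
  obtain ⟨B, hB⟩ := exists_basis_castAdd (by rw [hak, finrank_real_of_complex]) v₀ hli
  refine ⟨wedgeOfForms fun j => Complex.ofRealCLM.toLinearMap ∘ₗ B.coord (Fin.natAdd a j), B, ?_⟩
  rw [wedge_wedgeOfForms_apply_of_dual_right]
  · have : (B ∘ Fin.castAdd k) = v₀ := funext hB
    rw [this]; exact hv₀
  · intro i j
    by_cases hij : i = j
    · subst hij; simp
    · have : Fin.natAdd a j ≠ Fin.natAdd a i := fun h => hij ((Fin.natAdd_inj a).1 h).symm
      simp [hij, Finsupp.single_eq_of_ne this.symm]
  · intro i j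
    have : Fin.castAdd k j ≠ Fin.natAdd a i := by
      intro h
      have := congrArg Fin.val h
      simp at this
      omega
    simp [Finsupp.single_eq_of_ne this.symm]

/-! ### Uniqueness of the cycle class -/

section integral

variable [MeasurableSpace V] [BorelSpace V] {ι : Type*} (b : Basis ι ℝ V)

/-- `∫_A` is injective on forms of top degree. -/
theorem eq_zero_of_integralOver_univ_eq_zero {n : ℕ} (hn : n = 2 * finrank ℂ V) (φ : Form V n)
    (h : integralOver b Set.univ φ = 0) : φ = 0 := by
  have := finite_index b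
  have := Fintype.ofFinite ι
  have hcard : Fintype.card ι = n := by
    rw [← Module.finrank_eq_card_basis b, finrank_real_of_complex, hn]
  let σ : ι ≃ Fin n := Fintype.equivFinOfCardEq hcard
  obtain ⟨ε, hε, hint⟩ := integralOver_univ_eq b hn σ
  have hε0 : (ε : ℂ) ≠ 0 := by
    rcases hε with h | h <;> simp [h]
  have h1 : φ (b ∘ σ.symm) = 0 := by
    have := hint φ
    rw [h] at this
    exact (mul_eq_zero.1 this.symm).resolve_left hε0
  ext v
  rw [form_eq_det_mul (b.reindex σ) φ v, b.coe_reindex, h1]
  simp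

/-- `∫_A` is additive. -/
theorem integralOver_univ_add {n : ℕ} (φ φ' : Form V n) :
    integralOver b Set.univ (φ + φ') = integralOver b Set.univ φ + integralOver b Set.univ φ' := by
  rw [integralOver_univ, integralOver_univ, integralOver_univ, ← mul_add]
  congr 1
  unfold evalOn
  split_ifs <;> simp

theorem integralOver_univ_smul {n : ℕ} (z : ℂ) (φ : Form V n) :
    integralOver b Set.univ (z • φ) = z * integralOver b Set.univ φ := by
  rw [integralOver_univ, integralOver_univ, mul_left_comm]
  congr 1
  unfold evalOn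
  split_ifs <;> simp

/-- Poincaré duality is nondegenerate: if `∫_A c ∧ ψ = 0` for all `ψ` then `c = 0`. -/
theorem eq_zero_of_integralOver_wedge_eq_zero {a k : ℕ} (hak : a + k = 2 * finrank ℂ V)
    (c : Form V a) (h : ∀ ψ : Form V k, integralOver b Set.univ (wedge c ψ) = 0) : c = 0 := by
  by_contra hc
  obtain ⟨ψ, v, hv⟩ := exists_wedge_apply_ne_zero hak c hc
  apply hv
  rw [eq_zero_of_integralOver_univ_eq_zero b hak _ (h ψ)]
  rfl

/-- A set `Z` has at most one cycle class: `IsCycleClass` determines `c`. -/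
theorem IsCycleClass.unique {p d : ℕ} (hpd : p + d = finrank ℂ V) {Z : Set V}
    {c c' : Form V (2 * p)} (h : IsCycleClass b p d Z c) (h' : IsCycleClass b p d Z c') :
    c = c' := by
  rw [← sub_eq_zero]
  apply eq_zero_of_integralOver_wedge_eq_zero b (k := 2 * d) (by omega)
  intro ψ
  have h1 : wedge (c - c') ψ = wedge c ψ + (-1 : ℂ) • wedge c' ψ := by
    rw [← wedge_smul_left, ← wedge_add_left]
    congr 1
    simp [sub_eq_add_neg]
  rw [h1, integralOver_univ_add, integralOver_univ_smul, h ψ, h' ψ]
  ring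

/-! ### Existence of the cycle class -/

omit [MeasurableSpace V] [BorelSpace V] in
theorem finiteDimensional_form (n : ℕ) : FiniteDimensional ℂ (Form V n) := by
  have := FiniteDimensional.complexToReal V
  have h1 : FiniteDimensional ℝ (Form V n) :=
    FiniteDimensional.of_injective
      (AlternatingMap.toMultilinearMapLM (S := ℝ) (R := ℝ) (M := V) (N := ℂ) (ι := Fin n))
      AlternatingMap.coe_multilinearMap_injective
  exact Module.Finite.of_restrictScalars_finite ℝ ℂ (Form V n)

omit [MeasurableSpace V] [BorelSpace V] in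
/-- The wedge pairing between forms of complementary degrees is nondegenerate on the right. -/
theorem exists_wedge_apply_ne_zero_right {a k : ℕ} (hak : a + k = 2 * finrank ℂ V) (ψ : Form V k)
    (hψ : ψ ≠ 0) : ∃ (c : Form V a) (v : Fin (a + k) → V), wedge c ψ v ≠ 0 := by
  have := FiniteDimensional.complexToReal V
  obtain ⟨v₀, hv₀⟩ : ∃ v₀, ψ v₀ ≠ 0 := by
    by_contra hcon
    push Not at hcon
    exact hψ (AlternatingMap.ext hcon)
  have hli : LinearIndependent ℝ v₀ := by
    by_contra h
    exact hv₀ (ψ.map_linearDependent v₀ h)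
  obtain ⟨B₀, hB₀⟩ := exists_basis_castAdd (k := a) (by rw [add_comm, hak, finrank_real_of_complex])
    v₀ hli
  let B : Basis (Fin (a + k)) ℝ V := B₀.reindex finAddFlip
  have hB : ∀ i, B (Fin.natAdd a i) = v₀ i := by
    intro i
    rw [Basis.reindex_apply, ← hB₀]
    congr 1
    rw [Equiv.symm_apply_eq]
    simp
  refine ⟨wedgeOfForms fun j => Complex.ofRealCLM.toLinearMap ∘ₗ B.coord (Fin.castAdd k j), B, ?_⟩
  rw [wedge_wedgeOfForms_apply_of_dual]
  · have : (B ∘ Fin.natAdd a) = v₀ := funext hB
    rw [this]; exact hv₀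
  · intro i j
    by_cases hij : i = j
    · subst hij; simp
    · have : Fin.castAdd k j ≠ Fin.castAdd k i := fun h => hij ((Fin.castAdd_inj).1 h).symm
      simp [hij, Finsupp.single_eq_of_ne this.symm]
  · intro i j
    have : Fin.natAdd a j ≠ Fin.castAdd k i := by
      intro h
      have := congrArg Fin.val h
      simp at this
      omega
    simp [Finsupp.single_eq_of_ne this.symm]

/-- `∫_A` as a linear form. -/
noncomputable def integralLM (n : ℕ) : Form V n →ₗ[ℂ] ℂ where
  toFun φ := integralOver b Set.univ φ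
  map_add' := integralOver_univ_add b
  map_smul' := integralOver_univ_smul b

/-- The Poincaré pairing `(c, ψ) ↦ ∫_A c ∧ ψ`. -/
noncomputable def poincarePairing (a k : ℕ) : Form V a →ₗ[ℂ] Form V k →ₗ[ℂ] ℂ :=
  (wedgeLM V a k).compr₂ (integralLM b (a + k))

theorem poincarePairing_apply {a k : ℕ} (c : Form V a) (ψ : Form V k) :
    poincarePairing b a k c ψ = integralOver b Set.univ (wedge c ψ) := rfl

/-- **Poincaré duality** for the torus `A`: the pairing `H^a(A,ℂ) × H^k(A,ℂ) → ℂ`,
`(c, ψ) ↦ ∫_A c ∧ ψ`, is perfect for `a + k = 2 dim A`. -/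
theorem poincarePairing_isPerfPair {a k : ℕ} (hak : a + k = 2 * finrank ℂ V) :
    (poincarePairing b a k).IsPerfPair := by
  have := finiteDimensional_form (V := V) a
  apply LinearMap.IsPerfPair.of_injective
  · rw [← LinearMap.ker_eq_bot, LinearMap.ker_eq_bot']
    intro c hc
    apply eq_zero_of_integralOver_wedge_eq_zero b hak
    intro ψ
    rw [← poincarePairing_apply, hc]
    rfl
  · rw [← LinearMap.ker_eq_bot, LinearMap.ker_eq_bot']
    intro ψ hψ
    by_contra hne
    obtain ⟨c, v, hv⟩ := exists_wedge_apply_ne_zero_right hak ψ hne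
    apply hv
    have h0 : integralOver b Set.univ (wedge c ψ) = 0 := by
      rw [← poincarePairing_apply, ← LinearMap.flip_apply, hψ]
      rfl
    rw [eq_zero_of_integralOver_univ_eq_zero b hak _ h0]
    rfl

/-- Every linear form on `H^{2d}(A,ℂ)` is `ψ ↦ ∫_A c ∧ ψ` for a class `c ∈ H^{2p}(A,ℂ)`.  Hence a
set `Z` has a cycle class as soon as `ψ ↦ ∫_Z ψ` is linear. -/
theorem exists_isCycleClass {p d : ℕ} (hpd : p + d = finrank ℂ V) {Z : Set V}
    (T : Form V (2 * d) →ₗ[ℂ] ℂ) (hT : ∀ ψ, integralOver b Z ψ = T ψ) :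
    ∃ c : Form V (2 * p), IsCycleClass b p d Z c := by
  have := poincarePairing_isPerfPair b (a := 2 * p) (k := 2 * d) (by omega)
  obtain ⟨c, hc⟩ := (LinearMap.IsPerfPair.bijective_left (poincarePairing b (2 * p) (2 * d))).2 T
  refine ⟨c, fun ψ => ?_⟩
  rw [hT, ← hc]
  rfl

end integral

end Claimed.Open.R032
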