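import Claimed.Open.R032.Statement

/-!
# Sanity checks for R032, part A: the hypotheses of `Statement` can be met

* `gauss_isPolarizable`, `gauss_isCM`: the elliptic curve `ℂ / ℤ[i]` (period basis `(1, i)`) is
  polarisable and of CM type (by `ℚ(i)`).
-/

open Module Complex

namespace Claimed.Open.R032

theorem mem_lattice_basisOneI (z : ℂ) :
    z ∈ lattice Complex.basisOneI ↔ ∃ m n : ℤ, z = (m : ℂ) + (n : ℂ) * I := by
  unfold lattice
  constructor
  · intro hz
    induction hz using Submodule.span_induction with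
    | mem x hx =>
      obtain ⟨i, rfl⟩ := hx
      fin_cases i
      · exact ⟨1, 0, by simp⟩
      · exact ⟨0, 1, by simp⟩
    | zero => exact ⟨0, 0, by simp⟩
    | add x y _ _ hx hy =>
      obtain ⟨m, n, rfl⟩ := hx
      obtain ⟨m', n', rfl⟩ := hy
      exact ⟨m + m', n + n', by push_cast; ring⟩
    | smul a x _ hx =>
      obtain ⟨m, n, rfl⟩ := hx
      exact ⟨a * m, a * n, by simp [zsmul_eq_mul]; ring⟩
  · rintro ⟨m, n, rfl⟩
    have h1 : (1 : ℂ) ∈ Submodule.span ℤ (Set.range Complex.basisOneI) :=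
      Submodule.subset_span ⟨0, by simp⟩
    have h2 : I ∈ Submodule.span ℤ (Set.range Complex.basisOneI) :=
      Submodule.subset_span ⟨1, by simp⟩
    have := Submodule.add_mem _ (Submodule.smul_mem _ m h1) (Submodule.smul_mem _ n h2)
    simpa [zsmul_eq_mul] using this

/-- The standard Riemann form `E(z,w) = Im (z * conj w)` on `ℂ`. -/
noncomputable def gaussForm : ℂ →ₗ[ℝ] ℂ →ₗ[ℝ] ℝ :=
  LinearMap.mk₂ ℝ (fun z w => z.im * w.re - z.re * w.im)
    (by intro a b c; simp; ring) (by intro r a b; simp; ring)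
    (by intro a b c; simp; ring) (by intro r a b; simp; ring)

theorem gaussForm_apply (z w : ℂ) : gaussForm z w = z.im * w.re - z.re * w.im := rfl

theorem gauss_isRiemannForm : IsRiemannForm (lattice Complex.basisOneI) gaussForm where
  alt v := by simp [gaussForm_apply]; ring
  integral v hv w hw := by
    obtain ⟨m, n, rfl⟩ := (mem_lattice_basisOneI v).1 hv
    obtain ⟨m', n', rfl⟩ := (mem_lattice_basisOneI w).1 hw
    exact ⟨n * m' - m * n', by simp [gaussForm_apply]; ring⟩
  compat v w := by simp [gaussForm_apply]; ring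
  pos v hv := by
    have : 0 < Complex.normSq v := Complex.normSq_pos.2 hv
    simp only [gaussForm_apply, smul_eq_mul, Complex.mul_re, Complex.mul_im, Complex.I_re,
      Complex.I_im]
    rw [Complex.normSq_apply] at this
    nlinarith

/-- `ℂ / ℤ[i]` is an abelian variety. -/
theorem gauss_isPolarizable : IsPolarizable (lattice Complex.basisOneI) :=
  ⟨gaussForm, gauss_isRiemannForm⟩

instance fact_gauss : Fact (∀ r : ℚ, r ^ 2 ≠ (-1 : ℚ) + 0 * r) :=
  ⟨fun r h => by nlinarith [sq_nonneg r]⟩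

/-- The embedding `ℚ(i) → ℂ`. -/
noncomputable def gaussEmb : QuadraticAlgebra ℚ (-1) 0 →ₐ[ℚ] ℂ :=
  QuadraticAlgebra.lift ⟨I, by simp⟩

theorem gaussEmb_apply (a : QuadraticAlgebra ℚ (-1) 0) :
    gaussEmb a = (a.re : ℂ) + (a.im : ℂ) * I := by
  have h : gaussEmb a = a.re • (1 : ℂ) + a.im • I := rfl
  rw [h]
  simp [Rat.smul_def]

/-- `ℂ / ℤ[i]` has complex multiplication by `ℚ(i)`. -/
theorem gauss_isCM : IsCM (lattice Complex.basisOneI) := by
  refine ⟨QuadraticAlgebra ℚ (-1) 0, inferInstance, inferInstance,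
    (algebraMap ℂ (Module.End ℂ ℂ)).comp gaussEmb.toRingHom, inferInstance, ?_, ?_, ?_⟩
  · rw [QuadraticAlgebra.finrank_eq_two]; simp
  · exact RingHom.injective _
  · intro a
    refine ⟨a.re.den * a.im.den, by positivity, ?_⟩
    intro v hv
    obtain ⟨m, n, rfl⟩ := (mem_lattice_basisOneI v).1 hv
    rw [mem_lattice_basisOneI]
    have hx : ((a.re.den : ℂ)) * (a.re : ℂ) = (a.re.num : ℂ) := by
      have := Rat.den_mul_eq_num a.re
      exact_mod_cast congrArg (fun q : ℚ => (q : ℂ)) this
    have hy : ((a.im.den : ℂ)) * (a.im : ℂ) = (a.im.num : ℂ) := by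
      have := Rat.den_mul_eq_num a.im
      exact_mod_cast congrArg (fun q : ℚ => (q : ℂ)) this
    refine ⟨a.im.den * a.re.num * m - a.re.den * a.im.num * n,
      a.im.den * a.re.num * n + a.re.den * a.im.num * m, ?_⟩
    simp only [RingHom.coe_comp, Function.comp_apply, AlgHom.toRingHom_eq_coe, RingHom.coe_coe,
      Module.algebraMap_end_apply, gaussEmb_apply, smul_eq_mul, nsmul_eq_mul]
    push_cast
    rw [← hx, ← hy]
    ring_nf
    simp only [I_sq]
    ring

end Claimed.Open.R032
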