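import Claimed.Open.R032.SanityCycles

/-!
# Sanity checks: invariance properties of the current of integration

All results are proved (no `sorry`) for an arbitrary complex torus `A = V / Λ`, `Λ = lattice b`.

* `IsRegularPoint.image_add`, `tangentEval_image_add` : regular points, tangent spaces and the
  density `tangentEval` are compatible with translations.
* `integralOver_eq_setIntegral` : `∫_Z ψ` may be computed on the whole period parallelotope.
* `integralOver_eq_of_lattice_eq` : `∫_Z ψ` depends only on the lattice `Λ`, not on the period basis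
  chosen to span it; hence so do `IsCycleClass` (`isCycleClass_iff_of_lattice_eq`) and
  `algebraicClasses` (`algebraicClasses_eq_of_lattice_eq`).
* `integralOver_image_add`, `IsCycleClass.image_add` : a translate `a + Z` has the same current of
  integration on invariant forms, hence the same cohomology class, as `Z`.
-/

open MeasureTheory Module Filter Topology TensorProduct Pointwise

namespace Claimed.Open.R032

variable {V : Type*} [NormedAddCommGroup V] [InnerProductSpace ℂ V] [FiniteDimensional ℂ V]

/-! ### Translations -/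

omit [FiniteDimensional ℂ V] in
/-- Translating `Z` translates its regular points and keeps their tangent spaces. -/
theorem IsRegularPoint.image_add {Z : Set V} {x : V} {T : Submodule ℂ V} (a : V)
    (h : IsRegularPoint Z x T) : IsRegularPoint ((fun y => a + y) '' Z) (a + x) T := by
  obtain ⟨U, m, F, hU, hxU, hxZ, hF, hZU, hr, hk⟩ := h
  have hd : fderiv ℂ (fun y => F (y - a)) (a + x) = fderiv ℂ F x := by
    have h1 : HasFDerivAt F (fderiv ℂ F x) ((a + x) - a) := by
      rw [add_sub_cancel_left]; exact (hF x hxU).differentiableAt.hasFDerivAt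
    have h2 : HasFDerivAt (fun y : V => y - a) (ContinuousLinearMap.id ℂ V) (a + x) :=
      (hasFDerivAt_id (a + x)).sub_const a
    have := (h1.comp (a + x) h2).fderiv
    simpa [Function.comp_def] using this
  have hmem : ∀ y, y ∈ (fun y => a + y) '' Z ↔ y - a ∈ Z := by
    intro y
    constructor
    · rintro ⟨z, hz, rfl⟩
      simpa using hz
    · intro hy
      exact ⟨y - a, hy, by simp⟩
  refine ⟨(fun y => y - a) ⁻¹' U, m, fun y => F (y - a), hU.preimage (by fun_prop), ?_,
    ⟨x, hxZ, rfl⟩, ?_, ?_, ?_, ?_⟩
  · simpa using hxU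
  · intro y hy
    have h1 : AnalyticAt ℂ (fun y : V => y - a) y := analyticAt_id.sub analyticAt_const
    exact AnalyticAt.comp (g := F) (f := fun y : V => y - a) (hF (y - a) hy) h1
  · ext y
    have := Set.ext_iff.mp hZU (y - a)
    simp only [Set.mem_inter_iff, Set.mem_ofPred_eq, Set.mem_preimage] at this ⊢
    rw [hmem]; exact this
  · rw [hd]; exact hr
  · rw [hd]; exact hk

theorem tangentEval_image_add (Z : Set V) (a : V) {n : ℕ} (ψ : Form V n) (x : V) :
    tangentEval ((fun y => a + y) '' Z) ψ (a + x) = tangentEval Z ψ x := by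
  by_cases h : ∃ T, IsRegularPoint Z x T
  · obtain ⟨T, hT⟩ := h
    rw [tangentEval_of_isRegularPoint hT, tangentEval_of_isRegularPoint (hT.image_add a)]
  · have h' : ¬ ∃ T, IsRegularPoint ((fun y => a + y) '' Z) (a + x) T := by
      rintro ⟨T, hT⟩
      apply h
      have := hT.image_add (-a)
      rw [neg_add_cancel_left, Set.image_image] at this
      simp only [neg_add_cancel_left, Set.image_id'] at this
      exact ⟨T, this⟩
    rw [tangentEval, tangentEval, dif_neg h, dif_neg h']

omit [InnerProductSpace ℂ V] [FiniteDimensional ℂ V] in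
theorem IsPeriodic.image_add_eq {Λ : Submodule ℤ V} {Z : Set V} (hZ : IsPeriodic Λ Z) {l : V}
    (hl : l ∈ Λ) : (fun y => l + y) '' Z = Z := by
  ext y
  constructor
  · rintro ⟨z, hz, rfl⟩
    exact hZ l hl z hz
  · intro hy
    exact ⟨-l + y, hZ (-l) (Λ.neg_mem hl) y hy, by simp⟩

/-- The density `tangentEval Z ψ` of a periodic set is periodic. -/
theorem tangentEval_add_of_isPeriodic {Λ : Submodule ℤ V} {Z : Set V} (hZ : IsPeriodic Λ Z) {l : V}
    (hl : l ∈ Λ) {n : ℕ} (ψ : Form V n) (x : V) :
    tangentEval Z ψ (l + x) = tangentEval Z ψ x := by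
  conv_lhs => rw [← hZ.image_add_eq hl]
  exact tangentEval_image_add Z l ψ x

omit [InnerProductSpace ℂ V] [FiniteDimensional ℂ V] in
theorem IsPeriodic.image_add {Λ : Submodule ℤ V} {Z : Set V} (hZ : IsPeriodic Λ Z) (a : V) :
    IsPeriodic Λ ((fun y => a + y) '' Z) := by
  rintro l hl _ ⟨z, hz, rfl⟩
  exact ⟨l + z, hZ l hl z hz, add_left_comm a l z⟩

/-! ### Independence of the period basis, invariance under translation -/

variable [MeasurableSpace V] [BorelSpace V]

/-- `∫_Z ψ` can be computed on the whole period parallelotope. -/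
theorem integralOver_eq_setIntegral {ι : Type*} (b : Basis ι ℝ V) (Z : Set V) {n : ℕ}
    (ψ : Form V n) :
    integralOver b Z ψ
      = ∫ x in ZSpan.fundamentalDomain b, tangentEval Z ψ x ∂(μHE[n] : Measure V) := by
  have := finite_index b
  rw [integralOver]
  symm
  apply setIntegral_eq_of_subset_of_forall_sdiff_eq_zero (ZSpan.fundamentalDomain_measurableSet b)
    Set.inter_subset_right
  intro x hx
  apply tangentEval_of_notMem
  intro hxZ
  exact hx.2 ⟨hxZ, hx.1⟩

/-- `∫_Z ψ` depends only on the lattice, not on the period basis which spans it. -/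
theorem integralOver_eq_of_lattice_eq {ι ι' : Type*} (b : Basis ι ℝ V) (b' : Basis ι' ℝ V)
    (h : lattice b = lattice b') {Z : Set V} (hZ : IsPeriodic (lattice b) Z) {n : ℕ}
    (ψ : Form V n) : integralOver b Z ψ = integralOver b' Z ψ := by
  have := finite_index b
  have := finite_index b'
  rw [integralOver_eq_setIntegral, integralOver_eq_setIntegral]
  have h1 : IsAddFundamentalDomain (Submodule.span ℤ (Set.range b)).toAddSubgroup
      (ZSpan.fundamentalDomain b) (μHE[n] : Measure V) := ZSpan.isAddFundamentalDomain' b _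
  have h2 : IsAddFundamentalDomain (Submodule.span ℤ (Set.range b)).toAddSubgroup
      (ZSpan.fundamentalDomain b') (μHE[n] : Measure V) := by
    have h' : Submodule.span ℤ (Set.range b) = Submodule.span ℤ (Set.range b') := h
    rw [h']
    exact ZSpan.isAddFundamentalDomain' b' _
  have : Countable (Submodule.span ℤ (Set.range b)).toAddSubgroup :=
    inferInstanceAs (Countable (Submodule.span ℤ (Set.range b)))
  apply h1.setIntegral_eq h2
  intro g x
  exact tangentEval_add_of_isPeriodic hZ g.2 ψ x

omit [InnerProductSpace ℂ V] [FiniteDimensional ℂ V] [MeasurableSpace V] [BorelSpace V] in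
theorem isPeriodic_univ (Λ : Submodule ℤ V) : IsPeriodic Λ (Set.univ : Set V) :=
  fun _ _ _ _ => trivial

/-- The relation "`c` is the class of `Z`" depends only on the lattice. -/
theorem isCycleClass_iff_of_lattice_eq {ι ι' : Type*} (b : Basis ι ℝ V) (b' : Basis ι' ℝ V)
    (h : lattice b = lattice b') {Z : Set V} (hZ : IsPeriodic (lattice b) Z) (p d : ℕ)
    (c : Form V (2 * p)) : IsCycleClass b p d Z c ↔ IsCycleClass b' p d Z c := by
  unfold IsCycleClass
  refine forall_congr' fun ψ => ?_
  rw [integralOver_eq_of_lattice_eq b b' h (isPeriodic_univ _),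
    integralOver_eq_of_lattice_eq b b' h hZ]

/-- The space of algebraic classes depends only on the lattice. -/
theorem algebraicClasses_eq_of_lattice_eq {ι ι' : Type*} (b : Basis ι ℝ V) (b' : Basis ι' ℝ V)
    (h : lattice b = lattice b') (p : ℕ) : algebraicClasses b p = algebraicClasses b' p := by
  unfold algebraicClasses
  congr 1
  ext c
  constructor
  · rintro ⟨d, Z, hd, hZ, hc⟩
    exact ⟨d, Z, hd, h ▸ hZ, (isCycleClass_iff_of_lattice_eq b b' h hZ.periodic p d c).mp hc⟩
  · rintro ⟨d, Z, hd, hZ, hc⟩
    exact ⟨d, Z, hd, h ▸ hZ,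
      (isCycleClass_iff_of_lattice_eq b b' h (h ▸ hZ.periodic) p d c).mpr hc⟩

/-- The current of integration of a translate `a + Z` agrees with that of `Z` on invariant forms. -/
theorem integralOver_image_add {ι : Type*} (b : Basis ι ℝ V) {Z : Set V}
    (hZ : IsPeriodic (lattice b) Z) (a : V) {n : ℕ} (ψ : Form V n) :
    integralOver b ((fun y => a + y) '' Z) ψ = integralOver b Z ψ := by
  have := finite_index b
  rw [integralOver_eq_setIntegral, integralOver_eq_setIntegral]
  have h1 : IsAddFundamentalDomain (Submodule.span ℤ (Set.range b)).toAddSubgroup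
      (ZSpan.fundamentalDomain b) (μHE[n] : Measure V) := ZSpan.isAddFundamentalDomain' b _
  have h2 : IsAddFundamentalDomain (Submodule.span ℤ (Set.range b)).toAddSubgroup
      ((-a) +ᵥ ZSpan.fundamentalDomain b) (μHE[n] : Measure V) := h1.vadd_of_comm (-a)
  have : Countable (Submodule.span ℤ (Set.range b)).toAddSubgroup :=
    inferInstanceAs (Countable (Submodule.span ℤ (Set.range b)))
  have h3 : ∫ x in ZSpan.fundamentalDomain b, tangentEval Z ψ x ∂(μHE[n] : Measure V)
      = ∫ x in (-a) +ᵥ ZSpan.fundamentalDomain b, tangentEval Z ψ x ∂(μHE[n] : Measure V) :=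
    h1.setIntegral_eq h2 fun g x => tangentEval_add_of_isPeriodic hZ g.2 ψ x
  rw [h3]
  have hmp : MeasurePreserving (fun x : V => a + x) (μHE[n] : Measure V) (μHE[n] : Measure V) :=
    measurePreserving_add_left _ a
  have hemb : MeasurableEmbedding (fun x : V => a + x) := measurableEmbedding_addLeft a
  have h4 := hmp.setIntegral_preimage_emb hemb
    (fun x => tangentEval ((fun y => a + y) '' Z) ψ x) (ZSpan.fundamentalDomain b)
  rw [← h4]
  have hset : (fun x : V => a + x) ⁻¹' ZSpan.fundamentalDomain b
      = (-a) +ᵥ ZSpan.fundamentalDomain b := by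
    ext x
    rw [Set.mem_vadd_set_iff_neg_vadd_mem]
    simp
  rw [hset]
  simp only [tangentEval_image_add]

/-- Translates of a subvariety have the same cohomology class. -/
theorem IsCycleClass.image_add {ι : Type*} {b : Basis ι ℝ V} {Z : Set V} {p d : ℕ}
    {c : Form V (2 * p)} (hc : IsCycleClass b p d Z c) (hZ : IsPeriodic (lattice b) Z) (a : V) :
    IsCycleClass b p d ((fun y => a + y) '' Z) c := by
  intro ψ
  rw [hc ψ, integralOver_image_add b hZ a ψ]

end Claimed.Open.R032
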