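import Claimed.Open.R032.Statement

/-!
# Sanity checks for R032: finite products and powers of CM abelian varieties

The "in particular" clause of Theorem `thm:cm`: *the rational Hodge conjecture holds in every
codimension on every finite product of complex CM abelian varieties and on every power of such a
product*.

* `piBasis b`: the period basis of the product `∏_k V_k / Λ_k`; `powerBasis b m` is the case of a
  constant family (`piBasis_const`).
* `isPolarizable_piBasis`, `isCM_piBasis`: a finite product of polarisable tori (of tori of CM type)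
  is polarisable (of CM type).
* `HodgeCM.piBasis`, `HodgeCM.powerBasis`, `HodgeCM.powerBasis_piBasis`: hence `HodgeCM` (the first conjunct of `Statement`) implies
  the Hodge conjecture for all finite products and all powers of CM abelian varieties.
-/

open MeasureTheory Module

namespace Claimed.Open.R032

noncomputable section

variable {m : ℕ} {V : Fin m → Type*} [∀ k, NormedAddCommGroup (V k)]
  [∀ k, InnerProductSpace ℂ (V k)] {ι : Fin m → Type*}

/-- The period basis of the product `∏_k A_k = (∏_k V_k) / (∏_k Λ_k)`. -/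
def piBasis (b : ∀ k, Basis (ι k) ℝ (V k)) : Basis (Σ k, ι k) ℝ (PiLp 2 V) :=
  (Pi.basis b).map (WithLp.linearEquiv 2 ℝ (∀ k, V k)).symm

theorem piBasis_const {W : Type*} [NormedAddCommGroup W] [InnerProductSpace ℂ W] {κ : Type*}
    (b : Basis κ ℝ W) (m : ℕ) : piBasis (fun _ : Fin m => b) = powerBasis b m := rfl

theorem piBasis_repr (b : ∀ k, Basis (ι k) ℝ (V k)) (x : PiLp 2 V) (k : Fin m) (i : ι k) :
    (piBasis b).repr x ⟨k, i⟩ = (b k).repr (x k) i := by
  simp [piBasis, Pi.basis_repr]

/-- `lattice (piBasis b) = ∏_k Λ_k`. -/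
theorem mem_lattice_piBasis (b : ∀ k, Basis (ι k) ℝ (V k)) (x : PiLp 2 V) :
    x ∈ lattice (piBasis b) ↔ ∀ k, x k ∈ lattice (b k) := by
  simp only [lattice, Basis.mem_span_iff_repr_mem]
  constructor
  · intro h k i
    rw [← piBasis_repr]
    exact h ⟨k, i⟩
  · rintro h ⟨k, i⟩
    rw [piBasis_repr]
    exact h k i

/-- The `k`-th projection, as an `ℝ`-linear map. -/
def projR (V : Fin m → Type*) [∀ k, NormedAddCommGroup (V k)] [∀ k, InnerProductSpace ℂ (V k)]
    (k : Fin m) : PiLp 2 V →ₗ[ℝ] V k :=
  (LinearMap.proj k) ∘ₗ (WithLp.linearEquiv 2 ℝ (∀ k, V k)).toLinearMap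

@[simp] theorem projR_apply (k : Fin m) (x : PiLp 2 V) : projR V k x = x k := rfl

/-- A finite product of polarisable complex tori is polarisable. -/
theorem isPolarizable_piBasis (b : ∀ k, Basis (ι k) ℝ (V k))
    (h : ∀ k, IsPolarizable (lattice (b k))) : IsPolarizable (lattice (piBasis b)) := by
  choose E hE using h
  refine ⟨∑ k, (E k).compl₁₂ (projR V k) (projR V k), ?_, ?_, ?_, ?_⟩
  · intro v
    simp [LinearMap.sum_apply, (hE _).alt]
  · intro v hv w hw
    rw [mem_lattice_piBasis] at hv hw
    choose n hn using fun k => (hE k).integral _ (hv k) _ (hw k)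
    refine ⟨∑ k, n k, ?_⟩
    simp [LinearMap.sum_apply, hn]
  · intro v w
    simp [LinearMap.sum_apply, (hE _).compat]
  · intro v hv
    have hv' : ∃ k, v k ≠ 0 := by
      by_contra hcon
      push Not at hcon
      exact hv (by ext k; simpa using hcon k)
    obtain ⟨k₀, hk₀⟩ := hv'
    have hnn : ∀ k, 0 ≤ E k (Complex.I • v k) (v k) := by
      intro k
      by_cases hk : v k = 0
      · simp [hk]
      · exact ((hE k).pos _ hk).le
    simp only [LinearMap.sum_apply, LinearMap.compl₁₂_apply, projR_apply, PiLp.smul_apply]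
    exact Finset.sum_pos' (fun k _ => hnn k) ⟨k₀, Finset.mem_univ _, (hE k₀).pos _ hk₀⟩

/-- Block diagonal endomorphisms. -/
def piEnd (V : Fin m → Type*) [∀ k, NormedAddCommGroup (V k)] [∀ k, InnerProductSpace ℂ (V k)] :
    (∀ k, Module.End ℂ (V k)) →+* Module.End ℂ (PiLp 2 V) :=
  ((WithLp.linearEquiv 2 ℂ (∀ k, V k)).symm.conjRingEquiv : _ →+* _).comp
    { toFun := fun f => LinearMap.piMap f
      map_one' := by ext; simp
      map_mul' := by intro f g; ext; simp
      map_zero' := by ext; simp
      map_add' := by intro f g; ext; simp }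

@[simp] theorem piEnd_apply (f : ∀ k, Module.End ℂ (V k)) (x : PiLp 2 V) (k : Fin m) :
    piEnd V f x k = f k (x k) := rfl

/-- The algebra in the definition of `IsCM` is finite dimensional. -/
theorem finite_of_isCM_data {W : Type*} [NormedAddCommGroup W] [InnerProductSpace ℂ W]
    [FiniteDimensional ℂ W] {F : Type*} [CommRing F] [Algebra ℚ F] (e : F →+* Module.End ℂ W)
    (hrank : finrank ℚ F = 2 * finrank ℂ W) (hinj : Function.Injective e) : Module.Finite ℚ F := by
  by_cases h0 : finrank ℂ W = 0
  · have hsub : Subsingleton W := Module.finrank_zero_iff.1 h0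
    have : Subsingleton F := by
      refine ⟨fun a c => hinj ?_⟩
      ext v
      exact Subsingleton.elim _ _
    infer_instance
  · exact Module.finite_of_finrank_pos (by omega)

variable [∀ k, FiniteDimensional ℂ (V k)]

theorem finrank_piLp : finrank ℂ (PiLp 2 V) = ∑ k, finrank ℂ (V k) := by
  rw [(WithLp.linearEquiv 2 ℂ (∀ k, V k)).finrank_eq, Module.finrank_pi_fintype]

/-- A finite product of complex tori of CM type is of CM type. -/
theorem isCM_piBasis (b : ∀ k, Basis (ι k) ℝ (V k)) (h : ∀ k, IsCM (lattice (b k))) :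
    IsCM (lattice (piBasis b)) := by
  choose F instR instA e hss hrank hinj hend using h
  have hfin : ∀ k, Module.Finite ℚ (F k) := fun k => finite_of_isCM_data (e k) (hrank k) (hinj k)
  refine ⟨∀ k, F k, inferInstance, inferInstance,
    (piEnd V).comp (RingHom.pi fun k => (e k).comp (Pi.evalRingHom F k)), inferInstance, ?_, ?_, ?_⟩
  · rw [Module.finrank_pi_fintype, finrank_piLp, Finset.mul_sum]
    exact Finset.sum_congr rfl fun k _ => hrank k
  · intro a c hac
    funext k
    apply hinj k
    ext v
    classical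
    have := congrArg (fun f : Module.End ℂ (PiLp 2 V) =>
      f ((WithLp.linearEquiv 2 ℂ (∀ k, V k)).symm (Pi.single k v)) k) hac
    have h3 : ∀ x : ∀ k, F k, ((piEnd V).comp (RingHom.pi fun k => (e k).comp (Pi.evalRingHom F k)))
        x ((WithLp.linearEquiv 2 ℂ (∀ k, V k)).symm (Pi.single k v)) k = e k (x k) v := by
      intro x
      show e k (x k) ((Pi.single k v : ∀ k, V k) k) = _
      rw [Pi.single_eq_same]
    simpa only [h3] using this
  · intro a
    choose n hn0 hn using fun k => hend k (a k)
    refine ⟨∏ k, n k, Finset.prod_pos fun k _ => hn0 k, fun v hv => ?_⟩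
    rw [mem_lattice_piBasis] at hv ⊢
    intro k
    have h1 : (∏ k, n k) = (∏ j ∈ Finset.univ.erase k, n j) * n k :=
      (Finset.prod_erase_mul _ _ (Finset.mem_univ k)).symm
    have h2 : ((∏ k, n k) • ((piEnd V).comp (RingHom.pi fun k => (e k).comp (Pi.evalRingHom F k)))
        a v) k = (∏ j ∈ Finset.univ.erase k, n j) • (n k • e k (a k) (v k)) := by
      rw [h1, mul_smul]
      rfl
    rw [h2]
    exact (lattice (b k)).smul_of_tower_mem _ (hn k _ (hv k))

end

/-! ### The "in particular" clause of `thm:cm` -/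

/-- `HodgeCM` implies the Hodge conjecture for all finite products of CM abelian varieties. -/
theorem HodgeCM.piBasis (H : HodgeCM) {m : ℕ} (V : Fin m → Type) [∀ k, NormedAddCommGroup (V k)]
    [∀ k, InnerProductSpace ℂ (V k)] [∀ k, FiniteDimensional ℂ (V k)] [∀ k, MeasurableSpace (V k)]
    [∀ k, BorelSpace (V k)] (ι : Fin m → Type) (b : ∀ k, Basis (ι k) ℝ (V k))
    (hpol : ∀ k, IsPolarizable (lattice (b k))) (hcm : ∀ k, IsCM (lattice (b k))) :
    HodgeConjecture (Claimed.Open.R032.piBasis b) :=
  H _ _ _ (isPolarizable_piBasis b hpol) (isCM_piBasis b hcm)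

/-- `HodgeCM` implies the Hodge conjecture for all powers of a CM abelian variety. -/
theorem HodgeCM.powerBasis (H : HodgeCM) (V : Type) [NormedAddCommGroup V]
    [InnerProductSpace ℂ V] [FiniteDimensional ℂ V] [MeasurableSpace V] [BorelSpace V] (ι : Type)
    (b : Basis ι ℝ V) (hpol : IsPolarizable (lattice b)) (hcm : IsCM (lattice b)) (m : ℕ) :
    HodgeConjecture (Claimed.Open.R032.powerBasis b m) :=
  H.piBasis (fun _ : Fin m => V) (fun _ => ι) (fun _ => b) (fun _ => hpol) (fun _ => hcm)

/-- `HodgeCM` implies the Hodge conjecture for all powers of all finite products of CM abelian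
varieties. -/
theorem HodgeCM.powerBasis_piBasis (H : HodgeCM) {m : ℕ} (V : Fin m → Type)
    [∀ k, NormedAddCommGroup (V k)] [∀ k, InnerProductSpace ℂ (V k)]
    [∀ k, FiniteDimensional ℂ (V k)] [∀ k, MeasurableSpace (V k)] [∀ k, BorelSpace (V k)]
    (ι : Fin m → Type) (b : ∀ k, Basis (ι k) ℝ (V k))
    (hpol : ∀ k, IsPolarizable (lattice (b k))) (hcm : ∀ k, IsCM (lattice (b k))) (r : ℕ) :
    HodgeConjecture (Claimed.Open.R032.powerBasis (Claimed.Open.R032.piBasis b) r) :=
  H.powerBasis _ _ _ (isPolarizable_piBasis b hpol) (isCM_piBasis b hcm) r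

end Claimed.Open.R032
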