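import Claimed.Open.R032.SanityNonCM
import Claimed.Open.R032.SanityCM
import Claimed.Open.R032.SanityRiemann
import Claimed.Open.R032.SanityWedge
import Claimed.Open.R032.SanityAnalytic
import Claimed.Open.R032.SanityInvariance
import Claimed.Open.R032.SanityProducts
import Claimed.Open.R032.SanityDuality

/-!
# Sanity checks for R032: NON-examples of the definitions of `Statement.lean`

Every definition which enters the hypotheses or the conclusion of `Statement` is a genuine condition.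

* `IsPolarizable`: `nonAlg_not_isPolarizable`: the complex torus `ℂ² / (ℤ² + i T ℤ²)`,
  `T = (1, L; L², -L³)`, `L` Liouville's number, carries **no** Riemann form: it is a complex torus
  which is not an abelian variety.
* `IsQuadraticAction`: `nonCM_no_quadraticAction`: the elliptic curve without complex multiplication
  of `SanityNonCM.lean` admits no action of an imaginary quadratic field (so that the hypothesis of
  `QuadraticFive` is a genuine restriction).
* `IsHodgeClass`: `rationalNotHodge`: on `(ℂ/ℤ[i])²` the class `dz₁ ∧ dz₂ + dz̄₁ ∧ dz̄₂` is rational but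
  is not of type `(1,1)`;  `hodgeTypeNotRational`: on `ℂ/ℤ[i]` the class `√2 E` is of type `(1,1)`
  but is not rational.
* `IsAnalyticSubset`: `realLines_not_isAnalyticSubset`: the closed `ℤ[i]`-periodic set
  `{z | Im z ∈ ℤ} ⊆ ℂ` (a circle in the elliptic curve) is not analytic.
* `IsSubvariety`: `not_isSubvariety_two_points` (two distinct points form a reducible set);
  `not_isSubvariety_lattice_of_ne_zero` (the dimension of a subvariety is determined: a point is not
  a subvariety of dimension `d ≠ 0`).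
* `IsCycleClass`: `not_isCycleClass_zero_lattice`: `0` is not the class of a point.
-/

open MeasureTheory Module Complex Filter Topology Polynomial

namespace Claimed.Open.R032

/-! ### `IsQuadraticAction` -/

/-- The elliptic curve `ℂ / (ℤ + ℤ τ)`, `τ = √2 (1 + i)`, admits no action of an imaginary quadratic
field. -/
theorem nonCM_no_quadraticAction : ¬ ∃ d u, IsQuadraticAction (lattice nonCMBasis) d u := by
  rintro ⟨d, u, hd, hu, huu⟩
  obtain ⟨q, rfl⟩ := nonCM_rationalEndomorphism hu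
  have h1 := congrArg (fun f : Module.End ℂ ℂ => f 1) huu
  simp [Module.algebraMap_end_apply, Rat.smul_def] at h1
  have h2 : ((q * q : ℚ) : ℂ) = ((-(d : ℚ) : ℚ) : ℂ) := by push_cast; exact h1
  have h3 : q * q = -(d : ℚ) := by exact_mod_cast h2
  have h4 : (0 : ℚ) < d := by exact_mod_cast hd
  nlinarith [mul_self_nonneg q]

/-! ### `IsSubvariety`, `IsCycleClass` -/

section subvariety

variable {V : Type*} [NormedAddCommGroup V] [InnerProductSpace ℂ V] [FiniteDimensional ℂ V]
  {ι : Type*} (b : Basis ι ℝ V)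

/-- Two distinct points of `A` form an analytic subset which is not irreducible. -/
theorem not_isSubvariety_two_points {a : V} (ha : a ∉ lattice b) (d : ℕ) :
    ¬ IsSubvariety (lattice b) d
      ((lattice b : Set V) ∪ (fun y => a + y) '' (lattice b : Set V)) := by
  intro h
  have hA : IsAnalyticSubset ((fun y => a + y) '' (lattice b : Set V)) := by
    have h1 := (isAnalyticSubset_lattice b).preimage_affine (ContinuousLinearMap.id ℂ V) (-a)
    convert h1 using 1
    ext y
    simp only [Set.mem_image, SetLike.mem_coe, Set.mem_preimage, ContinuousLinearMap.coe_id', id]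
    constructor
    · rintro ⟨x, hx, rfl⟩
      simpa using hx
    · intro hy
      exact ⟨-a + y, hy, by abel⟩
  have hP : IsPeriodic (lattice b) ((fun y => a + y) '' (lattice b : Set V)) :=
    (isSubvariety_lattice b).periodic.image_add a
  rcases h.irreducible _ _ (isAnalyticSubset_lattice b) (isSubvariety_lattice b).periodic hA hP rfl
    with h1 | h1
  · have h2 : a ∈ (lattice b : Set V) := by
      rw [← h1]
      exact Or.inr ⟨0, (lattice b).zero_mem, by simp⟩
    exact ha h2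
  · have h2 : (0 : V) ∈ (fun y => a + y) '' (lattice b : Set V) := by
      rw [← h1]
      exact Or.inl (lattice b).zero_mem
    obtain ⟨y, hy, hy0⟩ := h2
    have h3 : a = -y := eq_neg_of_add_eq_zero_left hy0
    exact ha (h3 ▸ (lattice b).neg_mem hy)

/-- The dimension of a subvariety is determined by it: a point is not a subvariety of dimension
`d ≠ 0`. -/
theorem not_isSubvariety_lattice_of_ne_zero {d : ℕ} (hd : d ≠ 0) :
    ¬ IsSubvariety (lattice b) d (lattice b : Set V) := by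
  intro h
  have h0 := h.dim_eq (lattice b).zero_mem
  have hempty : {x | ∃ T : Submodule ℂ V, IsRegularPoint (lattice b : Set V) x T ∧
      finrank ℂ T = d} = ∅ := by
    ext x
    simp only [Set.mem_ofPred_eq, Set.mem_empty_iff_false, iff_false]
    rintro ⟨T, hT, hTd⟩
    have hx : x ∈ lattice b := by
      obtain ⟨U, m, F, -, -, hx, -⟩ := hT
      exact hx
    have hT' := hT.unique (isRegularPoint_lattice b hx)
    subst hT'
    simp at hTd
    exact hd hTd.symm
  rw [hempty, closure_empty] at h0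
  exact h0

variable [MeasurableSpace V] [BorelSpace V]

/-- `0` is not the class of a point. -/
theorem not_isCycleClass_zero_lattice (p : ℕ) :
    ¬ IsCycleClass b p 0 (lattice b : Set V) (0 : Form V (2 * p)) := by
  intro h
  have : IsEmpty (Fin (2 * 0)) := Fin.isEmpty
  let c : Form V (2 * 0) := AlternatingMap.constOfIsEmpty ℝ V (Fin (2 * 0)) 1
  have h1 := h c
  rw [integralOver_lattice b _ (fun _ => 0)] at h1
  have h2 : wedge (0 : Form V (2 * p)) c = (0 : ℂ) • wedge (0 : Form V (2 * p)) c := by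
    rw [← wedge_smul_left, zero_smul]
  rw [h2, integralOver_univ_smul] at h1
  simp [c] at h1

end subvariety

/-! ### `IsAnalyticSubset` -/

/-- The preimage in `ℂ` of the circle `ℝ/ℤ ⊆ ℂ/ℤ[i]`. -/
def realLines : Set ℂ := {z | ∃ n : ℤ, z.im = n}

theorem realLines_isPeriodic : IsPeriodic (lattice Complex.basisOneI) realLines := by
  rintro l hl x ⟨k, hk⟩
  obtain ⟨m, n, rfl⟩ := (mem_lattice_basisOneI l).1 hl
  exact ⟨n + k, by simp [hk]⟩

theorem realLines_isClosed : IsClosed realLines := by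
  have h : realLines = Complex.im ⁻¹' (Set.range ((↑) : ℤ → ℝ)) := by
    ext z
    simp [realLines, eq_comm]
  rw [h]
  exact Int.isClosedEmbedding_coe_real.isClosed_range.preimage Complex.continuous_im

/-- A closed periodic subset which is not analytic: a real circle in an elliptic curve. -/
theorem realLines_not_isAnalyticSubset : ¬ IsAnalyticSubset realLines := by
  intro hZ
  obtain ⟨U, hU, h0U, m, f, hf, hZU⟩ := hZ 0
  have hU0 : U ∈ 𝓝 (0 : ℂ) := hU.mem_nhds h0U
  -- every equation vanishes identically near `0`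
  have hcomp : ∀ j : Fin m, ∀ᶠ z in 𝓝 (0 : ℂ), f z j = 0 := by
    intro j
    have han : AnalyticAt ℂ (fun z => f z j) 0 :=
      ((ContinuousLinearMap.proj (R := ℂ) (φ := fun _ : Fin m => ℂ) j).analyticAt _).comp
        (hf 0 h0U)
    rw [← han.frequently_zero_iff_eventually_zero]
    have ht : Tendsto (fun t : ℝ => (t : ℂ)) (𝓝[≠] (0 : ℝ)) (𝓝[≠] (0 : ℂ)) := by
      refine tendsto_nhdsWithin_iff.2 ⟨?_, ?_⟩
      · have : Tendsto (fun t : ℝ => (t : ℂ)) (𝓝 (0 : ℝ)) (𝓝 ((0 : ℝ) : ℂ)) :=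
          Complex.continuous_ofReal.tendsto 0
        simpa using this.mono_left nhdsWithin_le_nhds
      · filter_upwards [self_mem_nhdsWithin] with t ht
        simpa using ht
    refine ht.frequently (Eventually.frequently ?_)
    have hev : ∀ᶠ t : ℝ in 𝓝 (0 : ℝ), (t : ℂ) ∈ U := by
      have : Tendsto (fun t : ℝ => (t : ℂ)) (𝓝 (0 : ℝ)) (𝓝 (0 : ℂ)) := by
        simpa using Complex.continuous_ofReal.tendsto 0
      exact this hU0
    filter_upwards [hev.filter_mono nhdsWithin_le_nhds] with t ht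
    have hmem : (t : ℂ) ∈ realLines ∩ U := ⟨⟨0, by simp⟩, ht⟩
    rw [hZU] at hmem
    exact congrFun hmem.2 j
  have hall : ∀ᶠ z in 𝓝 (0 : ℂ), z ∈ realLines := by
    filter_upwards [eventually_all.2 hcomp, hU0] with z hz hzU
    have : z ∈ realLines ∩ U := by
      rw [hZU]
      exact ⟨hzU, funext hz⟩
    exact this.1
  have huniv := hZ.eq_univ_of_interior_nonempty ⟨0, mem_interior_iff_mem_nhds.2 hall⟩
  have hI : (I / 2 : ℂ) ∈ realLines := huniv ▸ Set.mem_univ _
  obtain ⟨n, hn⟩ := hI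
  have h2 : (2 : ℝ) * n = 1 := by
    rw [← hn]
    simp
  have h3 : (2 : ℤ) * n = 1 := by exact_mod_cast h2
  omega

/-! ### `IsHodgeClass` -/

/-- On `ℂ/ℤ[i]` the class `√2 E` is of type `(1,1)`, but it is not rational. -/
theorem hodgeTypeNotRational :
    ((√2 : ℝ) : ℂ) • formOfBilin gaussForm gauss_isRiemannForm.alt ∈ hodgePiece ℂ 1 (2 * 1) ∧
    ¬ IsRational (lattice Complex.basisOneI)
      (((√2 : ℝ) : ℂ) • formOfBilin gaussForm gauss_isRiemannForm.alt) := by
  refine ⟨Submodule.smul_mem _ _ gauss_isRiemannForm.isHodgeClass.2, fun h => ?_⟩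
  obtain ⟨q, hq⟩ := h ![I, 1] (by
    intro i
    fin_cases i
    · exact (mem_lattice_basisOneI _).2 ⟨0, 1, by simp⟩
    · exact (mem_lattice_basisOneI _).2 ⟨1, 0, by simp⟩)
  rw [AlternatingMap.smul_apply, formOfBilin_apply] at hq
  simp [gaussForm_apply] at hq
  have h2 : (√2 : ℝ) = (q : ℝ) := by exact_mod_cast hq
  exact irrational_sqrt_two ⟨q, h2.symm⟩

/-- The coordinates `z_k` on `ℂ²`, as `ℝ`-linear forms. -/
noncomputable def coordForm (k : Fin 2) : (PiLp 2 fun _ : Fin 2 => ℂ) →ₗ[ℝ] ℂ :=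
  projR (fun _ : Fin 2 => ℂ) k

/-- Their complex conjugates `z̄_k`. -/
noncomputable def coordFormBar (k : Fin 2) : (PiLp 2 fun _ : Fin 2 => ℂ) →ₗ[ℝ] ℂ :=
  Complex.conjAe.toLinearMap ∘ₗ coordForm k

/-- The class `dz₁ ∧ dz₂ + dz̄₁ ∧ dz̄₂ ∈ H²((ℂ/ℤ[i])², ℤ)`, of type `(2,0) + (0,2)`. -/
noncomputable def twoZeroClass : Form (PiLp 2 fun _ : Fin 2 => ℂ) (2 * 1) :=
  show Form (PiLp 2 fun _ : Fin 2 => ℂ) 2 from
    wedgeOfForms coordForm + wedgeOfForms coordFormBar

theorem twoZeroClass_apply (v : Fin 2 → PiLp 2 fun _ : Fin 2 => ℂ) :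
    twoZeroClass v = ((2 * (v 0 0 * v 1 1 - v 1 0 * v 0 1).re : ℝ) : ℂ) := by
  have h : twoZeroClass v = wedgeOfForms coordForm v + wedgeOfForms coordFormBar v := rfl
  rw [h, wedgeOfForms_eq_det, wedgeOfForms_eq_det, Matrix.det_fin_two, Matrix.det_fin_two,
    ← Complex.add_conj]
  simp [coordForm, coordFormBar]

/-- On `(ℂ/ℤ[i])²` the class `dz₁ ∧ dz₂ + dz̄₁ ∧ dz̄₂` is rational (even integral), but it is not a
Hodge class. -/
theorem rationalNotHodge :
    IsRational (lattice (powerBasis Complex.basisOneI 2)) twoZeroClass ∧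
    ¬ IsHodgeClass (lattice (powerBasis Complex.basisOneI 2)) 1 twoZeroClass := by
  constructor
  · intro v hv
    have hv' : ∀ i k, ∃ m n : ℤ, v i k = (m : ℂ) + (n : ℂ) * I := by
      intro i k
      have h1 := hv i
      rw [← piBasis_const, mem_lattice_piBasis] at h1
      exact (mem_lattice_basisOneI _).1 (h1 k)
    obtain ⟨m00, n00, h00⟩ := hv' (0 : Fin 2) 0
    obtain ⟨m01, n01, h01⟩ := hv' (0 : Fin 2) 1
    obtain ⟨m10, n10, h10⟩ := hv' (1 : Fin 2) 0
    obtain ⟨m11, n11, h11⟩ := hv' (1 : Fin 2) 1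
    refine ⟨2 * ((m00 * m11 - n00 * n11) - (m10 * m01 - n10 * n01)), ?_⟩
    rw [twoZeroClass_apply, h00, h01, h10, h11]
    simp
  · rintro ⟨-, h⟩
    rw [mem_hodgePiece_iff (by norm_num)] at h
    have h1 := h I ![WithLp.toLp 2 ![1, 0], WithLp.toLp 2 ![0, 1]]
    rw [twoZeroClass_apply, twoZeroClass_apply] at h1
    simp at h1
    norm_num at h1

/-! ### `IsPolarizable` -/

/-- Liouville's number `∑ 2^{-n!}`. -/
noncomputable def liouvilleL : ℝ := liouvilleNumber (2 : ℕ)

/-- `1, L, L², L³` are linearly independent over `ℚ`. -/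
theorem liouvilleL_indep {a₀ a₁ a₂ a₃ : ℤ}
    (h : (a₀ : ℝ) + a₁ * liouvilleL + a₂ * liouvilleL ^ 2 + a₃ * liouvilleL ^ 3 = 0) :
    a₀ = 0 ∧ a₁ = 0 ∧ a₂ = 0 ∧ a₃ = 0 := by
  have ht : Transcendental ℤ liouvilleL := transcendental_liouvilleNumber le_rfl
  rw [transcendental_iff] at ht
  have hp := ht (C a₀ + C a₁ * X + C a₂ * X ^ 2 + C a₃ * X ^ 3) (by simpa using h)
  have c0 := congrArg (fun p : ℤ[X] => p.coeff 0) hp
  have c1 := congrArg (fun p : ℤ[X] => p.coeff 1) hp
  have c2 := congrArg (fun p : ℤ[X] => p.coeff 2) hp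
  have c3 := congrArg (fun p : ℤ[X] => p.coeff 3) hp
  simp only [coeff_add, coeff_C_mul, coeff_C, coeff_X, coeff_X_pow, coeff_zero] at c0 c1 c2 c3
  norm_num at c0 c1 c2 c3
  exact ⟨c0, c1, c2, c3⟩

theorem liouvilleL_ne_zero : liouvilleL ≠ 0 := by
  intro h
  have := liouvilleL_indep (a₀ := 0) (a₁ := 1) (a₂ := 0) (a₃ := 0) (by simp [h])
  simp at this

section nonalgebraic

variable {V : Type*} [NormedAddCommGroup V] [InnerProductSpace ℂ V]

/-- A lattice which contains `e₁`, `e₂`, `i (e₁ + L² e₂)` and `i (L e₁ - L³ e₂)` carries no Riemann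
form. -/
theorem not_isPolarizable_of_mem {Λ : Submodule ℤ V} {e₁ e₂ : V} (he : e₁ ≠ 0)
    (h1 : e₁ ∈ Λ) (h2 : e₂ ∈ Λ) (h3 : I • e₁ + (liouvilleL ^ 2) • (I • e₂) ∈ Λ)
    (h4 : liouvilleL • (I • e₁) - (liouvilleL ^ 3) • (I • e₂) ∈ Λ) : ¬ IsPolarizable Λ := by
  rintro ⟨E, hE⟩
  have hL := liouvilleL_ne_zero
  obtain ⟨L, hLdef⟩ : ∃ L, L = liouvilleL := ⟨_, rfl⟩
  rw [← hLdef] at h3 h4 hL
  have anti : ∀ v w, E v w = -E w v := by
    intro v w
    have := hE.alt (v + w)
    simp only [map_add, LinearMap.add_apply, hE.alt] at this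
    linarith
  obtain ⟨n₁, hn₁⟩ := hE.integral _ h1 _ h3
  obtain ⟨n₂, hn₂⟩ := hE.integral _ h1 _ h4
  obtain ⟨n₃, hn₃⟩ := hE.integral _ h2 _ h3
  obtain ⟨n₄, hn₄⟩ := hE.integral _ h2 _ h4
  have hp := hE.pos e₁ he
  have hXY : E e₂ (I • e₁) = E e₁ (I • e₂) := by
    have := hE.compat e₁ (I • e₂)
    rw [smul_smul, I_mul_I, neg_one_smul, map_neg] at this
    rw [← this, anti e₂ (I • e₁)]
  simp only [map_add, map_sub, map_smul, smul_eq_mul] at hn₁ hn₂ hn₃ hn₄
  rw [anti e₁ (I • e₁)] at hn₁ hn₂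
  rw [anti e₂ (I • e₂), hXY] at hn₃ hn₄
  obtain ⟨p, hpdef⟩ : ∃ p, p = E (I • e₁) e₁ := ⟨_, rfl⟩
  obtain ⟨q, hqdef⟩ : ∃ q, q = E (I • e₂) e₂ := ⟨_, rfl⟩
  obtain ⟨x, hxdef⟩ : ∃ x, x = E e₁ (I • e₂) := ⟨_, rfl⟩
  rw [← hpdef] at hn₁ hn₂ hp
  rw [← hqdef] at hn₃ hn₄
  rw [← hxdef] at hn₁ hn₂ hn₃ hn₄
  -- `-p + L² x = n₁`, `-L p - L³ x = n₂`, `x - L² q = n₃`, `L x + L³ q = n₄`
  have key : (n₂ : ℝ) + ((-n₁ : ℤ) : ℝ) * liouvilleL + (n₄ : ℝ) * liouvilleL ^ 2
      + (n₃ : ℝ) * liouvilleL ^ 3 = 0 := by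
    rw [← hLdef]
    push_cast
    rw [← hn₁, ← hn₂, ← hn₃, ← hn₄]
    ring
  obtain ⟨z2, z1, -, -⟩ := liouvilleL_indep key
  have z1' : n₁ = 0 := by omega
  rw [z1'] at hn₁
  rw [z2] at hn₂
  simp only [Int.cast_zero] at hn₁ hn₂
  have h5 : L * p = 0 := by linear_combination (-1 / 2 : ℝ) * hn₂ - (L / 2) * hn₁
  rcases mul_eq_zero.1 h5 with h6 | h6
  · exact hL h6
  · linarith

end nonalgebraic

/-- The four periods `e₁, e₂, i (e₁ + L² e₂), i (L e₁ - L³ e₂)` of the non-algebraic torus. -/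
noncomputable def nonAlgPeriods : Fin 4 → PiLp 2 fun _ : Fin 2 => ℂ :=
  ![WithLp.toLp 2 ![1, 0], WithLp.toLp 2 ![0, 1],
    I • WithLp.toLp 2 ![1, 0] + (liouvilleL ^ 2) • (I • WithLp.toLp 2 ![0, 1]),
    liouvilleL • (I • WithLp.toLp 2 ![1, 0]) - (liouvilleL ^ 3) • (I • WithLp.toLp 2 ![0, 1])]

theorem nonAlg_linearIndependent : LinearIndependent ℝ nonAlgPeriods := by
  rw [Fintype.linearIndependent_iff]
  intro g hg
  rw [Fin.sum_univ_four] at hg
  have hL := liouvilleL_ne_zero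
  have r0 := congrArg (fun v : PiLp 2 fun _ : Fin 2 => ℂ => (v 0).re) hg
  have r1 := congrArg (fun v : PiLp 2 fun _ : Fin 2 => ℂ => (v 1).re) hg
  have i0 := congrArg (fun v : PiLp 2 fun _ : Fin 2 => ℂ => (v 0).im) hg
  have i1 := congrArg (fun v : PiLp 2 fun _ : Fin 2 => ℂ => (v 1).im) hg
  simp [nonAlgPeriods, -Complex.ofReal_pow] at r0 r1 i0 i1
  have h3 : g 3 * liouvilleL ^ 3 = 0 := by
    linear_combination (liouvilleL ^ 2 / 2) * i0 - (1 / 2 : ℝ) * i1
  have g3 : g 3 = 0 := by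
    rcases mul_eq_zero.1 h3 with h | h
    · exact h
    · exact absurd (pow_eq_zero_iff (by norm_num) |>.1 h) hL
  have g2 : g 2 = 0 := by
    rw [g3] at i0
    simpa using i0
  intro i
  fin_cases i
  · exact r0
  · exact r1
  · exact g2
  · exact g3

/-- The period basis of the complex torus `ℂ² / (ℤ² + i T ℤ²)`, `T = (1, L; L², -L³)`. -/
noncomputable def nonAlgBasis : Basis (Fin 4) ℝ (PiLp 2 fun _ : Fin 2 => ℂ) :=
  basisOfLinearIndependentOfCardEqFinrank nonAlg_linearIndependent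
    (by rw [finrank_real_of_complex]; simp)

theorem nonAlgBasis_coe : ⇑nonAlgBasis = nonAlgPeriods :=
  coe_basisOfLinearIndependentOfCardEqFinrank _ _

/-- **A complex torus which is not an abelian variety**: `IsPolarizable` is a genuine restriction. -/
theorem nonAlg_not_isPolarizable : ¬ IsPolarizable (lattice nonAlgBasis) := by
  have hmem : ∀ i, nonAlgPeriods i ∈ lattice nonAlgBasis := by
    intro i
    refine Submodule.subset_span ⟨i, ?_⟩
    rw [nonAlgBasis_coe]
  refine not_isPolarizable_of_mem (e₁ := WithLp.toLp 2 ![1, 0]) (e₂ := WithLp.toLp 2 ![0, 1]) ?_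
    (hmem 0) (hmem 1) (hmem 2) (hmem 3)
  intro h
  have := congrArg (fun v : PiLp 2 fun _ : Fin 2 => ℂ => v 0) h
  simp at this

end Claimed.Open.R032
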