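import Claimed.Open.R032.SanityCycles

/-!
# Sanity checks: densities on complex subspaces, volumes of parallelotopes, orientation

`W ⊆ V` is a complex subspace, `n = 2 * dim_ℂ W`.  All results are proved (no `sorry`).

* `frameBasis W hn` : `complexFrame W n hn` as an `ℝ`-basis of `W`;
  `measure_fundamentalDomain_frameBasis` : its parallelotope has `n`-dimensional volume `1`.
* `measure_parallelotope_mul_evalOn_sign`, `measure_parallelotope_mul_evalOn` [S3'] : for every
  `ℝ`-basis `μ` of `W`,  `vol_n (parallelotope of μ) * evalOn W ψ = ± ψ (μ₀, …, μ_{n-1})`, the sign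
  being the orientation of `μ` with respect to `complexFrame W`.
* `frameBasis_det_realify` : for a `ℂ`-basis `w` of `W`, the determinant of
  `(w₀, i w₀, w₁, i w₁, …)` with respect to `complexFrame W` is `|det_ℂ|² > 0`.  Hence
  - `evalOn_eq_of_orthonormalBasis` : `evalOn W ψ = ψ (e₀, i e₀, e₁, i e₁, …)` for EVERY unitary
    basis `e` of `W`: the definition of `evalOn` does not depend on `stdOrthonormalBasis`;
  - `measure_parallelotope_mul_evalOn_of_complex` : the sign is `+1` for every real basis of the
    form `(w₀, i w₀, w₁, i w₁, …)`: the orientation used is the canonical orientation of the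
    complex vector space `W`.
-/

open MeasureTheory Module Filter Topology TensorProduct

namespace Claimed.Open.R032

variable {V : Type*} [NormedAddCommGroup V] [InnerProductSpace ℂ V]

/-- The real family `(w₀, i w₀, w₁, i w₁, …)` attached to a family `(w₀, w₁, …)`. -/
def realify {E : Type*} [AddCommGroup E] [Module ℂ E] {d : ℕ} (w : Fin d → E) (n : ℕ)
    (h : n = 2 * d) : Fin n → E :=
  fun j => if (j : ℕ) % 2 = 0 then w ⟨(j : ℕ) / 2, by omega⟩
    else Complex.I • w ⟨(j : ℕ) / 2, by omega⟩

theorem realify_map {E E' : Type*} [AddCommGroup E] [Module ℂ E] [AddCommGroup E'] [Module ℂ E']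
    (f : E →ₗ[ℂ] E') {d : ℕ} (w : Fin d → E) (n : ℕ) (h : n = 2 * d) (j : Fin n) :
    f (realify w n h j) = realify (f ∘ w) n h j := by
  unfold realify
  split_ifs <;> simp

variable [FiniteDimensional ℂ V]

theorem complexFrame_eq_realify (W : Submodule ℂ V) (n : ℕ) (hn : n = 2 * finrank ℂ W) :
    complexFrame W n hn = realify (fun k => (stdOrthonormalBasis ℂ W k : V)) n hn := rfl

/-- The vectors of `complexFrame W`, as elements of `W`. -/
noncomputable def frameVec (W : Submodule ℂ V) {n : ℕ} (hn : n = 2 * finrank ℂ W) : Fin n → W :=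
  realify (stdOrthonormalBasis ℂ W) n hn

theorem coe_frameVec (W : Submodule ℂ V) {n : ℕ} (hn : n = 2 * finrank ℂ W) (j : Fin n) :
    (frameVec W hn j : V) = complexFrame W n hn j :=
  realify_map W.subtype (stdOrthonormalBasis ℂ W) n hn j

theorem orthonormal_frameVec (W : Submodule ℂ V) {n : ℕ} (hn : n = 2 * finrank ℂ W) :
    letI : InnerProductSpace ℝ W := InnerProductSpace.complexToReal
    Orthonormal ℝ (frameVec W hn) := by
  let _ : InnerProductSpace ℝ V := InnerProductSpace.complexToReal
  let _ : InnerProductSpace ℝ W := InnerProductSpace.complexToReal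
  have hon0 : Orthonormal ℝ (complexFrame W n hn) := orthonormal_complexFrame W n hn
  refine ⟨fun i => ?_, fun i j hij => ?_⟩
  · have := hon0.1 i
    rw [← coe_frameVec] at this
    exact this
  · have : inner ℝ (complexFrame W n hn i) (complexFrame W n hn j) = 0 := hon0.2 hij
    rw [← coe_frameVec, ← coe_frameVec] at this
    exact this

theorem linearIndependent_frameVec (W : Submodule ℂ V) {n : ℕ} (hn : n = 2 * finrank ℂ W) :
    LinearIndependent ℝ (frameVec W hn) := by
  let _ : InnerProductSpace ℝ W := InnerProductSpace.complexToReal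
  exact (orthonormal_frameVec W hn).linearIndependent

theorem span_frameVec (W : Submodule ℂ V) {n : ℕ} (hn : n = 2 * finrank ℂ W) :
    ⊤ ≤ Submodule.span ℝ (Set.range (frameVec W hn)) := by
  have hcard : Fintype.card (Fin n) = finrank ℝ W := by
    rw [Fintype.card_fin, hn, finrank_real_of_complex]
  exact ((linearIndependent_frameVec W hn).span_eq_top_of_card_eq_finrank' hcard).ge

/-- `complexFrame W` as an `ℝ`-basis of `W`. -/
noncomputable def frameBasis (W : Submodule ℂ V) {n : ℕ} (hn : n = 2 * finrank ℂ W) :
    Basis (Fin n) ℝ W :=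
  Basis.mk (linearIndependent_frameVec W hn) (span_frameVec W hn)

theorem coe_frameBasis (W : Submodule ℂ V) {n : ℕ} (hn : n = 2 * finrank ℂ W) :
    ⇑(frameBasis W hn) = frameVec W hn := Basis.coe_mk _ _

/-! ### Orientation -/

/-- For a `ℂ`-basis `w` of `W`, the determinant of `(w₀, i w₀, w₁, i w₁, …)` with respect to
`complexFrame W` is the square of the absolute value of the complex determinant of `w` with respect
to the unitary basis used in `complexFrame W`. -/
theorem frameBasis_det_realify (W : Submodule ℂ V) {n : ℕ} (hn : n = 2 * finrank ℂ W)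
    (w : Fin (finrank ℂ W) → W) :
    (frameBasis W hn).det (realify w n hn)
      = Complex.normSq ((stdOrthonormalBasis ℂ W).toBasis.det w) := by
  set e := (stdOrthonormalBasis ℂ W).toBasis with he
  let f : W →ₗ[ℂ] W := e.constr ℂ w
  have hfe : ∀ k, f (stdOrthonormalBasis ℂ W k) = w k := by
    intro k
    have := e.constr_basis ℂ w k
    rwa [he, OrthonormalBasis.coe_toBasis] at this
  have h1 : realify w n hn = (f.restrictScalars ℝ) ∘ (frameBasis W hn) := by
    funext j
    rw [coe_frameBasis, Function.comp_apply, LinearMap.restrictScalars_apply, frameVec,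
      realify_map]
    congr 1
    funext k
    exact (hfe k).symm
  have h2 : LinearMap.det f = e.det w := by
    have := e.det_comp f e
    rw [e.det_self, mul_one] at this
    rw [← this]
    congr 1
    funext k
    rw [Function.comp_apply, he, OrthonormalBasis.coe_toBasis, hfe]
  rw [h1, Basis.det_comp, Basis.det_self, mul_one, LinearMap.det_restrictScalars,
    Algebra.norm_complex_apply, h2]

theorem frameBasis_det_realify_pos (W : Submodule ℂ V) {n : ℕ} (hn : n = 2 * finrank ℂ W)
    (w : Basis (Fin (finrank ℂ W)) ℂ W) : 0 < (frameBasis W hn).det (realify w n hn) := by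
  rw [frameBasis_det_realify]
  exact Complex.normSq_pos.mpr ((stdOrthonormalBasis ℂ W).toBasis.isUnit_det w).ne_zero

/-- `evalOn W ψ` is the value of `ψ` on `(e₀, i e₀, e₁, i e₁, …)` for EVERY unitary basis `e` of
`W`; so the definition of `evalOn` does not depend on the choice of `stdOrthonormalBasis`. -/
theorem evalOn_eq_of_orthonormalBasis (W : Submodule ℂ V) {n : ℕ} (hn : n = 2 * finrank ℂ W)
    (e : OrthonormalBasis (Fin (finrank ℂ W)) ℂ W) (ψ : Form V n) :
    evalOn W ψ = ψ (realify (fun k => (e k : V)) n hn) := by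
  let ψW : Form W n := ψ.compLinearMap (W.subtype.restrictScalars ℝ)
  have h1 : ψ (realify (fun k => (e k : V)) n hn) = ψW (realify e n hn) := by
    show _ = ψ (fun j => ((realify e n hn j : W) : V))
    congr 1
    funext j
    exact (realify_map W.subtype e n hn j).symm
  have h2 : ψW (frameBasis W hn) = ψ (complexFrame W n hn) := by
    show ψ (fun j => ((frameBasis W hn j : W) : V)) = _
    congr 1
    funext j
    rw [coe_frameBasis, coe_frameVec]
  have h3 : (frameBasis W hn).det (realify e n hn) = 1 := by
    rw [frameBasis_det_realify, Complex.normSq_eq_norm_sq,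
      (stdOrthonormalBasis ℂ W).det_to_matrix_orthonormalBasis e, one_pow]
  rw [evalOn, dif_pos hn, h1, form_eq_det_mul (frameBasis W hn) ψW, h3, h2]
  simp

/-! ### Volumes of parallelotopes -/

variable [MeasurableSpace V] [BorelSpace V]

/-- The parallelotope of `complexFrame W` has `n`-dimensional volume `1`. -/
theorem measure_fundamentalDomain_frameBasis (W : Submodule ℂ V) {n : ℕ}
    (hn : n = 2 * finrank ℂ W) :
    (μHE[n] : Measure W) (ZSpan.fundamentalDomain (frameBasis W hn)) = 1 := by
  let _ : InnerProductSpace ℝ W := InnerProductSpace.complexToReal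
  have hn' : n = finrank ℝ W := by rw [hn, finrank_real_of_complex]
  let F := OrthonormalBasis.mk (orthonormal_frameVec W hn) (span_frameVec W hn)
  have hF : F.toBasis = frameBasis W hn := by
    apply Basis.eq_of_apply_eq
    intro j
    rw [OrthonormalBasis.coe_toBasis, OrthonormalBasis.coe_mk, coe_frameBasis]
  have hμ : (μHE[n] : Measure W) = volume := by
    rw [← InnerProductSpace.euclideanHausdorffMeasure_eq_volume, hn']
  rw [← hF, hμ, measure_congr (ZSpan.fundamentalDomain_ae_parallelepiped F.toBasis volume)]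
  have := F.volume_parallelepiped
  simpa using this

/-- [S3', with the sign] For a complex subspace `W ⊆ V` and an `ℝ`-basis `μ` of `W`, the volume of
the parallelotope of `μ` times the density of `ψ` on `W` is `ψ(μ₀, …, μ_{n-1})` times the
orientation of `μ` with respect to `complexFrame W`. -/
theorem measure_parallelotope_mul_evalOn_sign (W : Submodule ℂ V) {n : ℕ}
    (hn : n = 2 * finrank ℂ W) {κ : Type*} (μ : Basis κ ℝ W) (σ : κ ≃ Fin n) (ψ : Form V n) :
    ((μHE[n] : Measure V).real (Subtype.val '' ZSpan.fundamentalDomain μ) : ℂ) * evalOn W ψ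
      = ((SignType.sign ((frameBasis W hn).det (μ ∘ σ.symm)) : ℝ) : ℂ)
        * ψ (fun i => (μ (σ.symm i) : V)) := by
  set F := frameBasis W hn with hF
  have hHaar : (μHE[n] : Measure W).IsAddHaarMeasure := by
    rw [hn, ← finrank_real_of_complex]
    exact MeasureTheory.isAddHaarMeasure_euclideanHausdorffMeasure
  have hD : ZSpan.fundamentalDomain (μ.reindex σ) = ZSpan.fundamentalDomain μ :=
    ZSpan.fundamentalDomain_reindex μ σ
  have hb : ⇑(μ.reindex σ) = μ ∘ σ.symm := μ.coe_reindex σ
  have hcov : (μHE[n] : Measure V).real (Subtype.val '' ZSpan.fundamentalDomain μ)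
      = |F.det (μ ∘ σ.symm)| := by
    rw [Measure.real, isometry_subtype_coe.euclideanHausdorffMeasure_image, ← hD,
      ZSpan.measure_fundamentalDomain (μ.reindex σ) _ F, hF,
      measure_fundamentalDomain_frameBasis W hn, mul_one,
      ENNReal.toReal_ofReal (abs_nonneg _), hb]
  let ψW : Form W n := ψ.compLinearMap (W.subtype.restrictScalars ℝ)
  have h1 : ψ (fun i => (μ (σ.symm i) : V)) = ψW (μ ∘ σ.symm) := rfl
  have h2 : ψW F = ψ (complexFrame W n hn) := by
    show ψ (fun j => ((F j : W) : V)) = _
    congr 1
    funext j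
    rw [hF, coe_frameBasis, coe_frameVec]
  rw [hcov, evalOn, dif_pos hn, h1, form_eq_det_mul F ψW (μ ∘ σ.symm), h2,
    ← sign_mul_self (F.det (μ ∘ σ.symm))]
  push_cast
  ring

/-- [S3'] For a complex subspace `W ⊆ V` of dimension `d` and an `ℝ`-basis `μ` of `W`, the
`2d`-dimensional volume of the parallelotope of `μ` times the density of `ψ` on `W` is
`± ψ(μ₀, …, μ_{2d-1})`. -/
theorem measure_parallelotope_mul_evalOn (W : Submodule ℂ V) {n : ℕ} (hn : n = 2 * finrank ℂ W)
    {κ : Type*} (μ : Basis κ ℝ W) (σ : κ ≃ Fin n) :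
    ∃ ε : ℝ, (ε = 1 ∨ ε = -1) ∧ ∀ ψ : Form V n,
      ((μHE[n] : Measure V).real (Subtype.val '' ZSpan.fundamentalDomain μ) : ℂ) * evalOn W ψ
        = ε * ψ (fun i => (μ (σ.symm i) : V)) := by
  have hdet : (frameBasis W hn).det (μ ∘ σ.symm) ≠ 0 := by
    rw [← μ.coe_reindex σ]; exact ((frameBasis W hn).isUnit_det (μ.reindex σ)).ne_zero
  refine ⟨SignType.sign ((frameBasis W hn).det (μ ∘ σ.symm)), ?_,
    measure_parallelotope_mul_evalOn_sign W hn μ σ⟩
  rcases lt_or_gt_of_ne hdet with h | h
  · right; simp [sign_neg h]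
  · left; simp [sign_pos h]

/-- [SIGN] The sign is `+1` for a real basis of the form `(w₀, i w₀, w₁, i w₁, …)`, `w` a
`ℂ`-basis of `W`: the orientation of `W` used in `evalOn` is the canonical orientation of a complex
vector space. -/
theorem measure_parallelotope_mul_evalOn_of_complex (W : Submodule ℂ V) {n : ℕ}
    (hn : n = 2 * finrank ℂ W) (w : Basis (Fin (finrank ℂ W)) ℂ W) {κ : Type*} (μ : Basis κ ℝ W)
    (σ : κ ≃ Fin n) (hμ : ∀ j, μ (σ.symm j) = realify w n hn j) (ψ : Form V n) :
    ((μHE[n] : Measure V).real (Subtype.val '' ZSpan.fundamentalDomain μ) : ℂ) * evalOn W ψ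
      = ψ (fun i => (μ (σ.symm i) : V)) := by
  have h : μ ∘ σ.symm = realify w n hn := funext hμ
  rw [measure_parallelotope_mul_evalOn_sign W hn μ σ ψ, h,
    sign_pos (frameBasis_det_realify_pos W hn w)]
  simp

end Claimed.Open.R032
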