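import Claimed.Open.R032.SanityHodge
import Claimed.Open.R032.SanityDuality
import Claimed.Open.R032.SanityOrientation
import Claimed.Open.R032.SanityNonExamples

/-!
# Sanity check for R032: cycle classes are of type `(p,p)`

Deviation 3 of `CLAIM.md` says in prose that the target of `cl_B` is as displayed in the theorem ("the classes of
cycles are themselves rational of type `(p,p)`: classical").  The half about the Hodge type is proved here, for the
definitions of `Statement.lean`:

* `IsCycleClass.mem_hodgePiece`: if `p + d = dim A` and `c` is the cycle class of `Z` (ANY set `Z`: the only input is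
  that the tangent spaces of `Z` at its regular points are complex subspaces), then `c ∈ H^{p,p}(A)`;
* `algebraicClasses_le_hodgePiece`: the image `algebraicClasses b p` of `cl_B` lies in `H^{p,p}(A)`;
* `IsCycleClass.im_eq_zero`, `algebraicClasses_im_eq_zero`: cycle classes are real, `c ∈ H^{2p}(A,ℝ)` (same proof with complex
  conjugation instead of the circle; rationality itself, which needs the topology of `Z`, is NOT proved);
* `twoZeroClass_not_mem_algebraicClasses`: on `(ℂ/ℤ[i])²` the integral class `dz₁ ∧ dz₂ + dz̄₁ ∧ dz̄₂` is NOT algebraic: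
  the hypothesis "of type `(p,p)`" of `HodgeConjecture` cannot be dropped, and `algebraicClasses` is not everything
  rational.

Proof.  The circle `|z| = 1` acts on forms by `(z^*φ)(v) = φ(z v)`.  If `e` is a unitary basis of a complex subspace `T`
then so is `z e`, and `evalOn T` does not depend on the unitary basis (`evalOn_eq_of_orthonormalBasis`); hence
`∫_Z z^*ψ = ∫_Z ψ` for every `Z` (`integralOver_circleAct`), also for `Z = A`.  As `z^*` is compatible with the wedge product,
`z^*c` is again a cycle class of `Z`; a set has at most one cycle class (`IsCycleClass.unique`), so `z^*c = c`, which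
characterises the type `(p,p)` (`mem_hodgePiece_pp_iff`).
-/

open MeasureTheory Module

namespace Claimed.Open.R032

variable {V : Type*} [NormedAddCommGroup V] [InnerProductSpace ℂ V]

/-- The action `(z^*φ)(v₁, …, v_n) = φ(z v₁, …, z v_n)` of `z ∈ ℂ` on `H^n(A,ℂ)`. -/
noncomputable def circleAct (z : ℂ) {n : ℕ} (φ : Form V n) : Form V n :=
  φ.compLinearMap ((z • (LinearMap.id : V →ₗ[ℂ] V)).restrictScalars ℝ)

@[simp] theorem circleAct_apply (z : ℂ) {n : ℕ} (φ : Form V n) (v : Fin n → V) :
    circleAct z φ v = φ (fun i => z • v i) := rfl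

theorem circleAct_circleAct_inv {z : ℂ} (hz : z ≠ 0) {n : ℕ} (φ : Form V n) :
    circleAct z (circleAct z⁻¹ φ) = φ := by
  ext v
  simp [smul_smul, inv_mul_cancel₀ hz]

/-- `z^*(α ∧ β) = z^*α ∧ z^*β`. -/
theorem wedge_circleAct (z : ℂ) {a k : ℕ} (α : Form V a) (β : Form V k) :
    wedge (circleAct z α) (circleAct z β) = circleAct z (wedge α β) := by
  ext v
  have h0 : ((a.factorial * k.factorial : ℕ) : ℂ) ≠ 0 :=
    Nat.cast_ne_zero.2 (Nat.mul_ne_zero a.factorial_ne_zero k.factorial_ne_zero)
  apply mul_left_cancel₀ h0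
  rw [factorial_mul_wedge_apply, circleAct_apply, factorial_mul_wedge_apply]
  rfl

/-- The complex conjugate `φ̄` of a class. -/
noncomputable def conjAct {n : ℕ} (φ : Form V n) : Form V n :=
  (Complex.conjAe.toLinearMap : ℂ →ₗ[ℝ] ℂ).compAlternatingMap φ

@[simp] theorem conjAct_apply {n : ℕ} (φ : Form V n) (v : Fin n → V) :
    conjAct φ v = starRingEnd ℂ (φ v) := rfl

theorem conjAct_conjAct {n : ℕ} (φ : Form V n) : conjAct (conjAct φ) = φ := by
  ext v
  simp

/-- The conjugate of `α ∧ β` is `ᾱ ∧ β̄`. -/
theorem wedge_conjAct {a k : ℕ} (α : Form V a) (β : Form V k) :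
    wedge (conjAct α) (conjAct β) = conjAct (wedge α β) := by
  ext v
  have h0 : ((a.factorial * k.factorial : ℕ) : ℂ) ≠ 0 :=
    Nat.cast_ne_zero.2 (Nat.mul_ne_zero a.factorial_ne_zero k.factorial_ne_zero)
  apply mul_left_cancel₀ h0
  have h1 : ((a.factorial * k.factorial : ℕ) : ℂ) * conjAct (wedge α β) v
      = starRingEnd ℂ (((a.factorial * k.factorial : ℕ) : ℂ) * wedge α β v) := by
    rw [map_mul, map_natCast, conjAct_apply]
  rw [h1, factorial_mul_wedge_apply, factorial_mul_wedge_apply, map_sum]
  refine Finset.sum_congr rfl fun σ _ => ?_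
  simp only [Units.smul_def, zsmul_eq_mul, map_mul, map_intCast, conjAct_apply]

variable [FiniteDimensional ℂ V]

/-- The density of `ψ` on a complex subspace is invariant under the circle. -/
theorem evalOn_circleAct {z : ℂ} (hz : ‖z‖ = 1) (T : Submodule ℂ V) {n : ℕ} (ψ : Form V n) :
    evalOn T (circleAct z ψ) = evalOn T ψ := by
  by_cases hn : n = 2 * finrank ℂ T
  · have hz0 : z ≠ 0 := by
      rintro rfl
      simp at hz
    let L : T ≃ₗᵢ[ℂ] T :=
      { LinearEquiv.smulOfNeZero ℂ T z hz0 with
        norm_map' := fun x => by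
          show ‖z • x‖ = ‖x‖
          rw [norm_smul, hz, one_mul] }
    have hL : ∀ x : T, L x = z • x := fun _ => rfl
    rw [evalOn_eq_of_orthonormalBasis T hn ((stdOrthonormalBasis ℂ T).map L) ψ, evalOn, dif_pos hn,
      circleAct_apply]
    congr 1
    funext j
    rw [complexFrame_eq_realify]
    unfold realify
    split_ifs
    · simp [hL]
    · simp [hL, smul_comm z Complex.I]
  · rw [evalOn, dif_neg hn, evalOn, dif_neg hn]

theorem tangentEval_circleAct {z : ℂ} (hz : ‖z‖ = 1) (Z : Set V) {n : ℕ} (ψ : Form V n) (x : V) :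
    tangentEval Z (circleAct z ψ) x = tangentEval Z ψ x := by
  unfold tangentEval
  split_ifs
  · exact evalOn_circleAct hz _ ψ
  · rfl

theorem evalOn_conjAct (T : Submodule ℂ V) {n : ℕ} (ψ : Form V n) :
    evalOn T (conjAct ψ) = starRingEnd ℂ (evalOn T ψ) := by
  unfold evalOn
  split_ifs
  · rfl
  · simp

theorem tangentEval_conjAct (Z : Set V) {n : ℕ} (ψ : Form V n) (x : V) :
    tangentEval Z (conjAct ψ) x = starRingEnd ℂ (tangentEval Z ψ x) := by
  unfold tangentEval
  split_ifs
  · exact evalOn_conjAct _ ψ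
  · simp

variable [MeasurableSpace V] [BorelSpace V] {ι : Type*} {b : Basis ι ℝ V}

/-- `∫_Z z^*ψ = ∫_Z ψ` for `|z| = 1`: the tangent spaces of `Z` are complex subspaces. -/
theorem integralOver_circleAct {z : ℂ} (hz : ‖z‖ = 1) (Z : Set V) {n : ℕ} (ψ : Form V n) :
    integralOver b Z (circleAct z ψ) = integralOver b Z ψ := by
  unfold integralOver
  simp only [tangentEval_circleAct hz]

/-- If `c` is the class of `Z` then so is `z^*c`, `|z| = 1`. -/
theorem IsCycleClass.circleAct {p d : ℕ} {Z : Set V} {c : Form V (2 * p)}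
    (hc : IsCycleClass b p d Z c) {z : ℂ} (hz : ‖z‖ = 1) :
    IsCycleClass b p d Z (Claimed.Open.R032.circleAct z c) := by
  intro ψ
  have hz0 : z ≠ 0 := by
    rintro rfl
    simp at hz
  have hz' : ‖z⁻¹‖ = 1 := by rw [norm_inv, hz, inv_one]
  conv_lhs => rw [← circleAct_circleAct_inv hz0 ψ]
  rw [wedge_circleAct, integralOver_circleAct hz, hc, integralOver_circleAct hz']

/-- **Cycle classes are of type `(p,p)`.**  (`Z` is any set which has a class.) -/
theorem IsCycleClass.mem_hodgePiece {p d : ℕ} (hpd : p + d = finrank ℂ V) {Z : Set V}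
    {c : Form V (2 * p)} (hc : IsCycleClass b p d Z c) : c ∈ hodgePiece V p (2 * p) := by
  rw [mem_hodgePiece_pp_iff]
  intro z v
  have hreal : ∀ (r : ℝ) (w : Fin (2 * p) → V),
      c (fun i => ((r : ℂ)) • w i) = ((r ^ 2 : ℝ) : ℂ) ^ p * c w := by
    intro r w
    have h1 : (fun i => ((r : ℂ)) • w i) = fun i => r • w i := by
      funext i
      exact Complex.coe_smul r (w i)
    rw [h1, c.map_smul_univ (fun _ => r) w]
    simp [pow_mul, Complex.real_smul]
  by_cases hz0 : z = 0
  · subst hz0
    have := hreal 0 v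
    simpa using this
  · have hn : (‖z‖ : ℂ) ≠ 0 := by
      exact_mod_cast (norm_pos_iff.2 hz0).ne'
    have hu : ‖z / (‖z‖ : ℂ)‖ = 1 := by
      rw [norm_div, Complex.norm_real, norm_norm, div_self (norm_pos_iff.2 hz0).ne']
    have hinv : Claimed.Open.R032.circleAct (z / (‖z‖ : ℂ)) c = c :=
      IsCycleClass.unique b hpd (hc.circleAct hu) hc
    have h2 : (fun i => z • v i) = fun i => ((‖z‖ : ℝ) : ℂ) • ((z / (‖z‖ : ℂ)) • v i) := by
      funext i
      rw [smul_smul, mul_div_cancel₀ _ hn]
    rw [h2, hreal, Complex.normSq_eq_norm_sq]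
    congr 1
    exact congrArg (fun f : Form V (2 * p) => f v) hinv

/-- The image of the cycle class map lies in `H^{p,p}(A)`. -/
theorem algebraicClasses_le_hodgePiece (b : Basis ι ℝ V) (p : ℕ) {φ : Form V (2 * p)}
    (hφ : φ ∈ algebraicClasses b p) : φ ∈ hodgePiece V p (2 * p) := by
  unfold algebraicClasses at hφ
  induction hφ using Submodule.span_induction with
  | mem x hx =>
    obtain ⟨d, Z, hpd, -, hc⟩ := hx
    exact hc.mem_hodgePiece hpd
  | zero => exact Submodule.zero_mem _
  | add x y _ _ hx hy => exact Submodule.add_mem _ hx hy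
  | smul q x _ hx =>
    have : q • x = (q : ℂ) • x := by
      ext v
      simp [Rat.smul_def]
    rw [this]
    exact Submodule.smul_mem _ _ hx

/-! ### Cycle classes are real -/


/-- `∫_Z ψ̄` is the conjugate of `∫_Z ψ`. -/
theorem integralOver_conjAct (Z : Set V) {n : ℕ} (ψ : Form V n) :
    integralOver b Z (conjAct ψ) = starRingEnd ℂ (integralOver b Z ψ) := by
  unfold integralOver
  simp only [tangentEval_conjAct]
  exact integral_conj

/-- If `c` is the class of `Z` then so is `c̄`. -/
theorem IsCycleClass.conjAct {p d : ℕ} {Z : Set V} {c : Form V (2 * p)}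
    (hc : IsCycleClass b p d Z c) : IsCycleClass b p d Z (Claimed.Open.R032.conjAct c) := by
  intro ψ
  conv_lhs => rw [← conjAct_conjAct ψ]
  rw [wedge_conjAct, integralOver_conjAct, hc, ← integralOver_conjAct, conjAct_conjAct]

/-- **Cycle classes are real**: `c ∈ H^{2p}(A,ℝ)`. -/
theorem IsCycleClass.im_eq_zero {p d : ℕ} (hpd : p + d = finrank ℂ V) {Z : Set V}
    {c : Form V (2 * p)} (hc : IsCycleClass b p d Z c) (v : Fin (2 * p) → V) : (c v).im = 0 := by
  have h : Claimed.Open.R032.conjAct c = c := IsCycleClass.unique b hpd hc.conjAct hc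
  have h1 : starRingEnd ℂ (c v) = c v := congrArg (fun f : Form V (2 * p) => f v) h
  exact Complex.conj_eq_iff_im.1 h1

/-- The image of the cycle class map consists of real classes. -/
theorem algebraicClasses_im_eq_zero (b : Basis ι ℝ V) (p : ℕ) {φ : Form V (2 * p)}
    (hφ : φ ∈ algebraicClasses b p) (v : Fin (2 * p) → V) : (φ v).im = 0 := by
  unfold algebraicClasses at hφ
  induction hφ using Submodule.span_induction with
  | mem x hx =>
    obtain ⟨d, Z, hpd, -, hc⟩ := hx
    exact hc.im_eq_zero hpd v
  | zero => simp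
  | add x y _ _ hx hy => simp [hx, hy]
  | smul q x _ hx =>
    have : (q • x) v = (q : ℂ) * x v := by
      simp [Rat.smul_def]
    rw [this, Complex.mul_im, hx]
    simp

/-- On `(ℂ/ℤ[i])²` the integral class `dz₁ ∧ dz₂ + dz̄₁ ∧ dz̄₂` is not algebraic: in `HodgeConjecture` the hypothesis
"of type `(p,p)`" cannot be dropped. -/
theorem twoZeroClass_not_mem_algebraicClasses :
    IsRational (lattice (powerBasis Complex.basisOneI 2)) twoZeroClass ∧
      twoZeroClass ∉ algebraicClasses (powerBasis Complex.basisOneI 2) 1 :=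
  ⟨rationalNotHodge.1, fun h =>
    rationalNotHodge.2 ⟨rationalNotHodge.1, algebraicClasses_le_hodgePiece _ 1 h⟩⟩

end Claimed.Open.R032
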