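import Claimed.Open.R032.Statement

/-!
# Sanity checks for the cycle-class part of `Statement.lean`

All results are proved (no `sorry`) for an arbitrary complex torus `A = V / Λ`, `Λ = lattice b`.

* `IsRegularPoint.unique` : the tangent space at a regular point is unique (implicit function
  theorem), so `tangentEval` does not depend on the choice made in its definition.
* `IsAnalyticSubset.isClosed`, `IsAnalyticSubset.eq_univ_of_interior_nonempty` (identity theorem).
* `isSubvariety_univ` : `A` is an irreducible subvariety of dimension `dim A` of itself;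
  `isCycleClass_univ` : its class is `1 ∈ H^0(A,ℚ)`.
* `isSubvariety_lattice` : the origin of `A` is a subvariety of dimension `0`;
  `integralOver_lattice` : `∫_{pt} ψ = ψ`;
  `isCycleClass_lattice` : its class is the form `c` of top degree with `∫_A c = 1`.
* `integralOver_univ_eq` : `∫_A φ = ± φ (b₀, …, b_{2g-1})` for the period basis, i.e. integration
  over `A` is the evaluation on a generator of `H_{2g}(A,ℤ)`: the normalisation of the measure is
  the right one, and the class of a point generates `H^{2g}(A,ℤ)`.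
* `mem_algebraicClasses_zero`, `mem_algebraicClasses_top` : the conclusion of `Statement` holds for
  `p = 0` and for `p = dim A`, for every complex torus.
-/

open MeasureTheory Module Filter Topology TensorProduct

namespace Claimed.Open.R032

variable {V : Type*} [NormedAddCommGroup V] [InnerProductSpace ℂ V] [FiniteDimensional ℂ V]

/-! ### The tangent space at a regular point is well defined -/

/-- One inclusion of tangent spaces (implicit function theorem). -/
theorem IsRegularPoint.le {Z : Set V} {x : V} {T T' : Submodule ℂ V}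
    (h : IsRegularPoint Z x T) (h' : IsRegularPoint Z x T') : T ≤ T' := by
  obtain ⟨U, m, F, hU, hxU, hxZ, hF, hZ, hr, hk⟩ := h
  obtain ⟨U', m', F', hU', hxU', -, hF', hZ', -, hk'⟩ := h'
  have hs : HasStrictFDerivAt F (fderiv ℂ F x) x := (hF x hxU).hasStrictFDerivAt
  have hs' : HasStrictFDerivAt F' (fderiv ℂ F' x) x := (hF' x hxU').hasStrictFDerivAt
  have hFx : F x = 0 := by
    have : x ∈ Z ∩ U := ⟨hxZ, hxU⟩
    rw [hZ] at this
    exact this.2
  set φ := hs.implicitFunction F (fderiv ℂ F x) hr (F x) with hφ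
  have hφd : HasStrictFDerivAt φ (fderiv ℂ F x).ker.subtypeL 0 := hs.to_implicitFunction hr
  have hφ0 : φ 0 = x := hs.implicitFunction_apply_image hr
  have hcont : Tendsto φ (𝓝 0) (𝓝 x) := by
    have := hφd.continuousAt.tendsto
    rwa [hφ0] at this
  have h1 : ∀ᶠ t in 𝓝 (0 : (fderiv ℂ F x).ker), F (φ t) = 0 := by
    have := hs.map_implicitFunction_eq hr
    have h2 : Tendsto (fun t : (fderiv ℂ F x).ker => (F x, t)) (𝓝 0) (𝓝 (F x, 0)) :=
      (Continuous.prodMk_right (F x)).tendsto 0
    have h3 := h2.eventually this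
    filter_upwards [h3] with t ht
    simpa [hφ, hFx] using ht
  have h2 : ∀ᶠ t in 𝓝 (0 : (fderiv ℂ F x).ker), φ t ∈ U ∩ U' :=
    hcont.eventually ((hU.inter hU').mem_nhds ⟨hxU, hxU'⟩)
  have h3 : ∀ᶠ t in 𝓝 (0 : (fderiv ℂ F x).ker), F' (φ t) = 0 := by
    filter_upwards [h1, h2] with t ht1 ht2
    have : φ t ∈ Z ∩ U := by
      rw [hZ]; exact ⟨ht2.1, ht1⟩
    have : φ t ∈ Z ∩ U' := ⟨this.1, ht2.2⟩
    rw [hZ'] at this
    exact this.2
  have h4 : HasFDerivAt (F' ∘ φ) ((fderiv ℂ F' x).comp (fderiv ℂ F x).ker.subtypeL) 0 := by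
    have : HasFDerivAt F' (fderiv ℂ F' x) (φ 0) := by rw [hφ0]; exact hs'.hasFDerivAt
    exact this.comp 0 hφd.hasFDerivAt
  have h5 : HasFDerivAt (F' ∘ φ) (0 : (fderiv ℂ F x).ker →L[ℂ] (Fin m' → ℂ)) 0 := by
    have : (F' ∘ φ) =ᶠ[𝓝 0] fun _ => 0 := h3
    exact (hasFDerivAt_const (0 : Fin m' → ℂ) (0 : (fderiv ℂ F x).ker)).congr_of_eventuallyEq this
  have h6 := h4.unique h5
  intro v hv
  rw [← hk] at hv
  rw [← hk']
  have := congrArg (fun L => L ⟨v, hv⟩) h6
  simpa using this

/-- The tangent space at a regular point is unique, so `tangentEval` does not depend on the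
choice made in its definition. -/
theorem IsRegularPoint.unique {Z : Set V} {x : V} {T T' : Submodule ℂ V}
    (h : IsRegularPoint Z x T) (h' : IsRegularPoint Z x T') : T = T' :=
  le_antisymm (h.le h') (h'.le h)

theorem tangentEval_of_isRegularPoint {Z : Set V} {x : V} {T : Submodule ℂ V}
    (h : IsRegularPoint Z x T) {n : ℕ} (ψ : Form V n) : tangentEval Z ψ x = evalOn T ψ := by
  have hex : ∃ T, IsRegularPoint Z x T := ⟨T, h⟩
  rw [tangentEval, dif_pos hex, hex.choose_spec.unique h]

theorem tangentEval_of_notMem {Z : Set V} {x : V} (h : x ∉ Z) {n : ℕ} (ψ : Form V n) :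
    tangentEval Z ψ x = 0 := by
  rw [tangentEval, dif_neg]
  rintro ⟨T, U, m, F, -, -, hx, -⟩
  exact h hx

/-! ### Analytic subsets: closedness and the identity theorem -/

omit [FiniteDimensional ℂ V] in
/-- Analytic subsets are closed. -/
theorem IsAnalyticSubset.isClosed {Z : Set V} (hZ : IsAnalyticSubset Z) : IsClosed Z := by
  rw [← isOpen_compl_iff, isOpen_iff_mem_nhds]
  intro x hx
  obtain ⟨U, hU, hxU, m, f, hf, hZU⟩ := hZ x
  have hfx : f x ≠ 0 := by
    intro h0
    have : x ∈ Z ∩ U := by rw [hZU]; exact ⟨hxU, h0⟩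
    exact hx this.1
  have hc : ContinuousAt f x := (hf x hxU).continuousAt
  filter_upwards [hc.eventually_ne hfx, hU.mem_nhds hxU] with y hy hyU hyZ
  have : y ∈ Z ∩ U := ⟨hyZ, hyU⟩
  rw [hZU] at this
  exact hy this.2

omit [FiniteDimensional ℂ V] in
/-- Identity theorem: an analytic subset of `V` with nonempty interior is all of `V`. -/
theorem IsAnalyticSubset.eq_univ_of_interior_nonempty {Z : Set V} (hZ : IsAnalyticSubset Z)
    (hint : (interior Z).Nonempty) : Z = Set.univ := by
  have hclosed : IsClosed (interior Z) := by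
    rw [← closure_subset_iff_isClosed]
    intro x hx
    obtain ⟨U, hU, hxU, m, f, hf, hZU⟩ := hZ x
    obtain ⟨r, hr, hball⟩ := Metric.isOpen_iff.mp hU x hxU
    obtain ⟨w, hwB, hwW⟩ := mem_closure_iff.mp hx (Metric.ball x r) Metric.isOpen_ball
      (Metric.mem_ball_self hr)
    have hloc : f =ᶠ[𝓝 w] 0 := by
      filter_upwards [isOpen_interior.mem_nhds hwW, Metric.isOpen_ball.mem_nhds hwB] with y hy hyB
      have : y ∈ Z ∩ U := ⟨interior_subset hy, hball hyB⟩
      rw [hZU] at this
      exact this.2
    have hzero : Set.EqOn f 0 (Metric.ball x r) :=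
      (hf.mono hball).eqOn_zero_of_preconnected_of_eventuallyEq_zero
        (convex_ball x r).isPreconnected hwB hloc
    have hsub : Metric.ball x r ⊆ Z := by
      intro y hy
      have : y ∈ Z ∩ U := by rw [hZU]; exact ⟨hball hy, hzero hy⟩
      exact this.1
    exact mem_interior.mpr ⟨_, hsub, Metric.isOpen_ball, Metric.mem_ball_self hr⟩
  have : interior Z = Set.univ := IsClopen.eq_univ ⟨hclosed, isOpen_interior⟩ hint
  exact Set.eq_univ_of_univ_subset (this ▸ interior_subset)

/-! ### The whole abelian variety as a subvariety -/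

omit [FiniteDimensional ℂ V] in
/-- Every point of `V` is a regular point of `V`, with tangent space `V`. -/
theorem isRegularPoint_univ (x : V) : IsRegularPoint (Set.univ : Set V) x ⊤ := by
  refine ⟨Set.univ, 0, fun _ => 0, isOpen_univ, trivial, trivial, analyticOnNhd_const, ?_, ?_, ?_⟩
  · ext y; simp
  · exact Subsingleton.elim _ _
  · ext v; simp

theorem tangentEval_univ {n : ℕ} (ψ : Form V n) (x : V) :
    tangentEval (Set.univ : Set V) ψ x = evalOn ⊤ ψ :=
  tangentEval_of_isRegularPoint (isRegularPoint_univ x) ψ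

omit [FiniteDimensional ℂ V] in
theorem isAnalyticSubset_univ : IsAnalyticSubset (Set.univ : Set V) := by
  intro x
  refine ⟨Set.univ, isOpen_univ, trivial, 0, fun _ => 0, analyticOnNhd_const, ?_⟩
  ext y; simp

omit [FiniteDimensional ℂ V] in
/-- `A` itself is an (irreducible) subvariety of dimension `dim A`. -/
theorem isSubvariety_univ (Λ : Submodule ℤ V) : IsSubvariety Λ (finrank ℂ V) (Set.univ : Set V) where
  analytic := isAnalyticSubset_univ
  periodic := fun _ _ _ _ => trivial
  nonempty := Set.univ_nonempty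
  irreducible := by
    intro Z₁ Z₂ h₁ _ h₂ _ h
    by_cases h1 : Z₁ = Set.univ
    · exact Or.inl h1.symm
    · right
      symm
      apply h₂.eq_univ_of_interior_nonempty
      obtain ⟨x, hx⟩ := (Set.ne_univ_iff_exists_notMem Z₁).mp h1
      refine ⟨x, mem_interior.mpr ⟨Z₁ᶜ, ?_, h₁.isClosed.isOpen_compl, hx⟩⟩
      intro y hy
      have : y ∈ Z₁ ∪ Z₂ := h ▸ Set.mem_univ y
      exact this.resolve_left hy
  dim_eq := by
    intro x _
    exact subset_closure ⟨⊤, isRegularPoint_univ x, finrank_top ℂ V⟩

/-! ### The wedge product with a form of degree `0` -/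

section
variable {ιa ιb : Type*} [Fintype ιa] [Fintype ιb] [DecidableEq ιa] [DecidableEq ιb]

theorem sumCongrHom_range_eq_top_of_card (h : Fintype.card ιa = 0 ∨ Fintype.card ιb = 0) :
    (Equiv.Perm.sumCongrHom ιa ιb).range = ⊤ := by
  apply Subgroup.eq_top_of_card_eq
  rw [Nat.card_eq_fintype_card, Nat.card_eq_fintype_card,
    Fintype.card_congr (MonoidHom.ofInjective Equiv.Perm.sumCongrHom_injective).symm.toEquiv]
  rw [Fintype.card_prod, Fintype.card_perm, Fintype.card_perm, Fintype.card_perm, Fintype.card_sum]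
  rcases h with h | h <;> simp [h]

theorem domCoprod_apply_of_card {R M N₁ N₂ : Type*} [CommSemiring R] [AddCommGroup N₁] [Module R N₁]
    [AddCommGroup N₂] [Module R N₂] [AddCommMonoid M] [Module R M]
    (h : Fintype.card ιa = 0 ∨ Fintype.card ιb = 0)
    (a : M [⋀^ιa]→ₗ[R] N₁) (b : M [⋀^ιb]→ₗ[R] N₂) (v : ιa ⊕ ιb → M) :
    a.domCoprod b v = a (fun i => v (Sum.inl i)) ⊗ₜ[R] b (fun i => v (Sum.inr i)) := by
  have hs : Subsingleton (Equiv.Perm.ModSumCongr ιa ιb) := by
    rw [Equiv.Perm.ModSumCongr, sumCongrHom_range_eq_top_of_card h]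
    exact QuotientGroup.subsingleton_quotient_top
  have key : (∑ σ : Equiv.Perm.ModSumCongr ιa ιb, AlternatingMap.domCoprod.summand a b σ)
      = AlternatingMap.domCoprod.summand a b (Quotient.mk'' 1) :=
    Fintype.sum_subsingleton _ _
  rw [AlternatingMap.domCoprod_apply, key, AlternatingMap.domCoprod.summand_mk'']
  simp
end

omit [FiniteDimensional ℂ V] in
/-- The wedge product with a form of degree `0` is the product with a scalar. -/
theorem wedge_apply_of_eq_zero {a b : ℕ} (h : a = 0 ∨ b = 0) (α : Form V a) (β : Form V b)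
    (v : Fin (a + b) → V) :
    wedge α β v = α (fun i => v (Fin.castAdd b i)) * β (fun i => v (Fin.natAdd a i)) := by
  rw [wedge, AlternatingMap.domDomCongr_apply, LinearMap.compAlternatingMap_apply,
    domCoprod_apply_of_card (by simpa using h)]
  simp

theorem complexFrame_congr {T : Submodule ℂ V} {n n' : ℕ} (h : n = 2 * finrank ℂ T)
    (h' : n' = 2 * finrank ℂ T) (j : Fin n) (j' : Fin n') (hj : (j : ℕ) = j') :
    complexFrame T n h j = complexFrame T n' h' j' := by
  subst h'
  subst h
  have : j = j' := Fin.ext hj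
  rw [this]

theorem evalOn_wedge_of_left_eq_zero {a b : ℕ} (ha : a = 0) (α : Form V a) (β : Form V b)
    (T : Submodule ℂ V) (v : Fin a → V) :
    evalOn T (wedge α β) = α v * evalOn T β := by
  unfold evalOn
  by_cases h : b = 2 * finrank ℂ T
  · have h' : a + b = 2 * finrank ℂ T := by omega
    have e1 : (fun i => complexFrame T (a + b) h' (Fin.castAdd b i)) = v :=
      funext fun i => by subst ha; exact i.elim0
    have e2 : (fun i => complexFrame T (a + b) h' (Fin.natAdd a i)) = complexFrame T b h :=
      funext fun i => complexFrame_congr _ _ _ _ (by simp [ha])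
    rw [dif_pos h, dif_pos h', wedge_apply_of_eq_zero (Or.inl ha), e1, e2]
  · have h' : ¬ (a + b = 2 * finrank ℂ T) := by omega
    rw [dif_neg h, dif_neg h', mul_zero]

theorem evalOn_wedge_of_right_eq_zero {a b : ℕ} (hb : b = 0) (α : Form V a) (β : Form V b)
    (T : Submodule ℂ V) (v : Fin b → V) :
    evalOn T (wedge α β) = evalOn T α * β v := by
  unfold evalOn
  by_cases h : a = 2 * finrank ℂ T
  · have h' : a + b = 2 * finrank ℂ T := by omega
    have e1 : (fun i => complexFrame T (a + b) h' (Fin.castAdd b i)) = complexFrame T a h :=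
      funext fun i => complexFrame_congr _ _ _ _ (by simp)
    have e2 : (fun i => complexFrame T (a + b) h' (Fin.natAdd a i)) = v :=
      funext fun i => by subst hb; exact i.elim0
    rw [dif_pos h, dif_pos h', wedge_apply_of_eq_zero (Or.inr hb), e1, e2]
  · have h' : ¬ (a + b = 2 * finrank ℂ T) := by omega
    rw [dif_neg h, dif_neg h', zero_mul]

/-! ### The fundamental class of `A` -/

section fundamentalClass

variable [MeasurableSpace V] [BorelSpace V] {ι : Type*} (b : Basis ι ℝ V)

/-- `∫_A ψ = μHE[n](fundamental domain) * (density of ψ)`. -/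
theorem integralOver_univ {n : ℕ} (ψ : Form V n) :
    integralOver b Set.univ ψ
      = ((μHE[n] : Measure V).real (ZSpan.fundamentalDomain b) : ℂ) * evalOn ⊤ ψ := by
  simp only [integralOver, tangentEval_univ, Set.univ_inter]
  rw [setIntegral_const]
  simp

/-- The fundamental class: `[A] = 1 ∈ H^0(A,ℚ)`. -/
theorem isCycleClass_univ (d : ℕ) (c : Form V (2 * 0)) (hc : ∀ v, c v = 1) :
    IsCycleClass b 0 d Set.univ c := by
  intro ψ
  rw [integralOver_univ, integralOver_univ,
    evalOn_wedge_of_left_eq_zero rfl c ψ ⊤ (fun i => i.elim0), hc, one_mul]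
  simp

end fundamentalClass

/-! ### The class of a point -/

section point

variable {ι : Type*} (b : Basis ι ℝ V)

include b in
theorem finite_index : Finite ι := Module.Finite.finite_basis b

theorem isClosed_lattice : IsClosed (lattice b : Set V) := by
  have := finite_index b
  exact @AddSubgroup.isClosed_of_discrete _ _ _ _ _ (lattice b).toAddSubgroup
    (inferInstanceAs (DiscreteTopology (Submodule.span ℤ (Set.range b))))

theorem exists_isOpen_inter_lattice {x : V} (hx : x ∈ lattice b) :
    ∃ U : Set V, IsOpen U ∧ U ∩ (lattice b : Set V) = {x} := by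
  have := finite_index b
  exact (discreteTopology_subtype_iff' (S := (lattice b : Set V))).mp
    (inferInstanceAs (DiscreteTopology (Submodule.span ℤ (Set.range b)))) x hx

/-- Local equations for a lattice point. -/
theorem exists_local_equation {x : V} (hx : x ∈ lattice b) :
    ∃ (U : Set V) (m : ℕ) (f : V → Fin m → ℂ), IsOpen U ∧ x ∈ U ∧
      AnalyticOnNhd ℂ f U ∧ (lattice b : Set V) ∩ U = {y ∈ U | f y = 0} ∧
      (fderiv ℂ f x).range = ⊤ ∧ (fderiv ℂ f x).ker = ⊥ := by
  obtain ⟨U, hU, hUL⟩ := exists_isOpen_inter_lattice b hx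
  have hxU : x ∈ U := by
    have : x ∈ U ∩ (lattice b : Set V) := by rw [hUL]; rfl
    exact this.1
  let e : V ≃L[ℂ] (Fin (finrank ℂ V) → ℂ) := (finBasis ℂ V).equivFunL
  have hd : ∀ y, HasFDerivAt (fun y => e (y - x)) (e : V →L[ℂ] (Fin (finrank ℂ V) → ℂ)) y := by
    intro y
    exact (e : V →L[ℂ] (Fin (finrank ℂ V) → ℂ)).hasFDerivAt.comp y ((hasFDerivAt_id y).sub_const x)
  refine ⟨U, finrank ℂ V, fun y => e (y - x), hU, hxU, ?_, ?_, ?_, ?_⟩
  · intro y _
    exact ((e : V →L[ℂ] (Fin (finrank ℂ V) → ℂ)).analyticAt _).comp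
      (analyticAt_id.sub analyticAt_const)
  · ext y
    constructor
    · rintro ⟨hyL, hyU⟩
      have : y ∈ U ∩ (lattice b : Set V) := ⟨hyU, hyL⟩
      rw [hUL] at this
      have hyx : y = x := this
      exact ⟨hyU, by simp [hyx]⟩
    · rintro ⟨hyU, hy⟩
      have hyx : y = x := by
        have : y - x = 0 := e.injective (by rw [map_zero]; exact hy)
        exact sub_eq_zero.mp this
      exact ⟨hyx ▸ hx, hyU⟩
  · rw [(hd x).fderiv]
    exact LinearMap.range_eq_top.mpr e.surjective
  · rw [(hd x).fderiv]
    exact LinearMap.ker_eq_bot.mpr e.injective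

/-- The lattice points are regular points of `Λ ⊆ V`, with tangent space `0`. -/
theorem isRegularPoint_lattice {x : V} (hx : x ∈ lattice b) :
    IsRegularPoint (lattice b : Set V) x ⊥ := by
  obtain ⟨U, m, f, hU, hxU, h1, h2, h3, h4⟩ := exists_local_equation b hx
  exact ⟨U, m, f, hU, hxU, hx, h1, h2, h3, h4⟩

theorem isAnalyticSubset_lattice : IsAnalyticSubset (lattice b : Set V) := by
  intro x
  by_cases hx : x ∈ lattice b
  · obtain ⟨U, m, f, hU, hxU, h1, h2, -, -⟩ := exists_local_equation b hx
    exact ⟨U, hU, hxU, m, f, h1, h2⟩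
  · refine ⟨(lattice b : Set V)ᶜ, (isClosed_lattice b).isOpen_compl, hx, 1, fun _ => 1,
      analyticOnNhd_const, ?_⟩
    ext y
    simp

/-- The origin of `A` (i.e. the periodic set `Λ ⊆ V`) is a subvariety of dimension `0`. -/
theorem isSubvariety_lattice : IsSubvariety (lattice b) 0 (lattice b : Set V) where
  analytic := isAnalyticSubset_lattice b
  periodic := fun l hl z hz => (lattice b).add_mem hl hz
  nonempty := ⟨0, (lattice b).zero_mem⟩
  irreducible := by
    intro Z₁ Z₂ _ h₁ _ h₂ h
    have h0 : (0 : V) ∈ Z₁ ∪ Z₂ := h ▸ (lattice b).zero_mem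
    rcases h0 with h0 | h0
    · left
      apply Set.Subset.antisymm
      · intro l hl
        simpa using h₁ l hl 0 h0
      · rw [h]; exact Set.subset_union_left
    · right
      apply Set.Subset.antisymm
      · intro l hl
        simpa using h₂ l hl 0 h0
      · rw [h]; exact Set.subset_union_right
  dim_eq := by
    intro x hx
    exact subset_closure ⟨⊥, isRegularPoint_lattice b hx, finrank_bot ℂ V⟩

theorem lattice_inter_fundamentalDomain :
    (lattice b : Set V) ∩ ZSpan.fundamentalDomain b = {0} := by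
  have := finite_index b
  have := Fintype.ofFinite ι
  ext x
  simp only [Set.mem_inter_iff, SetLike.mem_coe, Set.mem_singleton_iff]
  constructor
  · rintro ⟨hxL, hxD⟩
    have h1 : ZSpan.fract b x = x := ZSpan.fract_eq_self.mpr hxD
    have h2 : (ZSpan.floor b x : V) = x := ZSpan.floor_eq_self_of_mem b x hxL
    rw [ZSpan.fract_apply, h2, sub_self] at h1
    exact h1.symm
  · rintro rfl
    refine ⟨(lattice b).zero_mem, ?_⟩
    rw [ZSpan.mem_fundamentalDomain]
    intro i
    simp

variable [MeasurableSpace V] [BorelSpace V]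

/-- `∫_{pt} ψ = ψ` for a form of degree `0`. -/
theorem integralOver_lattice (ψ : Form V (2 * 0)) (v : Fin (2 * 0) → V) :
    integralOver b (lattice b : Set V) ψ = ψ v := by
  have hv : ∀ w : Fin (2 * 0) → V, w = v := fun w => funext fun i => i.elim0
  have h0 : 2 * 0 = 2 * finrank ℂ (⊥ : Submodule ℂ V) := by rw [finrank_bot]
  rw [integralOver, lattice_inter_fundamentalDomain, integral_singleton,
    tangentEval_of_isRegularPoint (isRegularPoint_lattice b (lattice b).zero_mem), evalOn,
    dif_pos h0, hv (complexFrame _ _ _)]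
  simp [Measure.real, Measure.hausdorffMeasure_zero_singleton]

/-- The class of a point is any form `c` of degree `2 p` with `∫_A c = 1`
(such a form exists only for `p = dim A`). -/
theorem isCycleClass_lattice {p : ℕ} (c : Form V (2 * p)) (hc : integralOver b Set.univ c = 1) :
    IsCycleClass b p 0 (lattice b : Set V) c := by
  intro ψ
  rw [integralOver_univ] at hc
  rw [integralOver_univ, integralOver_lattice b ψ (fun i => i.elim0),
    evalOn_wedge_of_right_eq_zero rfl c ψ ⊤ (fun i => i.elim0), ← mul_assoc]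
  have : ((μHE[2 * p + 2 * 0] : Measure V).real (ZSpan.fundamentalDomain b) : ℂ) * evalOn ⊤ c
      = 1 := hc
  rw [this, one_mul]

end point

/-! ### Integration over `A` is evaluation on the fundamental class -/

section top

open scoped InnerProductSpace in
/-- `complexFrame T` is orthonormal for the real inner product `re ⟪ , ⟫`. -/
theorem orthonormal_complexFrame (T : Submodule ℂ V) (n : ℕ) (h : n = 2 * finrank ℂ T) :
    letI : InnerProductSpace ℝ V := InnerProductSpace.complexToReal
    Orthonormal ℝ (complexFrame T n h) := by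
  let _ : InnerProductSpace ℝ V := InnerProductSpace.complexToReal
  have he : Orthonormal ℂ (fun j => (stdOrthonormalBasis ℂ T j : V)) :=
    (stdOrthonormalBasis ℂ T).orthonormal.comp_linearIsometry T.subtypeₗᵢ
  rw [orthonormal_iff_ite] at he ⊢
  intro i j
  have hre : ∀ x y : V, ⟪x, y⟫_ℝ = (⟪x, y⟫_ℂ).re := fun x y => rfl
  rw [hre]
  unfold complexFrame
  by_cases hi : (i : ℕ) % 2 = 0 <;> by_cases hj : (j : ℕ) % 2 = 0 <;>
    simp only [hi, hj, if_true, if_false, inner_smul_left, inner_smul_right, he,
      Fin.ext_iff] <;>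
    split_ifs <;> first | omega | simp

omit [FiniteDimensional ℂ V] in
/-- A form of top degree is determined by its value on a basis. -/
theorem form_eq_det_mul {n : ℕ} (F : Basis (Fin n) ℝ V) (φ : Form V n) (v : Fin n → V) :
    φ v = (F.det v : ℂ) * φ F := by
  have hre := congrArg (fun f => f v) ((Complex.reLm.compAlternatingMap φ).eq_smul_basis_det F)
  have him := congrArg (fun f => f v) ((Complex.imLm.compAlternatingMap φ).eq_smul_basis_det F)
  simp only [LinearMap.compAlternatingMap_apply, AlternatingMap.smul_apply, smul_eq_mul,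
    Complex.reLm_coe, Complex.imLm_coe] at hre him
  apply Complex.ext
  · rw [hre]; simp [mul_comm]
  · rw [him]; simp [mul_comm]

variable [MeasurableSpace V] [BorelSpace V]

/-- `complexFrame ⊤` is an `ℝ`-basis of `V` whose period parallelotope has volume `1`. -/
theorem exists_frame_basis {n : ℕ} (hn : n = 2 * finrank ℂ (⊤ : Submodule ℂ V)) :
    ∃ F : Basis (Fin n) ℝ V, (⇑F = complexFrame ⊤ n hn) ∧
      (μHE[n] : Measure V) (ZSpan.fundamentalDomain F) = 1 := by
  let _ : InnerProductSpace ℝ V := InnerProductSpace.complexToReal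
  have hn' : n = finrank ℝ V := by rw [hn, finrank_top, finrank_real_of_complex]
  have hon : Orthonormal ℝ (complexFrame ⊤ n hn) := orthonormal_complexFrame ⊤ n hn
  have hcard : Fintype.card (Fin n) = finrank ℝ V := by rw [Fintype.card_fin, hn']
  have hsp : ⊤ ≤ Submodule.span ℝ (Set.range (complexFrame ⊤ n hn)) :=
    (hon.linearIndependent.span_eq_top_of_card_eq_finrank' hcard).ge
  let F := OrthonormalBasis.mk hon hsp
  refine ⟨F.toBasis, ?_, ?_⟩
  · rw [OrthonormalBasis.coe_toBasis, OrthonormalBasis.coe_mk]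
  · have hμ : (μHE[n] : Measure V) = volume := by
      rw [← InnerProductSpace.euclideanHausdorffMeasure_eq_volume, hn']
    rw [hμ, measure_congr (ZSpan.fundamentalDomain_ae_parallelepiped F.toBasis volume)]
    have := F.volume_parallelepiped
    simpa using this

variable {ι : Type*} (b : Basis ι ℝ V)

/-- `∫_A φ = ± φ(b₀, …, b_{2g-1})`: integration over `A` is, up to the orientation of the period
basis, the evaluation on the generator `b₀ ∧ ⋯ ∧ b_{2g-1}` of `H_{2g}(A,ℤ) = ⋀^{2g} Λ`. -/
theorem integralOver_univ_eq {n : ℕ} (hn : n = 2 * finrank ℂ V) (σ : ι ≃ Fin n) :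
    ∃ ε : ℝ, (ε = 1 ∨ ε = -1) ∧
      ∀ φ : Form V n, integralOver b Set.univ φ = ε * φ (b ∘ σ.symm) := by
  have hn' : n = 2 * finrank ℂ (⊤ : Submodule ℂ V) := by rw [hn, finrank_top]
  obtain ⟨F, hF, hFvol⟩ := exists_frame_basis (V := V) hn'
  have hHaar : (μHE[n] : Measure V).IsAddHaarMeasure := by
    rw [hn, ← finrank_real_of_complex]
    exact MeasureTheory.isAddHaarMeasure_euclideanHausdorffMeasure
  have hD : ZSpan.fundamentalDomain (b.reindex σ) = ZSpan.fundamentalDomain b :=
    ZSpan.fundamentalDomain_reindex b σ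
  have hb : ⇑(b.reindex σ) = b ∘ σ.symm := b.coe_reindex σ
  have hcov : (μHE[n] : Measure V).real (ZSpan.fundamentalDomain b) = |F.det (b ∘ σ.symm)| := by
    rw [Measure.real, ← hD, ZSpan.measure_fundamentalDomain (b.reindex σ) _ F, hFvol, mul_one,
      ENNReal.toReal_ofReal (abs_nonneg _), hb]
  have hdet : F.det (b ∘ σ.symm) ≠ 0 := by
    rw [← hb]; exact (F.isUnit_det (b.reindex σ)).ne_zero
  refine ⟨SignType.sign (F.det (b ∘ σ.symm)), ?_, ?_⟩
  · rcases lt_or_gt_of_ne hdet with h | h
    · right; simp [sign_neg h]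
    · left; simp [sign_pos h]
  · intro φ
    rw [integralOver_univ, hcov, evalOn, dif_pos hn', ← hF, form_eq_det_mul F φ (b ∘ σ.symm),
      ← sign_mul_self (F.det (b ∘ σ.symm))]
    push_cast
    ring

end top

/-! ### The Hodge conjecture in codimension `0` and `dim A` -/

section extremeCodimension

variable [MeasurableSpace V] [BorelSpace V] {ι : Type*} (b : Basis ι ℝ V)

/-- Sanity check: with the definitions of `Statement.lean`, every rational class of degree `0` is a
rational multiple of the fundamental class `[A]`. -/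
theorem mem_algebraicClasses_zero (φ : Form V (2 * 0)) (hφ : IsRational (lattice b) φ) :
    φ ∈ algebraicClasses b 0 := by
  obtain ⟨q, hq⟩ := hφ (fun i => i.elim0) (fun i => i.elim0)
  have : IsEmpty (Fin (2 * 0)) := Fin.isEmpty
  let c : Form V (2 * 0) := AlternatingMap.constOfIsEmpty ℝ V (Fin (2 * 0)) 1
  have hc : c ∈ {c : Form V (2 * 0) | ∃ (d : ℕ) (Z : Set V), 0 + d = finrank ℂ V ∧
      IsSubvariety (lattice b) d Z ∧ IsCycleClass b 0 d Z c} :=
    ⟨finrank ℂ V, Set.univ, zero_add _, isSubvariety_univ _,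
      isCycleClass_univ b _ c (fun _ => rfl)⟩
  have : φ = q • c := by
    ext v
    have hv : v = fun i => i.elim0 := funext fun i => i.elim0
    rw [hv, hq]
    simp [c, Rat.smul_def]
  rw [this]
  exact Submodule.smul_mem _ _ (Submodule.subset_span hc)

/-- Sanity check: with the definitions of `Statement.lean`, every rational class of top degree is a
rational multiple of the class of a point. -/
theorem mem_algebraicClasses_top {p : ℕ} (hp : p = finrank ℂ V) (φ : Form V (2 * p))
    (hφ : IsRational (lattice b) φ) : φ ∈ algebraicClasses b p := by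
  have := finite_index b
  have := Fintype.ofFinite ι
  have hcard : Fintype.card ι = 2 * p := by
    rw [← Module.finrank_eq_card_basis b, finrank_real_of_complex, hp]
  let σ : ι ≃ Fin (2 * p) := Fintype.equivFinOfCardEq hcard
  obtain ⟨ε, hε, hint⟩ := integralOver_univ_eq b (by rw [hp]) σ
  have hbL : ∀ i, (b ∘ σ.symm) i ∈ lattice b := fun i => Submodule.subset_span ⟨_, rfl⟩
  obtain ⟨q, hq⟩ := hφ _ hbL
  let β := b.reindex σ
  have hβ : ⇑β = b ∘ σ.symm := b.coe_reindex σ
  let δ : Form V (2 * p) := Complex.ofRealCLM.toLinearMap.compAlternatingMap β.det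
  have hδ : δ (b ∘ σ.symm) = 1 := by
    rw [← hβ]
    simp [δ, β.det_self]
  have hφδ : φ = q • δ := by
    ext v
    rw [form_eq_det_mul β φ v, hβ, hq]
    simp [δ, Rat.smul_def, mul_comm]
  have hmem : ∀ c : Form V (2 * p), integralOver b Set.univ c = 1 →
      c ∈ algebraicClasses b p := fun c hc =>
    Submodule.subset_span ⟨0, (lattice b : Set V), by rw [hp, add_zero], isSubvariety_lattice b,
      isCycleClass_lattice b c hc⟩
  rcases hε with h | h
  · have h1 : δ ∈ algebraicClasses b p := hmem δ (by rw [hint, hδ, h]; simp)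
    rw [hφδ]
    exact Submodule.smul_mem _ _ h1
  · have h1 : -δ ∈ algebraicClasses b p := hmem (-δ) (by
      rw [hint, AlternatingMap.neg_apply, hδ, h]; simp)
    rw [hφδ]
    exact Submodule.smul_mem _ _ (by simpa using Submodule.neg_mem _ h1)

end extremeCodimension

end Claimed.Open.R032
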