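import Claimed.Open.R032.SanityThetaTau
import Claimed.Open.R032.SanityCompanion
import Claimed.Open.R032.PowerMain

/-!
# `Statement` restricted to dimension `≤ 1` is a theorem

For complex tori `A = V / Λ` with `dim A ≤ 1` all four conjuncts of `Statement` are proved here, for all
values of the remaining variables.

* `hodgeConjecture_of_finrank_le_one` : `HodgeConjecture b` (only codimension `0` and `dim A` occur).
* `generalizedHodge_of_finrank_le_one` : the conclusion of `GeneralizedHodgeCM`, for all `k`, `r`, `W`; **for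
  every elliptic curve** (CM or not).  The case with content is `k = 2`, `r = 1`: the fundamental class
  restricts to zero on the complement of finitely many points (`SanityThetaTau.lean`).
* `quadraticFive_of_finrank_le_one` : the conclusion of `QuadraticFive`: if an elliptic curve `A` admits an
  action of an imaginary quadratic field, the Hodge conjecture holds on `A^m`, for all `m`, in all codimensions.
  Here the hypothesis is used: it gives that the period ratio `ρ` is quadratic over `ℚ`
  (`exists_quadratic_of_isQuadraticAction`), and `PowerMain.lean` applies.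
* `SplitWeilSixfolds` is about sixfolds.

They are put together in `Sanity.lean` (`sanity_statement_dim_le_one`).
-/

open MeasureTheory Module Set Complex

namespace Claimed.Open.R032

variable {V : Type*} [NormedAddCommGroup V] [InnerProductSpace ℂ V] [FiniteDimensional ℂ V]
  {ι : Type*}

/-- `H^k(A,ℂ) = 0` for `k > 2 dim A`. -/
theorem form_eq_zero_of_two_mul_finrank_lt (b : Basis ι ℝ V) {k : ℕ} (hk : 2 * finrank ℂ V < k)
    (φ : Form V k) : φ = 0 := by
  have := finite_index b
  have := Fintype.ofFinite ι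
  apply b.ext_alternating
  intro v hv
  have h1 := Fintype.card_le_of_injective v hv
  have h2 : Fintype.card ι = 2 * finrank ℂ V := by
    rw [← Module.finrank_eq_card_basis b, finrank_real_of_complex]
  simp only [Fintype.card_fin] at h1
  omega

/-- A period basis of an elliptic curve is `(v₀, ρ v₀)` with `ρ ∉ ℝ`. -/
theorem exists_coord_of_finrank_eq_one (b : Basis ι ℝ V) (h1 : finrank ℂ V = 1) :
    ∃ (w : Basis (Fin 1) ℂ V) (ρ : ℂ), ρ.im ≠ 0 ∧ w 0 ∈ lattice b ∧
      ∀ i, w.repr (b i) 0 = 1 ∨ w.repr (b i) 0 = ρ := by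
  have := finite_index b
  have := Fintype.ofFinite ι
  have hcard : Fintype.card ι = 2 := by
    rw [← Module.finrank_eq_card_basis b, finrank_real_of_complex, h1]
  let σ : ι ≃ Fin 2 := Fintype.equivFinOfCardEq hcard
  let w : Basis (Fin 1) ℂ V := FiniteDimensional.basisSingleton (Fin 1) h1 (b (σ.symm 0)) (b.ne_zero _)
  have hw0 : w 0 = b (σ.symm 0) := FiniteDimensional.basisSingleton_apply _ _ _ _ _
  have hexp : ∀ v, v = w.repr v 0 • b (σ.symm 0) := by
    intro v
    conv_lhs => rw [← w.sum_repr v]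
    simp [hw0]
  refine ⟨w, w.repr (b (σ.symm 1)) 0, ?_, ?_, ?_⟩
  · intro him
    set ρ := w.repr (b (σ.symm 1)) 0 with hρ
    have h2 : b (σ.symm 1) = ρ.re • b (σ.symm 0) := by
      conv_lhs => rw [hexp (b (σ.symm 1))]
      rw [← hρ]
      conv_lhs => rw [← Complex.re_add_im ρ, him]
      simp
    have hne : σ.symm 1 ≠ σ.symm 0 := fun h => by simpa using σ.symm.injective h
    have h3 := congrArg (fun v => b.repr v (σ.symm 1)) h2
    simp at h3
  · rw [hw0]; exact Submodule.subset_span ⟨_, rfl⟩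
  · intro i
    obtain ⟨j, rfl⟩ := σ.symm.surjective i
    fin_cases j
    · left
      have : b (σ.symm 0) = w 0 := hw0.symm
      simp [this]
    · right; rfl

/-! ### `HodgeCM` -/

section hodge

variable [MeasurableSpace V] [BorelSpace V]

/-- **The Hodge conjecture for complex tori of dimension `≤ 1`.** -/
theorem hodgeConjecture_of_finrank_le_one (b : Basis ι ℝ V) (h1 : finrank ℂ V ≤ 1) :
    HodgeConjecture b := by
  intro p φ hφ
  rcases Nat.eq_zero_or_pos p with rfl | hp
  · exact mem_algebraicClasses_zero b φ hφ.1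
  by_cases hp1 : p = finrank ℂ V
  · exact mem_algebraicClasses_top b hp1 φ hφ.1
  · rw [form_eq_zero_of_two_mul_finrank_lt b (by omega) φ]
    exact Submodule.zero_mem _

end hodge

/-! ### `GeneralizedHodgeCM` -/

/-- **The conclusion of `GeneralizedHodgeCM` for all complex tori of dimension `≤ 1`**: for every elliptic
curve, all `k`, `r` and all rational Hodge substructures `W ⊆ H^k(A,ℚ)` such that `W(r)` is effective. -/
theorem generalizedHodge_of_finrank_le_one (b : Basis ι ℝ V) (h1 : finrank ℂ V ≤ 1) (k r : ℕ)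
    (W : Submodule ℚ (Form V k)) (hW : IsHodgeSubstructure (lattice b) W)
    (hr : IsEffectiveTwist W r) :
    ∃ Z : Set V, IsAlgebraicSubsetOfCodimGE (lattice b) r Z ∧
      ∀ φ ∈ W, RestrictsToZero (lattice b) Z φ := by
  rcases Nat.eq_zero_or_pos r with rfl | hr0
  · exact generalizedHodge_of_r_eq_zero _ W
  by_cases hkr : k < 2 * r
  · exact generalizedHodge_of_lt_two_mul hkr W hW hr
  by_cases hk : 2 * finrank ℂ V < k
  · refine ⟨∅, isAlgebraicSubsetOfCodimGE_empty _ r, fun φ _ => ?_⟩
    rw [form_eq_zero_of_two_mul_finrank_lt b hk φ]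
    exact restrictsToZero_zero _ _
  obtain ⟨rfl, rfl, h1'⟩ : k = 2 * 1 ∧ r = 1 ∧ finrank ℂ V = 1 := by omega
  obtain ⟨w, ρ, hρ, -, hb⟩ := exists_coord_of_finrank_eq_one b h1'
  let m : Fin 1 → V →ₗ[ℝ] ℂ := fun _ => (w.coord 0).restrictScalars ℝ
  have hm : ∀ j, m j ∈ quadForms b ρ := by
    intro j
    refine ⟨fun v => by simp [m], fun i => ?_⟩
    rcases hb i with h | h
    · exact ⟨1, 0, by simp [m, h]⟩
    · exact ⟨0, 1, by simp [m, h]⟩
  obtain ⟨Z, hZ, hZr⟩ := exists_divisor_hermSquare_quad b ρ hρ m hm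
  have hcl : IsClosed Z := hZ.isClosed
  refine ⟨Z, hZ, fun φ hφ => ?_⟩
  have h2 := hodgePiece_le_span_pairWedge w 1 (hW.le_hodgePiece_one_one hr hφ)
  refine Submodule.span_induction (p := fun φ _ => RestrictsToZero (lattice b) Z φ)
    ?_ (restrictsToZero_zero _ _) (fun x y _ _ hx hy => hx.add hcl hy)
    (fun c x _ hx => hx.smul hcl c) h2
  rintro _ ⟨k, l, rfl⟩
  have hk : ∀ j, k j = 0 := fun j => Subsingleton.elim _ _
  have hl : ∀ j, l j = 0 := fun j => Subsingleton.elim _ _
  have := hZr 1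
  rw [one_smul] at this
  simp only [hk, hl]
  exact this

/-! ### `QuadraticFive` -/

omit [FiniteDimensional ℂ V] in
/-- The coordinate of a lattice vector of an elliptic curve with period basis `(v₀, ρ v₀)`. -/
theorem exists_int_repr_of_mem_lattice (b : Basis ι ℝ V) (w : Basis (Fin 1) ℂ V) (ρ : ℂ)
    (hb : ∀ i, w.repr (b i) 0 = 1 ∨ w.repr (b i) 0 = ρ) {l : V} (hl : l ∈ lattice b) :
    ∃ a c : ℤ, w.repr l 0 = a + c * ρ := by
  refine Submodule.span_induction (p := fun l _ => ∃ a c : ℤ, w.repr l 0 = a + c * ρ) ?_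
    ⟨0, 0, by simp⟩ ?_ ?_ hl
  · rintro _ ⟨i, rfl⟩
    rcases hb i with h | h
    · exact ⟨1, 0, by simp [h]⟩
    · exact ⟨0, 1, by simp [h]⟩
  · rintro x y _ _ ⟨a, c, h⟩ ⟨a', c', h'⟩
    exact ⟨a + a', c + c', by rw [map_add, Finsupp.add_apply, h, h']; push_cast; ring⟩
  · rintro n x _ ⟨a, c, h⟩
    refine ⟨n * a, n * c, ?_⟩
    rw [map_zsmul, Finsupp.smul_apply, h, zsmul_eq_mul]
    push_cast
    ring

omit [FiniteDimensional ℂ V] in
/-- If the elliptic curve with period basis `(v₀, ρ v₀)` admits an action of an imaginary quadratic field, then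
`ρ` is quadratic over `ℚ`. -/
theorem exists_quadratic_of_isQuadraticAction (b : Basis ι ℝ V) (w : Basis (Fin 1) ℂ V) (ρ : ℂ)
    (hw : w 0 ∈ lattice b) (hb : ∀ i, w.repr (b i) 0 = 1 ∨ w.repr (b i) 0 = ρ)
    {d : ℕ} {u : Module.End ℂ V} (hu : IsQuadraticAction (lattice b) d u) :
    ∃ r s : ℚ, ρ ^ 2 = r + s * ρ := by
  obtain ⟨hd, ⟨n, hn, hnu⟩, huu⟩ := hu
  set lam : ℂ := w.repr (u (w 0)) 0 with hlam
  have hexp : u (w 0) = lam • w 0 := by
    conv_lhs => rw [← w.sum_repr (u (w 0))]
    simp [hlam]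
  have hl2 : lam ^ 2 = -(d : ℂ) := by
    have h1 := congrArg (fun f : Module.End ℂ V => f (w 0)) huu
    simp only [Module.End.mul_apply, hexp, map_smul, LinearMap.smul_apply, Module.End.one_apply,
      smul_smul] at h1
    have h2 : (lam * lam - -(d : ℂ)) • w 0 = 0 := by rw [sub_smul, h1, sub_self]
    rcases smul_eq_zero.1 h2 with h3 | h3
    · linear_combination h3
    · exact absurd h3 (w.ne_zero 0)
  obtain ⟨a, c, hac⟩ := exists_int_repr_of_mem_lattice b w ρ hb (hnu _ hw)
  have hnl : (n : ℂ) * lam = a + c * ρ := by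
    rw [← hac, hexp, map_nsmul, map_smul]
    simp
  have hc : c ≠ 0 := by
    rintro rfl
    have h1 : ((a : ℂ)) ^ 2 = -((n : ℂ) ^ 2 * d) := by
      have : (n : ℂ) * lam = a := by simpa using hnl
      rw [← this, mul_pow, hl2]; ring
    have h2 : (a : ℤ) ^ 2 = -((n : ℤ) ^ 2 * d) := by exact_mod_cast h1
    have h3 : 0 < (n : ℤ) ^ 2 * d := by positivity
    nlinarith [sq_nonneg a]
  have hcc : (c : ℂ) ≠ 0 := by exact_mod_cast hc
  refine ⟨(-((n : ℚ) ^ 2 * d) - (a : ℚ) ^ 2) / (c : ℚ) ^ 2, -2 * a / c, ?_⟩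
  push_cast
  field_simp
  linear_combination (-((n : ℂ) * lam + a + c * ρ)) * hnl + (n : ℂ) ^ 2 * hl2

variable [MeasurableSpace V] [BorelSpace V]

/-- **The conclusion of `QuadraticFive` in dimension `≤ 1`**: if an elliptic curve `A` admits an action of an
imaginary quadratic field, the Hodge conjecture holds in every codimension on `A^m`, for every `m`. -/
theorem quadraticFive_of_finrank_le_one (b : Basis ι ℝ V) (h1 : finrank ℂ V ≤ 1)
    (h : ∃ d u, IsQuadraticAction (lattice b) d u) (m : ℕ) : HodgeConjecture (powerBasis b m) := by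
  rcases Nat.lt_or_ge (finrank ℂ V) 1 with h0 | h1'
  · have h0' : finrank ℂ V = 0 := by omega
    exact hodgeConjecture_powerBasis_of_quadratic_periods b (finBasisOfFinrankEq ℂ V h0') I
      (by simp) ⟨-1, 0, by simp⟩ (fun _ k => k.elim0) m
  · obtain ⟨w, ρ, hρ, hw, hb⟩ := exists_coord_of_finrank_eq_one b (le_antisymm h1 h1')
    obtain ⟨d, u, hu⟩ := h
    refine hodgeConjecture_powerBasis_of_quadratic_periods b w ρ hρ
      (exists_quadratic_of_isQuadraticAction b w ρ hw hb hu) (fun i k => ?_) m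
    rw [Subsingleton.elim k 0]
    rcases hb i with h | h
    · exact ⟨1, 0, by simp [h]⟩
    · exact ⟨0, 1, by simp [h]⟩

end Claimed.Open.R032
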