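import Claimed.Open.R032.Statement
import Claimed.Open.R032.SanityCycles

/-!
# Sanity checks for `GeneralizedHodgeCM` (second conjunct of `Statement`)

* `restrictsToZero_univ` : every class restricts to zero on `A ∖ A = ∅`.
* `restrictsToZero_zero` : the zero class restricts to zero on every `A ∖ Z`.
* `isAlgebraicSubsetOfCodimGE_univ`, `isAlgebraicSubsetOfCodimGE_empty`.
* `generalizedHodge_of_r_eq_zero` : the conclusion of `GeneralizedHodgeCM` holds for `r = 0` (take
  `Z = A`), for every complex torus.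
* `generalizedHodge_bot` : it holds for `W = 0` (take `Z = ∅`).
* `apply_eq_zero_of_extDeriv_eq` (Stokes' theorem on a real subtorus, from Mathlib's divergence
  theorem) and `restrictsToZero_empty_iff` : `RestrictsToZero Λ ∅ φ ↔ φ = 0`, i.e. a nonzero invariant
  form is not exact on `A`; so `RestrictsToZero` is a genuine condition, and invariant forms inject
  into the de Rham cohomology of `A`.
-/

open MeasureTheory Module Set
open scoped ContDiff

namespace Claimed.Open.R032

variable {V : Type*} [NormedAddCommGroup V] [InnerProductSpace ℂ V] [FiniteDimensional ℂ V]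

omit [FiniteDimensional ℂ V] in
theorem restrictsToZero_univ (Λ : Submodule ℤ V) {k : ℕ} (φ : Form V k) :
    RestrictsToZero Λ Set.univ φ := by
  cases k with
  | zero => exact Or.inr rfl
  | succ m => exact ⟨0, by simp, by simp, by simp⟩

omit [FiniteDimensional ℂ V] in
theorem restrictsToZero_zero (Λ : Submodule ℤ V) (Z : Set V) {k : ℕ} :
    RestrictsToZero Λ Z (0 : Form V k) := by
  cases k with
  | zero => exact Or.inl rfl
  | succ m =>
    refine ⟨fun _ => 0, contDiffOn_const, fun _ _ _ _ => rfl, fun x _ v => ?_⟩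
    simp [extDeriv, ContinuousAlternatingMap.alternatizeUncurryFin_apply]

omit [FiniteDimensional ℂ V] in
theorem isAlgebraicSubsetOfCodimGE_univ (Λ : Submodule ℤ V) :
    IsAlgebraicSubsetOfCodimGE Λ 0 (Set.univ : Set V) :=
  ⟨1, fun _ => Set.univ, fun _ => finrank ℂ V, fun _ => isSubvariety_univ Λ, fun _ => le_rfl,
    (Set.iUnion_const _).symm⟩

omit [FiniteDimensional ℂ V] in
theorem isAlgebraicSubsetOfCodimGE_empty (Λ : Submodule ℤ V) (r : ℕ) :
    IsAlgebraicSubsetOfCodimGE Λ r (∅ : Set V) :=
  ⟨0, fun j => j.elim0, fun j => j.elim0, fun j => j.elim0, fun j => j.elim0, by simp⟩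

omit [FiniteDimensional ℂ V] in
/-- The conclusion of `GeneralizedHodgeCM` for `r = 0`. -/
theorem generalizedHodge_of_r_eq_zero (Λ : Submodule ℤ V) {k : ℕ} (W : Submodule ℚ (Form V k)) :
    ∃ Z : Set V, IsAlgebraicSubsetOfCodimGE Λ 0 Z ∧ ∀ φ ∈ W, RestrictsToZero Λ Z φ :=
  ⟨Set.univ, isAlgebraicSubsetOfCodimGE_univ Λ, fun φ _ => restrictsToZero_univ Λ φ⟩

omit [FiniteDimensional ℂ V] in
/-- The conclusion of `GeneralizedHodgeCM` for `W = 0`. -/
theorem generalizedHodge_bot (Λ : Submodule ℤ V) (k r : ℕ) :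
    ∃ Z : Set V, IsAlgebraicSubsetOfCodimGE Λ r Z ∧
      ∀ φ ∈ (⊥ : Submodule ℚ (Form V k)), RestrictsToZero Λ Z φ := by
  refine ⟨∅, isAlgebraicSubsetOfCodimGE_empty Λ r, fun φ hφ => ?_⟩
  rw [Submodule.mem_bot] at hφ
  rw [hφ]
  exact restrictsToZero_zero Λ ∅

omit [FiniteDimensional ℂ V] in
/-- Stokes' theorem on the torus spanned by lattice vectors: if the constant form `φ` is `dη` for a
smooth `Λ`-periodic form `η`, then `φ` vanishes on lattice vectors. -/
theorem apply_eq_zero_of_extDeriv_eq {Λ : Submodule ℤ V} {m : ℕ} (φ : Form V (m + 1))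
    (η : V → V [⋀^Fin m]→L[ℝ] ℂ) (hη : ContDiff ℝ ∞ η) (hper : ∀ l ∈ Λ, ∀ x, η (l + x) = η x)
    (hd : ∀ x v, extDeriv η x v = φ v) (l : Fin (m + 1) → V) (hl : ∀ i, l i ∈ Λ) : φ l = 0 := by
  -- the linear map `t ↦ ∑ t_j l_j`
  let L : (Fin (m + 1) → ℝ) →L[ℝ] V := (Fintype.linearCombination ℝ l).toContinuousLinearMap
  have hL : ∀ t, L t = ∑ j, t j • l j := fun t => by
    simp [L, Fintype.linearCombination_apply]
  have hLe : ∀ i, L (Pi.single i 1) = l i := fun i => by
    rw [hL]; simp [Pi.single_apply]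
  let g : Fin (m + 1) → V → ℂ := fun i x => η x (i.removeNth l)
  have hηd : Differentiable ℝ η := hη.differentiable (by simp)
  have hg : ∀ i, ContDiff ℝ ∞ (g i) := fun i =>
    (ContinuousAlternatingMap.apply ℝ V ℂ (i.removeNth l)).contDiff.comp hη
  have hgd : ∀ i, Differentiable ℝ (g i) := fun i => (hg i).differentiable (by simp)
  let f : Fin (m + 1) → (Fin (m + 1) → ℝ) → ℂ := fun i t => (-1 : ℤ) ^ (i : ℕ) • g i (L t)
  let f' : Fin (m + 1) → (Fin (m + 1) → ℝ) → (Fin (m + 1) → ℝ) →L[ℝ] ℂ :=
    fun i t => (-1 : ℤ) ^ (i : ℕ) • (fderiv ℝ (g i) (L t)).comp L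
  have hf' : ∀ i t, HasFDerivAt (f i) (f' i t) t := fun i t =>
    (((hgd i (L t)).hasFDerivAt).comp t L.hasFDerivAt).const_smul _
  have hsum : ∀ t, ∑ i, f' i t (Pi.single i 1) = φ l := by
    intro t
    rw [← hd (L t) l, extDeriv_apply (hηd (L t))]
    refine Finset.sum_congr rfl fun i _ => ?_
    simp [f', hLe, g]
  have key := integral_divergence_of_hasFDerivAt_off_countable' (0 : Fin (m + 1) → ℝ) 1
    zero_le_one f f' ∅ countable_empty
    (fun i t _ => ((hf' i t).continuousAt).continuousWithinAt)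
    (fun t _ i => hf' i t) (by
      simp only [hsum]
      exact integrableOn_const (by simp [Real.volume_Icc_pi]))
  simp only [hsum] at key
  rw [setIntegral_const] at key
  have hvol : (volume : Measure (Fin (m + 1) → ℝ)).real (Icc 0 1) = 1 := by
    simp [Measure.real, Real.volume_Icc_pi]
  rw [hvol, one_smul] at key
  rw [key]
  apply Finset.sum_eq_zero
  intro i _
  rw [sub_eq_zero]
  congr 1
  funext x
  have : L (i.insertNth ((1 : Fin (m + 1) → ℝ) i) x) = l i + L (i.insertNth ((0 : Fin (m + 1) → ℝ) i) x) := by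
    have h1 : (i.insertNth ((1 : Fin (m + 1) → ℝ) i) x : Fin (m + 1) → ℝ)
        = Pi.single i 1 + i.insertNth ((0 : Fin (m + 1) → ℝ) i) x := by
      funext j
      rcases Fin.eq_self_or_eq_succAbove i j with h | ⟨j', h⟩
      · subst h; simp
      · subst h; simp [Fin.succAbove_ne]
    rw [h1, map_add, hLe]
  simp only [f, g, this, hper (l i) (hl i)]

omit [FiniteDimensional ℂ V] in
/-- A nonzero invariant form is not exact on `A`: the map from invariant forms to the de Rham
cohomology of `A = A ∖ ∅` is injective.  So `RestrictsToZero` is a genuine condition. -/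
theorem restrictsToZero_empty_iff {ι : Type*} (b : Basis ι ℝ V) {k : ℕ} (φ : Form V k) :
    RestrictsToZero (lattice b) ∅ φ ↔ φ = 0 := by
  constructor
  · intro h
    cases k with
    | zero =>
      rcases h with h | h
      · exact h
      · exact absurd h (Set.empty_ne_univ)
    | succ m =>
      obtain ⟨η, hη, hper, hd⟩ := h
      rw [Set.compl_empty, contDiffOn_univ] at hη
      apply b.ext_alternating
      intro v _
      rw [AlternatingMap.zero_apply]
      exact apply_eq_zero_of_extDeriv_eq φ η hη (fun l hl x => hper l hl x (by simp))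
        (fun x v => hd x (by simp) v) _ (fun i => Submodule.subset_span ⟨_, rfl⟩)
  · rintro rfl
    exact restrictsToZero_zero _ _

end Claimed.Open.R032
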