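import Claimed.Open.R032.Statement

/-!
# Sanity checks for R032, part A2: the Hodge decomposition of `Form V n = H^n(A,ℂ)`

`Statement.lean` defines `hodgePiece V p n = H^{p,n-p}(A)` literally, as the span of the wedge
products of `p` complex linear and `n - p` complex antilinear forms.  Here we check:

* `exists_hodge_decomposition`: every form of degree `n` is a sum of forms of type `(a, n - a)`,
  `0 ≤ a ≤ n`;
* `mem_hodgePiece_iff`: for `p ≤ n`, a form `φ` is of type `(p, n - p)` iff
  `φ (z • v) = z ^ p * conj z ^ (n - p) * φ v` for all `z : ℂ` (Deligne's description of the Hodge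
  decomposition as the weight decomposition for the action of `ℂ^×`);
* `mem_hodgePiece_pp_iff`: a form of degree `2p` is of type `(p,p)` iff
  `φ (z • v) = |z|^(2p) φ v`.
-/

open Module Complex Polynomial

namespace Claimed.Open.R032

variable {V : Type*} [NormedAddCommGroup V] [InnerProductSpace ℂ V]

theorem wedgeOfForms_apply {n : ℕ} (ℓ : Fin n → V →ₗ[ℝ] ℂ) (v : Fin n → V) :
    wedgeOfForms ℓ v = ∑ σ : Equiv.Perm (Fin n), Equiv.Perm.sign σ • ∏ i, ℓ i (v (σ i)) := by
  simp [wedgeOfForms, MultilinearMap.alternatization_apply]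

/-- A `ℝ`-linear form with `ℓ (i v) = i ℓ v` is `ℂ`-linear. -/
theorem map_smul_of_linear {ℓ : V →ₗ[ℝ] ℂ} (h : ∀ v, ℓ (I • v) = I * ℓ v) (z : ℂ) (v : V) :
    ℓ (z • v) = z * ℓ v := by
  have hz : z • v = z.re • v + z.im • (I • v) := by
    conv_lhs => rw [← Complex.re_add_im z]
    rw [add_smul, mul_smul]
    simp [Complex.coe_smul]
  rw [hz, map_add, map_smul, map_smul, h]
  conv_rhs => rw [← Complex.re_add_im z]
  simp only [Complex.real_smul]
  ring

/-- A `ℝ`-linear form with `ℓ (i v) = - i ℓ v` is `ℂ`-antilinear. -/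
theorem map_smul_of_antilinear {ℓ : V →ₗ[ℝ] ℂ} (h : ∀ v, ℓ (I • v) = -I * ℓ v) (z : ℂ) (v : V) :
    ℓ (z • v) = (starRingEnd ℂ z) * ℓ v := by
  have hz : z • v = z.re • v + z.im • (I • v) := by
    conv_lhs => rw [← Complex.re_add_im z]
    rw [add_smul, mul_smul]
    simp [Complex.coe_smul]
  rw [hz, map_add, map_smul, map_smul, h]
  have : (starRingEnd ℂ z) = (z.re : ℂ) - z.im * I := by
    apply Complex.ext <;> simp
  rw [this]
  simp only [Complex.real_smul]
  ring

/-- The forms on which `ℂ^×` acts through the character `z ↦ z^p conj(z)^q`. -/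
def weightSpace (V : Type*) [NormedAddCommGroup V] [InnerProductSpace ℂ V] (p q n : ℕ) :
    Submodule ℂ (Form V n) where
  carrier := {φ | ∀ (z : ℂ) (v : Fin n → V),
    φ (fun i => z • v i) = z ^ p * (starRingEnd ℂ z) ^ q * φ v}
  add_mem' := by
    intro a b ha hb z v
    simp only [AlternatingMap.add_apply, ha z v, hb z v]; ring
  zero_mem' := by intro z v; simp
  smul_mem' := by
    intro c a ha z v
    simp only [AlternatingMap.smul_apply, ha z v, smul_eq_mul]; ring

theorem mem_weightSpace {p q n : ℕ} {φ : Form V n} : φ ∈ weightSpace V p q n ↔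
    ∀ (z : ℂ) (v : Fin n → V), φ (fun i => z • v i) = z ^ p * (starRingEnd ℂ z) ^ q * φ v :=
  Iff.rfl

theorem prod_ite_lt {n p : ℕ} (hp : p ≤ n) (a b : ℂ) :
    ∏ i : Fin n, (if (i : ℕ) < p then a else b) = a ^ p * b ^ (n - p) := by
  rw [Finset.prod_ite]
  simp only [Finset.prod_const]
  congr 2
  · rw [Fin.card_filter_val_lt]; omega
  · have : (Finset.univ.filter fun i : Fin n => ¬ (i : ℕ) < p) =
        (Finset.univ.filter fun i : Fin n => (i : ℕ) < p)ᶜ := by
      ext; simp
    rw [this, Finset.card_compl, Fin.card_filter_val_lt]; simp; omega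

theorem hodgePiece_le_weightSpace {p n : ℕ} (hp : p ≤ n) :
    hodgePiece V p n ≤ weightSpace V p (n - p) n := by
  refine Submodule.span_le.2 ?_
  rintro _ ⟨ℓ, h1, h2, rfl⟩
  intro z v
  rw [wedgeOfForms_apply, wedgeOfForms_apply, Finset.mul_sum]
  refine Finset.sum_congr rfl fun σ _ => ?_
  have : ∀ i : Fin n, ℓ i (z • v (σ i)) =
      (if (i : ℕ) < p then z else starRingEnd ℂ z) * ℓ i (v (σ i)) := by
    intro i
    split_ifs with hi
    · exact map_smul_of_linear (h1 i hi) z _
    · exact map_smul_of_antilinear (h2 i (not_lt.1 hi)) z _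
  simp only [this, Finset.prod_mul_distrib, prod_ite_lt hp]
  rw [mul_smul_comm]

/-- permuting the factors of a wedge product -/
theorem wedgeOfForms_comp_perm {n : ℕ} (ℓ : Fin n → V →ₗ[ℝ] ℂ) (τ : Equiv.Perm (Fin n)) :
    wedgeOfForms (fun i => ℓ (τ i)) = Equiv.Perm.sign τ • wedgeOfForms ℓ := by
  ext v
  rw [AlternatingMap.smul_apply, wedgeOfForms_apply, wedgeOfForms_apply, Finset.smul_sum]
  refine Fintype.sum_equiv (Equiv.mulRight τ⁻¹) _ _ fun σ => ?_
  rw [smul_smul]
  congr 1
  · simp only [Equiv.coe_mulRight, Equiv.Perm.sign_mul, Equiv.Perm.sign_inv]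
    rw [mul_comm (Equiv.Perm.sign σ), ← mul_assoc, Int.units_mul_self, one_mul]
  · refine Fintype.prod_equiv τ _ _ fun i => ?_
    simp

theorem alternatization_smul_complex {n : ℕ} (c : ℂ) (m : MultilinearMap ℝ (fun _ : Fin n => V) ℂ) :
    MultilinearMap.alternatization (c • m) = c • MultilinearMap.alternatization m := by
  ext v
  simp only [MultilinearMap.alternatization_apply, AlternatingMap.smul_apply, Finset.smul_sum,
    MultilinearMap.domDomCongr_apply, smul_apply]
  refine Finset.sum_congr rfl fun σ _ => ?_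
  rw [smul_comm]

theorem multilinear_expansion {n : ℕ} {J : Type*} [Fintype J] [DecidableEq J] (β : Basis J ℝ V)
    (m : MultilinearMap ℝ (fun _ : Fin n => V) ℂ) :
    m = ∑ f : Fin n → J, (m fun i => β (f i)) •
      (MultilinearMap.mkPiAlgebra ℝ (Fin n) ℂ).compLinearMap
        (fun i => Complex.ofRealCLM.toLinearMap ∘ₗ β.coord (f i)) := by
  refine Basis.ext_multilinear (fun _ => β) fun g => ?_
  rw [sum_apply, Finset.sum_eq_single g]
  · simp
  · intro f _ hfg
    obtain ⟨i, hi⟩ := Function.ne_iff.1 hfg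
    have : (∏ j, ((β.coord (f j)) (β (g j)) : ℂ)) = 0 := by
      refine Finset.prod_eq_zero (Finset.mem_univ i) ?_
      simp [Ne.symm hi]
    simp only [smul_apply, MultilinearMap.compLinearMap_apply, LinearMap.coe_comp,
      Function.comp_apply, MultilinearMap.mkPiAlgebra_apply, ContinuousLinearMap.coe_coe,
      Complex.ofRealCLM_apply, this, smul_zero]
  · simp

/-- every form is a combination of wedge products of `ℝ`-linear forms -/
theorem form_mem_span_wedgeOfForms [FiniteDimensional ℂ V] {n : ℕ} (φ : Form V n) :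
    φ ∈ Submodule.span ℂ (Set.range (wedgeOfForms (V := V) (n := n))) := by
  classical
  have : FiniteDimensional ℝ V := FiniteDimensional.complexToReal V
  let β := Module.finBasis ℝ V
  have h1 := AlternatingMap.coe_alternatization φ
  rw [multilinear_expansion β (φ : MultilinearMap ℝ (fun _ : Fin n => V) ℂ), map_sum] at h1
  simp only [alternatization_smul_complex] at h1
  have h2 : (Nat.factorial (Fintype.card (Fin n)) : ℂ) • φ ∈
      Submodule.span ℂ (Set.range (wedgeOfForms (V := V) (n := n))) := by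
    rw [Nat.cast_smul_eq_nsmul, ← h1]
    refine Submodule.sum_mem _ fun f _ => Submodule.smul_mem _ _ (Submodule.subset_span ⟨_, rfl⟩)
  have h3 : (Nat.factorial (Fintype.card (Fin n)) : ℂ) ≠ 0 := by
    exact_mod_cast Nat.factorial_ne_zero _
  have := Submodule.smul_mem _ ((Nat.factorial (Fintype.card (Fin n)) : ℂ)⁻¹) h2
  rwa [smul_smul, inv_mul_cancel₀ h3, one_smul] at this

/-- multiplication by `i` on `V`, as an `ℝ`-linear map -/
noncomputable def mulI (V : Type*) [NormedAddCommGroup V] [InnerProductSpace ℂ V] : V →ₗ[ℝ] V :=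
  (I • (LinearMap.id : V →ₗ[ℂ] V)).restrictScalars ℝ

@[simp] theorem mulI_apply (v : V) : mulI V v = I • v := rfl

/-- the `ℂ`-linear part of an `ℝ`-linear form -/
noncomputable def linPart (ℓ : V →ₗ[ℝ] ℂ) : V →ₗ[ℝ] ℂ := (1 / 2 : ℂ) • (ℓ - I • (ℓ ∘ₗ mulI V))

/-- the `ℂ`-antilinear part of an `ℝ`-linear form -/
noncomputable def antiPart (ℓ : V →ₗ[ℝ] ℂ) : V →ₗ[ℝ] ℂ := (1 / 2 : ℂ) • (ℓ + I • (ℓ ∘ₗ mulI V))

theorem linPart_add_antiPart (ℓ : V →ₗ[ℝ] ℂ) : linPart ℓ + antiPart ℓ = ℓ := by
  ext v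
  simp [linPart, antiPart]
  ring

theorem linPart_I (ℓ : V →ₗ[ℝ] ℂ) (v : V) : linPart ℓ (I • v) = I * linPart ℓ v := by
  simp only [linPart, LinearMap.smul_apply, LinearMap.sub_apply, LinearMap.comp_apply, mulI_apply,
    smul_smul, I_mul_I, neg_smul, one_smul, map_neg, smul_eq_mul]
  ring_nf
  simp only [I_sq]
  ring

theorem antiPart_I (ℓ : V →ₗ[ℝ] ℂ) (v : V) : antiPart ℓ (I • v) = -I * antiPart ℓ v := by
  simp only [antiPart, LinearMap.smul_apply, LinearMap.add_apply, LinearMap.comp_apply, mulI_apply,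
    smul_smul, I_mul_I, neg_smul, one_smul, map_neg, smul_eq_mul]
  ring_nf
  simp only [I_sq]
  ring

theorem form_sum_apply {n : ℕ} {α : Type*} (S : Finset α) (f : α → Form V n) (v : Fin n → V) :
    (∑ s ∈ S, f s) v = ∑ s ∈ S, f s v := by
  classical
  induction S using Finset.induction_on with
  | empty => simp
  | insert a S ha ih => rw [Finset.sum_insert ha, Finset.sum_insert ha, AlternatingMap.add_apply, ih]

theorem wedgeOfForms_add {n : ℕ} (a b : Fin n → V →ₗ[ℝ] ℂ) :
    wedgeOfForms (a + b) = ∑ s : Finset (Fin n), wedgeOfForms (s.piecewise a b) := by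
  ext v
  rw [form_sum_apply, wedgeOfForms_apply]
  simp only [wedgeOfForms_apply, Pi.add_apply, LinearMap.add_apply, Finset.prod_add,
    Finset.powerset_univ, Finset.smul_sum]
  rw [Finset.sum_comm]
  refine Finset.sum_congr rfl fun s _ => Finset.sum_congr rfl fun σ _ => ?_
  congr 1
  have : ∀ i, (s.piecewise a b i) (v (σ i)) =
      s.piecewise (fun i => a i (v (σ i))) (fun i => b i (v (σ i))) i := by
    intro i
    by_cases hi : i ∈ s <;> simp [hi]
  simp only [this]
  rw [Finset.prod_piecewise]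
  simp

theorem exists_sorting_perm {n : ℕ} (s : Finset (Fin n)) :
    ∃ τ : Equiv.Perm (Fin n), ∀ i, τ i ∈ s ↔ (i : ℕ) < s.card := by
  have h : s.card + sᶜ.card = n := by rw [Finset.card_add_card_compl, Fintype.card_fin]
  refine ⟨(finCongr h.symm).trans (finSumFinEquiv.symm.trans (finSumEquivOfFinset rfl rfl)), ?_⟩
  intro i
  obtain ⟨x, hx⟩ : ∃ x, finSumFinEquiv x = finCongr h.symm i := ⟨_, Equiv.apply_symm_apply _ _⟩
  have hi : (i : ℕ) = (finSumFinEquiv x : Fin _) := by rw [hx]; simp
  have hτ : ((finCongr h.symm).trans (finSumFinEquiv.symm.trans (finSumEquivOfFinset rfl rfl))) i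
      = finSumEquivOfFinset (s := s) rfl rfl x := by
    simp [← hx]
  rw [hτ, hi]
  cases x with
  | inl a => simp [Finset.orderEmbOfFin_mem]
  | inr b =>
    have := Finset.orderEmbOfFin_mem sᶜ rfl b
    simp only [Finset.mem_compl] at this
    simp [this]

theorem wedgeOfForms_mem_hodgePiece {n : ℕ} (s : Finset (Fin n)) (ℓ : Fin n → V →ₗ[ℝ] ℂ)
    (h1 : ∀ i ∈ s, ∀ v, ℓ i (I • v) = I * ℓ i v) (h2 : ∀ i ∉ s, ∀ v, ℓ i (I • v) = -I * ℓ i v) :
    wedgeOfForms ℓ ∈ hodgePiece V s.card n := by
  obtain ⟨τ, hτ⟩ := exists_sorting_perm s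
  have h := wedgeOfForms_comp_perm ℓ τ
  have h' : wedgeOfForms ℓ = Equiv.Perm.sign τ • wedgeOfForms (fun i => ℓ (τ i)) := by
    rw [h, smul_smul, Int.units_mul_self, one_smul]
  rw [h']
  have hmem : wedgeOfForms (fun i => ℓ (τ i)) ∈ hodgePiece V s.card n := by
    refine Submodule.subset_span ⟨_, ?_, ?_, rfl⟩
    · intro i hi; exact h1 _ ((hτ i).2 hi)
    · intro i hi; exact h2 _ (fun hh => absurd ((hτ i).1 hh) (not_lt.2 hi))
  rcases Int.units_eq_one_or (Equiv.Perm.sign τ) with h | h <;> rw [h]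
  · simpa using hmem
  · simpa using hmem

theorem eq_zero_of_weights {n p : ℕ} (hp : p ≤ n) (c : ℕ → ℂ)
    (h : ∀ z : ℂ, ∑ a ∈ Finset.range (n + 1), z ^ a * (starRingEnd ℂ z) ^ (n - a) * c a =
      z ^ p * (starRingEnd ℂ z) ^ (n - p) * ∑ a ∈ Finset.range (n + 1), c a) :
    ∀ a ∈ Finset.range (n + 1), a ≠ p → c a = 0 := by
  set Q : ℂ[X] := ∑ a ∈ Finset.range (n + 1), C (c a) * X ^ a -
    C (∑ a ∈ Finset.range (n + 1), c a) * X ^ p with hQ
  have hz0 : ∀ t : ℝ, (1 : ℂ) - t * I ≠ 0 := by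
    intro t ht
    have := congrArg Complex.re ht
    simp at this
  have hconj : ∀ t : ℝ, starRingEnd ℂ ((1 : ℂ) + t * I) = 1 - t * I := by
    intro t
    apply Complex.ext <;> simp
  have hroot : ∀ t : ℝ, Q.IsRoot (((1 : ℂ) + t * I) / (1 - t * I)) := by
    intro t
    have ht := h (1 + t * I)
    rw [hconj] at ht
    set z : ℂ := 1 + t * I
    set w : ℂ := 1 - t * I
    have hw : w ≠ 0 := hz0 t
    have key : ∀ a, a ≤ n → (z / w) ^ a * w ^ n = z ^ a * w ^ (n - a) := by
      intro a ha
      have : w ^ n = w ^ a * w ^ (n - a) := by rw [← pow_add]; congr 1; omega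
      rw [this, div_pow, ← mul_assoc, div_mul_cancel₀ _ (pow_ne_zero _ hw)]
    have : Q.eval (z / w) * w ^ n = 0 := by
      simp only [hQ, eval_sub, eval_finsetSum, eval_mul, eval_C, eval_pow, eval_X]
      rw [sub_mul, Finset.sum_mul, sub_eq_zero]
      calc ∑ a ∈ Finset.range (n + 1), c a * (z / w) ^ a * w ^ n
          = ∑ a ∈ Finset.range (n + 1), z ^ a * w ^ (n - a) * c a := by
            refine Finset.sum_congr rfl fun a ha => ?_
            rw [mul_assoc, key a (by simpa [Nat.lt_succ_iff] using ha), mul_comm]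
        _ = z ^ p * w ^ (n - p) * ∑ a ∈ Finset.range (n + 1), c a := ht
        _ = _ := by rw [mul_assoc _ ((z / w) ^ p), key p hp, mul_comm]
    exact (mul_eq_zero.1 this).resolve_right (pow_ne_zero _ hw)
  have hinj : Function.Injective fun t : ℝ => ((1 : ℂ) + t * I) / (1 - t * I) := by
    intro t s hts
    simp only at hts
    rw [div_eq_div_iff (hz0 t) (hz0 s)] at hts
    have := congrArg Complex.im hts
    simp at this
    linarith
  have hQ0 : Q = 0 := by
    apply Polynomial.eq_zero_of_infinite_isRoot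
    exact Set.infinite_of_injective_forall_mem hinj hroot
  intro a ha hap
  have := congrArg (fun P : ℂ[X] => P.coeff a) hQ0
  simp only [hQ, coeff_sub, finsetSum_coeff, coeff_C_mul, coeff_X_pow, coeff_zero] at this
  rw [Finset.sum_eq_single a] at this
  · simpa [hap] using this
  · intro b _ hb; simp [Ne.symm hb]
  · intro h'; exact absurd ha h'

theorem form_mem_iSup_hodgePiece [FiniteDimensional ℂ V] {n : ℕ} (φ : Form V n) :
    φ ∈ ⨆ a ∈ Finset.range (n + 1), hodgePiece V a n := by
  have h := form_mem_span_wedgeOfForms φ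
  refine (Submodule.span_le.2 ?_) h
  rintro _ ⟨ℓ, rfl⟩
  have : ℓ = (fun i => linPart (ℓ i)) + (fun i => antiPart (ℓ i)) := by
    ext i : 1
    simp [linPart_add_antiPart]
  rw [this, wedgeOfForms_add]
  refine Submodule.sum_mem _ fun s _ => ?_
  have hs : s.card ∈ Finset.range (n + 1) := by
    have := Finset.card_le_univ s
    simp only [Fintype.card_fin] at this
    simp only [Finset.mem_range]
    omega
  refine Submodule.mem_iSup_of_mem s.card (Submodule.mem_iSup_of_mem hs ?_)
  apply wedgeOfForms_mem_hodgePiece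
  · intro i hi v; simp [hi, linPart_I]
  · intro i hi v; simp [hi, antiPart_I]

/-- **Hodge decomposition** `H^n(A,ℂ) = ⊕_{a+b=n} H^{a,b}(A)`, existence part. -/
theorem exists_hodge_decomposition [FiniteDimensional ℂ V] {n : ℕ} (φ : Form V n) :
    ∃ ψ : ℕ → Form V n, (∀ a, ψ a ∈ hodgePiece V a n) ∧ φ = ∑ a ∈ Finset.range (n + 1), ψ a := by
  obtain ⟨μ, hμ⟩ := (Submodule.mem_iSup_finset_iff_exists_sum _ _).1 (form_mem_iSup_hodgePiece φ)
  exact ⟨fun a => μ a, fun a => (μ a).2, hμ.symm⟩

theorem weightSpace_le_hodgePiece [FiniteDimensional ℂ V] {p n : ℕ} (hp : p ≤ n) :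
    weightSpace V p (n - p) n ≤ hodgePiece V p n := by
  intro φ hφ
  obtain ⟨ψ, hψ, hsum⟩ := exists_hodge_decomposition φ
  have hφψ : φ = ψ p := by
    ext v
    have hz : ∀ a ∈ Finset.range (n + 1), a ≠ p → ψ a v = 0 := by
      apply eq_zero_of_weights hp (fun a => ψ a v)
      intro z
      have h1 := hφ z v
      rw [hsum, form_sum_apply, form_sum_apply] at h1
      rw [← h1]
      refine Finset.sum_congr rfl fun a ha => ?_
      have ha' : a ≤ n := by simpa [Nat.lt_succ_iff] using ha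
      exact (hodgePiece_le_weightSpace ha' (hψ a) z v).symm
    rw [hsum, form_sum_apply, Finset.sum_eq_single p]
    · intro a ha hap; exact hz a ha hap
    · intro h; exact absurd (Finset.mem_range.2 (Nat.lt_succ_of_le hp)) h
  rw [hφψ]
  exact hψ p

/-- **Characterisation of the Hodge type.**  `H^{p,n-p}(A)`, defined in `Statement.lean` as the
span of the wedge products of `p` linear and `n - p` antilinear forms, is the space of forms on
which `z ∈ ℂ^×` acts (by `φ ↦ φ (z • ·)`) as multiplication by `z^p conj(z)^(n-p)`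
(Deligne's description of the Hodge decomposition). -/
theorem mem_hodgePiece_iff [FiniteDimensional ℂ V] {p n : ℕ} (hp : p ≤ n) (φ : Form V n) :
    φ ∈ hodgePiece V p n ↔ ∀ (z : ℂ) (v : Fin n → V),
      φ (fun i => z • v i) = z ^ p * (starRingEnd ℂ z) ^ (n - p) * φ v :=
  ⟨fun h => hodgePiece_le_weightSpace hp h, fun h => weightSpace_le_hodgePiece hp h⟩

/-- A class of degree `2p` is of type `(p,p)` iff it is invariant under the Hodge circle and
homogeneous, i.e. iff `φ (z • v) = |z|^(2p) φ v`. -/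
theorem mem_hodgePiece_pp_iff [FiniteDimensional ℂ V] (p : ℕ) (φ : Form V (2 * p)) :
    φ ∈ hodgePiece V p (2 * p) ↔ ∀ (z : ℂ) (v : Fin (2 * p) → V),
      φ (fun i => z • v i) = ((Complex.normSq z : ℝ) : ℂ) ^ p * φ v := by
  rw [mem_hodgePiece_iff (by omega)]
  have : 2 * p - p = p := by omega
  simp only [this, ← mul_pow, Complex.mul_conj]

end Claimed.Open.R032
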