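import Claimed.Open.R032.SanityTheta
import Claimed.Open.R032.SanityHodge
import Claimed.Open.R032.SanityCompanion
import Claimed.Open.R032.SanityNonExamples

/-!
# Non-examples of the definitions which enter `GeneralizedHodgeCM`

* `not_isHodgeSubstructure_twoZero` : on `(ℂ/ℤ[i])²` the rational line spanned by
  `dz₁ ∧ dz₂ + dz̄₁ ∧ dz̄₂` is not a rational Hodge substructure of `H²`.
* `not_isEffectiveTwist_gauss` : for `W = ℚ · [E] ⊆ H²(ℂ/ℤ[i],ℚ)` (of type `(1,1)`), `W(2)` is not effective.
* `IsSubvariety.eq_finrank_of_univ`, `not_isAlgebraicSubsetOfCodimGE_univ` : `A` is not an algebraic subset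
  of codimension `≥ r` of itself if `r > 0`.
* `IsAlgebraicSubsetOfCodimGE.eq_empty` : the only algebraic subset of codimension `> dim A` is `∅`; a
  point of an elliptic curve is not of codimension `≥ 2`.
* `generalizedHodge_conclusion_fails_without_effectivity` : the hypothesis "`W(r)` is effective" of
  `GeneralizedHodgeCM` cannot be dropped: for `A = ℂ/ℤ[i]`, `W = ℚ · [E]` and `r = 2` the conclusion fails.
-/

open MeasureTheory Module Set Complex

namespace Claimed.Open.R032

/-! ### `IsHodgeSubstructure` -/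

/-- No nonzero multiple of `dz₁ ∧ dz₂ + dz̄₁ ∧ dz̄₂` is of pure type. -/
theorem smul_twoZeroClass_mem_hodgePiece {c : ℂ} {p : ℕ} (hp : p ≤ 2 * 1)
    (h : c • twoZeroClass ∈ hodgePiece (PiLp 2 fun _ : Fin 2 => ℂ) p (2 * 1)) : c = 0 := by
  rw [mem_hodgePiece_iff hp] at h
  have h1 := h (1 + I) ![WithLp.toLp 2 ![1, 0], WithLp.toLp 2 ![0, 1]]
  rw [AlternatingMap.smul_apply, AlternatingMap.smul_apply, twoZeroClass_apply,
    twoZeroClass_apply] at h1
  have hz : (1 + I : ℂ) ≠ 0 := by
    intro h0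
    have := congrArg Complex.re h0
    simp at this
  have hz' : (starRingEnd ℂ) (1 + I : ℂ) ≠ 0 := (map_ne_zero _).2 hz
  simp at h1
  rcases h1 with (⟨h1, -⟩ | ⟨h1, -⟩) | h1
  · exact absurd h1 hz
  · exact absurd h1 (by simpa using hz')
  · exact h1

/-- A rational line in `H²((ℂ/ℤ[i])²,ℚ)` which is not a rational Hodge substructure: the line spanned by
`dz₁ ∧ dz₂ + dz̄₁ ∧ dz̄₂`, of mixed type `(2,0) + (0,2)`. -/
theorem not_isHodgeSubstructure_twoZero :
    (∀ φ ∈ Submodule.span ℚ {twoZeroClass},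
      IsRational (lattice (powerBasis Complex.basisOneI 2)) φ) ∧
    ¬ IsHodgeSubstructure (lattice (powerBasis Complex.basisOneI 2))
      (Submodule.span ℚ {twoZeroClass}) := by
  constructor
  · intro φ hφ v hv
    obtain ⟨q, rfl⟩ := Submodule.mem_span_singleton.1 hφ
    obtain ⟨q', hq'⟩ := rationalNotHodge.1 v hv
    exact ⟨q * q', by rw [AlternatingMap.smul_apply, hq', Rat.smul_def]; push_cast; ring⟩
  · intro hW
    have hall : ∀ p : Fin (2 * 1 + 1), complexSpan (Submodule.span ℚ {twoZeroClass}) ⊓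
        hodgePiece (PiLp 2 fun _ : Fin 2 => ℂ) p (2 * 1) = ⊥ := by
      intro p
      rw [eq_bot_iff]
      rintro φ ⟨h1, h2⟩
      have h3 : φ ∈ Submodule.span ℂ {twoZeroClass} :=
        complexSpan_span_singleton_le twoZeroClass _ (Submodule.mem_span_singleton_self _) h1
      obtain ⟨c, rfl⟩ := Submodule.mem_span_singleton.1 h3
      have := p.2
      rw [smul_twoZeroClass_mem_hodgePiece (by omega) h2, zero_smul]
      exact Submodule.zero_mem _
    have h0 : twoZeroClass = 0 :=
      hW.eq_zero_of_forall hall (Submodule.mem_span_singleton_self _)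
    have h1 := congrArg (fun φ : Form (PiLp 2 fun _ : Fin 2 => ℂ) (2 * 1) =>
      φ ![WithLp.toLp 2 ![1, 0], WithLp.toLp 2 ![0, 1]]) h0
    simp only [AlternatingMap.zero_apply] at h1
    rw [twoZeroClass_apply] at h1
    simp at h1

/-! ### `IsEffectiveTwist` -/

/-- `W = ℚ · [E] ⊆ H²(ℂ/ℤ[i],ℚ)` is of type `(1,1)`: `W(1)` is effective, `W(2)` is not. -/
theorem not_isEffectiveTwist_gauss :
    IsEffectiveTwist (Submodule.span ℚ {formOfBilin gaussForm gauss_isRiemannForm.alt}) 1 ∧
    ¬ IsEffectiveTwist (Submodule.span ℚ {formOfBilin gaussForm gauss_isRiemannForm.alt}) 2 := by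
  refine ⟨gauss_isRiemannForm.isEffectiveTwist, fun h => ?_⟩
  have h1 := h 1 1 rfl (Or.inl (by norm_num))
  have h2 : formOfBilin gaussForm gauss_isRiemannForm.alt ∈
      complexSpan (Submodule.span ℚ {formOfBilin gaussForm gauss_isRiemannForm.alt}) ⊓
        hodgePiece ℂ 1 (2 * 1) :=
    ⟨Submodule.subset_span (Submodule.mem_span_singleton_self _),
      gauss_isRiemannForm.isHodgeClass.2⟩
  rw [h1] at h2
  exact gauss_isRiemannForm.formOfBilin_ne_zero ((Submodule.mem_bot ℂ).1 h2)

/-! ### `IsAlgebraicSubsetOfCodimGE` -/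

section

variable {V : Type*} [NormedAddCommGroup V] [InnerProductSpace ℂ V] [FiniteDimensional ℂ V]

/-- `A` is a subvariety of itself of dimension `dim A` only. -/
theorem IsSubvariety.eq_finrank_of_univ {Λ : Submodule ℤ V} {d : ℕ}
    (h : IsSubvariety Λ d (Set.univ : Set V)) : d = finrank ℂ V := by
  by_contra hd
  have h0 := h.dim_eq (Set.mem_univ (0 : V))
  have hempty : {x | ∃ T : Submodule ℂ V, IsRegularPoint (Set.univ : Set V) x T ∧
      finrank ℂ T = d} = ∅ := by
    ext x
    simp only [Set.mem_ofPred_eq, Set.mem_empty_iff_false, iff_false]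
    rintro ⟨T, hT, hTd⟩
    have hT' := hT.unique (isRegularPoint_univ x)
    subst hT'
    rw [finrank_top] at hTd
    exact hd hTd.symm
  rw [hempty, closure_empty] at h0
  exact h0

/-- `A` is not a closed algebraic subset of codimension `≥ r` of itself, if `r > 0`. -/
theorem not_isAlgebraicSubsetOfCodimGE_univ (Λ : Submodule ℤ V) {r : ℕ} (hr : 0 < r) :
    ¬ IsAlgebraicSubsetOfCodimGE Λ r (Set.univ : Set V) := by
  rintro ⟨m, Y, d, hY, hd, hU⟩
  have : CompleteSpace V := FiniteDimensional.complete ℂ V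
  obtain ⟨j, hj⟩ := nonempty_interior_of_iUnion_of_closed
    (fun j => (hY j).analytic.isClosed) hU.symm
  have h1 : Y j = Set.univ := (hY j).analytic.eq_univ_of_interior_nonempty hj
  have h2 := hY j
  rw [h1] at h2
  have h3 := h2.eq_finrank_of_univ
  have h4 := hd j
  omega

omit [FiniteDimensional ℂ V] in
/-- The only closed algebraic subset of codimension `> dim A` is the empty set. -/
theorem IsAlgebraicSubsetOfCodimGE.eq_empty {Λ : Submodule ℤ V} {r : ℕ} {Z : Set V}
    (h : IsAlgebraicSubsetOfCodimGE Λ r Z) (hr : finrank ℂ V < r) : Z = ∅ := by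
  obtain ⟨m, Y, d, -, hd, rfl⟩ := h
  rw [Set.iUnion_eq_empty]
  intro j
  have := hd j
  omega

end

/-- A point of the elliptic curve `ℂ/ℤ[i]` is a closed algebraic subset of codimension `≥ 1`, not
`≥ 2`. -/
theorem not_isAlgebraicSubsetOfCodimGE_point :
    IsAlgebraicSubsetOfCodimGE (lattice Complex.basisOneI) 1
      (lattice Complex.basisOneI : Set ℂ) ∧
    ¬ IsAlgebraicSubsetOfCodimGE (lattice Complex.basisOneI) 2
      (lattice Complex.basisOneI : Set ℂ) := by
  refine ⟨⟨1, fun _ => (lattice Complex.basisOneI : Set ℂ), fun _ => 0,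
    fun _ => isSubvariety_lattice _, fun _ => by simp, (Set.iUnion_const _).symm⟩, fun h => ?_⟩
  have h0 := h.eq_empty (by simp)
  have h1 : (0 : ℂ) ∈ (lattice Complex.basisOneI : Set ℂ) := (lattice Complex.basisOneI).zero_mem
  rw [h0] at h1
  exact h1

/-! ### The hypothesis of effectivity cannot be dropped -/

/-- For `A = ℂ/ℤ[i]`, the rational Hodge substructure `W = ℚ · [E] ⊆ H²(A,ℚ)` and `r = 2` (so that `W(r)`
is not effective), the conclusion of `GeneralizedHodgeCM` fails. -/
theorem generalizedHodge_conclusion_fails_without_effectivity :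
    IsHodgeSubstructure (lattice Complex.basisOneI)
      (Submodule.span ℚ {formOfBilin gaussForm gauss_isRiemannForm.alt}) ∧
    ¬ ∃ Z : Set ℂ, IsAlgebraicSubsetOfCodimGE (lattice Complex.basisOneI) 2 Z ∧
      ∀ φ ∈ Submodule.span ℚ {formOfBilin gaussForm gauss_isRiemannForm.alt},
        RestrictsToZero (lattice Complex.basisOneI) Z φ := by
  refine ⟨gauss_isRiemannForm.isHodgeSubstructure, ?_⟩
  rintro ⟨Z, hZ, h⟩
  have h0 := hZ.eq_empty (by simp)
  subst h0
  exact not_restrictsToZero_gauss_empty.1 (h _ (Submodule.mem_span_singleton_self _))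

end Claimed.Open.R032
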