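import Claimed.Open.R032.SanityDuality
import Claimed.Open.R032.PowerSpan

/-!
# Hodge classes on powers of a CM elliptic curve: the linear algebra

Let `K = ℚ(ω)`, `ω² = -D`, be an imaginary quadratic field, `E = ℂ / (ℤ + ℤ ω)`, let `w` be a
`ℂ`-basis of `V` and `Λ₀ = ⊕_j (ℤ + ℤ ω) w_j` (`lattice (h.periodBasis w)`), so that `V / Λ₀ = E^J`.

Main result, `IsHodgeClass.mem_span_piForm`: every Hodge class of codimension `p` on `V / Λ₀` (in the
sense of `Statement.lean`) is a `ℚ`-linear combination of the forms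
`piForm ω ℓ = ω^p ℓ₀ ∧ ℓ̄₀ ∧ ⋯ ∧ ℓ_{p-1} ∧ ℓ̄_{p-1}` with `ℓ_k : V → ℂ` linear and defined over `K`.
These forms are the pull-backs of the class of a point under the homomorphisms `E^J → E^p`.

Steps of the proof:
* `exists_monomial_decomposition`: a rational form is a sum of `K`-linear combinations of the
  monomials in `dz_j`, `dz̄_j` (expand in `dx_j, dy_j`, substitute);
* `IsHodgeClass.mem_monomialSpan`: only the monomials of type `(p,p)` occur (uniqueness of the Hodge
  decomposition, `eq_component_of_mem_hodgePiece`);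
* `exists_monomial_eq_interleave`: reorder a monomial as `± dz ∧ dz̄ ∧ dz ∧ dz̄ ∧ ⋯`;
* `coord_pair_mem_piSpanOne`: polarisation, `dz_i ∧ dz̄_j` is a `K`-combination of forms `ω ℓ ∧ ℓ̄`;
* `isRational_piForm`: the forms `piForm ω ℓ` are rational;
* `exists_add_omega_smul`, `eq_of_eq_add_omega_smul`: descent from `K` to `ℚ`.
-/

open Module

namespace Claimed.Open.R032

variable {V : Type*} [NormedAddCommGroup V] [InnerProductSpace ℂ V]

/-! ### `wedgeOfForms` is multilinear -/

theorem wedgeOfForms_smul {n : ℕ} (c : Fin n → ℂ) (ℓ : Fin n → V →ₗ[ℝ] ℂ) :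
    wedgeOfForms (fun i => c i • ℓ i) = (∏ i, c i) • wedgeOfForms ℓ :=
  (wedgeOfFormsML V n).map_smul_univ c ℓ

/-! ### Imaginary quadratic fields -/

/-- `ω` generates an imaginary quadratic field `K = ℚ(ω) = ℚ + ℚ ω`: `ω² = -D` with `D` a positive
rational number. -/
structure IsImagQuad (ω : ℂ) (D : ℚ) : Prop where
  pos : 0 < D
  sq : ω ^ 2 = -(D : ℂ)

namespace IsImagQuad

variable {ω : ℂ} {D : ℚ} (h : IsImagQuad ω D)
include h

theorem im_ne_zero : ω.im ≠ 0 := by
  intro h0
  have h1 := congrArg Complex.re h.sq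
  have hD : (0 : ℝ) < D := by exact_mod_cast h.pos
  simp [pow_two, h0] at h1
  nlinarith [mul_self_nonneg ω.re]

theorem re_eq_zero : ω.re = 0 := by
  have h1 := congrArg Complex.im h.sq
  simp [pow_two] at h1
  have h2 : ω.re * ω.im = 0 := by linarith
  exact (mul_eq_zero.1 h2).resolve_right h.im_ne_zero

theorem conj_eq : (starRingEnd ℂ) ω = -ω := by
  apply Complex.ext <;> simp [h.re_eq_zero]

theorem ne_zero : ω ≠ 0 := by
  intro h0
  exact h.im_ne_zero (by simp [h0])

theorem D_ne_zero : (D : ℂ) ≠ 0 := by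
  exact_mod_cast h.pos.ne'

/-- The field `K = ℚ + ℚ ω ⊆ ℂ`. -/
def field : Subalgebra ℚ ℂ where
  carrier := {z | ∃ q r : ℚ, z = q + r * ω}
  mul_mem' := by
    rintro _ _ ⟨q, r, rfl⟩ ⟨q', r', rfl⟩
    refine ⟨q * q' - r * r' * D, q * r' + r * q', ?_⟩
    push_cast
    linear_combination (r * r' : ℂ) * h.sq
  add_mem' := by
    rintro _ _ ⟨q, r, rfl⟩ ⟨q', r', rfl⟩
    refine ⟨q + q', r + r', ?_⟩
    push_cast
    ring
  algebraMap_mem' := fun q => ⟨q, 0, by simp⟩

theorem mem_field {z : ℂ} : z ∈ h.field ↔ ∃ q r : ℚ, z = q + r * ω := Iff.rfl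

theorem omega_mem : ω ∈ h.field := ⟨0, 1, by simp⟩

theorem ratCast_mem (q : ℚ) : (q : ℂ) ∈ h.field := ⟨q, 0, by simp⟩

theorem ratCast_mul_omega_mem (r : ℚ) : (r : ℂ) * ω ∈ h.field := ⟨0, r, by simp⟩

theorem conj_mem {z : ℂ} (hz : z ∈ h.field) : (starRingEnd ℂ) z ∈ h.field := by
  obtain ⟨q, r, rfl⟩ := hz
  refine ⟨q, -r, ?_⟩
  simp [h.conj_eq]

/-- A rational number which is a rational multiple of `ω` is zero. -/
theorem eq_zero_of_ratCast_eq {q r : ℚ} (hqr : (q : ℂ) = ω * r) : r = 0 := by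
  have h1 := congrArg Complex.im hqr
  simp at h1
  rcases h1 with h1 | h1
  · exact absurd h1 h.im_ne_zero
  · exact h1

end IsImagQuad

theorem smul_mem_of_mem_field {ω : ℂ} {D : ℚ} (h : IsImagQuad ω D) {M : Type*} [AddCommGroup M]
    [Module ℂ M] (P : Submodule h.field M) {c : ℂ} (hc : c ∈ h.field) {x : M} (hx : x ∈ P) :
    c • x ∈ P :=
  P.smul_mem ⟨c, hc⟩ hx

/-! ### The period basis `(w_j, ω w_j)` -/

section basis

variable {ω : ℂ} {D : ℚ} (h : IsImagQuad ω D)

/-- The `ℝ`-basis `(1, ω)` of `ℂ`. -/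
noncomputable def IsImagQuad.basisOneOmega : Basis (Fin 2) ℝ ℂ :=
  basisOfLinearIndependentOfCardEqFinrank (b := ![1, ω])
    (by
      rw [LinearIndependent.pair_iff]
      intro s t hst
      have h1 := congrArg Complex.im hst
      have h2 := congrArg Complex.re hst
      simp [h.re_eq_zero] at h1 h2
      exact ⟨h2, h1.resolve_right h.im_ne_zero⟩)
    (by simp [Complex.finrank_real_complex])

theorem IsImagQuad.coe_basisOneOmega : ⇑h.basisOneOmega = ![1, ω] :=
  coe_basisOfLinearIndependentOfCardEqFinrank _ _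

variable {J : Type*} (w : Basis J ℂ V)

/-- The period basis `(w_j, ω w_j)_j` of the lattice `Λ₀ = ⊕_j (ℤ + ℤ ω) w_j`; the torus `V / Λ₀` is
the power `E^J` of the elliptic curve `E = ℂ / (ℤ + ℤ ω)`, which has complex multiplication by
`K = ℚ(ω)`. -/
noncomputable def IsImagQuad.periodBasis : Basis (Fin 2 × J) ℝ V :=
  h.basisOneOmega.smulTower w

theorem IsImagQuad.periodBasis_zero (j : J) : h.periodBasis w (0, j) = w j := by
  simp [IsImagQuad.periodBasis, Basis.smulTower_apply, h.coe_basisOneOmega]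

theorem IsImagQuad.periodBasis_one (j : J) : h.periodBasis w (1, j) = ω • w j := by
  simp [IsImagQuad.periodBasis, Basis.smulTower_apply, h.coe_basisOneOmega]

end basis

/-- A `ℂ`-linear form, as an `ℝ`-linear form. -/
noncomputable def holo (ℓ : V →ₗ[ℂ] ℂ) : V →ₗ[ℝ] ℂ := ℓ.restrictScalars ℝ

/-- The complex conjugate of a `ℂ`-linear form. -/
noncomputable def anti (ℓ : V →ₗ[ℂ] ℂ) : V →ₗ[ℝ] ℂ :=
  Complex.conjAe.toLinearMap ∘ₗ ℓ.restrictScalars ℝ

@[simp] theorem holo_apply (ℓ : V →ₗ[ℂ] ℂ) (v : V) : holo ℓ v = ℓ v := rfl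

@[simp] theorem anti_apply (ℓ : V →ₗ[ℂ] ℂ) (v : V) : anti ℓ v = (starRingEnd ℂ) (ℓ v) := rfl

section coords

variable {ω : ℂ} {D : ℚ} (h : IsImagQuad ω D) {J : Type*} [DecidableEq J] (w : Basis J ℂ V)

/-- coefficients of `dz_j` in `dx_j`, `dy_j` -/
noncomputable def coefH (ω : ℂ) (D : ℚ) : Fin 2 → ℂ := ![1 / 2, -(1 / (2 * D) : ℚ) * ω]

/-- coefficients of `dz̄_j` in `dx_j`, `dy_j` -/
noncomputable def coefA (ω : ℂ) (D : ℚ) : Fin 2 → ℂ := ![1 / 2, (1 / (2 * D) : ℚ) * ω]

include h in
theorem coefH_mem (e : Fin 2) : coefH ω D e ∈ h.field := by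
  fin_cases e
  · exact ⟨1 / 2, 0, by simp [coefH]⟩
  · exact ⟨0, -(1 / (2 * D)), by simp [coefH]⟩

include h in
theorem coefA_mem (e : Fin 2) : coefA ω D e ∈ h.field := by
  fin_cases e
  · exact ⟨1 / 2, 0, by simp [coefA]⟩
  · exact ⟨0, (1 / (2 * D)), by simp [coefA]⟩

/-- `dx_j = (dz_j + dz̄_j) / 2` and `dy_j = (dz_j - dz̄_j) / (2 ω)`. -/
theorem IsImagQuad.coord_periodBasis (e : Fin 2) (j : J) :
    Complex.ofRealCLM.toLinearMap ∘ₗ (h.periodBasis w).coord (e, j)
      = coefH ω D e • holo (w.coord j) + coefA ω D e • anti (w.coord j) := by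
  apply (h.periodBasis w).ext
  rintro ⟨e', j'⟩
  have hD := h.D_ne_zero
  have hsq := h.sq
  have hL : (Complex.ofRealCLM.toLinearMap ∘ₗ (h.periodBasis w).coord (e, j))
      (h.periodBasis w (e', j')) = if (e', j') = (e, j) then 1 else 0 := by
    simp only [LinearMap.comp_apply, Basis.coord_apply, Basis.repr_self, Finsupp.single_apply]
    split_ifs <;> simp
  rw [hL]
  have hw : w.coord j (w j') = if j' = j then 1 else 0 := by simp [Finsupp.single_apply]
  have hR : ∀ x : V, (coefH ω D e • holo (w.coord j) + coefA ω D e • anti (w.coord j)) x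
      = coefH ω D e * w.coord j x + coefA ω D e * (starRingEnd ℂ) (w.coord j x) := fun x => rfl
  rw [hR]
  by_cases hj : j' = j
  · subst hj
    fin_cases e <;> fin_cases e'
    · simp only [Fin.zero_eta, h.periodBasis_zero, hw]
      simp [coefH, coefA]
      norm_num
    · simp only [Fin.zero_eta, Fin.mk_one, h.periodBasis_one, map_smul, hw]
      simp [coefH, coefA, h.conj_eq]
    · simp only [Fin.zero_eta, Fin.mk_one, h.periodBasis_zero, hw]
      simp [coefH, coefA]
    · simp only [Fin.mk_one, h.periodBasis_one, map_smul, hw]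
      simp [coefH, coefA, h.conj_eq]
      field_simp
      linear_combination (2 : ℂ) * hsq
  · have hne : ¬ ((e', j') : Fin 2 × J) = (e, j) := fun hh => hj (Prod.ext_iff.1 hh).2
    rw [if_neg hne]
    fin_cases e'
    · simp only [Fin.zero_eta, h.periodBasis_zero, hw, if_neg hj]
      simp
    · simp only [Fin.mk_one, h.periodBasis_one, map_smul, hw, if_neg hj]
      simp

end coords

/-! ### Expansion of a form in the monomials `dz_S ∧ dz̄_T` -/

/-- Expansion of an alternating form with respect to a real basis. -/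
theorem factorial_smul_eq_sum {m : ℕ} {J' : Type*} [Fintype J'] [DecidableEq J']
    (β : Basis J' ℝ V) (φ : Form V m) :
    (m.factorial : ℂ) • φ = ∑ f : Fin m → J', φ (fun i => β (f i)) •
      wedgeOfForms (fun i => Complex.ofRealCLM.toLinearMap ∘ₗ β.coord (f i)) := by
  have h1 := AlternatingMap.coe_alternatization φ
  rw [multilinear_expansion β (φ : MultilinearMap ℝ (fun _ : Fin m => V) ℂ), map_sum] at h1
  simp only [alternatization_smul_complex, Fintype.card_fin] at h1
  rw [Nat.cast_smul_eq_nsmul, ← h1]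
  rfl

section expansion

variable {ω : ℂ} {D : ℚ} (h : IsImagQuad ω D) {J : Type*} (w : Basis J ℂ V)

/-- The monomial `λ₀ ∧ ⋯ ∧ λ_{m-1}` with `λ_i = dz_{j i}` for `i ∈ s` and `λ_i = dz̄_{j i}` for
`i ∉ s`. -/
noncomputable def monomial {m : ℕ} (s : Finset (Fin m)) (j : Fin m → J) : Form V m :=
  wedgeOfForms (s.piecewise (fun i => holo (w.coord (j i))) (fun i => anti (w.coord (j i))))

theorem monomial_mem_hodgePiece {m : ℕ} (s : Finset (Fin m)) (j : Fin m → J) :
    monomial w s j ∈ hodgePiece V s.card m := by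
  apply wedgeOfForms_mem_hodgePiece
  · intro i hi v; simp [hi]
  · intro i hi v; simp [hi]

/-- The `K`-span of the monomials of type `(a, m - a)`. -/
noncomputable def monomialSpan (m a : ℕ) : Submodule h.field (Form V m) :=
  Submodule.span h.field {μ | ∃ (s : Finset (Fin m)) (j : Fin m → J), s.card = a ∧ μ = monomial w s j}

theorem monomialSpan_le_hodgePiece (m a : ℕ) {φ : Form V m} (hφ : φ ∈ monomialSpan h w m a) :
    φ ∈ hodgePiece V a m := by
  have : monomialSpan h w m a ≤ (hodgePiece V a m).restrictScalars h.field := by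
    apply Submodule.span_le.2
    rintro _ ⟨s, j, rfl, rfl⟩
    exact monomial_mem_hodgePiece w s j
  exact this hφ

variable [Fintype J] [DecidableEq J]

omit [Fintype J] in
theorem wedgeOfForms_coord_periodBasis {m : ℕ} (f : Fin m → Fin 2 × J) :
    wedgeOfForms (fun i => Complex.ofRealCLM.toLinearMap ∘ₗ (h.periodBasis w).coord (f i))
      = ∑ s : Finset (Fin m),
          (∏ i, s.piecewise (fun i => coefH ω D (f i).1) (fun i => coefA ω D (f i).1) i) •
            monomial w s (fun i => (f i).2) := by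
  have h1 : (fun i => Complex.ofRealCLM.toLinearMap ∘ₗ (h.periodBasis w).coord (f i))
      = (fun i => coefH ω D (f i).1 • holo (w.coord (f i).2))
        + (fun i => coefA ω D (f i).1 • anti (w.coord (f i).2)) := by
    funext i
    exact h.coord_periodBasis w (f i).1 (f i).2
  rw [h1, wedgeOfForms_add]
  refine Finset.sum_congr rfl fun s _ => ?_
  rw [monomial, ← wedgeOfForms_smul]
  congr 1
  funext i
  by_cases hi : i ∈ s <;> simp [hi]

/-- A form which is rational on `Λ₀` is a sum of `K`-linear combinations of monomials. -/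
theorem exists_monomial_decomposition {m : ℕ} (φ : Form V m)
    (hφ : IsRational (lattice (h.periodBasis w)) φ) :
    ∃ ψ : ℕ → Form V m, (∀ a, ψ a ∈ monomialSpan h w m a) ∧
      φ = ∑ a ∈ Finset.range (m + 1), ψ a := by
  classical
  have hq : ∀ f : Fin m → Fin 2 × J, φ (fun i => h.periodBasis w (f i)) ∈ h.field := by
    intro f
    obtain ⟨q, hq⟩ := hφ (fun i => h.periodBasis w (f i)) (fun i => Submodule.subset_span ⟨_, rfl⟩)
    rw [hq]
    exact h.ratCast_mem q
  -- the component attached to the subset `s`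
  let Ψ : Finset (Fin m) → Form V m := fun s =>
    ((1 / m.factorial : ℚ) : ℂ) • ∑ f : Fin m → Fin 2 × J, (φ (fun i => h.periodBasis w (f i)) *
      ∏ i, s.piecewise (fun i => coefH ω D (f i).1) (fun i => coefA ω D (f i).1) i) •
        monomial w s (fun i => (f i).2)
  have hΨ : ∀ s, Ψ s ∈ monomialSpan h w m s.card := by
    intro s
    refine smul_mem_of_mem_field h _ (h.ratCast_mem _) (Submodule.sum_mem _ fun f _ => ?_)
    refine smul_mem_of_mem_field h _ ?_ (Submodule.subset_span ⟨s, _, rfl, rfl⟩)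
    refine h.field.mul_mem (hq f) (h.field.prod_mem fun i _ => ?_)
    by_cases hi : i ∈ s
    · simpa [hi] using coefH_mem h _
    · simpa [hi] using coefA_mem h _
  have hsum : φ = ∑ s : Finset (Fin m), Ψ s := by
    have h0 : (m.factorial : ℂ) ≠ 0 := by exact_mod_cast m.factorial_ne_zero
    have h1 := factorial_smul_eq_sum (h.periodBasis w) φ
    simp only [wedgeOfForms_coord_periodBasis, Finset.smul_sum, smul_smul] at h1
    rw [Finset.sum_comm] at h1
    simp only [Ψ, ← Finset.smul_sum]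
    rw [← h1, smul_smul]
    simp [h0]
  refine ⟨fun a => ∑ s ∈ Finset.univ.filter (fun s : Finset (Fin m) => s.card = a), Ψ s, ?_, ?_⟩
  · intro a
    refine Submodule.sum_mem _ fun s hs => ?_
    have := hΨ s
    rwa [(Finset.mem_filter.1 hs).2] at this
  · rw [hsum]
    symm
    apply Finset.sum_fiberwise_of_maps_to
    intro s _
    have := Finset.card_le_univ s
    simp only [Fintype.card_fin] at this
    simp only [Finset.mem_range]
    omega

end expansion

/-- Uniqueness of the Hodge decomposition. -/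
theorem eq_component_of_mem_hodgePiece {p n : ℕ} (hp : p ≤ n) {φ : Form V n}
    (hφ : φ ∈ hodgePiece V p n) (ψ : ℕ → Form V n) (hψ : ∀ a, ψ a ∈ hodgePiece V a n)
    (hsum : φ = ∑ a ∈ Finset.range (n + 1), ψ a) : φ = ψ p := by
  ext v
  have hz : ∀ a ∈ Finset.range (n + 1), a ≠ p → ψ a v = 0 := by
    apply eq_zero_of_weights hp (fun a => ψ a v)
    intro z
    have h1 := hodgePiece_le_weightSpace hp hφ z v
    rw [hsum, form_sum_apply, form_sum_apply] at h1
    rw [← h1]
    refine Finset.sum_congr rfl fun a ha => ?_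
    have ha' : a ≤ n := by simpa [Nat.lt_succ_iff] using ha
    exact (hodgePiece_le_weightSpace ha' (hψ a) z v).symm
  rw [hsum, form_sum_apply, Finset.sum_eq_single p]
  · intro a ha hap; exact hz a ha hap
  · intro h; exact absurd (Finset.mem_range.2 (Nat.lt_succ_of_le hp)) h

/-- A Hodge class on `V / Λ₀` is a `K`-linear combination of monomials of type `(p,p)`. -/
theorem IsHodgeClass.mem_monomialSpan {ω : ℂ} {D : ℚ} (h : IsImagQuad ω D) {J : Type*} [Fintype J]
    [DecidableEq J] (w : Basis J ℂ V) {p : ℕ} {φ : Form V (2 * p)}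
    (hφ : IsHodgeClass (lattice (h.periodBasis w)) p φ) : φ ∈ monomialSpan h w (2 * p) p := by
  obtain ⟨ψ, hψ, hsum⟩ := exists_monomial_decomposition h w φ hφ.1
  rw [eq_component_of_mem_hodgePiece (by omega) hφ.2 ψ
    (fun a => monomialSpan_le_hodgePiece h w _ a (hψ a)) hsum]
  exact hψ p

/-! ### Interleaving -/

theorem interleave_succ {α : Type*} {p : ℕ} (a b : Fin (p + 1) → α) :
    interleave a b = Fin.append (interleave (a ∘ Fin.castSucc) (b ∘ Fin.castSucc))
      ![a (Fin.last p), b (Fin.last p)] := by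
  funext i
  refine Fin.addCases (m := 2 * p) (n := 2) (fun i => ?_) (fun i => ?_) i
  · rw [Fin.append_left]
    simp only [interleave, Fin.val_castAdd, Function.comp_apply]
    rfl
  · rw [Fin.append_right]
    fin_cases i
    · simp [interleave]
      rfl
    · have h2 : (⟨(2 * p + 1) / 2, by omega⟩ : Fin (p + 1)) = Fin.last p := by
        ext; simp; omega
      simp [interleave, h2]

theorem wedgeOfForms_interleave_succ {p : ℕ} (a b : Fin (p + 1) → V →ₗ[ℝ] ℂ) :
    wedgeOfForms (interleave a b)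
      = wedge (wedgeOfForms (interleave (a ∘ Fin.castSucc) (b ∘ Fin.castSucc)))
          (wedgeOfForms ![a (Fin.last p), b (Fin.last p)]) := by
  rw [wedge_wedgeOfForms, interleave_succ]

theorem card_filter_even (p : ℕ) :
    (Finset.univ.filter fun i : Fin (2 * p) => (i : ℕ) % 2 = 0).card = p := by
  have : (Finset.univ.filter fun i : Fin (2 * p) => (i : ℕ) % 2 = 0)
      = Finset.univ.image (fun k : Fin p => (⟨2 * k, by omega⟩ : Fin (2 * p))) := by
    ext i
    simp only [Finset.mem_filter, Finset.mem_univ, true_and, Finset.mem_image]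
    constructor
    · intro hi
      exact ⟨⟨i / 2, by omega⟩, by ext; simp; omega⟩
    · rintro ⟨k, rfl⟩
      simp
  rw [this, Finset.card_image_of_injective, Finset.card_univ, Fintype.card_fin]
  intro k k' hk
  have := congrArg Fin.val hk
  simp at this
  exact Fin.ext this

/-- A subset with `p` elements of `Fin (2 p)` can be moved to the even positions. -/
theorem exists_perm_even {p : ℕ} (s : Finset (Fin (2 * p))) (hs : s.card = p) :
    ∃ τ : Equiv.Perm (Fin (2 * p)), ∀ i, τ i ∈ s ↔ (i : ℕ) % 2 = 0 := by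
  obtain ⟨τ, hτ⟩ := Equiv.Perm.exists_map_finset_eq
    (Finset.univ.filter fun i : Fin (2 * p) => (i : ℕ) % 2 = 0) s (by rw [card_filter_even, hs])
  refine ⟨τ, fun i => ?_⟩
  rw [← hτ]
  simp

/-- A monomial of type `(p,p)` is, up to sign, of the form
`dz_{I 0} ∧ dz̄_{I' 0} ∧ dz_{I 1} ∧ dz̄_{I' 1} ∧ ⋯`. -/
theorem exists_monomial_eq_interleave {J : Type*} (w : Basis J ℂ V) {p : ℕ}
    (s : Finset (Fin (2 * p))) (hs : s.card = p) (j : Fin (2 * p) → J) :
    ∃ (ε : ℤˣ) (I I' : Fin p → J), monomial w s j = ε •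
      wedgeOfForms (interleave (fun k => holo (w.coord (I k))) (fun k => anti (w.coord (I' k)))) := by
  obtain ⟨τ, hτ⟩ := exists_perm_even s hs
  refine ⟨Equiv.Perm.sign τ, fun k => j (τ ⟨2 * k, by omega⟩), fun k => j (τ ⟨2 * k + 1, by omega⟩),
    ?_⟩
  have h1 := wedgeOfForms_comp_perm
    (s.piecewise (fun i => holo (w.coord (j i))) (fun i => anti (w.coord (j i)))) τ
  have h2 : (fun i => (s.piecewise (fun i => holo (w.coord (j i)))
      (fun i => anti (w.coord (j i)))) (τ i))
      = interleave (fun k : Fin p => holo (w.coord (j (τ ⟨2 * k, by omega⟩))))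
          (fun k : Fin p => anti (w.coord (j (τ ⟨2 * k + 1, by omega⟩)))) := by
    funext i
    by_cases hi : (i : ℕ) % 2 = 0
    · have h3 : (⟨2 * ((i : ℕ) / 2), by omega⟩ : Fin (2 * p)) = i := by ext; simp; omega
      simp [interleave, hi, (hτ i).2 hi, h3]
    · have h3 : (⟨2 * ((i : ℕ) / 2) + 1, by omega⟩ : Fin (2 * p)) = i := by ext; simp; omega
      have h4 : τ i ∉ s := fun hh => hi ((hτ i).1 hh)
      simp [interleave, hi, h4, h3]
  rw [h2] at h1
  rw [h1, smul_smul, Int.units_mul_self, one_smul, monomial]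

/-! ### Products of classes of elliptic-curve quotients -/

section products

variable {ω : ℂ} {D : ℚ} (h : IsImagQuad ω D) {J : Type*} (w : Basis J ℂ V)

/-- The `ℂ`-linear form `ℓ` is defined over `K`, i.e. it is (up to a positive integer) the
differential of a homomorphism `V / Λ₀ → ℂ / (ℤ + ℤ ω)`. -/
def IsKRational (ℓ : V →ₗ[ℂ] ℂ) : Prop := ∀ j, ℓ (w j) ∈ h.field

/-- `ω^p ℓ₀ ∧ ℓ̄₀ ∧ ⋯ ∧ ℓ_{p-1} ∧ ℓ̄_{p-1}`: the pull-back under `(ℓ₀, …, ℓ_{p-1}) : V → ℂ^p` of the form
`ω^p dz₀ ∧ dz̄₀ ∧ ⋯ ∧ dz_{p-1} ∧ dz̄_{p-1}` of top degree. -/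
noncomputable def piForm (ω : ℂ) {p : ℕ} (ℓ : Fin p → V →ₗ[ℂ] ℂ) : Form V (2 * p) :=
  ω ^ p • wedgeOfForms (interleave (fun k => holo (ℓ k)) (fun k => anti (ℓ k)))

theorem piForm_succ {p : ℕ} (ℓ : Fin (p + 1) → V →ₗ[ℂ] ℂ) :
    piForm ω ℓ = wedge (piForm ω (ℓ ∘ Fin.castSucc))
      (ω • wedgeOfForms ![holo (ℓ (Fin.last p)), anti (ℓ (Fin.last p))]) := by
  rw [piForm, piForm, wedgeOfForms_interleave_succ, wedge_smul_left, wedge_smul_right, smul_smul,
    pow_succ]
  rfl

/-- The `K`-span of the forms `piForm ℓ`. -/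
noncomputable def piSpan (p : ℕ) : Submodule h.field (Form V (2 * p)) :=
  Submodule.span h.field {π | ∃ ℓ : Fin p → V →ₗ[ℂ] ℂ, (∀ k, IsKRational h w (ℓ k)) ∧ π = piForm ω ℓ}

/-- The `K`-span of the forms `ω ℓ ∧ ℓ̄`. -/
noncomputable def piSpanOne : Submodule h.field (Form V 2) :=
  Submodule.span h.field {π | ∃ ℓ : V →ₗ[ℂ] ℂ, IsKRational h w ℓ ∧
    π = ω • wedgeOfForms ![holo ℓ, anti ℓ]}

theorem wedge_zero_left {a k : ℕ} (β : Form V k) : wedge (0 : Form V a) β = 0 := by
  have := wedge_smul_left (0 : ℂ) (0 : Form V a) β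
  simpa using this

theorem wedge_zero_right {a k : ℕ} (α : Form V a) : wedge α (0 : Form V k) = 0 := by
  have := wedge_smul_right (0 : ℂ) α (0 : Form V k)
  simpa using this

theorem wedge_mem_piSpan {p : ℕ} {x : Form V (2 * p)} {y : Form V 2} (hx : x ∈ piSpan h w p)
    (hy : y ∈ piSpanOne h w) : wedge x y ∈ piSpan h w (p + 1) := by
  induction hx using Submodule.span_induction with
  | mem x hx =>
    obtain ⟨ℓ, hℓ, rfl⟩ := hx
    induction hy using Submodule.span_induction with
    | mem y hy =>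
      obtain ⟨ℓ', hℓ', rfl⟩ := hy
      refine Submodule.subset_span ⟨Fin.snoc (α := fun _ => V →ₗ[ℂ] ℂ) ℓ ℓ', ?_, ?_⟩
      · intro k
        refine Fin.lastCases ?_ (fun k => ?_) k
        · simpa using hℓ'
        · simpa using hℓ k
      · rw [piForm_succ]
        congr 1
        · congr 1
          funext k
          simp
        · simp
    | zero => rw [wedge_zero_right]; exact Submodule.zero_mem _
    | add y y' _ _ hy hy' => rw [wedge_add_right]; exact Submodule.add_mem _ hy hy'
    | smul c y _ hy =>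
      have : wedge (piForm ω ℓ) (c • y) = c • wedge (piForm ω ℓ) y :=
        wedge_smul_right (c : ℂ) _ y
      rw [this]; exact Submodule.smul_mem _ _ hy
  | zero => rw [wedge_zero_left]; exact Submodule.zero_mem _
  | add x x' _ _ hx hx' => rw [wedge_add_left]; exact Submodule.add_mem _ hx hx'
  | smul c x _ hx =>
    have : wedge (c • x) y = c • wedge x y := wedge_smul_left (c : ℂ) x y
    rw [this]; exact Submodule.smul_mem _ _ hx

theorem wedgeOfForms_pair_apply (a b : V →ₗ[ℝ] ℂ) (v : Fin 2 → V) :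
    wedgeOfForms ![a, b] v = a (v 0) * b (v 1) - a (v 1) * b (v 0) := by
  rw [wedgeOfForms_eq_det, Matrix.det_fin_two]
  simp

theorem pair_mem_piSpanOne {ℓ : V →ₗ[ℂ] ℂ} (hℓ : IsKRational h w ℓ) :
    wedgeOfForms ![holo ℓ, anti ℓ] ∈ piSpanOne h w := by
  have h1 : wedgeOfForms ![holo ℓ, anti ℓ]
      = (((-(1 / D) : ℚ) : ℂ) * ω) • (ω • wedgeOfForms ![holo ℓ, anti ℓ]) := by
    rw [smul_smul]
    have : (((-(1 / D) : ℚ) : ℂ) * ω) * ω = 1 := by
      have hD := h.D_ne_zero
      have hsq := h.sq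
      push_cast
      field_simp
      linear_combination (-1 : ℂ) * hsq
    rw [this, one_smul]
  rw [h1]
  exact smul_mem_of_mem_field h _ (h.ratCast_mul_omega_mem _) (Submodule.subset_span ⟨ℓ, hℓ, rfl⟩)

variable [DecidableEq J]

/-- Polarisation: `dz_i ∧ dz̄_j` is a `K`-linear combination of forms `ω ℓ ∧ ℓ̄`. -/
theorem coord_pair_mem_piSpanOne (i j : J) :
    wedgeOfForms ![holo (w.coord i), anti (w.coord j)] ∈ piSpanOne h w := by
  have hcoord : ∀ i, IsKRational h w (w.coord i) := by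
    intro i j
    rw [Basis.coord_apply, Basis.repr_self, Finsupp.single_apply]
    split_ifs
    · exact h.field.one_mem
    · exact h.field.zero_mem
  have hadd : IsKRational h w (w.coord i + w.coord j) := fun k =>
    h.field.add_mem (hcoord i k) (hcoord j k)
  have hadd' : IsKRational h w (w.coord i + ω • w.coord j) := fun k =>
    h.field.add_mem (hcoord i k) (h.field.mul_mem h.omega_mem (hcoord j k))
  have key : wedgeOfForms ![holo (w.coord i), anti (w.coord j)]
      = ((1 / 2 : ℚ) : ℂ) • (wedgeOfForms ![holo (w.coord i + w.coord j), anti (w.coord i + w.coord j)]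
          - wedgeOfForms ![holo (w.coord i), anti (w.coord i)]
          - wedgeOfForms ![holo (w.coord j), anti (w.coord j)])
        + (((1 / (2 * D) : ℚ) : ℂ) * ω) •
          (wedgeOfForms ![holo (w.coord i + ω • w.coord j), anti (w.coord i + ω • w.coord j)]
          - wedgeOfForms ![holo (w.coord i), anti (w.coord i)]
          - (D : ℂ) • wedgeOfForms ![holo (w.coord j), anti (w.coord j)]) := by
    ext v
    have hD := h.D_ne_zero
    have hsq := h.sq
    simp only [AlternatingMap.add_apply, AlternatingMap.smul_apply, AlternatingMap.sub_apply,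
      wedgeOfForms_pair_apply, holo_apply, anti_apply, LinearMap.add_apply, LinearMap.smul_apply,
      map_add, smul_eq_mul, map_mul, h.conj_eq]
    push_cast
    field_simp
    generalize (w.coord i) (v 0) = a0
    generalize (w.coord i) (v 1) = a1
    generalize (w.coord j) (v 0) = b0
    generalize (w.coord j) (v 1) = b1
    generalize (starRingEnd ℂ) a0 = a0'
    generalize (starRingEnd ℂ) a1 = a1'
    generalize (starRingEnd ℂ) b0 = b0'
    generalize (starRingEnd ℂ) b1 = b1'
    linear_combination (-((-a0 * b1' + b0 * a1' + a1 * b0' - b1 * a0')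
      - ω * (b0 * b1' - b1 * b0'))) * hsq
  rw [key]
  refine Submodule.add_mem _ (smul_mem_of_mem_field h _ (h.ratCast_mem _) ?_)
    (smul_mem_of_mem_field h _ (h.ratCast_mul_omega_mem _) ?_)
  · exact Submodule.sub_mem _ (Submodule.sub_mem _ (pair_mem_piSpanOne h w hadd)
      (pair_mem_piSpanOne h w (hcoord i))) (pair_mem_piSpanOne h w (hcoord j))
  · exact Submodule.sub_mem _ (Submodule.sub_mem _ (pair_mem_piSpanOne h w hadd')
      (pair_mem_piSpanOne h w (hcoord i)))
      (smul_mem_of_mem_field h _ (h.ratCast_mem _) (pair_mem_piSpanOne h w (hcoord j)))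

theorem interleave_coord_mem_piSpan : ∀ (p : ℕ) (I I' : Fin p → J),
    wedgeOfForms (interleave (fun k => holo (w.coord (I k))) (fun k => anti (w.coord (I' k))))
      ∈ piSpan h w p
  | 0, I, I' => by
    refine Submodule.subset_span ⟨fun k => k.elim0, fun k => k.elim0, ?_⟩
    rw [piForm, pow_zero, one_smul]
    congr 1
    funext i
    exact i.elim0
  | p + 1, I, I' => by
    rw [wedgeOfForms_interleave_succ]
    exact wedge_mem_piSpan h w (interleave_coord_mem_piSpan p (I ∘ Fin.castSucc) (I' ∘ Fin.castSucc))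
      (coord_pair_mem_piSpanOne h w _ _)

theorem monomialSpan_le_piSpan (p : ℕ) : monomialSpan h w (2 * p) p ≤ piSpan h w p := by
  apply Submodule.span_le.2
  rintro _ ⟨s, j, hs, rfl⟩
  obtain ⟨ε, I, I', hε⟩ := exists_monomial_eq_interleave w s hs j
  rw [hε]
  have := interleave_coord_mem_piSpan h w p I I'
  rcases Int.units_eq_one_or ε with h1 | h1 <;> rw [h1]
  · simpa using this
  · simpa using this

end products

/-! ### Rationality -/

section rationality

/-- The wedge product of rational classes is rational. -/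
theorem IsRational.wedge {Λ : Submodule ℤ V} {a k : ℕ} {α : Form V a} {β : Form V k}
    (hα : IsRational Λ α) (hβ : IsRational Λ β) : IsRational Λ (wedge α β) := by
  intro v hv
  have h0 : ((a.factorial * k.factorial : ℕ) : ℂ) ≠ 0 :=
    Nat.cast_ne_zero.2 (Nat.mul_ne_zero a.factorial_ne_zero k.factorial_ne_zero)
  have h1 := factorial_mul_wedge_apply α β v
  have h2 : ∀ σ : Equiv.Perm (Fin a ⊕ Fin k), ∃ q : ℚ, Equiv.Perm.sign σ •
      (α (fun i => v (finSumFinEquiv (σ (Sum.inl i))))
        * β (fun j => v (finSumFinEquiv (σ (Sum.inr j))))) = (q : ℂ) := by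
    intro σ
    obtain ⟨q, hq⟩ := hα (fun i => v (finSumFinEquiv (σ (Sum.inl i)))) (fun i => hv _)
    obtain ⟨q', hq'⟩ := hβ (fun j => v (finSumFinEquiv (σ (Sum.inr j)))) (fun i => hv _)
    refine ⟨((Equiv.Perm.sign σ : ℤˣ) : ℤ) * (q * q'), ?_⟩
    rw [hq, hq', Units.smul_def, zsmul_eq_mul]
    push_cast
    ring
  choose q hq using h2
  refine ⟨(∑ σ, q σ) / (a.factorial * k.factorial : ℕ), ?_⟩
  rw [Rat.cast_div, Rat.cast_sum, eq_div_iff (by exact_mod_cast h0), mul_comm]
  simp only [hq] at h1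
  exact_mod_cast h1

theorem IsRational.add {Λ : Submodule ℤ V} {n : ℕ} {α β : Form V n}
    (hα : IsRational Λ α) (hβ : IsRational Λ β) : IsRational Λ (α + β) := by
  intro v hv
  obtain ⟨q, hq⟩ := hα v hv
  obtain ⟨q', hq'⟩ := hβ v hv
  exact ⟨q + q', by rw [AlternatingMap.add_apply, hq, hq']; push_cast; ring⟩

theorem IsRational.smul {Λ : Submodule ℤ V} {n : ℕ} {α : Form V n} (c : ℚ)
    (hα : IsRational Λ α) : IsRational Λ (c • α) := by
  intro v hv
  obtain ⟨q, hq⟩ := hα v hv
  exact ⟨c * q, by rw [AlternatingMap.smul_apply, hq, Rat.smul_def]; push_cast; ring⟩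

theorem IsRational.zero {Λ : Submodule ℤ V} {n : ℕ} : IsRational Λ (0 : Form V n) :=
  fun _ _ => ⟨0, by simp⟩

theorem isRational_of_mem_span {Λ : Submodule ℤ V} {n : ℕ} {S : Set (Form V n)}
    (hS : ∀ α ∈ S, IsRational Λ α) {φ : Form V n} (hφ : φ ∈ Submodule.span ℚ S) :
    IsRational Λ φ := by
  induction hφ using Submodule.span_induction with
  | mem x hx => exact hS x hx
  | zero => exact IsRational.zero
  | add x y _ _ hx hy => exact hx.add hy
  | smul c x _ hx => exact hx.smul c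

variable {ω : ℂ} {D : ℚ} (h : IsImagQuad ω D) {J : Type*} (w : Basis J ℂ V)

/-- A `K`-rational linear form takes values in `K` on the lattice `Λ₀`. -/
theorem IsKRational.apply_mem {ℓ : V →ₗ[ℂ] ℂ} (hℓ : IsKRational h w ℓ) {v : V}
    (hv : v ∈ lattice (h.periodBasis w)) : ℓ v ∈ h.field := by
  induction hv using Submodule.span_induction with
  | mem x hx =>
    obtain ⟨⟨e, j⟩, rfl⟩ := hx
    fin_cases e
    · simp only [Fin.zero_eta, h.periodBasis_zero]
      exact hℓ j
    · simp only [Fin.mk_one, h.periodBasis_one, map_smul, smul_eq_mul]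
      exact h.field.mul_mem h.omega_mem (hℓ j)
  | zero => simp
  | add x y _ _ hx hy => rw [map_add]; exact h.field.add_mem hx hy
  | smul c x _ hx =>
    rw [← Int.cast_smul_eq_zsmul ℂ, map_smul, smul_eq_mul]
    exact h.field.mul_mem (by simp) hx

theorem isRational_pair {ℓ : V →ₗ[ℂ] ℂ} (hℓ : IsKRational h w ℓ) :
    IsRational (lattice (h.periodBasis w)) (ω • wedgeOfForms ![holo ℓ, anti ℓ]) := by
  intro v hv
  obtain ⟨q, r, hq⟩ := hℓ.apply_mem h w (hv 0)
  obtain ⟨q', r', hq'⟩ := hℓ.apply_mem h w (hv 1)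
  refine ⟨2 * D * (q * r' - r * q'), ?_⟩
  rw [AlternatingMap.smul_apply, wedgeOfForms_pair_apply]
  simp only [holo_apply, anti_apply, hq, hq', map_add, map_mul, map_ratCast, h.conj_eq,
    smul_eq_mul]
  push_cast
  linear_combination (2 * (r * q' - q * r') : ℂ) * h.sq

theorem isRational_piForm : ∀ (p : ℕ) (ℓ : Fin p → V →ₗ[ℂ] ℂ), (∀ k, IsKRational h w (ℓ k)) →
    IsRational (lattice (h.periodBasis w)) (piForm ω ℓ)
  | 0, ℓ, _ => by
    intro v _
    refine ⟨1, ?_⟩
    rw [piForm, pow_zero, one_smul, wedgeOfForms_eq_det]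
    simp
  | p + 1, ℓ, hℓ => by
    rw [piForm_succ]
    exact (isRational_piForm p _ (fun k => hℓ _)).wedge (isRational_pair h w (hℓ _))

/-! ### Descent from `K` to `ℚ` -/

include h in
theorem exists_add_omega_smul {n : ℕ} {S : Set (Form V n)} {φ : Form V n}
    (hφ : φ ∈ Submodule.span h.field S) :
    ∃ x ∈ Submodule.span ℚ S, ∃ y ∈ Submodule.span ℚ S, φ = x + ω • y := by
  induction hφ using Submodule.span_induction with
  | mem x hx => exact ⟨x, Submodule.subset_span hx, 0, Submodule.zero_mem _, by simp⟩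
  | zero => exact ⟨0, Submodule.zero_mem _, 0, Submodule.zero_mem _, by simp⟩
  | add a b _ _ ha hb =>
    obtain ⟨x, hx, y, hy, rfl⟩ := ha
    obtain ⟨x', hx', y', hy', rfl⟩ := hb
    exact ⟨x + x', Submodule.add_mem _ hx hx', y + y', Submodule.add_mem _ hy hy', by
      rw [smul_add]; abel⟩
  | smul c a _ ha =>
    obtain ⟨x, hx, y, hy, rfl⟩ := ha
    obtain ⟨c, q, r, rfl⟩ := c
    refine ⟨q • x - (r * D) • y, Submodule.sub_mem _ (Submodule.smul_mem _ _ hx)
      (Submodule.smul_mem _ _ hy), r • x + q • y, Submodule.add_mem _ (Submodule.smul_mem _ _ hx)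
      (Submodule.smul_mem _ _ hy), ?_⟩
    have h1 : ∀ (t : ℚ) (z : Form V n), t • z = (t : ℂ) • z := fun t z =>
      (Rat.cast_smul_eq_qsmul ℂ t z).symm
    have h2 : (⟨(q : ℂ) + r * ω, ⟨q, r, rfl⟩⟩ : h.field) • (x + ω • y)
        = ((q : ℂ) + r * ω) • (x + ω • y) := rfl
    rw [h2, h1, h1, h1, h1]
    have hsq : ω * ω = -(D : ℂ) := by rw [← pow_two]; exact h.sq
    ext v
    simp only [AlternatingMap.add_apply, AlternatingMap.smul_apply, AlternatingMap.sub_apply,
      smul_eq_mul]
    push_cast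
    linear_combination (r * y v : ℂ) * hsq

/-- If `φ`, `x`, `y` are rational on `Λ₀` and `φ = x + ω y`, then `φ = x`. -/
theorem eq_of_eq_add_omega_smul {n : ℕ} {φ x y : Form V n}
    (hφ : IsRational (lattice (h.periodBasis w)) φ) (hx : IsRational (lattice (h.periodBasis w)) x)
    (hy : IsRational (lattice (h.periodBasis w)) y) (he : φ = x + ω • y) : φ = x := by
  have hy0 : y = 0 := by
    apply Basis.ext_alternating (h.periodBasis w)
    intro f _
    have hmem : ∀ i, h.periodBasis w (f i) ∈ lattice (h.periodBasis w) :=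
      fun i => Submodule.subset_span ⟨_, rfl⟩
    obtain ⟨a, ha⟩ := hφ _ hmem
    obtain ⟨b, hb⟩ := hx _ hmem
    obtain ⟨c, hc⟩ := hy _ hmem
    have h1 := congrArg (fun ψ : Form V n => ψ (fun i => h.periodBasis w (f i))) he
    simp only [AlternatingMap.add_apply, AlternatingMap.smul_apply, ha, hb, hc, smul_eq_mul] at h1
    have h2 : ((a - b : ℚ) : ℂ) = ω * c := by
      push_cast
      linear_combination h1
    rw [hc, h.eq_zero_of_ratCast_eq h2]
    simp
  rw [he, hy0]
  simp

end rationality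

/-- **Hodge classes on a power of a CM elliptic curve.**  Let `E = ℂ / (ℤ + ℤ ω)` be an elliptic curve
with complex multiplication by `K = ℚ(ω)`, and `A = E^J = V / Λ₀`.  Every Hodge class of codimension
`p` on `A` is a `ℚ`-linear combination of the classes `ω^p ℓ₀ ∧ ℓ̄₀ ∧ ⋯ ∧ ℓ_{p-1} ∧ ℓ̄_{p-1}`, where the
`ℓ_k` are `ℂ`-linear forms defined over `K`. -/
theorem IsHodgeClass.mem_span_piForm {ω : ℂ} {D : ℚ} (h : IsImagQuad ω D) {J : Type*} [Fintype J]
    [DecidableEq J] (w : Basis J ℂ V) {p : ℕ} {φ : Form V (2 * p)}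
    (hφ : IsHodgeClass (lattice (h.periodBasis w)) p φ) :
    φ ∈ Submodule.span ℚ {π : Form V (2 * p) | ∃ ℓ : Fin p → V →ₗ[ℂ] ℂ,
      (∀ k, IsKRational h w (ℓ k)) ∧ π = piForm ω ℓ} := by
  have h1 : φ ∈ piSpan h w p := monomialSpan_le_piSpan h w p (hφ.mem_monomialSpan h w)
  obtain ⟨x, hx, y, hy, he⟩ := exists_add_omega_smul h h1
  have hS : ∀ α ∈ {π : Form V (2 * p) | ∃ ℓ : Fin p → V →ₗ[ℂ] ℂ,
      (∀ k, IsKRational h w (ℓ k)) ∧ π = piForm ω ℓ}, IsRational (lattice (h.periodBasis w)) α := by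
    rintro _ ⟨ℓ, hℓ, rfl⟩
    exact isRational_piForm h w p ℓ hℓ
  rw [eq_of_eq_add_omega_smul h w hφ.1 (isRational_of_mem_span hS hx)
    (isRational_of_mem_span hS hy) he]
  exact hx

end Claimed.Open.R032
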