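import Claimed.Open.R032.SanityCycleType
import Claimed.Open.R032.SanityPowerLA

/-!
# Sanity check for R032: the Hodge decomposition is compatible with cup product and conjugation

`SanityHodge.lean` proves `H^n(A,ℂ) = ⊕_p H^{p,n-p}(A)` for the pieces `hodgePiece V p n` of `Statement.lean`.  Here:

* `wedge_mem_hodgePiece`: `H^{p,a-p} ∧ H^{q,k-q} ⊆ H^{p+q,(a+k)-(p+q)}`;
* `conjAct_mem_hodgePiece`: Hodge symmetry, the conjugate of `H^{p,n-p}` lies in `H^{n-p,p}`;
* `IsHodgeClass.wedge`: the product of two Hodge classes is rational of type `(p+q,p+q)`;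
* `conjAct_eq_self_of_isRational`, `conjAct_mem_complexSpan`: rational classes are real, and `W_ℂ` is stable under conjugation
  for every `ℚ`-subspace `W` of `H^k(A,ℚ)`;
* `isEffectiveTwist_iff_of_rational`: for such `W` the two conditions `p ≥ r`, `q ≥ r` of `IsEffectiveTwist W r` ("`W(r)` is
  effective") follow from one of them: `W(r)` is effective iff `W^{p,q} = 0` for all `p < r`.
-/

open Module

namespace Claimed.Open.R032

variable {V : Type*} [NormedAddCommGroup V] [InnerProductSpace ℂ V] [FiniteDimensional ℂ V]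

/-- On `H^{p,n-p}` the number `z` acts by `z^p z̄^{n-p}`. -/
theorem circleAct_eq_smul_of_mem_hodgePiece {p n : ℕ} (hp : p ≤ n) {φ : Form V n}
    (hφ : φ ∈ hodgePiece V p n) (z : ℂ) :
    circleAct z φ = (z ^ p * (starRingEnd ℂ z) ^ (n - p)) • φ := by
  ext v
  exact (mem_hodgePiece_iff hp φ).1 hφ z v

/-- The cup product respects the Hodge types. -/
theorem wedge_mem_hodgePiece {p a q k : ℕ} (hp : p ≤ a) (hq : q ≤ k) {α : Form V a} {β : Form V k}
    (hα : α ∈ hodgePiece V p a) (hβ : β ∈ hodgePiece V q k) :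
    wedge α β ∈ hodgePiece V (p + q) (a + k) := by
  rw [mem_hodgePiece_iff (by omega)]
  intro z v
  have h1 : wedge α β (fun i => z • v i) = circleAct z (wedge α β) v := rfl
  rw [h1, ← wedge_circleAct, circleAct_eq_smul_of_mem_hodgePiece hp hα,
    circleAct_eq_smul_of_mem_hodgePiece hq hβ, wedge_smul_left, wedge_smul_right]
  have h2 : a + k - (p + q) = (a - p) + (k - q) := by omega
  rw [h2, pow_add, pow_add]
  simp only [AlternatingMap.smul_apply, smul_eq_mul]
  ring

/-- Hodge symmetry. -/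
theorem conjAct_mem_hodgePiece {p n : ℕ} (hp : p ≤ n) {φ : Form V n} (hφ : φ ∈ hodgePiece V p n) :
    conjAct φ ∈ hodgePiece V (n - p) n := by
  rw [mem_hodgePiece_iff (by omega)]
  intro z v
  have h2 : n - (n - p) = p := by omega
  rw [conjAct_apply, conjAct_apply, (mem_hodgePiece_iff hp φ).1 hφ z v, h2]
  simp only [map_mul, map_pow, Complex.conj_conj]
  ring

/-- The product of two Hodge classes is rational of type `(p+q,p+q)`. -/
theorem IsHodgeClass.wedge {Λ : Submodule ℤ V} {p q : ℕ} {α : Form V (2 * p)} {β : Form V (2 * q)}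
    (hα : IsHodgeClass Λ p α) (hβ : IsHodgeClass Λ q β) :
    IsRational Λ (Claimed.Open.R032.wedge α β) ∧
      Claimed.Open.R032.wedge α β ∈ hodgePiece V (p + q) (2 * p + 2 * q) :=
  ⟨hα.1.wedge hβ.1, wedge_mem_hodgePiece (by omega) (by omega) hα.2 hβ.2⟩

omit [FiniteDimensional ℂ V] in
/-- Rational classes are real. -/
theorem conjAct_eq_self_of_isRational {ι : Type*} (b : Basis ι ℝ V) {n : ℕ} {φ : Form V n}
    (hφ : IsRational (lattice b) φ) : conjAct φ = φ := by
  apply b.ext_alternating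
  intro v _
  obtain ⟨q, hq⟩ := hφ (fun i => b (v i)) (fun i => Submodule.subset_span ⟨_, rfl⟩)
  rw [conjAct_apply, hq]
  simp

omit [FiniteDimensional ℂ V] in
theorem conjAct_add {n : ℕ} (φ ψ : Form V n) : conjAct (φ + ψ) = conjAct φ + conjAct ψ := by
  ext v
  simp

omit [FiniteDimensional ℂ V] in
theorem conjAct_smul {n : ℕ} (z : ℂ) (φ : Form V n) :
    conjAct (z • φ) = starRingEnd ℂ z • conjAct φ := by
  ext v
  simp

omit [FiniteDimensional ℂ V] in
/-- `W_ℂ` is stable under complex conjugation, if `W ⊆ H^k(A,ℚ)`. -/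
theorem conjAct_mem_complexSpan {ι : Type*} (b : Basis ι ℝ V) {k : ℕ} {W : Submodule ℚ (Form V k)}
    (hW : ∀ φ ∈ W, IsRational (lattice b) φ) {x : Form V k} (hx : x ∈ complexSpan W) :
    conjAct x ∈ complexSpan W := by
  unfold complexSpan at hx ⊢
  induction hx using Submodule.span_induction with
  | mem y hy =>
    rw [conjAct_eq_self_of_isRational b (hW y hy)]
    exact Submodule.subset_span hy
  | zero =>
    have : conjAct (0 : Form V k) = 0 := by
      ext v
      simp
    rw [this]
    exact Submodule.zero_mem _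
  | add y y' _ _ hy hy' =>
    rw [conjAct_add]
    exact Submodule.add_mem _ hy hy'
  | smul z y _ hy =>
    rw [conjAct_smul]
    exact Submodule.smul_mem _ _ hy

/-- Hodge symmetry for `W ⊆ H^k(A,ℚ)`: `W^{p,q} = 0` implies `W^{q,p} = 0`. -/
theorem complexSpan_inf_hodgePiece_symm {ι : Type*} (b : Basis ι ℝ V) {k : ℕ}
    {W : Submodule ℚ (Form V k)} (hW : ∀ φ ∈ W, IsRational (lattice b) φ) {p q : ℕ} (hpq : p + q = k)
    (h : complexSpan W ⊓ hodgePiece V p k = ⊥) : complexSpan W ⊓ hodgePiece V q k = ⊥ := by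
  rw [Submodule.eq_bot_iff]
  rintro x ⟨hx1, hx2⟩
  have h1 : conjAct x ∈ complexSpan W ⊓ hodgePiece V p k := by
    refine ⟨conjAct_mem_complexSpan b hW hx1, ?_⟩
    have := conjAct_mem_hodgePiece (by omega : q ≤ k) hx2
    have h3 : k - q = p := by omega
    rwa [h3] at this
  rw [h, Submodule.mem_bot] at h1
  rw [← conjAct_conjAct x, h1]
  ext v
  simp

/-- For `W ⊆ H^k(A,ℚ)`: `W(r)` is effective iff `W^{p,q} = 0` for all `p < r`. -/
theorem isEffectiveTwist_iff_of_rational {ι : Type*} (b : Basis ι ℝ V) {k : ℕ}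
    {W : Submodule ℚ (Form V k)} (hW : ∀ φ ∈ W, IsRational (lattice b) φ) (r : ℕ) :
    IsEffectiveTwist W r ↔
      ∀ p q : ℕ, p + q = k → p < r → complexSpan W ⊓ hodgePiece V p k = ⊥ := by
  constructor
  · intro h p q hpq hp
    exact h p q hpq (Or.inl hp)
  · intro h p q hpq hpr
    rcases hpr with hp | hq
    · exact h p q hpq hp
    · exact complexSpan_inf_hodgePiece_symm b hW (by omega : q + p = k) (h q p (by omega) hq)

end Claimed.Open.R032
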