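import Mathlib

/-!
# A matching lemma
-/

namespace Claimed.Open.R032

/-- if no colour has slots of both signs in `S`, a suitable `ε` makes all terms equal to `1` -/
theorem p1_exists_pair {α : Type*} [DecidableEq α] {s : ℕ} (cl : α → Fin s) (sg : α → Bool) (S : Finset α)
    (h : ∀ ε : Fin s → ℤˣ, |∑ x ∈ S, ((ε (cl x) : ℤˣ) : ℤ) * (if sg x then -1 else 1)| < S.card) :
    ∃ x ∈ S, ∃ y ∈ S, sg x = true ∧ sg y = false ∧ cl y = cl x := by
  classical
  by_contra hno
  push Not at hno
  have key := h (fun c => if ∃ x ∈ S, cl x = c ∧ sg x = true then -1 else 1)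
  have hsum : ∑ x ∈ S, (((fun c => if ∃ x ∈ S, cl x = c ∧ sg x = true then (-1 : ℤˣ) else 1) (cl x) : ℤˣ) : ℤ) *
      (if sg x then -1 else 1) = S.card := by
    rw [Finset.card_eq_sum_ones, Nat.cast_sum]
    refine Finset.sum_congr rfl fun x hx => ?_
    cases hs : sg x
    · have hn : ¬ ∃ x' ∈ S, cl x' = cl x ∧ sg x' = true := by
        rintro ⟨x', hx', hc, hs'⟩
        exact hno x' hx' x hx hs' hs hc.symm
      simp [hn]
    · have hy : ∃ x' ∈ S, cl x' = cl x ∧ sg x' = true := ⟨x, hx, rfl, hs⟩
      simp [hy]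
  rw [hsum, abs_of_nonneg (Nat.cast_nonneg _)] at key
  exact lt_irrefl _ key

/-- POST P1.  `S` is a finite set of slots; the slot `x` has a colour `cl x` and a sign `sg x`.  If for ALL choices of signs `ε` of
the colours `|∑_{x ∈ S} ± ε (cl x)| + 2 r ≤ |S|`, then there are `r` disjoint pairs (positive slot, negative slot) of the same
colour.  (Induction on `r`: if no colour has slots of both signs in `S`, a suitable `ε` gives `|∑| = |S|`; otherwise remove one
such pair `x, y` from `S`: the sums do not change, and `|S|` drops by `2`.) -/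
theorem exists_pairs_of_signed_sums {α : Type*} [DecidableEq α] {s : ℕ} (cl : α → Fin s) (sg : α → Bool) :
    ∀ (r : ℕ) (S : Finset α),
      (∀ ε : Fin s → ℤˣ, |∑ x ∈ S, ((ε (cl x) : ℤˣ) : ℤ) * (if sg x then -1 else 1)| + 2 * (r : ℤ) ≤ S.card) →
      ∃ i j : Fin r → α, Function.Injective i ∧ Function.Injective j ∧ (∀ a, i a ∈ S) ∧ (∀ a, j a ∈ S) ∧
        (∀ a, sg (i a) = true) ∧ (∀ a, sg (j a) = false) ∧ ∀ a, cl (j a) = cl (i a) := by
  intro r
  induction r with
  | zero =>
    intro S _
    exact ⟨fun a => a.elim0, fun a => a.elim0, fun a => a.elim0, fun a => a.elim0, fun a => a.elim0, fun a => a.elim0,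
      fun a => a.elim0, fun a => a.elim0, fun a => a.elim0⟩
  | succ r ih =>
    intro S H
    obtain ⟨x, hx, y, hy, hsx, hsy, hc⟩ := p1_exists_pair cl sg S (fun ε => by
      have := H ε
      push_cast at this
      linarith)
    have hxy : x ≠ y := by
      rintro rfl
      rw [hsx] at hsy
      exact Bool.noConfusion hsy
    have hyS : y ∈ S.erase x := Finset.mem_erase.2 ⟨hxy.symm, hy⟩
    have hcard : (((S.erase x).erase y).card : ℤ) + 2 = S.card := by
      have h1 := Finset.card_erase_add_one hyS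
      have h2 := Finset.card_erase_add_one hx
      have : ((S.erase x).erase y).card + 2 = S.card := by omega
      exact_mod_cast this
    have hsum : ∀ ε : Fin s → ℤˣ, ∑ z ∈ (S.erase x).erase y, ((ε (cl z) : ℤˣ) : ℤ) * (if sg z then -1 else 1) =
        ∑ z ∈ S, ((ε (cl z) : ℤˣ) : ℤ) * (if sg z then -1 else 1) := by
      intro ε
      rw [← Finset.add_sum_erase S _ hx, ← Finset.add_sum_erase (S.erase x) _ hyS, hsx, hsy, hc]
      simp
    obtain ⟨i, j, hi, hj, hiS, hjS, hsi, hsj, hcl⟩ := ih ((S.erase x).erase y) (fun ε => by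
      have := H ε
      rw [hsum ε]
      push_cast at this
      linarith)
    have mem_of : ∀ z, z ∈ (S.erase x).erase y → z ∈ S ∧ z ≠ x ∧ z ≠ y := by
      intro z hz
      have h1 := Finset.mem_erase.1 hz
      have h2 := Finset.mem_erase.1 h1.2
      exact ⟨h2.2, h2.1, h1.1⟩
    refine ⟨Fin.cons x i, Fin.cons y j, ?_, ?_, ?_, ?_, ?_, ?_, ?_⟩
    · rw [Fin.cons_injective_iff]
      exact ⟨fun ⟨a, ha⟩ => (mem_of _ (hiS a)).2.1 ha, hi⟩
    · rw [Fin.cons_injective_iff]
      exact ⟨fun ⟨a, ha⟩ => (mem_of _ (hjS a)).2.2 ha, hj⟩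
    · intro a
      refine Fin.cases ?_ (fun a => ?_) a
      · simpa using hx
      · simpa using (mem_of _ (hiS a)).1
    · intro a
      refine Fin.cases ?_ (fun a => ?_) a
      · simpa using hy
      · simpa using (mem_of _ (hjS a)).1
    · intro a
      refine Fin.cases ?_ (fun a => ?_) a
      · simpa using hsx
      · simpa using hsi a
    · intro a
      refine Fin.cases ?_ (fun a => ?_) a
      · simpa using hsy
      · simpa using hsj a
    · intro a
      refine Fin.cases ?_ (fun a => ?_) a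
      · simpa using hc
      · simpa using hcl a

end Claimed.Open.R032
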