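import Claimed.Open.R032.SanityIndGrade
import Claimed.Open.R032.SanityHodge

/-!
# Monomials of all degrees, as eigenvectors of the operators `A_ε`
-/

open Module Complex

namespace Claimed.Open.R032

variable {V : Type*} [NormedAddCommGroup V] [InnerProductSpace ℂ V]

/-- `dz_j` (for `(j, false)`) or `dz̄_j` (for `(j, true)`). -/
noncomputable def cform {d : ℕ} (w : Basis (Fin d) ℂ V) (t : Fin d × Bool) : V →ₗ[ℝ] ℂ :=
  if t.2 then conjForm ((w.coord t.1).restrictScalars ℝ) else (w.coord t.1).restrictScalars ℝ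

/-- The monomial `⋀_x (dz or dz̄)_{σ x}`. -/
noncomputable def gmono {d k : ℕ} (w : Basis (Fin d) ℂ V) (σ : Fin k → Fin d × Bool) : Form V k :=
  wedgeOfForms fun x => cform w (σ x)

/-- `∑_c ε_c (#{dz in the block c} - #{dz̄ in the block c})`. -/
def swt {d s k : ℕ} (κ : Fin d → Fin s) (ε : Fin s → ℤˣ) (σ : Fin k → Fin d × Bool) : ℤ :=
  ∑ x, ((ε (κ (σ x).1) : ℤˣ) : ℤ) * (if (σ x).2 then -1 else 1)

/-- helper of S1: one Hodge piece lies in the span of the monomials -/
theorem ind68_hodgePiece_le {d k : ℕ} (w : Basis (Fin d) ℂ V) (a : ℕ) :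
    hodgePiece V a k ≤ Submodule.span ℂ (Set.range fun σ : Fin k → Fin d × Bool => gmono w σ) := by
  rw [hodgePiece, Submodule.span_le]
  rintro _ ⟨ℓ, h1, h2, rfl⟩
  let e : Fin k → Fin d → V →ₗ[ℝ] ℂ := fun i j => cform w (j, decide (a ≤ (i : ℕ)))
  have hℓ : ℓ = fun i => ∑ j, ℓ i (w j) • e i j := by
    funext i
    by_cases hi : (i : ℕ) < a
    · simpa [e, cform, not_le.2 hi] using eq_sum_coord_of_linear w (h1 i hi)
    · simpa [e, cform, not_lt.1 hi] using eq_sum_conj_coord_of_antilinear w (h2 i (not_lt.1 hi))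
  have key : wedgeOfForms ℓ = ∑ r : Fin k → Fin d,
      (∏ i, ℓ i (w (r i))) • wedgeOfForms (fun i => e i (r i)) := by
    conv_lhs => rw [hℓ]
    rw [← wedgeOfFormsML_apply, MultilinearMap.map_sum]
    refine Finset.sum_congr rfl fun r _ => ?_
    rw [MultilinearMap.map_smul_univ, wedgeOfFormsML_apply]
  show wedgeOfForms ℓ ∈ Submodule.span ℂ (Set.range fun σ : Fin k → Fin d × Bool => gmono w σ)
  rw [key]
  exact Submodule.sum_mem _ fun r _ => Submodule.smul_mem _ _
    (Submodule.subset_span ⟨fun i => (r i, decide (a ≤ (i : ℕ))), rfl⟩)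

/-- POST S1 (`exists_hodge_decomposition`, the definition of `hodgePiece`, `eq_sum_coord_of_linear`,
`eq_sum_conj_coord_of_antilinear`, multilinearity `wedgeOfFormsML`: as in the proof of `hodgePiece_le_span_pairWedge`,
`PowerSpan.lean`).  The monomials span `H^k(A,ℂ)`. -/
theorem form_mem_span_gmono [FiniteDimensional ℂ V] {d k : ℕ} (w : Basis (Fin d) ℂ V) (φ : Form V k) :
    φ ∈ Submodule.span ℂ (Set.range fun σ : Fin k → Fin d × Bool => gmono w σ) := by
  obtain ⟨ψ, hψ, rfl⟩ := exists_hodge_decomposition φ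
  exact Submodule.sum_mem _ fun a _ => ind68_hodgePiece_le w a (hψ a)

/-- POST S2 (from `derEnd_wedgeOfForms`, `repr_diagEnd`). -/
theorem signDer_gmono {d s k : ℕ} (w : Basis (Fin d) ℂ V) (κ : Fin d → Fin s) (ε : Fin s → ℤˣ)
    (σ : Fin k → Fin d × Bool) :
    signDer w κ ε k (gmono w σ).toMultilinearMap
      = (I * ((swt κ ε σ : ℤ) : ℂ)) • (gmono w σ).toMultilinearMap := by
  have h := derEnd_wedgeOfForms (diagR w fun j => (((ε (κ j) : ℤˣ) : ℤ) : ℂ) * I)
    (fun x => cform w (σ x))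
    (fun x => I * ((((ε (κ (σ x).1) : ℤˣ) : ℤ) * (if (σ x).2 then -1 else 1) : ℤ) : ℂ)) (by
      intro x v
      have hr : w.repr (diagEnd w (fun j => (((ε (κ j) : ℤˣ) : ℤ) : ℂ) * I) v) (σ x).1
          = (((ε (κ (σ x).1) : ℤˣ) : ℤ) : ℂ) * I * w.repr v (σ x).1 := repr_diagEnd w _ v _
      by_cases hb : (σ x).2 = true
      · simp only [cform, hb, if_true]
        show (starRingEnd ℂ) (w.repr (diagEnd w _ v) (σ x).1) = _ * (starRingEnd ℂ) (w.repr v (σ x).1)
        rw [hr]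
        simp only [map_mul, Complex.conj_I, map_intCast]
        push_cast
        ring
      · simp only [cform, hb, if_false, Bool.false_eq_true]
        show w.repr (diagEnd w _ v) (σ x).1 = _ * w.repr v (σ x).1
        rw [hr]
        push_cast
        ring)
  unfold signDer gmono
  rw [h, ← Finset.mul_sum]
  congr 2
  unfold swt
  push_cast
  rfl

/-- POST S3 (induction on `t`). -/
theorem mul_hop_eigen {M : Type*} [AddCommGroup M] [Module ℂ M] (A : Module.End ℂ M) (m : M) (z : ℂ)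
    (h : A m = (I * z) • m) (t : ℕ) :
    (A * hop A t) m = (I * z * ∏ δ ∈ Finset.range t, ((((δ + 1 : ℕ) : ℂ)) ^ 2 - z ^ 2)) • m := by
  have key : ∀ t : ℕ, hop A t m = (∏ δ ∈ Finset.range t, ((((δ + 1 : ℕ) : ℂ)) ^ 2 - z ^ 2)) • m := by
    intro t
    induction t with
    | zero => simp [hop]
    | succ t ih =>
      have h1 : hop A (t + 1) m = A (A (hop A t m)) + (((t + 1 : ℕ) : ℂ) ^ 2) • hop A t m := by
        simp [hop, Module.End.mul_apply, LinearMap.add_apply]
      rw [h1, ih, map_smul, h, map_smul, map_smul, h, Finset.prod_range_succ]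
      simp only [smul_smul, ← add_smul]
      congr 1
      have hI : I * I = -1 := I_mul_I
      linear_combination (z ^ 2 * ∏ δ ∈ Finset.range t, ((((δ + 1 : ℕ) : ℂ)) ^ 2 - z ^ 2)) * hI
  rw [Module.End.mul_apply, key, map_smul, h, smul_smul]
  congr 1
  ring

/-- POST S3. -/
theorem hopEigen_eq_zero_iff (z : ℤ) (t : ℕ) :
    I * (z : ℂ) * ∏ δ ∈ Finset.range t, ((((δ + 1 : ℕ) : ℂ)) ^ 2 - (z : ℂ) ^ 2) = 0 ↔ |z| ≤ (t : ℤ) := by
  rw [mul_eq_zero, mul_eq_zero, Finset.prod_eq_zero_iff]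
  constructor
  · rintro ((h | h) | ⟨δ, hδ, h⟩)
    · exact absurd h I_ne_zero
    · have hz : z = 0 := by exact_mod_cast h
      subst hz
      simp
    · have h1 : (((δ + 1 : ℕ) : ℤ)) ^ 2 = z ^ 2 := by
        have h2 : (((((δ + 1 : ℕ) : ℤ)) ^ 2 : ℤ) : ℂ) = ((z ^ 2 : ℤ) : ℂ) := by
          push_cast
          push_cast at h
          linear_combination h
        exact_mod_cast h2
      rw [sq_eq_sq_iff_abs_eq_abs] at h1
      rw [← h1, abs_of_nonneg (by positivity)]
      have := Finset.mem_range.1 hδ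
      exact_mod_cast this
  · intro h
    by_cases hz : z = 0
    · left; right
      exact_mod_cast hz
    · right
      have hn : 1 ≤ z.natAbs := Nat.one_le_iff_ne_zero.2 (Int.natAbs_ne_zero.2 hz)
      have hn2 : z.natAbs ≤ t := by
        have : ((z.natAbs : ℕ) : ℤ) ≤ t := by rw [Int.natCast_natAbs]; exact h
        exact_mod_cast this
      refine ⟨z.natAbs - 1, Finset.mem_range.2 (by omega), ?_⟩
      have h3 : z.natAbs - 1 + 1 = z.natAbs := by omega
      rw [h3]
      have h4 : ((z.natAbs : ℤ)) ^ 2 = z ^ 2 := Int.natAbs_sq z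
      have h5 : (((z.natAbs : ℤ) ^ 2 : ℤ) : ℂ) = ((z ^ 2 : ℤ) : ℂ) := by rw [h4]
      push_cast at h5
      rw [Nat.cast_natAbs, h5, sub_self]

lemma s4_sum {p k : ℕ} (hp : p ≤ k) :
    ∑ a : Fin k, (if (a : ℕ) < p then I else -I) = I * (((2 * p : ℤ) - k : ℤ) : ℂ) := by
  obtain ⟨q, rfl⟩ := Nat.exists_eq_add_of_le hp
  rw [Fin.sum_univ_add]
  simp
  ring

lemma s4_diagR {d : ℕ} (w : Basis (Fin d) ℂ V) (v : V) :
    diagR w (fun _ => (((1 : ℤˣ) : ℤ) : ℂ) * I) v = I • v := by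
  apply w.repr.injective
  ext j
  have h : w.repr (diagEnd w (fun _ => (((1 : ℤˣ) : ℤ) : ℂ) * I) v) j
      = (((1 : ℤˣ) : ℤ) : ℂ) * I * w.repr v j := repr_diagEnd w _ v j
  show w.repr (diagEnd w (fun _ => (((1 : ℤˣ) : ℤ) : ℂ) * I) v) j = _
  rw [h]
  simp

/-- POST S4 (from `derEnd_wedgeOfForms` on the generators of `hodgePiece`; `diagR w (fun _ => 1 * I) v = I • v`).
`D_I = i (p - q)` on `H^{p,q}`. -/
theorem signDer_one_hodgePiece {d s : ℕ} (w : Basis (Fin d) ℂ V) (κ : Fin d → Fin s) {p k : ℕ} (hp : p ≤ k)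
    (φ : Form V k) (hφ : φ ∈ hodgePiece V p k) :
    signDer w κ 1 k φ.toMultilinearMap = (I * (((2 * p : ℤ) - k : ℤ) : ℂ)) • φ.toMultilinearMap := by
  unfold hodgePiece at hφ
  induction hφ using Submodule.span_induction with
  | mem ω hω =>
    obtain ⟨ℓ, h1, h2, rfl⟩ := hω
    rw [← s4_sum hp]
    refine derEnd_wedgeOfForms _ ℓ (fun a => if (a : ℕ) < p then I else -I) fun a v => ?_
    have hv : diagR w (fun j => ((((1 : Fin s → ℤˣ) (κ j) : ℤˣ) : ℤ) : ℂ) * I) v = I • v :=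
      s4_diagR w v
    rw [hv]
    split_ifs with ha
    · exact h1 a ha v
    · exact h2 a (not_lt.mp ha) v
  | zero =>
    show signDer w κ 1 k 0 = _ • (0 : MForm V k)
    rw [map_zero, smul_zero]
  | add x y _ _ hx hy =>
    show signDer w κ 1 k (x.toMultilinearMap + y.toMultilinearMap) =
      _ • (x.toMultilinearMap + y.toMultilinearMap)
    rw [map_add, hx, hy, smul_add]
  | smul c x _ hx =>
    show signDer w κ 1 k (c • x.toMultilinearMap) = _ • (c • x.toMultilinearMap)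
    rw [map_smul, hx, smul_comm]

/-- POST S5 (adapt `mem_span_balanced`, `SanityMixMain.lean`: write `φ` as a sum of multiples of monomials (S1); Finset induction
over the `ε`s with `sum_eq_sum_filter_of_eigen`, S2, S3). -/
theorem mem_span_gmono_bounded [FiniteDimensional ℂ V] {d s k : ℕ} (w : Basis (Fin d) ℂ V) (κ : Fin d → Fin s)
    (K : ℕ) (φ : Form V k)
    (h : ∀ ε, (signDer w κ ε k * hop (signDer w κ ε k) K) φ.toMultilinearMap = 0) :
    φ ∈ Submodule.span ℂ {ψ | ∃ σ : Fin k → Fin d × Bool, (∀ ε, |swt κ ε σ| ≤ (K : ℤ)) ∧ ψ = gmono w σ} := by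
  classical
  have h1 := form_mem_span_gmono w φ
  rw [Submodule.mem_span_range_iff_exists_fun] at h1
  obtain ⟨c, hc⟩ := h1
  set m : (Fin k → Fin d × Bool) → MForm V k := fun σ => c σ • (gmono w σ).toMultilinearMap with hm
  set lam : (Fin s → ℤˣ) → (Fin k → Fin d × Bool) → ℂ :=
    fun ε σ => I * ((swt κ ε σ : ℤ) : ℂ) *
      ∏ δ ∈ Finset.range K, ((((δ + 1 : ℕ) : ℂ)) ^ 2 - ((swt κ ε σ : ℤ) : ℂ) ^ 2) with hlam
  have hφM : φ.toMultilinearMap = ∑ σ, m σ := by
    rw [← hc]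
    exact map_sum (AlternatingMap.toMultilinearMapLM (S := ℂ) (R := ℝ) (M := V) (N := ℂ) (ι := Fin k)) _ _
  have heig : ∀ ε σ, (signDer w κ ε k * hop (signDer w κ ε k) K) (m σ) = lam ε σ • m σ := by
    intro ε σ
    simp only [hm]
    rw [map_smul, mul_hop_eigen _ _ _ (signDer_gmono w κ ε σ) K, smul_comm]
  have key : ∀ E : Finset (Fin s → ℤˣ),
      φ.toMultilinearMap = ∑ σ with (∀ ε ∈ E, lam ε σ = 0), m σ := by
    intro E
    induction E using Finset.induction_on with
    | empty => simpa using hφM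
    | insert ε E hε ih =>
      have h2 := sum_eq_sum_filter_of_eigen (signDer w κ ε k * hop (signDer w κ ε k) K)
        (Finset.univ.filter fun σ => ∀ e ∈ E, lam e σ = 0) m (lam ε) (fun σ _ => heig ε σ)
        (by rw [← ih]; exact h ε)
      rw [ih, h2, Finset.filter_filter]
      refine Finset.sum_congr (Finset.filter_congr fun σ _ => ?_) fun _ _ => rfl
      simp [and_comm]
  have hfin : φ = ∑ σ with (∀ ε ∈ (Finset.univ : Finset (Fin s → ℤˣ)), lam ε σ = 0), c σ • gmono w σ := by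
    apply AlternatingMap.coe_multilinearMap_injective
    rw [key Finset.univ]
    exact (map_sum (AlternatingMap.toMultilinearMapLM (S := ℂ) (R := ℝ) (M := V) (N := ℂ)
      (ι := Fin k)) (fun σ : Fin k → Fin d × Bool => c σ • gmono w σ) _).symm
  rw [hfin]
  refine Submodule.sum_mem _ fun σ hσ => Submodule.smul_mem _ _ (Submodule.subset_span ?_)
  exact ⟨σ, fun ε => (hopEigen_eq_zero_iff _ K).1 ((Finset.mem_filter.1 hσ).2 ε (Finset.mem_univ _)), rfl⟩

end Claimed.Open.R032
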