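import Claimed.Open.R032.SanityThetaPower
import Claimed.Open.R032.PowerGlue
import Claimed.Open.R032.PowerSpan
import Claimed.Open.R032.PowerPolarise

/-!
# `GeneralizedHodgeCM` in degree `k ≤ 2` for abelian varieties isogenous to `(ℂ / ℤ[i])^n`

Let `A = V / Λ` be a complex torus whose period matrix, in some `ℂ`-basis of `V`, has entries in `ℚ(i)`
(these are the abelian varieties isogenous to a power of `ℂ / ℤ[i]`; they are polarisable and of CM type,
`PowerCM.lean`).

* `exists_divisor_hodgePiece_one_one` : there is ONE closed algebraic subset `Z` of codimension one such that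
  all of `H^{1,1}(A)` restricts to zero on `A ∖ Z`.
* `generalizedHodge_le_two_of_gauss_periods` : **the conclusion of `GeneralizedHodgeCM` holds for `A`, for
  all `k ≤ 2`, all `r` and all `W`.**

Proof.  `H^{1,1}` is spanned by finitely many forms `m ∧ m̄`, `m` a `ℂ`-linear form with values in `ℚ(i)`
on `Λ` (`PowerSpan.lean`, `PowerPolarise.lean`).  A multiple `N = M m` maps `Λ` into `ℤ[i]`, and `m ∧ m̄` is a
multiple of `N^* [E]`, which restricts to zero on the complement of `N⁻¹ (zeros of θ)`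
(`SanityTheta.lean`, `SanityRestrict.lean`).  The latter is a finite union of fibres of the homomorphism
`A → ℂ / N(Λ)`, which has connected kernel (`SanitySubtorus.lean`).
-/

open MeasureTheory Module Set Complex

namespace Claimed.Open.R032

/-- The zero set of `θ` is a finite union of classes modulo any lattice contained in `ℤ[i]`. -/
theorem thetaZeros_eq_iUnion_of_le {ι' : Type*} (b' : Basis ι' ℝ ℂ)
    (h : ∀ l ∈ lattice b', l ∈ lattice Complex.basisOneI) : ∃ (m : ℕ) (a : Fin m → ℂ),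
    thetaZeros = ⋃ j, (fun y => a j + y) '' (lattice b' : Set ℂ) := by
  have := finite_index b'
  have := Fintype.ofFinite ι'
  have hfin := thetaZeros_inter_finite (K := closure (ZSpan.fundamentalDomain b'))
    (ZSpan.fundamentalDomain_isBounded b').isCompact_closure
  let S := hfin.toFinset
  let e := S.equivFin
  refine ⟨S.card, fun j => ((e.symm j : ℂ)), ?_⟩
  ext z
  simp only [mem_iUnion]
  constructor
  · intro hz
    have hl : ((ZSpan.floor b' z : Submodule.span ℤ (Set.range b')) : ℂ) ∈ lattice b' :=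
      (ZSpan.floor b' z).2
    have hfr : ZSpan.fract b' z = -((ZSpan.floor b' z : Submodule.span ℤ (Set.range b')) : ℂ) + z := by
      rw [ZSpan.fract_apply]; ring
    have hz' : ZSpan.fract b' z ∈ thetaZeros := by
      rw [hfr]
      exact thetaZeros_isPeriodic _ ((lattice Complex.basisOneI).neg_mem (h _ hl)) z hz
    have hS : ZSpan.fract b' z ∈ S :=
      hfin.mem_toFinset.2 ⟨hz', subset_closure (ZSpan.fract_mem_fundamentalDomain b' z)⟩
    refine ⟨e ⟨_, hS⟩, _, hl, ?_⟩
    simp [hfr]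
  · rintro ⟨j, l, hl, rfl⟩
    have hj : ((e.symm j : ℂ)) ∈ thetaZeros := (hfin.mem_toFinset.1 (e.symm j).2).1
    have := thetaZeros_isPeriodic l (h l hl) _ hj
    rwa [add_comm] at this

variable {V : Type*} [NormedAddCommGroup V] [InnerProductSpace ℂ V]

/-- A finite union of closed algebraic subsets of codimension `≥ r` is one. -/
theorem IsAlgebraicSubsetOfCodimGE.iUnion {Λ : Submodule ℤ V} {r : ℕ} {κ : Type*} [Finite κ]
    {Z : κ → Set V} (h : ∀ i, IsAlgebraicSubsetOfCodimGE Λ r (Z i)) :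
    IsAlgebraicSubsetOfCodimGE Λ r (⋃ i, Z i) := by
  choose m Y d hY hd hZ using h
  have h1 : (⋃ i, Z i) = ⋃ x : Σ i, Fin (m i), Y x.1 x.2 := by
    rw [Set.iUnion_sigma]
    exact Set.iUnion_congr hZ
  rw [h1]
  exact isAlgebraicSubsetOfCodimGE_iUnion _ (fun x => d x.1 x.2) (fun x => hY x.1 x.2)
    (fun x => hd x.1 x.2)

variable [FiniteDimensional ℂ V] {ι : Type*}

/-- The preimage of the zeros of `θ` under a homomorphism `A → ℂ / ℤ[i]` is a closed algebraic subset of
codimension one. -/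
theorem preimage_thetaZeros_isAlgebraic (b : Basis ι ℝ V) (N : V →L[ℂ] ℂ)
    (hN : ∀ l ∈ lattice b, N l ∈ lattice Complex.basisOneI) :
    IsAlgebraicSubsetOfCodimGE (lattice b) 1 (N ⁻¹' thetaZeros) := by
  by_cases hsurj : Function.Surjective N
  · obtain ⟨b', hb'⟩ := exists_basis_mapsLatticeOnto b Complex.basisOneI N hsurj hN
    have hle : ∀ l ∈ lattice b', l ∈ lattice Complex.basisOneI := by
      intro l hl
      obtain ⟨x, hx, rfl⟩ := (hb' l).1 hl
      exact hN x hx
    obtain ⟨m, a, h⟩ := thetaZeros_eq_iUnion_of_le b' hle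
    rw [h, Set.preimage_iUnion]
    refine isAlgebraicSubsetOfCodimGE_iUnion _
      (fun _ => finrank ℂ (LinearMap.ker N.toLinearMap))
      (fun j => isSubvariety_preimage_coset hb' _) (fun _ => ?_)
    have := hb'.finrank_ker_add
    simp only [finrank_self] at this
    exact this.le
  · have h0 : ∀ x, N x = 0 := by
      intro x
      by_contra hx
      exact hsurj fun y => ⟨(y / N x) • x, by rw [map_smul, smul_eq_mul, div_mul_cancel₀ _ hx]⟩
    have h1 : N ⁻¹' thetaZeros = ∅ := by
      ext x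
      simp only [Set.mem_preimage, h0, Set.mem_empty_iff_false, iff_false]
      exact gaussTheta_zero_ne_zero
    rw [h1]
    exact isAlgebraicSubsetOfCodimGE_empty _ _

omit [FiniteDimensional ℂ V] in
/-- Finitely many elements of `ℚ(i)` have a common denominator. -/
theorem exists_common_denominator {κ : Type*} [Finite κ] (x : κ → ℂ)
    (hx : ∀ i, ∃ r s : ℚ, x i = r + s * I) :
    ∃ M : ℕ, M ≠ 0 ∧ ∀ i, (M : ℂ) * x i ∈ lattice Complex.basisOneI := by
  classical
  have := Fintype.ofFinite κ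
  choose r s hrs using hx
  let M : ℕ := ∏ i, ((r i).den * (s i).den)
  have hM : M ≠ 0 := Finset.prod_ne_zero_iff.2 fun i _ =>
    Nat.mul_ne_zero (r i).den_ne_zero (s i).den_ne_zero
  refine ⟨M, hM, fun i => ?_⟩
  have hdr : ∃ a : ℤ, (M : ℚ) * r i = a := by
    have hdvd : (r i).den ∣ M :=
      (Dvd.intro _ rfl).trans (Finset.dvd_prod_of_mem (fun i => (r i).den * (s i).den)
        (Finset.mem_univ i))
    obtain ⟨c, hc⟩ := hdvd
    refine ⟨c * (r i).num, ?_⟩
    rw [hc]
    push_cast
    have := Rat.den_mul_eq_num (r i)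
    linear_combination (c : ℚ) * this
  have hds : ∃ a : ℤ, (M : ℚ) * s i = a := by
    have hdvd : (s i).den ∣ M :=
      (Dvd.intro_left _ rfl).trans (Finset.dvd_prod_of_mem (fun i => (r i).den * (s i).den)
        (Finset.mem_univ i))
    obtain ⟨c, hc⟩ := hdvd
    refine ⟨c * (s i).num, ?_⟩
    rw [hc]
    push_cast
    have := Rat.den_mul_eq_num (s i)
    linear_combination (c : ℚ) * this
  obtain ⟨a, ha⟩ := hdr
  obtain ⟨c, hc⟩ := hds
  have ha' : (M : ℂ) * r i = a := by exact_mod_cast congrArg (fun q : ℚ => (q : ℂ)) ha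
  have hc' : (M : ℂ) * s i = c := by exact_mod_cast congrArg (fun q : ℚ => (q : ℂ)) hc
  refine (mem_lattice_basisOneI _).2 ⟨a, c, ?_⟩
  rw [hrs, ← ha', ← hc']
  ring

/-- For a `ℂ`-linear form `m` with values in `ℚ(i)` on `Λ`, all multiples of the class `m ∧ m̄` restrict to
zero on the complement of a closed algebraic subset of codimension one. -/
theorem exists_divisor_hermSquare (b : Basis ι ℝ V) (m : Fin 1 → V →ₗ[ℝ] ℂ)
    (hm : ∀ j, m j ∈ quadForms b I) :
    ∃ Z : Set V, IsAlgebraicSubsetOfCodimGE (lattice b) 1 Z ∧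
      ∀ c : ℂ, RestrictsToZero (lattice b) Z (c • hermSquare m) := by
  have := finite_index b
  obtain ⟨M, hM, hMx⟩ := exists_common_denominator (fun i => m 0 (b i)) (hm 0).2
  have hMc : (M : ℂ) ≠ 0 := by exact_mod_cast hM
  let m' : V →L[ℂ] ℂ := LinearMap.toContinuousLinearMap (complexify (m 0) (hm 0).1)
  let N : V →L[ℂ] ℂ := (M : ℂ) • m'
  have hNv : ∀ v, N v = (M : ℂ) * m 0 v := fun v => rfl
  have hN : ∀ l ∈ lattice b, N l ∈ lattice Complex.basisOneI := by
    intro l hl
    have h2 : (lattice b).map (N.toLinearMap.restrictScalars ℤ) ≤ lattice Complex.basisOneI := by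
      rw [lattice, Submodule.map_span, Submodule.span_le]
      rintro _ ⟨_, ⟨i, rfl⟩, rfl⟩
      exact hMx i
    exact h2 ⟨l, hl, rfl⟩
  -- `m = μ ∘ N` with `μ` the multiplication by `1 / M`
  let μ : Fin 1 → ℂ →ₗ[ℝ] ℂ := fun _ => (LinearMap.mulLeft ℂ ((M : ℂ)⁻¹)).restrictScalars ℝ
  have hpull : hermSquare m = pullback N (hermSquare μ) := by
    rw [hermSquare, hermSquare, pairWedge, pairWedge, pullback_wedgeOfForms]
    congr 1
    funext i
    ext v
    have hj : ∀ j : Fin 1, m j v = (M : ℂ)⁻¹ * N v := by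
      intro j
      rw [Subsingleton.elim j 0, hNv, inv_mul_cancel_left₀ hMc]
    unfold interleave
    split_ifs
    · simpa [μ] using hj _
    · simp [μ, hj]
  obtain ⟨c₀, hc₀⟩ := form_two_eq_smul (hermSquare μ)
  refine ⟨N ⁻¹' thetaZeros, preimage_thetaZeros_isAlgebraic b N hN, fun c => ?_⟩
  have h3 : c • hermSquare m =
      pullback N ((c * c₀) • formOfBilin gaussForm gauss_isRiemannForm.alt) := by
    rw [hpull, mul_smul, pullback_smul, pullback_smul, ← pullback_smul N c₀, ← hc₀]
  rw [h3]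
  exact (restrictsToZero_gauss (c * c₀)).pullback N hN thetaZeros_isClosed

/-- **All of `H^{1,1}(A)` restricts to zero on the complement of one divisor**, for every complex torus `A`
whose period matrix has entries in `ℚ(i)`. -/
theorem exists_divisor_hodgePiece_one_one (b : Basis ι ℝ V) {n : ℕ} (w : Basis (Fin n) ℂ V)
    (hb : ∀ i k, ∃ r s : ℚ, w.repr (b i) k = r + s * I) :
    ∃ Z : Set V, IsAlgebraicSubsetOfCodimGE (lattice b) 1 Z ∧
      ∀ φ ∈ hodgePiece V 1 (2 * 1), RestrictsToZero (lattice b) Z φ := by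
  classical
  have hI2 : ∃ r s : ℚ, (I : ℂ) ^ 2 = r + s * I := ⟨-1, 0, by simp⟩
  have hcoord : ∀ k, (w.coord k).restrictScalars ℝ ∈ quadForms b I := by
    intro k
    refine ⟨fun v => by simp, fun i => ?_⟩
    simpa using hb i k
  set S : Set (Form V (2 * 1)) :=
    {φ | ∃ m : Fin 1 → V →ₗ[ℝ] ℂ, (∀ j, m j ∈ quadForms b I) ∧ φ = hermSquare m} with hS
  have h2 : ∀ x : (Fin 1 → Fin n) × (Fin 1 → Fin n),
      ∃ T : Finset (Form V (2 * 1)), (T : Set (Form V (2 * 1))) ⊆ S ∧
        pairWedge (fun j => (w.coord (x.1 j)).restrictScalars ℝ)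
          (fun j => conjForm ((w.coord (x.2 j)).restrictScalars ℝ)) ∈
            Submodule.span ℂ (T : Set (Form V (2 * 1))) := fun x =>
    Submodule.mem_span_finite_of_mem_span
      (pairWedge_mem_span_hermSquare I (by simp) (quadForms b I)
        (fun m hm => smul_mem_quadForms b hI2 hm)
        (fun j => (w.coord (x.1 j)).restrictScalars ℝ) (fun j => (w.coord (x.2 j)).restrictScalars ℝ)
        (fun j => hcoord _) (fun j => hcoord _))
  choose T hTS hT using h2
  let 𝒯 : Finset (Form V (2 * 1)) := Finset.univ.biUnion T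
  have h𝒯S : ∀ t : 𝒯, (t : Form V (2 * 1)) ∈ S := by
    rintro ⟨t, ht⟩
    obtain ⟨x, -, hx⟩ := Finset.mem_biUnion.1 ht
    exact hTS x hx
  have h3 : ∀ t : 𝒯, ∃ Z : Set V, IsAlgebraicSubsetOfCodimGE (lattice b) 1 Z ∧
      ∀ c : ℂ, RestrictsToZero (lattice b) Z (c • (t : Form V (2 * 1))) := by
    intro t
    obtain ⟨m, hm, ht⟩ := h𝒯S t
    rw [ht]
    exact exists_divisor_hermSquare b m hm
  choose Z hZ hZr using h3
  have hU : IsAlgebraicSubsetOfCodimGE (lattice b) 1 (⋃ t, Z t) :=
    IsAlgebraicSubsetOfCodimGE.iUnion hZ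
  have hcl : IsClosed (⋃ t, Z t) := hU.isClosed
  refine ⟨⋃ t, Z t, hU, fun φ hφ => ?_⟩
  have h4 : φ ∈ Submodule.span ℂ (𝒯 : Set (Form V (2 * 1))) := by
    refine (hodgePiece_le_span_pairWedge w 1).trans ?_ hφ
    rw [Submodule.span_le]
    rintro _ ⟨k, l, rfl⟩
    refine Submodule.span_mono ?_ (hT (k, l))
    intro t ht
    exact Finset.mem_biUnion.2 ⟨(k, l), Finset.mem_univ _, ht⟩
  refine Submodule.span_induction
    (p := fun φ _ => RestrictsToZero (lattice b) (⋃ t, Z t) φ)
    (fun t ht => ?_) (restrictsToZero_zero _ _) (fun x y _ _ hx hy => hx.add hcl hy)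
    (fun c x _ hx => hx.smul hcl c) h4
  have := (hZr ⟨t, ht⟩ 1).mono (Set.subset_iUnion Z ⟨t, ht⟩)
  rwa [one_smul] at this

omit [FiniteDimensional ℂ V] in
/-- If `2 r > k` and `W(r)` is effective then `W = 0`, and the conclusion of `GeneralizedHodgeCM` holds with
`Z = ∅`; for every complex torus. -/
theorem generalizedHodge_of_lt_two_mul {Λ : Submodule ℤ V} {k r : ℕ} (hkr : k < 2 * r)
    (W : Submodule ℚ (Form V k)) (hW : IsHodgeSubstructure Λ W) (hr : IsEffectiveTwist W r) :
    ∃ Z : Set V, IsAlgebraicSubsetOfCodimGE Λ r Z ∧ ∀ φ ∈ W, RestrictsToZero Λ Z φ := by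
  have hall : ∀ p : Fin (k + 1), complexSpan W ⊓ hodgePiece V p k = ⊥ := fun p => by
    have := p.2
    exact hr p (k - p) (by omega) (by omega)
  refine ⟨∅, isAlgebraicSubsetOfCodimGE_empty _ r, fun φ hφ => ?_⟩
  rw [hW.eq_zero_of_forall hall hφ]
  exact restrictsToZero_zero _ _

/-- **The conclusion of `GeneralizedHodgeCM` in degree `k ≤ 2`**, for every complex torus whose period matrix
has entries in `ℚ(i)`, i.e. for all abelian varieties isogenous to a power of `ℂ / ℤ[i]`. -/
theorem generalizedHodge_le_two_of_gauss_periods (b : Basis ι ℝ V) {n : ℕ} (w : Basis (Fin n) ℂ V)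
    (hb : ∀ i k, ∃ r s : ℚ, w.repr (b i) k = r + s * I) {k : ℕ} (hk : k ≤ 2) (r : ℕ)
    (W : Submodule ℚ (Form V k)) (hW : IsHodgeSubstructure (lattice b) W)
    (hr : IsEffectiveTwist W r) :
    ∃ Z : Set V, IsAlgebraicSubsetOfCodimGE (lattice b) r Z ∧
      ∀ φ ∈ W, RestrictsToZero (lattice b) Z φ := by
  rcases Nat.eq_zero_or_pos r with rfl | hr0
  · exact generalizedHodge_of_r_eq_zero _ W
  by_cases hkr : k < 2 * r
  · exact generalizedHodge_of_lt_two_mul hkr W hW hr
  obtain ⟨rfl, rfl⟩ : k = 2 * 1 ∧ r = 1 := by omega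
  obtain ⟨Z, hZ, h⟩ := exists_divisor_hodgePiece_one_one b w hb
  refine ⟨Z, hZ, fun φ hφ => h φ ?_⟩
  have h1 : complexSpan W ≤ hodgePiece V 1 (2 * 1) := by
    refine hW.decomp.trans (iSup_le fun p => ?_)
    by_cases hp : (p : ℕ) = 1
    · rw [hp]; exact inf_le_right
    · have := p.2
      rw [hr p (2 * 1 - p) (by omega) (by omega)]
      exact bot_le
  exact h1 (Submodule.subset_span hφ)

end Claimed.Open.R032
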