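import Claimed.Open.R032.SanityMixExample
import Claimed.Open.R032.SanityCompanion

/-!
# Powers, and a joint witness of `QuadraticFive` with two different CM fields

* `hasMixedQuadraticPeriods_powerBasis`: the class of the abelian varieties isogenous to a product of CM elliptic curves is
  stable under powers.
* `threeBasis`, `threeU`: `A = (ℂ/ℤ[i])² × ℂ/ℤ[√-2]` with the action of `ℚ(√-2)` given by
  `u (z₀, z₁, z₂) = (-2 z₁, z₀, √-2 z₂)`, `u² = -2`.  It satisfies the hypotheses of `QuadraticFive`, and it is not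
  isogenous to a power of an elliptic curve.
-/

open MeasureTheory Module Complex

namespace Claimed.Open.R032

section

variable {V : Type*} [NormedAddCommGroup V] [InnerProductSpace ℂ V] [FiniteDimensional ℂ V]
variable {ι : Type*}

omit [FiniteDimensional ℂ V] in
/-- The class of tori with mixed quadratic periods is stable under powers. -/
theorem hasMixedQuadraticPeriods_powerBasis (b : Basis ι ℝ V) (h : HasMixedQuadraticPeriods b) (m : ℕ) :
    HasMixedQuadraticPeriods (powerBasis b m) := by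
  obtain ⟨n, w, ω, hω, hω2, hb⟩ := h
  let e := Fintype.equivFin (Σ _ : Fin m, Fin n)
  refine ⟨_, (powerBasisC w m).reindex e, fun x => ω (e.symm x).2, fun x => hω _, fun x => hω2 _, ?_⟩
  rintro ⟨k, i⟩ x
  obtain ⟨⟨k', j⟩, rfl⟩ := e.surjective x
  rw [Basis.repr_reindex_apply, Equiv.symm_apply_apply, powerBasisC_repr, powerBasis_apply]
  have he : (fun x => ω (e.symm x).2) (e ⟨k', j⟩) = ω j := by
    show ω (e.symm (e ⟨k', j⟩)).2 = ω j
    rw [Equiv.symm_apply_apply]
  rw [he]
  split_ifs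
  · exact hb i j
  · exact ⟨0, 0, by simp⟩

end

theorem three_im_ne_zero : ∀ j, ((![I, I, (Real.sqrt 2 : ℂ) * I] : Fin 3 → ℂ) j).im ≠ 0 := by
  intro j
  fin_cases j
  · simp
  · simp
  · simp

/-- The period basis of `(ℂ/ℤ[i])² × ℂ/ℤ[√-2]`. -/
noncomputable def threeBasis : Basis (Σ _ : Fin 3, Fin 2) ℝ (Cn 3) :=
  ellProdBasis ![I, I, (Real.sqrt 2 : ℂ) * I] three_im_ne_zero

/-- `u (z₀, z₁, z₂) = (-2 z₁, z₀, √-2 z₂)`. -/
noncomputable def threeU : Module.End ℂ (Cn 3) :=
  (WithLp.linearEquiv 2 ℂ (Fin 3 → ℂ)).symm.conj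
    (Matrix.toLin' !![0, -2, 0; 1, 0, 0; 0, 0, (Real.sqrt 2 : ℂ) * I])

theorem mix61_threeU_zero (z : Cn 3) : threeU z 0 = -2 * z 1 := by
  simp [threeU, LinearEquiv.conj_apply_apply, Matrix.toLin'_apply, dotProduct,
    Fin.sum_univ_three]

theorem mix61_threeU_one (z : Cn 3) : threeU z 1 = z 0 := by
  simp [threeU, LinearEquiv.conj_apply_apply, Matrix.toLin'_apply, dotProduct,
    Fin.sum_univ_three]

theorem mix61_threeU_two (z : Cn 3) : threeU z 2 = (Real.sqrt 2 : ℂ) * I * z 2 := by
  simp [threeU, LinearEquiv.conj_apply_apply, Matrix.toLin'_apply, dotProduct,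
    Fin.sum_univ_three]

theorem mix61_sqrt_two_I_sq : ((Real.sqrt 2 : ℂ) * I) * ((Real.sqrt 2 : ℂ) * I) = -2 := by
  have h : ((Real.sqrt 2 : ℂ)) * (Real.sqrt 2 : ℂ) = 2 := by
    rw [← Complex.ofReal_mul, Real.mul_self_sqrt (by norm_num)]
    simp
  linear_combination (I * I) * h + 2 * I_mul_I

/-- POST X4. -/
theorem three_hasMixedQuadraticPeriods : HasMixedQuadraticPeriods threeBasis := by
  refine hasMixedQuadraticPeriods_ellProdBasis _ three_im_ne_zero fun j => ?_
  fin_cases j
  · exact ⟨-1, 0, by simp⟩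
  · exact ⟨-1, 0, by simp⟩
  · refine ⟨-2, 0, ?_⟩
    have := mix61_sqrt_two_I_sq
    simp only [Fin.reduceFinMk, Matrix.cons_val]
    rw [pow_two, this]
    simp

/-- POST X4.  `u² = -2` and `u` maps the lattice into itself. -/
theorem threeU_isQuadraticAction : IsQuadraticAction (lattice threeBasis) 2 threeU := by
  refine ⟨two_pos, ⟨1, one_pos, fun v hv => ?_⟩, ?_⟩
  · rw [one_smul]
    refine Submodule.span_induction (p := fun v _ => threeU v ∈ lattice threeBasis) ?_ ?_ ?_ ?_ hv
    · rintro _ ⟨⟨j, e⟩, rfl⟩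
      refine mem_lattice_prodBasis_of_forall _ _ fun k => ?_
      rw [mem_lattice_tauBasis]
      have hb : ∀ k', (threeBasis ⟨j, e⟩ : Cn 3) k'
          = if k' = j then (![1, (![I, I, (Real.sqrt 2 : ℂ) * I] : Fin 3 → ℂ) j] : Fin 2 → ℂ) e else 0 :=
        fun k' => ellProdBasis_apply _ three_im_ne_zero j e k'
      have hs := mix61_sqrt_two_I_sq
      fin_cases k
      · show ∃ a c : ℤ, threeU (threeBasis ⟨j, e⟩) 0 = a + c * I
        rw [mix61_threeU_zero, hb]
        fin_cases j <;> fin_cases e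
        · exact ⟨0, 0, by simp⟩
        · exact ⟨0, 0, by simp⟩
        · exact ⟨-2, 0, by simp⟩
        · exact ⟨0, -2, by simp⟩
        · exact ⟨0, 0, by simp⟩
        · exact ⟨0, 0, by simp⟩
      · show ∃ a c : ℤ, threeU (threeBasis ⟨j, e⟩) 1 = a + c * I
        rw [mix61_threeU_one, hb]
        fin_cases j <;> fin_cases e
        · exact ⟨1, 0, by simp⟩
        · exact ⟨0, 1, by simp⟩
        · exact ⟨0, 0, by simp⟩
        · exact ⟨0, 0, by simp⟩
        · exact ⟨0, 0, by simp⟩
        · exact ⟨0, 0, by simp⟩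
      · show ∃ a c : ℤ, threeU (threeBasis ⟨j, e⟩) 2 = a + c * ((Real.sqrt 2 : ℂ) * I)
        rw [mix61_threeU_two, hb]
        fin_cases j <;> fin_cases e
        · exact ⟨0, 0, by simp⟩
        · exact ⟨0, 0, by simp⟩
        · exact ⟨0, 0, by simp⟩
        · exact ⟨0, 0, by simp⟩
        · exact ⟨0, 1, by simp⟩
        · exact ⟨-2, 0, by simpa using hs⟩
    · rw [map_zero]; exact Submodule.zero_mem _
    · intro x y _ _ hx hy
      rw [map_add]; exact Submodule.add_mem _ hx hy
    · intro a x _ hx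
      rw [map_zsmul]; exact Submodule.smul_mem _ _ hx
  · refine LinearMap.ext fun z => ?_
    have hs := mix61_sqrt_two_I_sq
    refine PiLp.ext fun k => ?_
    rw [Module.End.mul_apply]
    fin_cases k
    · show threeU (threeU z) 0 = _
      rw [mix61_threeU_zero, mix61_threeU_one]; simp
    · show threeU (threeU z) 1 = _
      rw [mix61_threeU_one, mix61_threeU_zero]; simp
    · show threeU (threeU z) 2 = _
      rw [mix61_threeU_two, mix61_threeU_two, ← mul_assoc, hs]; simp

end Claimed.Open.R032
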