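import Claimed.Open.R032.SanityIndKill
import Claimed.Open.R032.SanityIndSpan
import Claimed.Open.R032.SanityIndComb
import Claimed.Open.R032.SanityMixWitness
import Claimed.Open.R032.SanityLefschetz

/-!
# `GeneralizedHodgeCM` for products of CM elliptic curves with independent CM fields

Let `A = V / Λ` be a complex torus; the coordinates `j < d` of `V` (in a `ℂ`-basis `w`) are distributed into blocks `c = κ j < s`, the
`j`-th coordinates of the periods lie in the imaginary quadratic field `K_c = ℚ + ℚ ρ_c`, and the fields `K_c` are independent: no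
product of an even positive number of different `y_c = Im ρ_c` is rational (`HasIndependentQuadraticPeriods`; at most three
different fields are always independent, `independent_of_le_three`).  So `A` is isogenous to `∏_c E_c^{n_c}`, `E_c = ℂ/(ℤ + ℤ ρ_c)`.

* `generalizedHodge_of_independent_fields` : **the conclusion of `GeneralizedHodgeCM` holds for `A`, for all `k`, `r` and `W`.**

Proof.  (a) `SanityIndKill.lean`: one closed algebraic subset `Z` of codimension `≥ r` kills all the monomials which contain `r`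
disjoint pairs `dz_k ∧ dz̄_l` with `k`, `l` in the same block (`pairedForms`): polarisation inside the blocks (`SanityIndPol.lean`),
the primitive of Bochner--Martinelli type for homomorphisms onto products of different elliptic curves (`SanityIndBM.lean`), and
the algebraicity of the preimage of a finite set (`SanityIndAlg.lean`).
(b) Every `φ ∈ W` is a combination of such monomials.  Let `A_ε = D_{I^ε}`, where `I^ε` is the multiplication by `ε_c i` on the block
`c`, `ε_c = ± 1`.  `A_1 = D_I` is `i (p - q)` on `H^{p,q}`, so that `P(A_1) φ = 0` for `P = X ∏_{δ=1}^{k-2r} (X² + δ²)`, because `W(r)` is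
effective (`signDer_one_mul_hop_eq_zero_of_mem`).  As `φ` is rational and the fields are independent, `P(A_ε) φ = 0` for ALL `ε`
(`signDer_mul_hop_eq_zero`, `SanityIndGrade.lean`).  The monomials are eigenvectors of `A_ε` with eigenvalue
`i ∑_c ε_c (a_c - b_c)` (`a_c`, `b_c` = numbers of factors `dz`, `dz̄` in the block `c`); hence `φ` is a combination of monomials with
`|∑_c ε_c (a_c - b_c)| ≤ k - 2 r` for all `ε` (`mem_span_gmono_bounded`, `SanityIndSpan.lean`), and these contain `r` pairs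
(`exists_pairs_of_signed_sums`, `SanityIndComb.lean`).

For fields which are not independent the statement (b) fails: see `CLAIM.md`.
-/

open MeasureTheory Module Complex

namespace Claimed.Open.R032

variable {V : Type*} [NormedAddCommGroup V] [InnerProductSpace ℂ V]
variable {ι : Type*}

/-- POST F1 (from S3, S4; the kernel of `(A * hop A K) ∘ AlternatingMap.toMultilinearMapLM` is a complex subspace which contains
`complexSpan W ⊓ hodgePiece V p k` for every `p`: it is `⊥` unless `r ≤ p ≤ k - r`, and then `|2 p - k| ≤ k - 2 r`). -/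
theorem signDer_one_mul_hop_eq_zero_of_mem (Λ : Submodule ℤ V) {d s : ℕ} (w : Basis (Fin d) ℂ V)
    (κ : Fin d → Fin s) {k r : ℕ} (h2r : 2 * r ≤ k) (W : Submodule ℚ (Form V k))
    (hW : IsHodgeSubstructure Λ W) (hr : IsEffectiveTwist W r) (φ : Form V k) (hφ : φ ∈ W) :
    (signDer w κ 1 k * hop (signDer w κ 1 k) (k - 2 * r)) φ.toMultilinearMap = 0 := by
  let L : Form V k →ₗ[ℂ] MForm V k := AlternatingMap.toMultilinearMapLM
  have hle : ∀ p : Fin (k + 1), complexSpan W ⊓ hodgePiece V p k ≤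
      LinearMap.ker ((signDer w κ 1 k * hop (signDer w κ 1 k) (k - 2 * r)) ∘ₗ L) := by
    intro p
    have hpk : (p : ℕ) ≤ k := Nat.lt_succ_iff.1 p.2
    by_cases hp : (p : ℕ) < r ∨ k - (p : ℕ) < r
    · rw [hr p (k - p) (by omega) hp]
      exact bot_le
    · push Not at hp
      intro ψ hψ
      rw [LinearMap.mem_ker, LinearMap.comp_apply]
      show (signDer w κ 1 k * hop (signDer w κ 1 k) (k - 2 * r)) ψ.toMultilinearMap = 0
      have h1 := signDer_one_hodgePiece w κ hpk ψ hψ.2
      have h2 : |(2 * ((p : ℕ) : ℤ) - (k : ℤ))| ≤ ((k - 2 * r : ℕ) : ℤ) := by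
        rw [abs_le]
        constructor <;> omega
      rw [mul_hop_eigen _ _ _ h1, (hopEigen_eq_zero_iff _ _).2 h2, zero_smul]
  have hmem : φ ∈ complexSpan W := Submodule.subset_span hφ
  exact LinearMap.mem_ker.1 ((hW.decomp.trans (iSup_le hle)) hmem)

/-- POST F2 (from `exists_pairs_of_signed_sums` with `S = univ`, `cl x = κ (σ x).1`, `sg x = (σ x).2`). -/
theorem gmono_mem_pairedForms {d s k r : ℕ} (w : Basis (Fin d) ℂ V) (κ : Fin d → Fin s)
    (σ : Fin k → Fin d × Bool) (h2r : 2 * r ≤ k) (h : ∀ ε, |swt κ ε σ| ≤ ((k - 2 * r : ℕ) : ℤ)) :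
    gmono w σ ∈ pairedForms w κ r k := by
  obtain ⟨i, j, hi, hj, -, -, hsi, hsj, hcl⟩ :=
    exists_pairs_of_signed_sums (fun x : Fin k => κ (σ x).1) (fun x : Fin k => (σ x).2) r Finset.univ (by
      intro ε
      have h1 := h ε
      unfold swt at h1
      have h2 : ((k - 2 * r : ℕ) : ℤ) = (k : ℤ) - 2 * (r : ℤ) := by
        rw [Nat.cast_sub h2r]
        push_cast
        ring
      rw [h2] at h1
      rw [Finset.card_univ, Fintype.card_fin]
      linarith)
  refine ⟨fun x => cform w (σ x), i, j, fun a => (σ (j a)).1, fun a => (σ (i a)).1, hi, hj, ?_, ?_, ?_, ?_, rfl⟩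
  · intro a c hac
    have h1 := hsi a
    have h2 := hsj c
    rw [hac, h2] at h1
    exact Bool.false_ne_true h1
  · intro a
    exact hcl a
  · intro a
    have h2 := hsj a
    show cform w (σ (j a)) = _
    unfold cform
    rw [h2]
    rfl
  · intro a
    have h1 := hsi a
    show cform w (σ (i a)) = _
    unfold cform
    rw [h1]
    rfl

variable [FiniteDimensional ℂ V]

/-- **The conclusion of `GeneralizedHodgeCM`, for all `k`, `r` and `W`, for every abelian variety isogenous to a product of CM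
elliptic curves whose CM fields are independent.** -/
theorem generalizedHodge_of_independent_fields (b : Basis ι ℝ V) {d s : ℕ} (w : Basis (Fin d) ℂ V)
    (ρ : Fin s → ℂ) (κ : Fin d → Fin s) (hρ : ∀ c, (ρ c).im ≠ 0)
    (hρ2 : ∀ c, ∃ r t : ℚ, ρ c ^ 2 = r + t * ρ c)
    (hind : ∀ T : Finset (Fin s), T.Nonempty → Even T.card → ∀ q : ℚ, ∏ c ∈ T, (ρ c).im ≠ q)
    (hb : ∀ i j, ∃ r t : ℚ, w.repr (b i) j = r + t * ρ (κ j)) (k r : ℕ)
    (W : Submodule ℚ (Form V k)) (hW : IsHodgeSubstructure (lattice b) W)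
    (hr : IsEffectiveTwist W r) :
    ∃ Z : Set V, IsAlgebraicSubsetOfCodimGE (lattice b) r Z ∧
      ∀ φ ∈ W, RestrictsToZero (lattice b) Z φ := by
  rcases lt_or_ge k (2 * r) with hkr | hkr
  · exact generalizedHodge_of_lt_two_mul hkr W hW hr
  obtain ⟨Z, hZ, hkill⟩ := exists_codim_pairedForms b w ρ κ hρ hρ2 hb r
  refine ⟨Z, hZ, fun φ hφ => hkill k φ ?_⟩
  have h1 := signDer_one_mul_hop_eq_zero_of_mem (lattice b) w κ hkr W hW hr φ hφ
  have hrat : TwRat (lattice b) 1 φ.toMultilinearMap := by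
    intro v hv
    obtain ⟨q, hq⟩ := hW.rational φ hφ v hv
    exact ⟨q, by simpa using hq⟩
  have h2 := fun ε => signDer_mul_hop_eq_zero b w ρ κ hρ hρ2 hind hb φ.toMultilinearMap hrat
    (k - 2 * r) h1 ε
  refine Submodule.span_mono ?_ (mem_span_gmono_bounded w κ (k - 2 * r) φ h2)
  rintro _ ⟨σ, hσ, rfl⟩
  exact gmono_mem_pairedForms w κ σ hkr hσ

/-! ### The class of tori -/

/-- The coordinates of `V` (in some `ℂ`-basis `w`) are distributed into blocks `c < s` by `κ`; the `j`-th coordinates of the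
periods lie in the imaginary quadratic field `K_c = ℚ + ℚ ρ_c`, `c = κ j`; and the fields `K_c` are *independent*: no product of
an even positive number of different `Im ρ_c` is rational.  (Equivalently: the compositum of the `K_c` has degree `2^s` over `ℚ`;
`K_c = ℚ(√-q_c)` with `q_c = (Im ρ_c)²`, and a product of an odd number of the `-q_c` is negative, hence not a square.)
Then `A = V / lattice b` is isogenous to `∏_c E_c^{n_c}`, `E_c = ℂ / (ℤ + ℤ ρ_c)`. -/
def HasIndependentQuadraticPeriods {V : Type*} [NormedAddCommGroup V] [InnerProductSpace ℂ V] {ι : Type*}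
    (b : Basis ι ℝ V) : Prop :=
  ∃ (d s : ℕ) (w : Basis (Fin d) ℂ V) (ρ : Fin s → ℂ) (κ : Fin d → Fin s), (∀ c, (ρ c).im ≠ 0) ∧
    (∀ c, ∃ r t : ℚ, ρ c ^ 2 = r + t * ρ c) ∧
    (∀ T : Finset (Fin s), T.Nonempty → Even T.card → ∀ q : ℚ, ∏ c ∈ T, (ρ c).im ≠ q) ∧
    ∀ i j, ∃ r t : ℚ, w.repr (b i) j = r + t * ρ (κ j)

omit [FiniteDimensional ℂ V] in
theorem HasIndependentQuadraticPeriods.hasMixed {b : Basis ι ℝ V} (h : HasIndependentQuadraticPeriods b) :
    HasMixedQuadraticPeriods b := by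
  obtain ⟨d, s, w, ρ, κ, hρ, hρ2, _, hb⟩ := h
  exact ⟨d, w, fun j => ρ (κ j), fun j => hρ _, fun j => hρ2 _, hb⟩

/-- POST F3.  At most three different fields are always independent. -/
theorem independent_of_le_three {s : ℕ} (hs : s ≤ 3) (y : Fin s → ℝ)
    (h : ∀ c c', c ≠ c' → ∀ q : ℚ, y c * y c' ≠ q) :
    ∀ T : Finset (Fin s), T.Nonempty → Even T.card → ∀ q : ℚ, ∏ c ∈ T, y c ≠ q := by
  intro T hT hev q
  have hle : T.card ≤ 3 := (Finset.card_le_univ T).trans (by rw [Fintype.card_fin]; exact hs)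
  have hpos : 0 < T.card := Finset.card_pos.mpr hT
  have h2 : T.card = 2 := by
    obtain ⟨m, hm⟩ := hev
    omega
  obtain ⟨c, c', hne, rfl⟩ := Finset.card_eq_two.mp h2
  rw [Finset.prod_pair hne]
  exact h c c' hne q

/-- Helper of POST F4: a product of CM elliptic curves `∏_j ℂ / (ℤ + ℤ ρ_{κ j})` with independent fields `ℚ + ℚ ρ_c`. -/
theorem ind238_hasIndependent_ellProdBasis {p s : ℕ} (τ : Fin p → ℂ) (hτ : ∀ j, (τ j).im ≠ 0)
    (ρ : Fin s → ℂ) (κ : Fin p → Fin s) (hκ : ∀ j, τ j = ρ (κ j)) (hρ : ∀ c, (ρ c).im ≠ 0)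
    (hρ2 : ∀ c, ∃ r t : ℚ, ρ c ^ 2 = r + t * ρ c)
    (hind : ∀ T : Finset (Fin s), T.Nonempty → Even T.card → ∀ q : ℚ, ∏ c ∈ T, (ρ c).im ≠ q) :
    HasIndependentQuadraticPeriods (ellProdBasis τ hτ) := by
  refine ⟨p, s, (EuclideanSpace.basisFun (Fin p) ℂ).toBasis, ρ, κ, hρ, hρ2, hind, ?_⟩
  rintro ⟨j, e⟩ k
  rw [OrthonormalBasis.coe_toBasis_repr_apply, EuclideanSpace.basisFun_repr, ellProdBasis_apply]
  split_ifs with hkj
  · subst hkj
    fin_cases e
    · exact ⟨1, 0, by simp⟩
    · exact ⟨0, 1, by simp [hκ]⟩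
  · exact ⟨0, 0, by simp⟩

/-- Helper of POST F4: `i` and `√-2` are quadratic. -/
theorem ind238_twoFields_sq : ∀ c, ∃ r t : ℚ,
    (![I, (Real.sqrt 2 : ℂ) * I] : Fin 2 → ℂ) c ^ 2 = r + t * (![I, (Real.sqrt 2 : ℂ) * I] : Fin 2 → ℂ) c := by
  intro c
  fin_cases c
  · exact ⟨-1, 0, by simp⟩
  · refine ⟨-2, 0, ?_⟩
    have := mix61_sqrt_two_I_sq
    simp only [Fin.mk_one, Matrix.cons_val_one, Matrix.cons_val_fin_one]
    rw [pow_two, this]
    simp

/-- Helper of POST F4: the fields `ℚ(i)` and `ℚ(√-2)` are independent (`1 · √2` is irrational). -/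
theorem ind238_twoFields_independent : ∀ T : Finset (Fin 2), T.Nonempty → Even T.card → ∀ q : ℚ,
    ∏ c ∈ T, ((![I, (Real.sqrt 2 : ℂ) * I] : Fin 2 → ℂ) c).im ≠ q := by
  refine independent_of_le_three (by norm_num) (fun c => ((![I, (Real.sqrt 2 : ℂ) * I] : Fin 2 → ℂ) c).im) ?_
  intro c c' hcc' q hq
  apply irrational_sqrt_two
  refine ⟨q, ?_⟩
  rw [← hq]
  fin_cases c <;> fin_cases c' <;> simp at hcc' ⊢

/-- POST F4.  `ℂ/ℤ[i] × ℂ/ℤ[√-2]` (use the proof of `twoFields_hasMixedQuadraticPeriods` / `ellProdBasis_apply`,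
`independent_of_le_three`, `irrational_sqrt_two`). -/
theorem twoFields_hasIndependentQuadraticPeriods : HasIndependentQuadraticPeriods twoFieldsBasis :=
  ind238_hasIndependent_ellProdBasis _ twoFields_im_ne_zero ![I, (Real.sqrt 2 : ℂ) * I] id (fun _ => rfl)
    twoFields_im_ne_zero ind238_twoFields_sq ind238_twoFields_independent

/-- POST F4.  `(ℂ/ℤ[i])² × ℂ/ℤ[√-2]` (`κ = ![0, 0, 1]`, `ρ = ![i, √-2]`). -/
theorem three_hasIndependentQuadraticPeriods : HasIndependentQuadraticPeriods threeBasis :=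
  ind238_hasIndependent_ellProdBasis _ three_im_ne_zero ![I, (Real.sqrt 2 : ℂ) * I] ![0, 0, 1]
    (fun j => by fin_cases j <;> rfl) twoFields_im_ne_zero ind238_twoFields_sq ind238_twoFields_independent

end Claimed.Open.R032
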