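import Claimed.Open.R032.SanityGHC
import Claimed.Open.R032.SanityGHCNonExamples
import Claimed.Open.R032.SanityAnalytic

/-!
# Sanity check for R032: `H¹(A) → H¹(A ∖ Z)` is injective

The non-examples of `RestrictsToZero Λ Z φ` checked so far have `Z = ∅` (`restrictsToZero_empty_iff`).  Here is a
non-example with arbitrary `Z`, on every complex torus:

* `IsAnalyticSubset.countable`: a closed analytic subset of `ℂ` other than `ℂ` is countable (it is discrete);
* `isPreconnected_compl_iUnion_analytic`: the complement of a finite union of closed analytic subsets of `V` is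
  connected (two points of the complement are joined inside the complex line through them);
* `eq_zero_of_restrictsToZero_one`: if `Z` is closed and periodic with connected nonempty complement, a class
  `φ ∈ H¹(A,ℂ)` which restricts to zero on `A ∖ Z` is zero (if `φ = dη` on `V ∖ Z` then `η - φ` is constant there, and `η` is periodic, so `φ` vanishes on the lattice);
* `restrictsToZero_one_iff`: **for every closed algebraic subset `Z` of codimension `≥ r > 0` of `A`, and `φ ∈ H¹(A,ℂ)`:
  `RestrictsToZero Λ Z φ ↔ φ = 0`**, i.e. `H¹(A,ℂ) → H¹(A ∖ Z,ℂ)` is injective (the coniveau filtration of `H¹` is trivial);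
* `eq_bot_of_generalizedHodge_conclusion_one`: the conclusion of `GeneralizedHodgeCM` for `k = 1`, `r > 0` holds ONLY for
  `W = 0`: in degree one the conclusion is equivalent to the hypothesis of effectivity (which forces `W = 0` by
  `generalizedHodge_of_lt_two_mul`), so that the hypothesis "`W(r)` is effective" cannot be dropped, whatever `Z` is;
* `generalizedHodge_conclusion_fails_H1`: on every complex torus of positive dimension `W = H¹(A,ℚ)` (`rationalClasses`) is a
  nonzero rational Hodge substructure (`isHodgeSubstructure_rationalClasses_one`) for which that conclusion fails, for all `r > 0`.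
-/

open Module Set Topology Filter
open scoped ContDiff

namespace Claimed.Open.R032

/-- A closed analytic subset of `ℂ` other than `ℂ` is countable. -/
theorem IsAnalyticSubset.countable {S : Set ℂ} (hS : IsAnalyticSubset S) (hne : S ≠ Set.univ) :
    S.Countable := by
  have hdisc : DiscreteTopology S := by
    rw [discreteTopology_subtype_iff]
    intro x hx
    rw [inf_principal_eq_bot]
    obtain ⟨U, hU, hxU, m, f, hf, hSU⟩ := hS x
    have hUn : U ∈ 𝓝 x := hU.mem_nhds hxU
    by_contra hcon
    -- every component of `f` vanishes near `x`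
    have hall : ∀ i : Fin m, ∀ᶠ y in 𝓝 x, f y i = 0 := by
      intro i
      have hfi : AnalyticAt ℂ (fun y => f y i) x :=
        ((ContinuousLinearMap.proj (R := ℂ) (φ := fun _ : Fin m => ℂ) i).analyticAt _).comp (hf x hxU)
      rcases hfi.eventually_eq_zero_or_eventually_ne_zero with h | h
      · exact h
      · exfalso
        apply hcon
        have hU' : ∀ᶠ y in 𝓝[≠] x, y ∈ U := mem_nhdsWithin_of_mem_nhds hUn
        filter_upwards [h, hU'] with y hy hyU hyS
        have : y ∈ S ∩ U := ⟨hyS, hyU⟩
        rw [hSU] at this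
        exact hy (congrFun this.2 i)
    have hall' : ∀ᶠ y in 𝓝 x, ∀ i : Fin m, f y i = 0 := eventually_all.2 hall
    apply hne
    apply hS.eq_univ_of_interior_nonempty
    refine ⟨x, ?_⟩
    rw [mem_interior_iff_mem_nhds]
    filter_upwards [hall', hUn] with y hy hyU
    have : y ∈ S ∩ U := by
      rw [hSU]
      exact ⟨hyU, funext hy⟩
    exact this.1
  exact hS.isClosed.isLindelof.countable hdisc

variable {V : Type*} [NormedAddCommGroup V] [InnerProductSpace ℂ V]

/-- The complement of a finite union of closed analytic subsets is connected. -/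
theorem isPreconnected_compl_iUnion_analytic {m : ℕ} {Y : Fin m → Set V}
    (hY : ∀ j, IsAnalyticSubset (Y j)) : IsPreconnected (⋃ j, Y j)ᶜ := by
  apply isPreconnected_of_forall_pair
  intro x hx y hy
  let L : ℂ →L[ℂ] V := ContinuousLinearMap.toSpanSingleton ℂ (y - x)
  have hL : ∀ t : ℂ, L t = t • (y - x) := fun t => rfl
  let S : Fin m → Set ℂ := fun j => (fun t => x + L t) ⁻¹' (Y j)
  have hS : ∀ j, (S j).Countable := by
    intro j
    apply ((hY j).preimage_affine L x).countable
    intro h
    have h0 : (0 : ℂ) ∈ (fun t => x + L t) ⁻¹' (Y j) := by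
      rw [h]
      exact Set.mem_univ _
    apply hx
    have : x ∈ Y j := by simpa [S, hL] using h0
    exact Set.mem_iUnion.2 ⟨j, this⟩
  have hc : (⋃ j, S j).Countable := Set.countable_iUnion hS
  have hpc : IsPathConnected (⋃ j, S j)ᶜ :=
    hc.isPathConnected_compl_of_one_lt_rank (by rw [Complex.rank_real_complex]; norm_num)
  refine ⟨(fun t => x + L t) '' (⋃ j, S j)ᶜ, ?_, ?_, ?_, ?_⟩
  · rintro _ ⟨t, ht, rfl⟩ h
    obtain ⟨j, hj⟩ := Set.mem_iUnion.1 h
    exact ht (Set.mem_iUnion.2 ⟨j, hj⟩)
  · refine ⟨0, ?_, by simp [hL]⟩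
    intro h
    obtain ⟨j, hj⟩ := Set.mem_iUnion.1 h
    apply hx
    have : x ∈ Y j := by simpa [S, hL] using hj
    exact Set.mem_iUnion.2 ⟨j, this⟩
  · refine ⟨1, ?_, by simp [hL]⟩
    intro h
    obtain ⟨j, hj⟩ := Set.mem_iUnion.1 h
    apply hy
    have : y ∈ Y j := by simpa [S, hL] using hj
    exact Set.mem_iUnion.2 ⟨j, this⟩
  · exact hpc.isConnected.isPreconnected.image _ (by fun_prop)

variable [FiniteDimensional ℂ V]

/-- If `Z` is closed and periodic and `V ∖ Z` is connected and nonempty, then a class of degree one which restricts to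
zero on `A ∖ Z` is zero. -/
theorem eq_zero_of_restrictsToZero_one {ι : Type*} (b : Basis ι ℝ V) {Z : Set V}
    (hper : IsPeriodic (lattice b) Z) (hcl : IsClosed Z) (hconn : IsPreconnected Zᶜ)
    (hne : Zᶜ.Nonempty) {φ : Form V 1} (h : RestrictsToZero (lattice b) Z φ) : φ = 0 := by
  obtain ⟨η, hη, hηper, hd⟩ := h
  obtain ⟨x₀, hx₀⟩ := hne
  have hopen : IsOpen Zᶜ := hcl.isOpen_compl
  -- `φ` as a continuous linear form
  let ℓ : V →ₗ[ℝ] ℂ :=
    { toFun := fun y => φ (fun _ => y)
      map_add' := fun y y' => by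
        have := φ.map_update_add (fun _ => y) 0 y y'
        simp only [Function.update_eq_const_of_subsingleton] at this
        exact this
      map_smul' := fun c y => by
        have := φ.map_update_smul (fun _ => y) 0 c y
        simp only [Function.update_eq_const_of_subsingleton] at this
        exact this }
  have : FiniteDimensional ℝ V := FiniteDimensional.complexToReal V
  let ℓc : V →L[ℝ] ℂ := LinearMap.toContinuousLinearMap ℓ
  have hℓ : ∀ y, ℓc y = φ (fun _ => y) := fun _ => rfl
  let g : V → ℂ := fun y => η y (Fin.removeNth 0 (fun _ : Fin 1 => x₀))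
  have hηd : ∀ y ∈ Zᶜ, DifferentiableAt ℝ η y := fun y hy =>
    (hη.differentiableOn (by simp) y hy).differentiableAt (hopen.mem_nhds hy)
  have hgd : ∀ y ∈ Zᶜ, DifferentiableAt ℝ g y := fun y hy =>
    (ContinuousAlternatingMap.apply ℝ V ℂ
      (Fin.removeNth 0 (fun _ : Fin 1 => x₀))).differentiableAt.comp y (hηd y hy)
  have hderiv : ∀ y ∈ Zᶜ, fderiv ℝ g y = ℓc := by
    intro y hy
    ext w
    have h1 := hd y hy (fun _ => w)
    rw [extDeriv_apply (hηd y hy)] at h1
    rw [Fin.sum_univ_succ, Fin.sum_univ_zero, add_zero, Fin.val_zero, pow_zero, one_smul] at h1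
    rw [hℓ, ← h1]
    have : (Fin.removeNth 0 (fun _ : Fin (0 + 1) => w) : Fin 0 → V)
        = Fin.removeNth 0 (fun _ : Fin 1 => x₀) := Subsingleton.elim _ _
    rw [this]
  have hconst : ∀ y ∈ Zᶜ, g y - ℓc y = g x₀ - ℓc x₀ := by
    intro y hy
    refine hopen.is_const_of_fderiv_eq_zero (𝕜 := ℝ) hconn (f := fun y => g y - ℓc y) ?_ ?_ hy hx₀
    · intro z hz
      exact ((hgd z hz).sub ℓc.differentiableAt).differentiableWithinAt
    · intro z hz
      have : fderiv ℝ (fun y => g y - ℓc y) z = fderiv ℝ g z - fderiv ℝ ℓc z :=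
        fderiv_fun_sub (hgd z hz) ℓc.differentiableAt
      rw [this, hderiv z hz, ContinuousLinearMap.fderiv]
      simp
  apply b.ext_alternating
  intro v _
  rw [AlternatingMap.zero_apply]
  have hl : b (v 0) ∈ lattice b := Submodule.subset_span ⟨_, rfl⟩
  have hmem : b (v 0) + x₀ ∈ Zᶜ := by
    intro hz
    apply hx₀
    have := hper (-(b (v 0))) (neg_mem hl) _ hz
    simpa using this
  have h1 := hconst _ hmem
  have h2 : g (b (v 0) + x₀) = g x₀ := by
    show η _ _ = η _ _
    rw [hηper _ hl _ hx₀]
  rw [h2, map_add] at h1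
  have h3 : ℓc (b (v 0)) = 0 := by
    have := sub_right_injective h1
    simpa using this
  rw [hℓ] at h3
  rw [← h3]
  congr 1
  funext i
  rw [Subsingleton.elim i 0]

/-- **`H¹(A,ℂ) → H¹(A ∖ Z,ℂ)` is injective** for every closed algebraic subset `Z` of positive codimension. -/
theorem restrictsToZero_one_iff {ι : Type*} (b : Basis ι ℝ V) {r : ℕ} (hr : 0 < r) {Z : Set V}
    (hZ : IsAlgebraicSubsetOfCodimGE (lattice b) r Z) (φ : Form V 1) :
    RestrictsToZero (lattice b) Z φ ↔ φ = 0 := by
  constructor
  · intro h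
    have hne : Zᶜ.Nonempty := by
      rw [Set.nonempty_compl]
      rintro rfl
      exact not_isAlgebraicSubsetOfCodimGE_univ _ hr hZ
    obtain ⟨m, Y, d, hY, -, rfl⟩ := hZ
    refine eq_zero_of_restrictsToZero_one b ?_ ?_ ?_ hne h
    · intro l hl x hx
      obtain ⟨j, hj⟩ := Set.mem_iUnion.1 hx
      exact Set.mem_iUnion.2 ⟨j, (hY j).periodic l hl x hj⟩
    · exact isClosed_iUnion_of_finite fun j => (hY j).analytic.isClosed
    · exact isPreconnected_compl_iUnion_analytic fun j => (hY j).analytic
  · rintro rfl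
    exact restrictsToZero_zero _ _

/-- In degree one the conclusion of `GeneralizedHodgeCM` with `r > 0` holds only for `W = 0`. -/
theorem eq_bot_of_generalizedHodge_conclusion_one {ι : Type*} (b : Basis ι ℝ V) {r : ℕ} (hr : 0 < r)
    (W : Submodule ℚ (Form V 1))
    (h : ∃ Z : Set V, IsAlgebraicSubsetOfCodimGE (lattice b) r Z ∧
      ∀ φ ∈ W, RestrictsToZero (lattice b) Z φ) : W = ⊥ := by
  obtain ⟨Z, hZ, hW⟩ := h
  rw [Submodule.eq_bot_iff]
  intro φ hφ
  exact (restrictsToZero_one_iff b hr hZ φ).1 (hW φ hφ)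

/-! ### The example `W = H¹(A,ℚ)` -/

omit [FiniteDimensional ℂ V] in
/-- `H^k(A,ℚ) ⊆ H^k(A,ℂ)`: all rational classes. -/
def rationalClasses (Λ : Submodule ℤ V) (k : ℕ) : Submodule ℚ (Form V k) where
  carrier := {φ | IsRational Λ φ}
  zero_mem' := fun _ _ => ⟨0, by simp⟩
  add_mem' := by
    intro φ ψ hφ hψ v hv
    obtain ⟨q, hq⟩ := hφ v hv
    obtain ⟨q', hq'⟩ := hψ v hv
    exact ⟨q + q', by simp [hq, hq']⟩
  smul_mem' := by
    intro c φ hφ v hv
    obtain ⟨q, hq⟩ := hφ v hv
    exact ⟨c * q, by simp [hq, Rat.smul_def]⟩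

/-- The class in `H¹(A,ℤ)` dual to the period `b i`. -/
noncomputable def coordClass {ι : Type*} (b : Basis ι ℝ V) (i : ι) : Form V 1 :=
  AlternatingMap.ofSubsingleton ℝ V ℂ (0 : Fin 1) (Complex.ofRealCLM.toLinearMap ∘ₗ b.coord i)

omit [FiniteDimensional ℂ V] in
theorem coordClass_apply {ι : Type*} (b : Basis ι ℝ V) (i : ι) (v : Fin 1 → V) :
    coordClass b i v = ((b.repr (v 0) i : ℝ) : ℂ) := rfl

omit [FiniteDimensional ℂ V] in
theorem coordClass_mem_rationalClasses {ι : Type*} (b : Basis ι ℝ V) (i : ι) :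
    coordClass b i ∈ rationalClasses (lattice b) 1 := by
  intro v hv
  obtain ⟨n, hn⟩ := (b.mem_span_iff_repr_mem ℤ (v 0)).1 (hv 0) i
  refine ⟨n, ?_⟩
  rw [coordClass_apply, ← hn]
  simp

/-- `H¹(A,ℚ) ⊗ ℂ = H¹(A,ℂ)`. -/
theorem complexSpan_rationalClasses_one {ι : Type*} (b : Basis ι ℝ V) :
    complexSpan (rationalClasses (lattice b) 1) = ⊤ := by
  have := finite_index b
  have := Fintype.ofFinite ι
  rw [eq_top_iff]
  intro φ _
  have hφ : φ = ∑ i, φ (fun _ => b i) • coordClass b i := by
    apply b.ext_alternating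
    intro v _
    classical
    rw [form_sum_apply, Finset.sum_eq_single (v 0)]
    · rw [AlternatingMap.smul_apply, coordClass_apply]
      simp only [Basis.repr_self, Finsupp.single_eq_same, Complex.ofReal_one, smul_eq_mul, mul_one]
      congr 1
      funext j
      rw [Subsingleton.elim j 0]
    · intro i _ hi
      rw [AlternatingMap.smul_apply, coordClass_apply]
      simp [hi.symm]
    · intro h
      exact absurd (Finset.mem_univ _) h
  rw [hφ]
  exact Submodule.sum_mem _ fun i _ =>
    Submodule.smul_mem _ _ (Submodule.subset_span (coordClass_mem_rationalClasses b i))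

/-- `H¹(A,ℚ)` is a rational Hodge substructure of itself. -/
theorem isHodgeSubstructure_rationalClasses_one {ι : Type*} (b : Basis ι ℝ V) :
    IsHodgeSubstructure (lattice b) (rationalClasses (lattice b) 1) := by
  refine ⟨fun φ hφ => hφ, ?_⟩
  rw [complexSpan_rationalClasses_one]
  intro φ _
  refine (iSup₂_le fun a ha => ?_ : (⨆ a ∈ Finset.range (1 + 1), hodgePiece V a 1) ≤ _)
    (form_mem_iSup_hodgePiece φ)
  rw [Finset.mem_range] at ha
  exact le_iSup_of_le (⟨a, ha⟩ : Fin (1 + 1)) (le_inf le_top le_rfl)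

/-- **On every complex torus of positive dimension, the conclusion of `GeneralizedHodgeCM` fails for the rational Hodge
structure `W = H¹(A,ℚ) ≠ 0` and every `r > 0`** (no closed algebraic subset `Z ≠ A` kills `H¹`): the hypothesis that
`W(r)` be effective cannot be dropped. -/
theorem generalizedHodge_conclusion_fails_H1 {ι : Type*} (b : Basis ι ℝ V) [Nontrivial V] {r : ℕ}
    (hr : 0 < r) :
    IsHodgeSubstructure (lattice b) (rationalClasses (lattice b) 1) ∧
    ¬ ∃ Z : Set V, IsAlgebraicSubsetOfCodimGE (lattice b) r Z ∧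
      ∀ φ ∈ rationalClasses (lattice b) 1, RestrictsToZero (lattice b) Z φ := by
  refine ⟨isHodgeSubstructure_rationalClasses_one b, fun h => ?_⟩
  have hbot := eq_bot_of_generalizedHodge_conclusion_one b hr _ h
  have hι : Nonempty ι := b.index_nonempty
  obtain ⟨i⟩ := hι
  have h1 := coordClass_mem_rationalClasses b i
  rw [hbot, Submodule.mem_bot] at h1
  have h2 := congrArg (fun f : Form V 1 => f (fun _ => b i)) h1
  simp [coordClass_apply] at h2

end Claimed.Open.R032
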