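import Claimed.Open.R032.Statement
import Claimed.Open.R032.SanityCM
import Claimed.Open.R032.SanityRiemann
import Claimed.Open.R032.SanityAnalytic
import Claimed.Open.R032.SanityCycles
import Claimed.Open.R032.SanityInvariance
import Claimed.Open.R032.SanityGHC

/-!
# `GeneralizedHodgeCM` for the CM elliptic curve `ℂ / ℤ[i]`

The conclusion of `GeneralizedHodgeCM` (second conjunct of `Statement`) is proved here for the CM
elliptic curve `A = ℂ / ℤ[i]`, for all `k`, `r` and `W` (`generalizedHodgeCM_gauss`).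

The only case with content is `k = 2`, `r = 1`: the class `[E] ∈ H^2(A,ℚ)` of the polarisation, which is
not zero and which does not restrict to zero on `A ∖ ∅ = A` (`SanityGHC.lean`), restricts to zero on the
complement of a finite set of points.  This is the first example of `RestrictsToZero Λ Z φ` with
`φ ≠ 0` and `Z ≠ A`.  The primitive is the classical one.  Let
`θ(z) = ∑_n exp (2 π i n z - π n²)` be Jacobi's theta function of the lattice `ℤ[i]` (Mathlib's
`jacobiTheta₂ z I`): it is entire, not identically zero, `θ(z + 1) = θ(z)` and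
`θ(z + i) = exp (π - 2 π i z) θ(z)`.  Hence

* the zero set `Z` of `θ` is `ℤ[i]`-periodic, and it is a finite union of classes modulo `ℤ[i]`
  (identity theorem and compactness of the period square): `thetaZeros_isAlgebraic`;
* the function `g(z) = θ'(z) / θ(z) + 2 π i Im z` is smooth and `ℤ[i]`-periodic on `ℂ ∖ Z`, and
  `d (g dz) = 2 π i E` there, because `θ' / θ` is holomorphic: `extDeriv_thetaForm`.

(`g dz = ∂ log (|θ|² exp (-2 π (Im z)²))`: the Chern connection form of the line bundle of `θ`.)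

The file also contains `IsSubvariety.image_add`: translates of subvarieties are subvarieties.
-/

open MeasureTheory Module Set Complex
open scoped ContDiff Real

namespace Claimed.Open.R032

/-! ### Translates of subvarieties -/

section translate

variable {V : Type*} [NormedAddCommGroup V] [InnerProductSpace ℂ V]

theorem image_add_eq_preimage (a : V) (Z : Set V) :
    (fun y => a + y) '' Z = (fun w => -a + ContinuousLinearMap.id ℂ V w) ⁻¹' Z := by
  ext y
  constructor
  · rintro ⟨z, hz, rfl⟩
    simpa using hz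
  · intro hy
    exact ⟨-a + y, by simpa using hy, by simp⟩

theorem IsAnalyticSubset.image_add {Z : Set V} (hZ : IsAnalyticSubset Z) (a : V) :
    IsAnalyticSubset ((fun y => a + y) '' Z) := by
  rw [image_add_eq_preimage]
  exact hZ.preimage_affine _ _

omit [InnerProductSpace ℂ V] in
theorem image_add_image_neg_add (a : V) (Z : Set V) :
    (fun y => a + y) '' ((fun y => -a + y) '' Z) = Z := by
  rw [Set.image_image]; simp

omit [InnerProductSpace ℂ V] in
theorem image_neg_add_image_add (a : V) (Z : Set V) :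
    (fun y => -a + y) '' ((fun y => a + y) '' Z) = Z := by
  rw [Set.image_image]; simp

/-- Translates of a subvariety are subvarieties (of the same dimension). -/
theorem IsSubvariety.image_add {Λ : Submodule ℤ V} {d : ℕ} {Z : Set V} (hZ : IsSubvariety Λ d Z)
    (a : V) : IsSubvariety Λ d ((fun y => a + y) '' Z) where
  analytic := hZ.analytic.image_add a
  periodic := hZ.periodic.image_add a
  nonempty := hZ.nonempty.image _
  irreducible := by
    intro Z₁ Z₂ h₁ p₁ h₂ p₂ h
    have h' : Z = (fun y => -a + y) '' Z₁ ∪ (fun y => -a + y) '' Z₂ := by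
      rw [← Set.image_union, ← h, image_neg_add_image_add]
    rcases hZ.irreducible _ _ (h₁.image_add (-a)) (p₁.image_add (-a)) (h₂.image_add (-a))
      (p₂.image_add (-a)) h' with h0 | h0
    · left; rw [h0, image_add_image_neg_add]
    · right; rw [h0, image_add_image_neg_add]
  dim_eq := by
    have hc : Continuous (fun y : V => a + y) := by fun_prop
    refine (Set.image_mono hZ.dim_eq).trans ((image_closure_subset_closure_image hc).trans
      (closure_mono ?_))
    rintro _ ⟨x, ⟨T, hT, hd⟩, rfl⟩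
    exact ⟨T, hT.image_add a, hd⟩

/-- A rational Hodge substructure all of whose Hodge components vanish is zero. -/
theorem IsHodgeSubstructure.eq_zero_of_forall {Λ : Submodule ℤ V} {k : ℕ}
    {W : Submodule ℚ (Form V k)} (hW : IsHodgeSubstructure Λ W)
    (h : ∀ p : Fin (k + 1), complexSpan W ⊓ hodgePiece V p k = ⊥) {φ : Form V k} (hφ : φ ∈ W) :
    φ = 0 := by
  have h1 : complexSpan W ≤ ⊥ := hW.decomp.trans (iSup_le fun p => (h p).le)
  exact (Submodule.mem_bot ℂ).1 (h1 (Submodule.subset_span hφ))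

end translate

/-! ### Jacobi's theta function of the lattice `ℤ[i]` -/

/-- Jacobi's theta function of the lattice `ℤ[i]`: `θ(z) = ∑_n exp (2 π i n z - π n²)`. -/
noncomputable def gaussTheta (z : ℂ) : ℂ := jacobiTheta₂ z I

theorem gaussTheta_differentiable : Differentiable ℂ gaussTheta :=
  fun z => differentiableAt_jacobiTheta₂_fst z (by simp)

theorem gaussTheta_deriv (z : ℂ) : deriv gaussTheta z = jacobiTheta₂' z I :=
  (hasDerivAt_jacobiTheta₂_fst z (by simp)).deriv

theorem gaussTheta_analyticOnNhd : AnalyticOnNhd ℂ gaussTheta Set.univ :=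
  gaussTheta_differentiable.differentiableOn.analyticOnNhd isOpen_univ

/-- `θ(0) = ∑_n exp (- π n²) ≠ 0`. -/
theorem gaussTheta_zero_ne_zero : gaussTheta 0 ≠ 0 := by
  intro h
  have h1 := norm_jacobiTheta_sub_one_le (τ := I) (by simp)
  rw [jacobiTheta_eq_jacobiTheta₂] at h1
  change ‖gaussTheta 0 - 1‖ ≤ _ at h1
  rw [h] at h1
  simp only [zero_sub, norm_neg, norm_one, I_im, mul_one] at h1
  have hx : Real.exp (-π) < 1 / 4 := by
    rw [Real.exp_neg, one_div]
    apply inv_strictAnti₀ (by norm_num)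
    have := Real.add_one_le_exp π
    have := Real.pi_gt_three
    linarith
  have hx0 : 0 < Real.exp (-π) := Real.exp_pos _
  have : 2 / (1 - Real.exp (-π)) * Real.exp (-π) < 1 := by
    rw [div_mul_eq_mul_div, div_lt_one (by linarith)]
    linarith
  linarith

theorem gaussTheta_add_one (z : ℂ) : gaussTheta (z + 1) = gaussTheta z :=
  jacobiTheta₂_add_left z I

theorem gaussTheta_add_I (z : ℂ) :
    gaussTheta (z + I) = cexp (-π * I * (I + 2 * z)) * gaussTheta z :=
  jacobiTheta₂_add_left' z I

theorem deriv_gaussTheta_add_one (z : ℂ) : deriv gaussTheta (z + 1) = deriv gaussTheta z := by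
  rw [gaussTheta_deriv, gaussTheta_deriv, jacobiTheta₂'_add_left]

theorem deriv_gaussTheta_add_I (z : ℂ) :
    deriv gaussTheta (z + I) =
      cexp (-π * I * (I + 2 * z)) * (deriv gaussTheta z - 2 * π * I * gaussTheta z) := by
  rw [gaussTheta_deriv, gaussTheta_deriv, jacobiTheta₂'_add_left']
  rfl

/-! ### The zero set of `θ`, and the periodic function `θ'/θ + 2 π i Im z` -/

/-- The zero set of `θ`. -/
def thetaZeros : Set ℂ := {z | gaussTheta z = 0}

/-- The function `g(z) = θ'(z) / θ(z) + 2 π i Im z`. -/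
noncomputable def thetaLog (z : ℂ) : ℂ :=
  deriv gaussTheta z / gaussTheta z + 2 * π * I * (z.im : ℂ)

/-- The group of the common periods of the zero set of `θ` and of the function `g` off it. -/
def thetaPeriods : AddSubgroup ℂ where
  carrier := {l | ∀ x, (l + x ∈ thetaZeros ↔ x ∈ thetaZeros) ∧
    (x ∉ thetaZeros → thetaLog (l + x) = thetaLog x)}
  zero_mem' := by intro x; simp
  add_mem' := by
    intro a b ha hb x
    have h1 := hb x
    have h2 := ha (b + x)
    rw [add_assoc]
    exact ⟨h2.1.trans h1.1, fun hx => (h2.2 (fun h => hx (h1.1.1 h))).trans (h1.2 hx)⟩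
  neg_mem' := by
    intro a ha x
    have h1 := ha (-a + x)
    rw [add_neg_cancel_left] at h1
    exact ⟨h1.1.symm, fun hx => (h1.2 (fun h => hx (h1.1.2 h))).symm⟩

theorem one_mem_thetaPeriods : (1 : ℂ) ∈ thetaPeriods := by
  intro x
  rw [add_comm]
  refine ⟨by simp [thetaZeros, gaussTheta_add_one], fun _ => ?_⟩
  simp [thetaLog, gaussTheta_add_one, deriv_gaussTheta_add_one]

theorem I_mem_thetaPeriods : I ∈ thetaPeriods := by
  intro x
  rw [add_comm]
  refine ⟨by simp [thetaZeros, gaussTheta_add_I, Complex.exp_ne_zero], fun hx => ?_⟩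
  have hx' : gaussTheta x ≠ 0 := hx
  have he : cexp (-π * I * (I + 2 * x)) ≠ 0 := Complex.exp_ne_zero _
  simp only [thetaLog, gaussTheta_add_I, deriv_gaussTheta_add_I, add_im, I_im]
  push_cast
  field_simp
  ring

theorem mem_thetaPeriods_of_mem_lattice {l : ℂ} (hl : l ∈ lattice Complex.basisOneI) :
    l ∈ thetaPeriods := by
  have : lattice Complex.basisOneI ≤ AddSubgroup.toIntSubmodule thetaPeriods := by
    refine Submodule.span_le.2 ?_
    rintro _ ⟨i, rfl⟩
    fin_cases i
    · simpa using one_mem_thetaPeriods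
    · simpa using I_mem_thetaPeriods
  exact this hl

theorem thetaZeros_isPeriodic : IsPeriodic (lattice Complex.basisOneI) thetaZeros :=
  fun _ hl x hx => ((mem_thetaPeriods_of_mem_lattice hl) x).1.2 hx

theorem thetaLog_periodic {l : ℂ} (hl : l ∈ lattice Complex.basisOneI) {x : ℂ}
    (hx : x ∉ thetaZeros) : thetaLog (l + x) = thetaLog x :=
  ((mem_thetaPeriods_of_mem_lattice hl) x).2 hx

theorem thetaZeros_isClosed : IsClosed thetaZeros :=
  isClosed_singleton.preimage gaussTheta_differentiable.continuous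

/-- The zeros of `θ` do not accumulate (identity theorem). -/
theorem thetaZeros_inter_finite {K : Set ℂ} (hK : IsCompact K) : (thetaZeros ∩ K).Finite := by
  by_contra hinf
  obtain ⟨x, -, hx⟩ := Set.Infinite.exists_accPt_of_subset_isCompact hinf hK inter_subset_right
  rw [accPt_iff_frequently_nhdsNE] at hx
  have := gaussTheta_analyticOnNhd.eqOn_zero_of_preconnected_of_frequently_eq_zero
    isPreconnected_univ (mem_univ x) (hx.mono fun y hy => hy.1)
  exact gaussTheta_zero_ne_zero (this (mem_univ 0))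

/-- The zero set of `θ` is (the preimage in `ℂ` of) a finite set of points of `ℂ / ℤ[i]`. -/
theorem thetaZeros_eq_iUnion : ∃ (m : ℕ) (a : Fin m → ℂ),
    thetaZeros = ⋃ j, (fun y => a j + y) '' (lattice Complex.basisOneI : Set ℂ) := by
  have hfin := thetaZeros_inter_finite (K := Icc 0 1 ×ℂ Icc 0 1)
    (isCompact_Icc.reProdIm isCompact_Icc)
  let S := hfin.toFinset
  let e := S.equivFin
  refine ⟨S.card, fun j => ((e.symm j : ℂ)), ?_⟩
  ext z
  simp only [mem_iUnion]
  constructor
  · intro hz
    let l : ℂ := (⌊z.re⌋ : ℂ) + (⌊z.im⌋ : ℂ) * I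
    have hl : l ∈ lattice Complex.basisOneI := (mem_lattice_basisOneI l).2 ⟨_, _, rfl⟩
    have hz' : -l + z ∈ thetaZeros :=
      thetaZeros_isPeriodic _ ((lattice Complex.basisOneI).neg_mem hl) z hz
    have hK : -l + z ∈ Icc (0 : ℝ) 1 ×ℂ Icc (0 : ℝ) 1 := by
      rw [Complex.mem_reProdIm]
      have h1 := Int.floor_le z.re
      have h2 := (Int.lt_floor_add_one z.re).le
      have h3 := Int.floor_le z.im
      have h4 := (Int.lt_floor_add_one z.im).le
      constructor <;> constructor <;> simp [l] <;> linarith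
    have hS : -l + z ∈ S := hfin.mem_toFinset.2 ⟨hz', hK⟩
    refine ⟨e ⟨_, hS⟩, l, hl, ?_⟩
    simp
  · rintro ⟨j, l, hl, rfl⟩
    have hj : ((e.symm j : ℂ)) ∈ thetaZeros := (hfin.mem_toFinset.1 (e.symm j).2).1
    have := thetaZeros_isPeriodic l hl _ hj
    rwa [add_comm] at this

/-- The zero set of `θ` is a closed algebraic subset of codimension one of `ℂ / ℤ[i]`. -/
theorem thetaZeros_isAlgebraic :
    IsAlgebraicSubsetOfCodimGE (lattice Complex.basisOneI) 1 thetaZeros := by
  obtain ⟨m, a, h⟩ := thetaZeros_eq_iUnion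
  exact ⟨m, fun j => (fun y => a j + y) '' (lattice Complex.basisOneI : Set ℂ),
    fun _ => 0, fun j => (isSubvariety_lattice _).image_add _, fun _ => by simp, h⟩

/-! ### The primitive of the polarisation on the complement of the zeros of `θ` -/

/-- The `1`-form `dz` on `ℂ`. -/
noncomputable def formDz : ℂ [⋀^Fin 1]→L[ℝ] ℂ :=
  ContinuousAlternatingMap.ofSubsingleton ℝ ℂ ℂ 0 (ContinuousLinearMap.id ℝ ℂ)

theorem formDz_apply (v : Fin 1 → ℂ) : formDz v = v 0 := rfl

/-- `c ↦ c dz`, as a continuous `ℝ`-linear map. -/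
noncomputable def mulDz : ℂ →L[ℝ] (ℂ [⋀^Fin 1]→L[ℝ] ℂ) :=
  (ContinuousLinearMap.id ℝ ℂ).smulRight formDz

theorem mulDz_apply (c : ℂ) (v : Fin 1 → ℂ) : mulDz c v = c * v 0 := rfl

/-- The `1`-form `η = c g(z) dz`, where `g(z) = θ'(z) / θ(z) + 2 π i Im z`. -/
noncomputable def thetaForm (c : ℂ) (z : ℂ) : ℂ [⋀^Fin 1]→L[ℝ] ℂ := mulDz (c * thetaLog z)

theorem thetaLog_contDiffOn : ContDiffOn ℝ ∞ thetaLog thetaZerosᶜ := by
  have h1 : AnalyticOnNhd ℂ (fun z => deriv gaussTheta z / gaussTheta z) thetaZerosᶜ :=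
    (gaussTheta_analyticOnNhd.deriv.mono (subset_univ _)).div
      (gaussTheta_analyticOnNhd.mono (subset_univ _)) (fun z hz => hz)
  have h2 : ContDiffOn ℝ ∞ (fun z => deriv gaussTheta z / gaussTheta z) thetaZerosᶜ :=
    (h1.contDiffOn (n := ∞) thetaZeros_isClosed.isOpen_compl.uniqueDiffOn).restrict_scalars ℝ
  have h3 : ContDiff ℝ ∞ (fun z : ℂ => 2 * π * I * (z.im : ℂ)) :=
    contDiff_const.mul (Complex.ofRealCLM.comp Complex.imCLM).contDiff
  exact h2.add h3.contDiffOn

theorem thetaForm_contDiffOn (c : ℂ) : ContDiffOn ℝ ∞ (thetaForm c) thetaZerosᶜ :=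
  mulDz.contDiff.comp_contDiffOn (contDiffOn_const.mul thetaLog_contDiffOn)

/-- The real differential of `g`: a complex linear map (as `θ'/θ` is holomorphic) plus
`2 π i Im`. -/
theorem thetaLog_hasFDerivAt {x : ℂ} (hx : x ∉ thetaZeros) :
    ∃ (ℓ : ℂ) (D : ℂ →L[ℝ] ℂ), HasFDerivAt thetaLog D x ∧
      ∀ v, D v = v * ℓ + 2 * π * I * (v.im : ℂ) := by
  have hd : DifferentiableAt ℂ (fun z => deriv gaussTheta z / gaussTheta z) x :=
    ((gaussTheta_analyticOnNhd.deriv x (mem_univ x)).differentiableAt).div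
      (gaussTheta_differentiable x) hx
  have h1 := hd.hasDerivAt.hasFDerivAt.restrictScalars ℝ
  have h2 : HasFDerivAt (fun z : ℂ => 2 * π * I * (z.im : ℂ))
      ((2 * π * I : ℂ) • (Complex.ofRealCLM.comp Complex.imCLM)) x :=
    (Complex.ofRealCLM.comp Complex.imCLM).hasFDerivAt.const_mul _
  refine ⟨deriv (fun z => deriv gaussTheta z / gaussTheta z) x, _, h1.add h2, fun v => ?_⟩
  simp

/-- `d (c g dz) = 2 π i c E` off the zeros of `θ`. -/
theorem extDeriv_thetaForm (c : ℂ) {x : ℂ} (hx : x ∉ thetaZeros) (v : Fin 2 → ℂ) :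
    extDeriv (thetaForm c) x v = c * (2 * π * I) * ((gaussForm (v 0) (v 1) : ℝ) : ℂ) := by
  obtain ⟨ℓ, D, hD, hDv⟩ := thetaLog_hasFDerivAt hx
  have h : HasFDerivAt (thetaForm c) (mulDz.comp (c • D)) x :=
    mulDz.hasFDerivAt.comp x (hD.const_mul c)
  have hw : ∀ w : Fin 1 → ℂ, HasFDerivAt (fun y => thetaForm c y w) ((w 0) • (c • D)) x :=
    fun w => (hD.const_mul c).mul_const (w 0)
  rw [extDeriv_apply h.differentiableAt, Fin.sum_univ_two, (hw _).fderiv, (hw _).fderiv]
  simp only [smul_apply, hDv, gaussForm_apply]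
  simp [Fin.removeNth]
  apply Complex.ext <;> simp <;> ring

/-- **The class of the polarisation of `A = ℂ / ℤ[i]`, and each of its complex multiples, restricts to
zero on the complement of the finitely many zeros of `θ`.** -/
theorem restrictsToZero_gauss (q : ℂ) :
    RestrictsToZero (lattice Complex.basisOneI) thetaZeros
      (q • formOfBilin gaussForm gauss_isRiemannForm.alt) := by
  refine ⟨thetaForm (q / (2 * π * I)), thetaForm_contDiffOn _, fun l hl x hx => ?_,
    fun x hx v => ?_⟩
  · simp only [thetaForm, thetaLog_periodic hl hx]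
  · have h2 : (2 * π * I : ℂ) ≠ 0 := by simp [Real.pi_ne_zero]
    rw [extDeriv_thetaForm _ hx, div_mul_cancel₀ _ h2]
    rfl

/-- ... although it does not restrict to zero on `A ∖ ∅ = A`; and the zero set of `θ` is not all of
`A`. -/
theorem not_restrictsToZero_gauss_empty :
    ¬ RestrictsToZero (lattice Complex.basisOneI) ∅
      (formOfBilin gaussForm gauss_isRiemannForm.alt) ∧ thetaZeros ≠ Set.univ :=
  ⟨fun h => gauss_isRiemannForm.formOfBilin_ne_zero ((restrictsToZero_empty_iff _ _).1 h),
    fun h => gaussTheta_zero_ne_zero (show (0 : ℂ) ∈ thetaZeros from h ▸ mem_univ (0 : ℂ))⟩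

/-- Hence `θ` has a zero. -/
theorem thetaZeros_nonempty : thetaZeros.Nonempty := by
  rw [Set.nonempty_iff_ne_empty]
  intro h
  have := restrictsToZero_gauss 1
  rw [h, one_smul] at this
  exact not_restrictsToZero_gauss_empty.1 this

/-! ### The cohomology of `ℂ / ℤ[i]`, and `GeneralizedHodgeCM` for it -/

/-- `H^2(A,ℂ) = ℂ [E]` for the elliptic curve `A = ℂ / ℤ[i]`. -/
theorem form_two_eq_smul (φ : Form ℂ 2) :
    ∃ c : ℂ, φ = c • (formOfBilin gaussForm gauss_isRiemannForm.alt : Form ℂ 2) := by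
  refine ⟨-φ ![1, I], ?_⟩
  apply Complex.basisOneI.ext_alternating
  intro v hv
  have hne : v 0 ≠ v 1 := hv.ne (by decide)
  have hfun : (fun i => Complex.basisOneI (v i)) =
      ![Complex.basisOneI (v 0), Complex.basisOneI (v 1)] := by
    funext i; fin_cases i <;> rfl
  have hswap : φ ![I, 1] = -φ ![1, I] := by
    have := φ.map_swap ![1, I] (show (0 : Fin 2) ≠ 1 by decide)
    rw [← this]
    congr 1
    funext i; fin_cases i <;> simp
  rw [hfun, AlternatingMap.smul_apply, formOfBilin_apply, gaussForm_apply]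
  generalize v 0 = a at *
  generalize v 1 = b at *
  fin_cases a <;> fin_cases b <;> simp_all

/-- `H^k(A,ℂ) = 0` for `k ≥ 3`, for the elliptic curve `A = ℂ / ℤ[i]`. -/
theorem form_eq_zero_of_three_le {k : ℕ} (hk : 3 ≤ k) (φ : Form ℂ k) : φ = 0 := by
  apply Complex.basisOneI.ext_alternating
  intro v hv
  have := Fintype.card_le_of_injective v hv
  simp at this
  omega

/-- **The conclusion of `GeneralizedHodgeCM` holds for the CM elliptic curve `A = ℂ / ℤ[i]`**, for all
`k`, `r` and all rational Hodge substructures `W ⊆ H^k(A,ℚ)` such that `W(r)` is effective. -/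
theorem generalizedHodgeCM_gauss (k r : ℕ) (W : Submodule ℚ (Form ℂ k))
    (hW : IsHodgeSubstructure (lattice Complex.basisOneI) W) (hr : IsEffectiveTwist W r) :
    ∃ Z : Set ℂ, IsAlgebraicSubsetOfCodimGE (lattice Complex.basisOneI) r Z ∧
      ∀ φ ∈ W, RestrictsToZero (lattice Complex.basisOneI) Z φ := by
  rcases Nat.eq_zero_or_pos r with rfl | hr0
  · exact generalizedHodge_of_r_eq_zero _ W
  by_cases hk3 : 3 ≤ k
  · refine ⟨∅, isAlgebraicSubsetOfCodimGE_empty _ r, fun φ _ => ?_⟩
    rw [form_eq_zero_of_three_le hk3 φ]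
    exact restrictsToZero_zero _ _
  by_cases h21 : k = 2 ∧ r = 1
  · obtain ⟨rfl, rfl⟩ := h21
    refine ⟨thetaZeros, thetaZeros_isAlgebraic, fun φ _ => ?_⟩
    obtain ⟨c, rfl⟩ := form_two_eq_smul φ
    exact restrictsToZero_gauss c
  · have hall : ∀ p : Fin (k + 1), complexSpan W ⊓ hodgePiece ℂ p k = ⊥ := fun p => by
      have := p.2
      exact hr p (k - p) (by omega) (by omega)
    refine ⟨∅, isAlgebraicSubsetOfCodimGE_empty _ r, fun φ hφ => ?_⟩
    rw [hW.eq_zero_of_forall hall hφ]
    exact restrictsToZero_zero _ _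

end Claimed.Open.R032
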