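import Claimed.Open.R032.SanitySubtorus
import Claimed.Open.R032.SanityInvariance
import Claimed.Open.R032.SanityOrientation
import Claimed.Open.R032.SanityWedge

/-!
# Sanity checks for R032: the cohomology class of the kernel of a homomorphism of complex tori

Let `f : A = V / Λ → A' = V' / Λ'` be the homomorphism induced by a `ℂ`-linear map `N : V → V'`
with `N Λ = Λ'`, let `p = dim A'`, and `Z = ker f`, an abelian subvariety of codimension `p`.

* `MapsLatticeOnto.integralOver_wedge_pullback` (projection formula):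
  `∫_A f^*τ ∧ ψ = ± ∫_{A'} τ · ∫_Z ψ`;
* `MapsLatticeOnto.pullback_mem_algebraicClasses`: for every rational class `τ` of top degree on
  `A'`, the class `f^* τ` is a rational multiple of the class of `Z`; in particular it belongs to
  `algebraicClasses b p`.
-/

open MeasureTheory Module

set_option linter.unusedSectionVars false

namespace Claimed.Open.R032

variable {V : Type*} [NormedAddCommGroup V] [InnerProductSpace ℂ V] [FiniteDimensional ℂ V]
variable {V' : Type*} [NormedAddCommGroup V'] [InnerProductSpace ℂ V'] [FiniteDimensional ℂ V']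

/-- The pull-back `f^* τ` of a class under the homomorphism of tori induced by `N`. -/
noncomputable def pullback (N : V →L[ℂ] V') {n : ℕ} (τ : Form V' n) : Form V n :=
  τ.compLinearMap ((N.restrictScalars ℝ : V →L[ℝ] V') : V →ₗ[ℝ] V')

omit [FiniteDimensional ℂ V] [FiniteDimensional ℂ V'] in
@[simp] theorem pullback_apply (N : V →L[ℂ] V') {n : ℕ} (τ : Form V' n) (v : Fin n → V) :
    pullback N τ v = τ (fun i => N (v i)) := rfl

omit [FiniteDimensional ℂ V] [FiniteDimensional ℂ V'] in
theorem pullback_smul (N : V →L[ℂ] V') {n : ℕ} (z : ℂ) (τ : Form V' n) :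
    pullback N (z • τ) = z • pullback N τ := rfl

omit [FiniteDimensional ℂ V] [FiniteDimensional ℂ V'] in
theorem pullback_rat_smul (N : V →L[ℂ] V') {n : ℕ} (q : ℚ) (τ : Form V' n) :
    pullback N (q • τ) = q • pullback N τ := rfl

variable {ι ι' : Type*} {b : Basis ι ℝ V} {b' : Basis ι' ℝ V'} {N : V →L[ℂ] V'}

theorem MapsLatticeOnto.finrank_add (hN : MapsLatticeOnto b b' N) :
    finrank ℂ V' + finrank ℂ (LinearMap.ker N.toLinearMap) = finrank ℂ V := by
  have h := LinearMap.finrank_range_add_finrank_ker N.toLinearMap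
  have h2 : LinearMap.range N.toLinearMap = ⊤ := LinearMap.range_eq_top.2 hN.surjective
  rw [h2, finrank_top] at h
  exact h

variable [MeasurableSpace V] [BorelSpace V] [MeasurableSpace V'] [BorelSpace V']

/-- **Projection formula** `∫_A f^*τ ∧ ψ = ± ∫_{A'} τ · ∫_{ker f} ψ`, with a sign which does not
depend on `τ` and `ψ`. -/
theorem MapsLatticeOnto.integralOver_wedge_pullback (hN : MapsLatticeOnto b b' N) {p d : ℕ}
    (hp : p = finrank ℂ V') (hd : d = finrank ℂ (LinearMap.ker N.toLinearMap)) :
    ∃ ε : ℝ, (ε = 1 ∨ ε = -1) ∧ ∀ (τ : Form V' (2 * p)) (ψ : Form V (2 * d)),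
      integralOver b Set.univ (wedge (pullback N τ) ψ) =
        ε * integralOver b' Set.univ τ * integralOver b (N ⁻¹' (lattice b' : Set V')) ψ := by
  subst hd
  have := finite_index b'
  have := Fintype.ofFinite ι'
  obtain ⟨μ, hμ⟩ := hN.exists_kerBasis
  generalize hd : finrank ℂ (LinearMap.ker N.toLinearMap) = d at μ hμ ⊢
  have hlat : lattice b = lattice (hN.adaptedBasis μ) := (hN.lattice_adaptedBasis μ hμ).symm
  have hcard : Fintype.card ι' = 2 * p := by
    rw [← Module.finrank_eq_card_basis b', finrank_real_of_complex, hp]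
  let σ' : ι' ≃ Fin (2 * p) := Fintype.equivFinOfCardEq hcard
  let σ : Fin (2 * d) ⊕ ι' ≃ Fin (2 * p + 2 * d) :=
    (Equiv.sumComm _ _).trans ((Equiv.sumCongr σ' (Equiv.refl _)).trans finSumFinEquiv)
  have hdim : 2 * p + 2 * d = 2 * finrank ℂ V := by
    rw [← hN.finrank_add, hp, hd]; ring
  obtain ⟨ε₁, hε₁, h₁⟩ := integralOver_univ_eq (hN.adaptedBasis μ) hdim σ
  obtain ⟨ε₂, hε₂, h₂⟩ := integralOver_univ_eq b' (by rw [hp]) σ'
  obtain ⟨ε₃, hε₃, h₃⟩ := measure_parallelotope_mul_evalOn (LinearMap.ker N.toLinearMap)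
    (n := 2 * d) (by rw [hd]) μ (Equiv.refl _)
  refine ⟨ε₁ * ε₂ * ε₃, ?_, ?_⟩
  · rcases hε₁ with rfl | rfl <;> rcases hε₂ with rfl | rfl <;> rcases hε₃ with rfl | rfl <;> simp
  intro τ ψ
  have hl : ∀ i, (hN.adaptedBasis μ ∘ σ.symm) (Fin.castAdd (2 * d) i) = hN.lift (σ'.symm i) := by
    intro i
    simp [σ, hN.adaptedBasis_inr]
  have hr : ∀ j, (hN.adaptedBasis μ ∘ σ.symm) (Fin.natAdd (2 * p) j) = (μ j : V) := by
    intro j
    simp [σ, hN.adaptedBasis_inl]
  have hw : wedge (pullback N τ) ψ (hN.adaptedBasis μ ∘ σ.symm) =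
      τ (b' ∘ σ'.symm) * ψ (fun j => (μ j : V)) := by
    rw [wedge_apply_of_vanish]
    · congr 1
      · rw [pullback_apply]
        congr 1
        funext i
        rw [Function.comp_apply, hl, hN.map_lift]
        rfl
      · congr 1
        funext j
        rw [Function.comp_apply, hr]
    · rintro u ⟨i, j, hij⟩
      rw [pullback_apply]
      refine τ.map_coord_zero i ?_
      rw [hij, hr]
      exact (μ j).2
  rw [integralOver_eq_of_lattice_eq b _ hlat (isPeriodic_univ _), h₁, hw, h₂,
    integralOver_eq_of_lattice_eq b _ hlat (isSubvariety_preimage_lattice hN).periodic,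
    hN.integralOver_adaptedBasis μ, h₃]
  have e2 : (ε₂ : ℂ) * ε₂ = 1 := by
    rcases hε₂ with rfl | rfl <;> simp
  have e3 : (ε₃ : ℂ) * ε₃ = 1 := by
    rcases hε₃ with rfl | rfl <;> simp
  simp only [Equiv.refl_symm, Equiv.refl_apply]
  push_cast
  linear_combination (-(ε₁ : ℂ) * τ (b' ∘ σ'.symm) * ψ (fun j => (μ j : V))) * (e2 * (ε₃ * ε₃) + e3)

/-- The integral over `A` of a rational class of top degree is a rational number. -/
theorem exists_rat_integralOver_univ (b : Basis ι ℝ V) {n : ℕ} (hn : n = 2 * finrank ℂ V)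
    (τ : Form V n) (hτ : IsRational (lattice b) τ) :
    ∃ q : ℚ, integralOver b Set.univ τ = (q : ℂ) := by
  have := finite_index b
  have := Fintype.ofFinite ι
  have hcard : Fintype.card ι = n := by
    rw [← Module.finrank_eq_card_basis b, finrank_real_of_complex, hn]
  obtain ⟨ε, hε, h⟩ := integralOver_univ_eq b hn (Fintype.equivFinOfCardEq hcard)
  obtain ⟨q, hq⟩ := hτ (b ∘ (Fintype.equivFinOfCardEq hcard).symm)
    (fun i => Submodule.subset_span ⟨_, rfl⟩)
  rcases hε with rfl | rfl
  · exact ⟨q, by rw [h, hq]; simp⟩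
  · exact ⟨-q, by rw [h, hq]; simp⟩

/-- A class of top degree with integral `0` vanishes. -/
theorem eq_zero_of_integralOver_univ_eq_zero' (b : Basis ι ℝ V) {n : ℕ}
    (hn : n = 2 * finrank ℂ V) (τ : Form V n) (hτ : integralOver b Set.univ τ = 0) : τ = 0 := by
  have := finite_index b
  have := Fintype.ofFinite ι
  have hcard : Fintype.card ι = n := by
    rw [← Module.finrank_eq_card_basis b, finrank_real_of_complex, hn]
  obtain ⟨ε, hε, h⟩ := integralOver_univ_eq b hn (Fintype.equivFinOfCardEq hcard)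
  have h0 : τ (b ∘ (Fintype.equivFinOfCardEq hcard).symm) = 0 := by
    rw [h] at hτ
    rcases hε with rfl | rfl <;> simpa using hτ
  ext v
  rw [form_eq_det_mul (b.reindex (Fintype.equivFinOfCardEq hcard)) τ v, b.coe_reindex, h0]
  simp

/-- The class of the abelian subvariety `ker f` is `± f^* τ`, where `∫_{A'} τ = 1`. -/
theorem MapsLatticeOnto.exists_sign_isCycleClass (hN : MapsLatticeOnto b b' N) {p d : ℕ}
    (hp : p = finrank ℂ V') (hd : d = finrank ℂ (LinearMap.ker N.toLinearMap)) :
    ∃ ε : ℚ, (ε = 1 ∨ ε = -1) ∧ ∀ τ : Form V' (2 * p), integralOver b' Set.univ τ = 1 →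
      IsCycleClass b p d (N ⁻¹' (lattice b' : Set V')) (ε • pullback N τ) := by
  obtain ⟨ε, hε, h⟩ := hN.integralOver_wedge_pullback hp hd
  rcases hε with rfl | rfl
  · refine ⟨1, Or.inl rfl, fun τ hτ ψ => ?_⟩
    rw [one_smul, h, hτ]
    simp
  · refine ⟨-1, Or.inr rfl, fun τ hτ ψ => ?_⟩
    have h1 : (-1 : ℚ) • pullback N τ = pullback N (-τ) := by
      ext v; simp
    have h2 : integralOver b' Set.univ (-τ) = -1 := by
      have hcard := finite_index b'
      have := Fintype.ofFinite ι'
      have hcard : Fintype.card ι' = 2 * p := by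
        rw [← Module.finrank_eq_card_basis b', finrank_real_of_complex, hp]
      obtain ⟨ε, -, h'⟩ := integralOver_univ_eq b' (by rw [hp]) (Fintype.equivFinOfCardEq hcard)
      rw [h', AlternatingMap.neg_apply, mul_neg, ← h', hτ]
    rw [h1, h, h2]
    simp

/-- For every rational class `τ` of top degree on `A'`, the class `f^* τ` is algebraic: it is a
rational multiple of the class of the abelian subvariety `ker f`. -/
theorem MapsLatticeOnto.pullback_mem_algebraicClasses (hN : MapsLatticeOnto b b' N) {p : ℕ}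
    (hp : p = finrank ℂ V') (τ : Form V' (2 * p)) (hτ : IsRational (lattice b') τ) :
    pullback N τ ∈ algebraicClasses b p := by
  obtain ⟨q, hq⟩ := exists_rat_integralOver_univ b' (by rw [hp]) τ hτ
  by_cases hq0 : q = 0
  · have : τ = 0 := eq_zero_of_integralOver_univ_eq_zero' b' (by rw [hp]) τ (by rw [hq, hq0]; simp)
    rw [this]
    have : pullback N (0 : Form V' (2 * p)) = 0 := rfl
    rw [this]
    exact Submodule.zero_mem _
  obtain ⟨ε, hε, h⟩ := hN.exists_sign_isCycleClass hp rfl
  have h1 : integralOver b' Set.univ (q⁻¹ • τ) = 1 := by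
    have hcard := finite_index b'
    have := Fintype.ofFinite ι'
    have hcard : Fintype.card ι' = 2 * p := by
      rw [← Module.finrank_eq_card_basis b', finrank_real_of_complex, hp]
    obtain ⟨ε, -, h'⟩ := integralOver_univ_eq b' (by rw [hp]) (Fintype.equivFinOfCardEq hcard)
    have hq0' : (q : ℂ) ≠ 0 := by exact_mod_cast hq0
    rw [h', AlternatingMap.smul_apply, Rat.smul_def, mul_left_comm, ← h', hq]
    push_cast
    exact inv_mul_cancel₀ hq0'
  have h2 : ε • pullback N (q⁻¹ • τ) ∈ algebraicClasses b p :=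
    Submodule.subset_span ⟨_, _, by rw [hp]; exact hN.finrank_add,
      isSubvariety_preimage_lattice hN, h _ h1⟩
  have h3 : pullback N τ = (q * ε) • (ε • pullback N (q⁻¹ • τ)) := by
    rw [pullback_rat_smul, smul_smul, smul_smul]
    have : q * ε * ε * q⁻¹ = 1 := by
      rcases hε with rfl | rfl <;> field_simp
    rw [this, one_smul]
  rw [h3]
  exact Submodule.smul_mem _ _ h2

end Claimed.Open.R032
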