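import Claimed.Open.R032.Statement
import Claimed.Open.R032.SanityGHC
import Claimed.Open.R032.SanitySubtorusClass

/-!
# The kernel of the restriction `H^k(A,ℂ) → H^k(A ∖ Z,ℂ)`: formal properties of `RestrictsToZero`

* `RestrictsToZero.mono` : it grows with `Z`;
* `RestrictsToZero.add`, `RestrictsToZero.smul` : it is a complex subspace of `H^k(A,ℂ)`;
* `RestrictsToZero.pullback` : it is compatible with pull-back under homomorphisms `f : A → A'`:
  if `φ` dies on `A' ∖ Z` then `f^* φ` dies on `A ∖ f⁻¹(Z)`.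
-/

open MeasureTheory Module Set
open scoped ContDiff

namespace Claimed.Open.R032

variable {V : Type*} [NormedAddCommGroup V] [InnerProductSpace ℂ V]
variable {V' : Type*} [NormedAddCommGroup V'] [InnerProductSpace ℂ V']

theorem RestrictsToZero.mono {Λ : Submodule ℤ V} {Z Z' : Set V} (h : Z ⊆ Z') {k : ℕ}
    {φ : Form V k} (hφ : RestrictsToZero Λ Z φ) : RestrictsToZero Λ Z' φ := by
  cases k with
  | zero =>
    rcases hφ with h0 | h0
    · exact Or.inl h0
    · exact Or.inr (Set.univ_subset_iff.1 (h0 ▸ h))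
  | succ m =>
    obtain ⟨η, h1, h2, h3⟩ := hφ
    have hc : Z'ᶜ ⊆ Zᶜ := Set.compl_subset_compl.2 h
    exact ⟨η, h1.mono hc, fun l hl x hx => h2 l hl x (hc hx), fun x hx v => h3 x (hc hx) v⟩

theorem RestrictsToZero.add {Λ : Submodule ℤ V} {Z : Set V} (hZ : IsClosed Z) {k : ℕ}
    {φ ψ : Form V k} (hφ : RestrictsToZero Λ Z φ) (hψ : RestrictsToZero Λ Z ψ) :
    RestrictsToZero Λ Z (φ + ψ) := by
  cases k with
  | zero =>
    rcases hφ with h0 | h0
    · rcases hψ with h1 | h1
      · left; rw [h0, h1, add_zero]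
      · exact Or.inr h1
    · exact Or.inr h0
  | succ m =>
    obtain ⟨η, h1, h2, h3⟩ := hφ
    obtain ⟨η', h1', h2', h3'⟩ := hψ
    refine ⟨η + η', h1.add h1', fun l hl x hx => ?_, fun x hx v => ?_⟩
    · simp [h2 l hl x hx, h2' l hl x hx]
    · have hd : DifferentiableAt ℝ η x :=
        (h1.contDiffAt (hZ.isOpen_compl.mem_nhds hx)).differentiableAt (by simp)
      have hd' : DifferentiableAt ℝ η' x :=
        (h1'.contDiffAt (hZ.isOpen_compl.mem_nhds hx)).differentiableAt (by simp)
      rw [extDeriv_add hd hd']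
      simp [h3 x hx v, h3' x hx v]

theorem RestrictsToZero.smul {Λ : Submodule ℤ V} {Z : Set V} (hZ : IsClosed Z) {k : ℕ}
    {φ : Form V k} (c : ℂ) (hφ : RestrictsToZero Λ Z φ) : RestrictsToZero Λ Z (c • φ) := by
  cases k with
  | zero =>
    rcases hφ with h0 | h0
    · left; rw [h0, smul_zero]
    · exact Or.inr h0
  | succ m =>
    obtain ⟨η, h1, h2, h3⟩ := hφ
    refine ⟨fun x => c • η x, h1.const_smul c, fun l hl x hx => ?_, fun x hx v => ?_⟩
    · simp only [h2 l hl x hx]
    · have hd : DifferentiableAt ℝ η x :=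
        (h1.contDiffAt (hZ.isOpen_compl.mem_nhds hx)).differentiableAt (by simp)
      have hw : ∀ w : Fin m → V, DifferentiableAt ℝ (fun y => η y w) x := fun w =>
        (ContinuousAlternatingMap.apply ℝ V ℂ w).differentiableAt.comp x hd
      have hw' : ∀ w : Fin m → V, fderiv ℝ (fun y => (c • η y) w) x =
          c • fderiv ℝ (fun y => η y w) x := fun w =>
        ((hw w).hasFDerivAt.const_smul c).fderiv
      have hd2 : DifferentiableAt ℝ (fun x => c • η x) x := hd.const_smul c
      rw [extDeriv_apply hd2, AlternatingMap.smul_apply, ← h3 x hx v,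
        extDeriv_apply hd, Finset.smul_sum]
      refine Finset.sum_congr rfl fun i _ => ?_
      rw [hw']
      simp only [smul_apply, smul_eq_mul, zsmul_eq_mul]
      ring

theorem RestrictsToZero.pullback {Λ : Submodule ℤ V} {Λ' : Submodule ℤ V'} (N : V →L[ℂ] V')
    (hN : ∀ l ∈ Λ, N l ∈ Λ') {Z : Set V'} (hZ : IsClosed Z) {k : ℕ} {φ : Form V' k}
    (hφ : RestrictsToZero Λ' Z φ) : RestrictsToZero Λ (N ⁻¹' Z) (pullback N φ) := by
  cases k with
  | zero =>
    rcases hφ with h0 | h0
    · left; rw [h0]; rfl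
    · right; rw [h0]; rfl
  | succ m =>
    obtain ⟨η, h1, h2, h3⟩ := hφ
    let NR : V →L[ℝ] V' := N.restrictScalars ℝ
    have hmaps : MapsTo NR (N ⁻¹' Z)ᶜ Zᶜ := fun x hx => hx
    refine ⟨fun x => (η (NR x)).compContinuousLinearMap NR, ?_, fun l hl x hx => ?_,
      fun x hx v => ?_⟩
    · exact (ContinuousAlternatingMap.compContinuousLinearMapCLM NR).contDiff.comp_contDiffOn
        (h1.comp NR.contDiff.contDiffOn hmaps)
    · have : NR (l + x) = N l + NR x := map_add N l x
      simp only [this, h2 (N l) (hN l hl) (NR x) hx]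
    · have hd : DifferentiableAt ℝ η (NR x) :=
        (h1.contDiffAt (hZ.isOpen_compl.mem_nhds hx)).differentiableAt (by simp)
      have key := extDeriv_pullback (f := NR) (x := x) (r := ∞) hd
        NR.contDiff.contDiffAt (by
          rw [minSmoothness_of_isRCLikeNormedField]
          exact (WithTop.coe_le_coe.2 le_top : ((2 : ℕ∞) : ℕ∞ω) ≤ ((⊤ : ℕ∞) : ℕ∞ω)))
      simp only [ContinuousLinearMap.fderiv] at key
      rw [key]
      exact h3 (NR x) hx _

end Claimed.Open.R032
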