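import Claimed.Open.R032.SanityTheta
import Claimed.Open.R032.SanityRestrict
import Claimed.Open.R032.SanityHodge
import Claimed.Open.R032.SanityProducts
import Claimed.Open.R032.SanityCompanion

/-!
# `GeneralizedHodgeCM` on `(ℂ / ℤ[i])^n`: classes of type `(1,1)` supported on divisors

An example of the hypotheses and of the conclusion of `GeneralizedHodgeCM` in every dimension `n`, with
`k = 2`, `r = 1`, in which the closed algebraic subset `Z` is a genuine divisor.

Let `A = (ℂ / ℤ[i])^n`, let `pr_k : A → ℂ / ℤ[i]` be the projections and `W ⊆ H²(A,ℚ)` the `ℚ`-span of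
the classes `pr_k^* [E]` (it contains the class `∑_k pr_k^* [E]` of the standard polarisation of `A`).

* `gaussPowerW_hypotheses` : `A` is polarisable and of CM type, `W` is a rational Hodge substructure,
  `W(1)` is effective.
* `gaussPowerW_conclusion` : all classes in `W` restrict to zero on the complement of the divisor
  `Z = ⋃_k pr_k⁻¹ (zeros of θ)`, a finite union of translates of the abelian subvarieties `ker pr_k`, of
  dimension `n - 1`.

General facts: finite unions (`isAlgebraicSubsetOfCodimGE_iUnion`); fibres of a surjective homomorphism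
with connected kernel are subvarieties (`isSubvariety_preimage_coset`); pull-backs of Hodge classes are
Hodge classes (`IsHodgeClass.pullback`); the span of Hodge classes of codimension `p` is a rational Hodge
substructure `W` such that `W(p)` is effective (`isHodgeSubstructure_span`, `isEffectiveTwist_span`).
-/

open MeasureTheory Module Set Complex

namespace Claimed.Open.R032

section general

variable {V : Type*} [NormedAddCommGroup V] [InnerProductSpace ℂ V]
variable {V' : Type*} [NormedAddCommGroup V'] [InnerProductSpace ℂ V']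

/-- A finite union of subvarieties of dimension `≤ dim A - r` is a closed algebraic subset of
codimension `≥ r`. -/
theorem isAlgebraicSubsetOfCodimGE_iUnion {Λ : Submodule ℤ V} {r : ℕ} {κ : Type*} [Finite κ]
    (Y : κ → Set V) (d : κ → ℕ) (hY : ∀ i, IsSubvariety Λ (d i) (Y i))
    (hd : ∀ i, d i + r ≤ finrank ℂ V) : IsAlgebraicSubsetOfCodimGE Λ r (⋃ i, Y i) := by
  obtain ⟨m, ⟨e⟩⟩ := Finite.exists_equiv_fin κ
  exact ⟨m, Y ∘ e.symm, d ∘ e.symm, fun j => hY _, fun j => hd _,
    (e.symm.surjective.iUnion_comp Y).symm⟩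

/-- A closed algebraic subset is closed. -/
theorem IsAlgebraicSubsetOfCodimGE.isClosed {Λ : Submodule ℤ V} {r : ℕ} {Z : Set V}
    (h : IsAlgebraicSubsetOfCodimGE Λ r Z) : IsClosed Z := by
  obtain ⟨m, Y, d, hY, -, rfl⟩ := h
  exact isClosed_iUnion_of_finite fun j => (hY j).analytic.isClosed

theorem preimage_image_add (N : V →L[ℂ] V') (a : V) (S : Set V') :
    N ⁻¹' ((fun y => N a + y) '' S) = (fun y => a + y) '' (N ⁻¹' S) := by
  ext x
  constructor
  · rintro ⟨y, hy, hxy⟩
    refine ⟨-a + x, ?_, by simp⟩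
    have : N (-a + x) = y := by
      rw [map_add, map_neg, ← hxy]; simp
    simpa [this] using hy
  · rintro ⟨y, hy, rfl⟩
    exact ⟨N y, hy, by simp⟩

variable [FiniteDimensional ℂ V] [FiniteDimensional ℂ V'] {ι ι' : Type*} {b : Basis ι ℝ V}
  {b' : Basis ι' ℝ V'} {N : V →L[ℂ] V'}

/-- The fibres of a surjective homomorphism `f : A → A'` with connected kernel are subvarieties of
dimension `dim ker f`. -/
theorem isSubvariety_preimage_coset (hN : MapsLatticeOnto b b' N) (a : V') :
    IsSubvariety (lattice b) (finrank ℂ (LinearMap.ker N.toLinearMap))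
      (N ⁻¹' ((fun y => a + y) '' (lattice b' : Set V'))) := by
  obtain ⟨a', rfl⟩ := hN.surjective a
  rw [preimage_image_add]
  exact (isSubvariety_preimage_lattice hN).image_add a'

omit [FiniteDimensional ℂ V'] in
theorem MapsLatticeOnto.finrank_ker_add (hN : MapsLatticeOnto b b' N) :
    finrank ℂ (LinearMap.ker N.toLinearMap) + finrank ℂ V' = finrank ℂ V := by
  have h1 := LinearMap.finrank_range_add_finrank_ker N.toLinearMap
  have h2 : LinearMap.range N.toLinearMap = ⊤ := LinearMap.range_eq_top.2 hN.surjective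
  rw [h2, finrank_top] at h1
  omega

omit [FiniteDimensional ℂ V'] in
/-- The pull-back of a Hodge class under a homomorphism is a Hodge class. -/
theorem IsHodgeClass.pullback [FiniteDimensional ℂ V'] {Λ : Submodule ℤ V} {Λ' : Submodule ℤ V'}
    (N : V →L[ℂ] V') (hN : ∀ l ∈ Λ, N l ∈ Λ') {p : ℕ} {φ : Form V' (2 * p)}
    (hφ : IsHodgeClass Λ' p φ) : IsHodgeClass Λ p (pullback N φ) := by
  refine ⟨fun v hv => hφ.1 _ fun i => hN _ (hv i), ?_⟩
  have h := (mem_hodgePiece_iff (by omega) φ).1 hφ.2
  rw [mem_hodgePiece_iff (by omega)]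
  intro z v
  rw [pullback_apply, pullback_apply, ← h z]
  congr 1
  funext i
  exact map_smul N z (v i)

omit [FiniteDimensional ℂ V] in
theorem complexSpan_span_le {k : ℕ} (S : Set (Form V k)) (T : Submodule ℂ (Form V k))
    (h : S ⊆ T) : complexSpan (Submodule.span ℚ S) ≤ T := by
  refine Submodule.span_le.2 ?_
  intro ψ hψ
  refine Submodule.span_induction (p := fun ψ _ => ψ ∈ T) (fun x hx => h hx) T.zero_mem
    (fun x y _ _ hx hy => T.add_mem hx hy) (fun q x _ hx => ?_) hψ
  have : q • x = (q : ℂ) • x := by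
    ext v; simp [Rat.smul_def]
  rw [this]
  exact T.smul_mem _ hx

omit [FiniteDimensional ℂ V] in
/-- The `ℚ`-span of a set of Hodge classes of codimension `p` is a rational Hodge substructure. -/
theorem isHodgeSubstructure_span {Λ : Submodule ℤ V} {p : ℕ} {S : Set (Form V (2 * p))}
    (hS : ∀ φ ∈ S, IsHodgeClass Λ p φ) : IsHodgeSubstructure Λ (Submodule.span ℚ S) where
  rational := by
    intro ψ hψ
    refine Submodule.span_induction (p := fun ψ _ => IsRational Λ ψ) (fun x hx => (hS x hx).1)
      (fun v _ => ⟨0, by simp⟩) (fun x y _ _ hx hy v hv => ?_) (fun q x _ hx v hv => ?_) hψ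
    · obtain ⟨q, hq⟩ := hx v hv
      obtain ⟨q', hq'⟩ := hy v hv
      exact ⟨q + q', by rw [AlternatingMap.add_apply, hq, hq']; push_cast; ring⟩
    · obtain ⟨q', hq'⟩ := hx v hv
      exact ⟨q * q', by rw [AlternatingMap.smul_apply, hq', Rat.smul_def]; push_cast; ring⟩
  decomp := by
    refine le_trans ?_ (le_iSup _ (⟨p, by omega⟩ : Fin (2 * p + 1)))
    exact le_inf le_rfl (complexSpan_span_le S _ fun φ hφ => (hS φ hφ).2)

omit [FiniteDimensional ℂ V] in
/-- ... and its twist `W(p)` is effective. -/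
theorem isEffectiveTwist_span {Λ : Submodule ℤ V} {p : ℕ} {S : Set (Form V (2 * p))}
    (hS : ∀ φ ∈ S, IsHodgeClass Λ p φ) : IsEffectiveTwist (Submodule.span ℚ S) p := by
  intro a q haq h
  rw [eq_bot_iff, ← hodgePiece_inf_hodgePiece (V := V) (p := p) (p' := a) (n := 2 * p)
    (by omega) (by omega) (by omega)]
  exact inf_le_inf_right _ (complexSpan_span_le S _ fun φ hφ => (hS φ hφ).2)

end general

/-! ### The example -/

/-- The projection `pr_k : ℂ^n → ℂ`. -/
noncomputable def prC (n : ℕ) (k : Fin n) : Cn n →L[ℂ] ℂ := PiLp.proj (𝕜 := ℂ) 2 (fun _ : Fin n => ℂ) k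

@[simp] theorem prC_apply (n : ℕ) (k : Fin n) (z : Cn n) : prC n k z = z k := rfl

/-- `pr_k` maps `ℤ[i]^n` onto `ℤ[i]`. -/
theorem prC_mapsLatticeOnto (n : ℕ) (k : Fin n) :
    MapsLatticeOnto (powerBasis Complex.basisOneI n) Complex.basisOneI (prC n k) := by
  classical
  intro y
  constructor
  · intro hy
    refine ⟨WithLp.toLp 2 (Pi.single k y), ?_, by simp⟩
    rw [← piBasis_const, mem_lattice_piBasis]
    intro j
    by_cases hj : j = k
    · subst hj; simpa using hy
    · simp [hj]
  · rintro ⟨l, hl, rfl⟩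
    rw [← piBasis_const, mem_lattice_piBasis] at hl
    exact hl k

/-- The classes `pr_k^* [E] ∈ H²((ℂ/ℤ[i])^n,ℚ)`. -/
noncomputable def gaussPowerClass (n : ℕ) (k : Fin n) : Form (Cn n) (2 * 1) :=
  pullback (prC n k) (formOfBilin gaussForm gauss_isRiemannForm.alt)

/-- Their `ℚ`-span `W`. -/
noncomputable def gaussPowerW (n : ℕ) : Submodule ℚ (Form (Cn n) (2 * 1)) :=
  Submodule.span ℚ (Set.range (gaussPowerClass n))

/-- The divisor `⋃_k pr_k⁻¹ (zeros of θ)` of `(ℂ/ℤ[i])^n`. -/
def thetaDivisor (n : ℕ) : Set (Cn n) := ⋃ k, prC n k ⁻¹' thetaZeros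

theorem gaussPowerClass_isHodgeClass (n : ℕ) (k : Fin n) :
    IsHodgeClass (lattice (powerBasis Complex.basisOneI n)) 1 (gaussPowerClass n k) :=
  gauss_isRiemannForm.isHodgeClass.pullback _
    fun l hl => ((prC_mapsLatticeOnto n k) _).2 ⟨l, hl, rfl⟩

theorem gaussPowerClass_ne_zero (n : ℕ) (k : Fin n) : gaussPowerClass n k ≠ 0 := by
  classical
  intro h
  have h1 := congrArg (fun φ : Form (Cn n) (2 * 1) =>
    φ ![WithLp.toLp 2 (Pi.single k I), WithLp.toLp 2 (Pi.single k 1)]) h
  simp only [AlternatingMap.zero_apply, gaussPowerClass, pullback_apply] at h1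
  rw [formOfBilin_apply, gaussForm_apply] at h1
  simp at h1

/-- **All hypotheses of `GeneralizedHodgeCM` hold for `A = (ℂ/ℤ[i])^n`, `k = 2`, `r = 1` and the span `W` of
the classes `pr_k^* [E]`** (and `W ≠ 0` if `n > 0`). -/
theorem gaussPowerW_hypotheses (n : ℕ) :
    IsPolarizable (lattice (powerBasis Complex.basisOneI n)) ∧
    IsCM (lattice (powerBasis Complex.basisOneI n)) ∧
    IsHodgeSubstructure (lattice (powerBasis Complex.basisOneI n)) (gaussPowerW n) ∧
    IsEffectiveTwist (gaussPowerW n) 1 ∧ (0 < n → gaussPowerW n ≠ ⊥) := by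
  have hS : ∀ φ ∈ Set.range (gaussPowerClass n),
      IsHodgeClass (lattice (powerBasis Complex.basisOneI n)) 1 φ := by
    rintro _ ⟨k, rfl⟩
    exact gaussPowerClass_isHodgeClass n k
  refine ⟨isPolarizable_piBasis _ fun _ => gauss_isPolarizable,
    isCM_piBasis _ fun _ => gauss_isCM, isHodgeSubstructure_span hS, isEffectiveTwist_span hS,
    fun hn h => ?_⟩
  have h1 : gaussPowerClass n ⟨0, hn⟩ ∈ gaussPowerW n := Submodule.subset_span ⟨_, rfl⟩
  rw [h] at h1
  exact gaussPowerClass_ne_zero n _ ((Submodule.mem_bot ℚ).1 h1)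

/-- `⋃_k pr_k⁻¹ (zeros of θ)` is a closed algebraic subset of codimension one of `(ℂ/ℤ[i])^n`: a finite
union of translates of the abelian subvarieties `ker pr_k`. -/
theorem thetaDivisor_isAlgebraic (n : ℕ) :
    IsAlgebraicSubsetOfCodimGE (lattice (powerBasis Complex.basisOneI n)) 1 (thetaDivisor n) := by
  obtain ⟨m, a, h⟩ := thetaZeros_eq_iUnion
  have h1 : thetaDivisor n = ⋃ x : Fin n × Fin m,
      prC n x.1 ⁻¹' ((fun y => a x.2 + y) '' (lattice Complex.basisOneI : Set ℂ)) := by
    rw [thetaDivisor, h, Set.iUnion_prod']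
    simp only [Set.preimage_iUnion]
  rw [h1]
  refine isAlgebraicSubsetOfCodimGE_iUnion _
    (fun x => finrank ℂ (LinearMap.ker (prC n x.1).toLinearMap))
    (fun x => isSubvariety_preimage_coset (prC_mapsLatticeOnto n x.1) _) (fun x => ?_)
  have := (prC_mapsLatticeOnto n x.1).finrank_ker_add
  simp only [finrank_self] at this
  exact this.le

/-- **The conclusion of `GeneralizedHodgeCM` holds for this example**: all classes in `W` restrict to zero on
the complement of the divisor `⋃_k pr_k⁻¹ (zeros of θ)`. -/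
theorem gaussPowerW_conclusion (n : ℕ) :
    ∃ Z : Set (Cn n), IsAlgebraicSubsetOfCodimGE (lattice (powerBasis Complex.basisOneI n)) 1 Z ∧
      ∀ φ ∈ gaussPowerW n, RestrictsToZero (lattice (powerBasis Complex.basisOneI n)) Z φ := by
  have hcl : IsClosed (thetaDivisor n) := (thetaDivisor_isAlgebraic n).isClosed
  refine ⟨thetaDivisor n, thetaDivisor_isAlgebraic n, fun φ hφ => ?_⟩
  refine Submodule.span_induction
    (p := fun φ _ => RestrictsToZero (lattice (powerBasis Complex.basisOneI n)) (thetaDivisor n) φ)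
    ?_ (restrictsToZero_zero _ _) (fun x y _ _ hx hy => hx.add hcl hy) (fun q x _ hx => ?_) hφ
  · rintro _ ⟨k, rfl⟩
    have h1 := restrictsToZero_gauss 1
    rw [one_smul] at h1
    exact (h1.pullback (Λ := lattice (powerBasis Complex.basisOneI n)) (prC n k)
      (fun l hl => ((prC_mapsLatticeOnto n k) _).2 ⟨l, hl, rfl⟩) thetaZeros_isClosed).mono
      (Set.subset_iUnion (fun k => prC n k ⁻¹' thetaZeros) k)
  · have : q • x = (q : ℂ) • x := by
      ext v; simp [Rat.smul_def]
    rw [this]
    exact hx.smul hcl _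

end Claimed.Open.R032
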