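import Claimed.Open.R032.SanityInjectH1
import Claimed.Open.R032.SanityTheta
import Claimed.Open.R032.SanityThetaPower

/-!
# Sanity check for R032: `H^k(A) → H^k(A ∖ {points})` is injective for `k < 2 dim A`

`SanityInjectH1.lean` gives non-examples of `RestrictsToZero Λ Z φ` with `Z ≠ ∅` in degree one.  Here are non-examples in all
degrees `k < 2 dim A`, for the closed algebraic subsets of codimension `dim A`:

* `IsRegularPoint.eventually_notMem`: a regular point with tangent space of dimension `0` is an isolated point of `Z`;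
* `IsSubvariety.eq_coset_of_dim_zero`: **the subvarieties of dimension `0` of `A = V/Λ` are exactly the points of `A`**: `Z = a + Λ`
  (the converse is `isSubvariety_lattice` and `IsSubvariety.image_add`);
* `IsAlgebraicSubsetOfCodimGE.countable`: a closed algebraic subset of codimension `≥ dim A` is countable (as a subset of `V`);
* `apply_eq_zero_of_extDeriv_eq_off`: Stokes' theorem on a translate `x₀ + ∑ ℝ l_j` (`l_j ∈ Λ`) which does not meet `Z`;
* `exists_translate_disjoint`: such a translate exists if `Z` is countable and the `l_j` do not span `V` (Baire);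
* `restrictsToZero_points_iff`: **for `Z` of codimension `≥ dim A` and `φ ∈ H^k(A,ℂ)`, `k < 2 dim A`:
  `RestrictsToZero Λ Z φ ↔ φ = 0`**;
* `eq_bot_of_generalizedHodge_conclusion_points`: the conclusion of `GeneralizedHodgeCM` with `r ≥ dim A` and `k < 2 dim A` holds only
  for `W = 0`;
* `gaussPowerW_not_points`: the codimension in the conclusion of `GeneralizedHodgeCM` is sharp: on `(ℂ/ℤ[i])^n`, `n ≥ 2`, the span `W` of the
  classes `pr_k^*[E]` dies off a divisor, but not off any closed algebraic subset of codimension `n`.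
-/

open MeasureTheory Module Set Topology Filter
open scoped ContDiff

namespace Claimed.Open.R032

variable {V : Type*} [NormedAddCommGroup V] [InnerProductSpace ℂ V] [FiniteDimensional ℂ V]

/-- A regular point with tangent space of dimension `0` is isolated in `Z`. -/
theorem IsRegularPoint.eventually_notMem {Z : Set V} {x : V} {T : Submodule ℂ V}
    (h : IsRegularPoint Z x T) (hT : finrank ℂ T = 0) : ∀ᶠ y in 𝓝[≠] x, y ∉ Z := by
  obtain ⟨U, m, F, hU, hxU, hxZ, hF, hZU, -, hker⟩ := h
  have hTbot : T = ⊥ := Submodule.finrank_eq_zero.1 hT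
  have hd : HasFDerivAt F (fderiv ℂ F x) x := (hF x hxU).differentiableAt.hasFDerivAt
  have hanti : ∃ C, AntilipschitzWith C (fderiv ℂ F x) := by
    obtain ⟨K, -, hK⟩ := LinearMap.exists_antilipschitzWith (fderiv ℂ F x : V →ₗ[ℂ] (Fin m → ℂ))
      (by rw [← hTbot, ← hker])
    exact ⟨K, hK⟩
  have h1 := hd.eventually_ne (c := 0) hanti
  have h2 : ∀ᶠ y in 𝓝[≠] x, y ∈ U := mem_nhdsWithin_of_mem_nhds (hU.mem_nhds hxU)
  filter_upwards [h1, h2] with y hy hyU hyZ
  have : y ∈ Z ∩ U := ⟨hyZ, hyU⟩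
  rw [hZU] at this
  exact hy this.2

variable {ι : Type*} (b : Basis ι ℝ V)

theorem countable_lattice : (lattice b : Set V).Countable := by
  have := finite_index b
  exact (isClosed_lattice b).isLindelof.countable
    (inferInstanceAs (DiscreteTopology (Submodule.span ℤ (Set.range b))))

/-- **The subvarieties of dimension `0` are the points of `A`.** -/
theorem IsSubvariety.eq_coset_of_dim_zero {b : Basis ι ℝ V} {Z : Set V}
    (hZ : IsSubvariety (lattice b) 0 Z) : ∃ a : V, Z = (fun y => a + y) '' (lattice b : Set V) := by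
  obtain ⟨z, hz⟩ := hZ.nonempty
  have hne : {x | ∃ T : Submodule ℂ V, IsRegularPoint Z x T ∧ finrank ℂ T = 0}.Nonempty := by
    by_contra hcon
    rw [Set.not_nonempty_iff_eq_empty] at hcon
    have := hZ.dim_eq hz
    rw [hcon, closure_empty] at this
    exact this
  obtain ⟨a, T, hreg, hT⟩ := hne
  have haZ : a ∈ Z := by
    obtain ⟨U, m, F, -, -, hxZ, -⟩ := hreg
    exact hxZ
  have hiso : ∀ᶠ y in 𝓝[≠] a, y ∉ Z := hreg.eventually_notMem hT
  set Z₁ : Set V := (fun y => a + y) '' (lattice b : Set V) with hZ₁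
  have hsub₁ : IsSubvariety (lattice b) 0 Z₁ := (isSubvariety_lattice b).image_add a
  have hZ₁Z : Z₁ ⊆ Z := by
    rintro _ ⟨l, hl, rfl⟩
    have := hZ.periodic l hl a haZ
    rwa [add_comm] at this
  -- the points of `Z₁` are isolated in `Z`
  have hiso' : ∀ x ∈ Z₁, ∃ U : Set V, IsOpen U ∧ x ∈ U ∧ ∀ y ∈ U, y ∈ Z → y = x := by
    rintro _ ⟨l, hl, rfl⟩
    rw [eventually_nhdsWithin_iff, eventually_nhds_iff] at hiso
    obtain ⟨U, hU, hUo, haU⟩ := hiso
    refine ⟨(fun y => y - l) ⁻¹' U, hUo.preimage (by fun_prop), by simpa using haU, ?_⟩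
    intro y hyU hyZ
    by_contra hne
    have h1 : y - l ≠ a := fun h => hne (by rw [← h]; exact (sub_add_cancel y l).symm)
    have h2 : y - l ∈ Z := by
      have := hZ.periodic (-l) (neg_mem hl) y hyZ
      rwa [neg_add_eq_sub] at this
    exact hU (y - l) hyU h1 h2
  have hcl₁ : IsClosed Z₁ := hsub₁.analytic.isClosed
  have han₂ : IsAnalyticSubset (Z \ Z₁) := by
    intro x
    by_cases hx : x ∈ Z₁
    · obtain ⟨U, hUo, hxU, hU⟩ := hiso' x hx
      refine ⟨U, hUo, hxU, 1, fun _ => 1, analyticOnNhd_const, ?_⟩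
      ext y
      simp only [Set.mem_inter_iff, Set.mem_sdiff, Set.mem_ofPred_eq]
      constructor
      · rintro ⟨⟨hyZ, hyZ₁⟩, hyU⟩
        exact absurd (hU y hyU hyZ ▸ hx) hyZ₁
      · rintro ⟨-, h⟩
        exact absurd (congrFun h 0) one_ne_zero
    · obtain ⟨U, hUo, hxU, m, f, hf, hZU⟩ := hZ.analytic x
      refine ⟨U ∩ Z₁ᶜ, hUo.inter hcl₁.isOpen_compl, ⟨hxU, hx⟩, m, f,
        hf.mono Set.inter_subset_left, ?_⟩
      ext y
      have := Set.ext_iff.1 hZU y
      simp only [Set.mem_inter_iff, Set.mem_ofPred_eq] at this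
      simp only [Set.mem_inter_iff, Set.mem_sdiff, Set.mem_compl_iff, Set.mem_ofPred_eq]
      tauto
  have hper₂ : IsPeriodic (lattice b) (Z \ Z₁) := by
    rintro l hl x ⟨hxZ, hxZ₁⟩
    refine ⟨hZ.periodic l hl x hxZ, fun h => hxZ₁ ?_⟩
    have := hsub₁.periodic (-l) (neg_mem hl) _ h
    simpa using this
  have hunion : Z = Z₁ ∪ (Z \ Z₁) := by
    rw [Set.union_sdiff_cancel hZ₁Z]
  rcases hZ.irreducible Z₁ (Z \ Z₁) hsub₁.analytic hsub₁.periodic han₂ hper₂ hunion with h | h
  · exact ⟨a, h⟩
  · exfalso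
    have ha₁ : a ∈ Z₁ := ⟨0, (lattice b).zero_mem, by simp⟩
    have : a ∈ Z \ Z₁ := h ▸ haZ
    exact this.2 ha₁

/-- A closed algebraic subset of codimension `≥ dim A` is countable. -/
theorem IsAlgebraicSubsetOfCodimGE.countable {b : Basis ι ℝ V} {r : ℕ} (hr : finrank ℂ V ≤ r)
    {Z : Set V} (hZ : IsAlgebraicSubsetOfCodimGE (lattice b) r Z) : Z.Countable := by
  obtain ⟨m, Y, d, hY, hd, rfl⟩ := hZ
  refine Set.countable_iUnion fun j => ?_
  have hdj : d j = 0 := by
    have := hd j
    omega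
  have hYj := hY j
  rw [hdj] at hYj
  obtain ⟨a, ha⟩ := hYj.eq_coset_of_dim_zero
  rw [ha]
  exact (countable_lattice b).image _

omit [FiniteDimensional ℂ V] in
/-- Stokes' theorem on a translate of the real subtorus spanned by lattice vectors, which does not meet `Z`. -/
theorem apply_eq_zero_of_extDeriv_eq_off {Λ : Submodule ℤ V} {Z : Set V} (hcl : IsClosed Z) {m : ℕ}
    (φ : Form V (m + 1)) (η : V → V [⋀^Fin m]→L[ℝ] ℂ) (hη : ContDiffOn ℝ ∞ η Zᶜ)
    (hper : ∀ l ∈ Λ, ∀ x ∈ Zᶜ, η (l + x) = η x) (hd : ∀ x ∈ Zᶜ, ∀ v, extDeriv η x v = φ v)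
    (l : Fin (m + 1) → V) (hl : ∀ i, l i ∈ Λ) (x₀ : V)
    (hx₀ : ∀ t : Fin (m + 1) → ℝ, x₀ + ∑ j, t j • l j ∈ Zᶜ) : φ l = 0 := by
  have hopen : IsOpen Zᶜ := hcl.isOpen_compl
  let L : (Fin (m + 1) → ℝ) →L[ℝ] V := (Fintype.linearCombination ℝ l).toContinuousLinearMap
  have hL : ∀ t, L t = ∑ j, t j • l j := fun t => by
    simp [L, Fintype.linearCombination_apply]
  have hLe : ∀ i, L (Pi.single i 1) = l i := fun i => by
    rw [hL]; simp [Pi.single_apply]
  have hA : ∀ t, x₀ + L t ∈ Zᶜ := fun t => by rw [hL]; exact hx₀ t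
  let g : Fin (m + 1) → V → ℂ := fun i x => η x (i.removeNth l)
  have hηd : ∀ t, DifferentiableAt ℝ η (x₀ + L t) := fun t =>
    (hη.differentiableOn (by simp) _ (hA t)).differentiableAt (hopen.mem_nhds (hA t))
  have hgd : ∀ i t, DifferentiableAt ℝ (g i) (x₀ + L t) := fun i t =>
    (ContinuousAlternatingMap.apply ℝ V ℂ (i.removeNth l)).differentiableAt.comp _ (hηd t)
  let f : Fin (m + 1) → (Fin (m + 1) → ℝ) → ℂ := fun i t => (-1 : ℤ) ^ (i : ℕ) • g i (x₀ + L t)
  let f' : Fin (m + 1) → (Fin (m + 1) → ℝ) → (Fin (m + 1) → ℝ) →L[ℝ] ℂ :=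
    fun i t => (-1 : ℤ) ^ (i : ℕ) • (fderiv ℝ (g i) (x₀ + L t)).comp L
  have hf' : ∀ i t, HasFDerivAt (f i) (f' i t) t := fun i t =>
    (((hgd i t).hasFDerivAt).comp t (L.hasFDerivAt.const_add x₀)).const_smul _
  have hsum : ∀ t, ∑ i, f' i t (Pi.single i 1) = φ l := by
    intro t
    rw [← hd (x₀ + L t) (hA t) l, extDeriv_apply (hηd t)]
    refine Finset.sum_congr rfl fun i _ => ?_
    simp [f', hLe, g]
  have key := integral_divergence_of_hasFDerivAt_off_countable' (0 : Fin (m + 1) → ℝ) 1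
    zero_le_one f f' ∅ countable_empty
    (fun i t _ => ((hf' i t).continuousAt).continuousWithinAt)
    (fun t _ i => hf' i t) (by
      simp only [hsum]
      exact integrableOn_const (by simp [Real.volume_Icc_pi]))
  simp only [hsum] at key
  rw [setIntegral_const] at key
  have hvol : (volume : Measure (Fin (m + 1) → ℝ)).real (Icc 0 1) = 1 := by
    simp [Measure.real, Real.volume_Icc_pi]
  rw [hvol, one_smul] at key
  rw [key]
  apply Finset.sum_eq_zero
  intro i _
  rw [sub_eq_zero]
  congr 1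
  funext x
  have : x₀ + L (i.insertNth ((1 : Fin (m + 1) → ℝ) i) x)
      = l i + (x₀ + L (i.insertNth ((0 : Fin (m + 1) → ℝ) i) x)) := by
    have h1 : (i.insertNth ((1 : Fin (m + 1) → ℝ) i) x : Fin (m + 1) → ℝ)
        = Pi.single i 1 + i.insertNth ((0 : Fin (m + 1) → ℝ) i) x := by
      funext j
      rcases Fin.eq_self_or_eq_succAbove i j with h | ⟨j', h⟩
      · subst h; simp
      · subst h; simp [Fin.succAbove_ne]
    rw [h1, map_add, hLe]
    abel
  simp only [f, g, this, hper (l i) (hl i) _ (hA _)]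

/-- If `Z` is countable and `S ≠ V` is a real subspace, some translate of `S` does not meet `Z`. -/
theorem exists_translate_disjoint {Z : Set V} (hZ : Z.Countable) (S : Submodule ℝ V) (hS : S ≠ ⊤) :
    ∃ x₀ : V, ∀ s ∈ S, x₀ + s ∉ Z := by
  have : FiniteDimensional ℝ V := FiniteDimensional.complexToReal V
  have : CompleteSpace V := FiniteDimensional.complete ℂ V
  by_contra hcon
  push Not at hcon
  have : Countable Z := hZ.to_subtype
  have hU : (⋃ z : Z, (fun x => (z : V) - x) ⁻¹' (S : Set V)) = Set.univ := by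
    rw [Set.eq_univ_iff_forall]
    intro x
    obtain ⟨s, hs, hxs⟩ := hcon x
    refine Set.mem_iUnion.2 ⟨⟨x + s, hxs⟩, ?_⟩
    show x + s - x ∈ S
    simpa using hs
  obtain ⟨z, y, hy⟩ := nonempty_interior_of_iUnion_of_closed
    (fun z : Z => (S.closed_of_finiteDimensional).preimage (by fun_prop)) hU
  apply hS
  apply Submodule.eq_top_of_nonempty_interior' S
  rw [mem_interior] at hy
  obtain ⟨U, hUS, hUo, hyU⟩ := hy
  refine ⟨(z : V) - y, ?_⟩
  rw [mem_interior]
  refine ⟨(fun w => (z : V) - w) ⁻¹' U, ?_, hUo.preimage (by fun_prop), by simpa using hyU⟩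
  intro w hw
  have := hUS hw
  simpa using this

/-- **`H^k(A,ℂ) → H^k(A ∖ Z,ℂ)` is injective** for `k < 2 dim A` and every closed algebraic subset `Z` of codimension
`≥ dim A` (a finite set of points of `A`). -/
theorem restrictsToZero_points_iff {r : ℕ} (hr : finrank ℂ V ≤ r) {Z : Set V}
    (hZ : IsAlgebraicSubsetOfCodimGE (lattice b) r Z) {k : ℕ} (hk : k < 2 * finrank ℂ V)
    (φ : Form V k) : RestrictsToZero (lattice b) Z φ ↔ φ = 0 := by
  constructor
  · intro h
    have hcount := hZ.countable hr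
    have hcl : IsClosed Z := by
      obtain ⟨m, Y, d, hY, -, rfl⟩ := hZ
      exact isClosed_iUnion_of_finite fun j => (hY j).analytic.isClosed
    cases k with
    | zero =>
      rcases h with h | h
      · exact h
      · exfalso
        subst h
        exact not_isAlgebraicSubsetOfCodimGE_univ _ (by omega) hZ
    | succ m =>
      obtain ⟨η, hη, hper, hd⟩ := h
      apply b.ext_alternating
      intro v _
      rw [AlternatingMap.zero_apply]
      have : FiniteDimensional ℝ V := FiniteDimensional.complexToReal V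
      have hS : Submodule.span ℝ (Set.range fun i => b (v i)) ≠ ⊤ := by
        intro htop
        have h1 := finrank_range_le_card (R := ℝ) (fun i => b (v i))
        rw [Set.finrank, htop, finrank_top, finrank_real_of_complex, Fintype.card_fin] at h1
        omega
      obtain ⟨x₀, hx₀⟩ := exists_translate_disjoint hcount _ hS
      refine apply_eq_zero_of_extDeriv_eq_off hcl φ η hη hper hd _
        (fun i => Submodule.subset_span ⟨_, rfl⟩) x₀ (fun t => hx₀ _ ?_)
      exact Submodule.sum_mem _ fun j _ =>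
        Submodule.smul_mem _ _ (Submodule.subset_span ⟨j, rfl⟩)
  · rintro rfl
    exact restrictsToZero_zero _ _

/-- The conclusion of `GeneralizedHodgeCM` with `r ≥ dim A`, in degree `k < 2 dim A`, holds only for `W = 0`. -/
theorem eq_bot_of_generalizedHodge_conclusion_points {r : ℕ} (hr : finrank ℂ V ≤ r) {k : ℕ}
    (hk : k < 2 * finrank ℂ V) (W : Submodule ℚ (Form V k))
    (h : ∃ Z : Set V, IsAlgebraicSubsetOfCodimGE (lattice b) r Z ∧
      ∀ φ ∈ W, RestrictsToZero (lattice b) Z φ) : W = ⊥ := by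
  obtain ⟨Z, hZ, hW⟩ := h
  rw [Submodule.eq_bot_iff]
  intro φ hφ
  exact (restrictsToZero_points_iff b hr hZ hk φ).1 (hW φ hφ)

/-- **The codimension in the conclusion of `GeneralizedHodgeCM` is sharp.**  On `A = (ℂ/ℤ[i])^n`, `n ≥ 2`, the span `W ≠ 0` of the classes
`pr_k^*[E] ∈ H²(A,ℚ)` is a rational Hodge substructure, `W(1)` is effective, and `W` dies on the complement of a divisor
(`gaussPowerW_conclusion`); but it does not die on the complement of any closed algebraic subset of codimension `n`. -/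
theorem gaussPowerW_not_points {n : ℕ} (hn : 2 ≤ n) :
    (∃ Z : Set (Cn n), IsAlgebraicSubsetOfCodimGE (lattice (powerBasis Complex.basisOneI n)) 1 Z ∧
      ∀ φ ∈ gaussPowerW n, RestrictsToZero (lattice (powerBasis Complex.basisOneI n)) Z φ) ∧
    ¬ ∃ Z : Set (Cn n), IsAlgebraicSubsetOfCodimGE (lattice (powerBasis Complex.basisOneI n)) n Z ∧
      ∀ φ ∈ gaussPowerW n, RestrictsToZero (lattice (powerBasis Complex.basisOneI n)) Z φ := by
  refine ⟨gaussPowerW_conclusion n, fun h => ?_⟩
  have hfin : finrank ℂ (Cn n) = n := by simp [Cn]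
  exact (gaussPowerW_hypotheses n).2.2.2.2 (by omega)
    (eq_bot_of_generalizedHodge_conclusion_points _ hfin.le (by omega) _ h)

end Claimed.Open.R032
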