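import Claimed.Open.R032.Statement

/-!
# Sanity checks for R032: `IsCM` is a genuine restriction

The elliptic curve `ℂ / (ℤ + ℤ τ)` with `τ = √2 (1 + i)` (so `τ² = 4 i`, and `τ` is not quadratic
over `ℚ`)

* is an abelian variety: `nonCM_isPolarizable`;
* is **not** of CM type: `nonCM_not_isCM`.

Hence the hypothesis `IsCM` of `Statement` is not implied by `IsPolarizable`.
-/

open Module Complex

namespace Claimed.Open.R032

/-- `τ = √2 (1 + i)`. -/
noncomputable def nonCMTau : ℂ := ⟨√2, √2⟩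

theorem nonCM_linearIndependent : LinearIndependent ℝ ![(1 : ℂ), nonCMTau] := by
  rw [LinearIndependent.pair_iff]
  intro s t h
  have him := congrArg Complex.im h
  have hre := congrArg Complex.re h
  simp [nonCMTau] at him hre
  subst him
  simpa using hre

/-- The period basis `(1, τ)`. -/
noncomputable def nonCMBasis : Basis (Fin 2) ℝ ℂ :=
  basisOfLinearIndependentOfCardEqFinrank nonCM_linearIndependent
    (by simp [Complex.finrank_real_complex])

theorem nonCMBasis_coe : ⇑nonCMBasis = ![(1 : ℂ), nonCMTau] :=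
  coe_basisOfLinearIndependentOfCardEqFinrank _ _

theorem mem_lattice_nonCMBasis (z : ℂ) :
    z ∈ lattice nonCMBasis ↔ ∃ m n : ℤ, z = (m : ℂ) + (n : ℂ) * nonCMTau := by
  unfold lattice
  rw [nonCMBasis_coe]
  constructor
  · intro hz
    induction hz using Submodule.span_induction with
    | mem x hx =>
      obtain ⟨i, rfl⟩ := hx
      fin_cases i
      · exact ⟨1, 0, by simp⟩
      · exact ⟨0, 1, by simp⟩
    | zero => exact ⟨0, 0, by simp⟩
    | add x y _ _ hx hy =>
      obtain ⟨m, n, rfl⟩ := hx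
      obtain ⟨m', n', rfl⟩ := hy
      exact ⟨m + m', n + n', by push_cast; ring⟩
    | smul a x _ hx =>
      obtain ⟨m, n, rfl⟩ := hx
      exact ⟨a * m, a * n, by simp [zsmul_eq_mul]; ring⟩
  · rintro ⟨m, n, rfl⟩
    have h1 : (1 : ℂ) ∈ Submodule.span ℤ (Set.range ![(1 : ℂ), nonCMTau]) :=
      Submodule.subset_span ⟨0, by simp⟩
    have h2 : nonCMTau ∈ Submodule.span ℤ (Set.range ![(1 : ℂ), nonCMTau]) :=
      Submodule.subset_span ⟨1, by simp⟩
    have := Submodule.add_mem _ (Submodule.smul_mem _ m h1) (Submodule.smul_mem _ n h2)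
    simpa [zsmul_eq_mul] using this

/-- The Riemann form `E(z,w) = Im (z * conj w) / Im τ`. -/
noncomputable def nonCMForm : ℂ →ₗ[ℝ] ℂ →ₗ[ℝ] ℝ :=
  LinearMap.mk₂ ℝ (fun z w => (z.im * w.re - z.re * w.im) / √2)
    (by intro a b c; simp; ring) (by intro r a b; simp; ring)
    (by intro a b c; simp; ring) (by intro r a b; simp; ring)

theorem nonCMForm_apply (z w : ℂ) : nonCMForm z w = (z.im * w.re - z.re * w.im) / √2 := rfl

theorem nonCM_isRiemannForm : IsRiemannForm (lattice nonCMBasis) nonCMForm where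
  alt v := by simp [nonCMForm_apply]; ring
  integral v hv w hw := by
    obtain ⟨m, n, rfl⟩ := (mem_lattice_nonCMBasis v).1 hv
    obtain ⟨m', n', rfl⟩ := (mem_lattice_nonCMBasis w).1 hw
    refine ⟨n * m' - m * n', ?_⟩
    have h2 : (√2 : ℝ) ≠ 0 := by positivity
    simp [nonCMForm_apply, nonCMTau]
    field_simp
    ring
  compat v w := by simp [nonCMForm_apply]; ring
  pos v hv := by
    have : 0 < Complex.normSq v := Complex.normSq_pos.2 hv
    simp only [nonCMForm_apply, smul_eq_mul, Complex.mul_re, Complex.mul_im, Complex.I_re,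
      Complex.I_im]
    rw [Complex.normSq_apply] at this
    apply div_pos _ (by positivity)
    nlinarith

/-- `ℂ / (ℤ + ℤ τ)` is an abelian variety. -/
theorem nonCM_isPolarizable : IsPolarizable (lattice nonCMBasis) :=
  ⟨nonCMForm, nonCM_isRiemannForm⟩

/-- If `a √2 = b` with integers `a`, `b`, then `a = 0`. -/
theorem int_mul_sqrt_two_eq {a b : ℤ} (h : (a : ℝ) * √2 = b) : a = 0 := by
  by_contra ha
  have : Irrational ((a : ℝ) * √2) := by
    have := irrational_sqrt_two.intCast_mul (m := a) ha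
    simpa using this
  exact this ⟨b, by rw [h]; simp⟩

/-- Every element of `End(A) ⊗ ℚ` is a rational homothety. -/
theorem nonCM_rationalEndomorphism {f : Module.End ℂ ℂ}
    (hf : IsRationalEndomorphism (lattice nonCMBasis) f) :
    ∃ q : ℚ, f = algebraMap ℚ (Module.End ℂ ℂ) q := by
  obtain ⟨n, hn, h⟩ := hf
  have hmul : ∀ v : ℂ, f v = v * f 1 := by
    intro v
    have := f.map_smul v 1
    simpa using this
  obtain ⟨x, y, hxy⟩ := (mem_lattice_nonCMBasis _).1
    (h 1 ((mem_lattice_nonCMBasis 1).2 ⟨1, 0, by simp⟩))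
  obtain ⟨z, w, hzw⟩ := (mem_lattice_nonCMBasis _).1
    (h nonCMTau ((mem_lattice_nonCMBasis nonCMTau).2 ⟨0, 1, by simp⟩))
  rw [hmul nonCMTau] at hzw
  have key : nonCMTau * ((x : ℂ) + y * nonCMTau) = (z : ℂ) + w * nonCMTau := by
    rw [← hxy, ← hzw]
    simp only [nsmul_eq_mul]
    ring
  have hs : (√2 : ℝ) * √2 = 2 := Real.mul_self_sqrt (by norm_num)
  have hre := congrArg Complex.re key
  have him := congrArg Complex.im key
  simp [nonCMTau] at hre him
  -- `hre : √2 x = z + w √2`, `him : √2 x + 4 y = w √2`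
  have h1 : ((x - w : ℤ) : ℝ) * √2 = (z : ℤ) := by
    push_cast
    nlinarith
  have hxw : x - w = 0 := int_mul_sqrt_two_eq h1
  have hxw' : (x : ℝ) = w := by exact_mod_cast sub_eq_zero.1 hxw
  have hy : (y : ℝ) = 0 := by
    rw [hxw'] at him
    nlinarith
  have hy' : y = 0 := by exact_mod_cast hy
  subst hy'
  refine ⟨(x : ℚ) / n, ?_⟩
  ext
  have hn' : (n : ℂ) ≠ 0 := by exact_mod_cast hn.ne'
  have : f 1 = (x : ℂ) / n := by
    rw [eq_div_iff hn']
    simpa [mul_comm] using hxy
  simp [this, Module.algebraMap_end_apply, Rat.smul_def]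

/-- `ℂ / (ℤ + ℤ τ)` is not of CM type. -/
theorem nonCM_not_isCM : ¬ IsCM (lattice nonCMBasis) := by
  rintro ⟨F, _, _, ι, -, hrank, hinj, hend⟩
  have hle : finrank ℚ F ≤ 1 := by
    apply finrank_le_one (1 : F)
    intro a
    obtain ⟨q, hq⟩ := nonCM_rationalEndomorphism (hend a)
    refine ⟨q, hinj ?_⟩
    rw [hq, ← Algebra.algebraMap_eq_smul_one]
    exact congrFun (congrArg DFunLike.coe
      (RingHom.ext_rat (ι.comp (algebraMap ℚ F)) (algebraMap ℚ (Module.End ℂ ℂ)))) q
  simp at hrank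
  omega

end Claimed.Open.R032
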