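import Claimed.Open.R032.Statement

/-!
# Sanity checks for R032: analytic subsets and regular points under linear maps and translations

* `IsAnalyticSubset.preimage`: the preimage of a closed analytic subset under a `ℂ`-linear map is a
  closed analytic subset;
* `IsRegularPoint.preimage`: regular points and tangent spaces under a surjective `ℂ`-linear map;
* `IsRegularPoint.translate`: regular points and tangent spaces of a translate.
-/

open MeasureTheory Module

namespace Claimed.Open.R032

variable {V : Type*} [NormedAddCommGroup V] [InnerProductSpace ℂ V]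
variable {V' : Type*} [NormedAddCommGroup V'] [InnerProductSpace ℂ V']

theorem IsAnalyticSubset.preimage {Z : Set V'} (hZ : IsAnalyticSubset Z) (N : V →L[ℂ] V') :
    IsAnalyticSubset (N ⁻¹' Z) := by
  intro x
  obtain ⟨U, hU, hxU, m, f, hf, hZU⟩ := hZ (N x)
  refine ⟨N ⁻¹' U, hU.preimage N.continuous, hxU, m, f ∘ N, ?_, ?_⟩
  · exact hf.comp (N.analyticOnNhd _) (fun y hy => hy)
  · ext y
    have := Set.ext_iff.1 hZU (N y)
    simpa using this

theorem IsRegularPoint.preimage {Z : Set V'} {x : V} {T : Submodule ℂ V'} (N : V →L[ℂ] V')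
    (hN : Function.Surjective N) (h : IsRegularPoint Z (N x) T) :
    IsRegularPoint (N ⁻¹' Z) x (T.comap N.toLinearMap) := by
  obtain ⟨U, m, F, hU, hxU, hxZ, hF, hZU, hr, hk⟩ := h
  have hd : HasFDerivAt (F ∘ N) ((fderiv ℂ F (N x)).comp N) x :=
    ((hF _ hxU).differentiableAt.hasFDerivAt).comp x N.hasFDerivAt
  refine ⟨N ⁻¹' U, m, F ∘ N, hU.preimage N.continuous, hxU, hxZ, ?_, ?_, ?_, ?_⟩
  · exact hF.comp (N.analyticOnNhd _) (fun y hy => hy)
  · ext y
    have := Set.ext_iff.1 hZU (N y)
    simpa using this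
  · rw [hd.fderiv]
    rw [LinearMap.range_eq_top] at hr ⊢
    exact hr.comp hN
  · rw [hd.fderiv, ← hk]
    ext v
    simp

theorem IsRegularPoint.translate {Z : Set V} {x : V} {T : Submodule ℂ V} (a : V)
    (h : IsRegularPoint Z x T) : IsRegularPoint ((fun y => a + y) '' Z) (a + x) T := by
  obtain ⟨U, m, F, hU, hxU, hxZ, hF, hZU, hr, hk⟩ := h
  have hsub : HasFDerivAt (fun y : V => y - a) (ContinuousLinearMap.id ℂ V) (a + x) :=
    (hasFDerivAt_id (𝕜 := ℂ) (a + x)).sub_const a
  have hx : a + x - a = x := by abel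
  have hd : HasFDerivAt (fun y => F (y - a)) (fderiv ℂ F x) (a + x) := by
    have h1 : HasFDerivAt F (fderiv ℂ F x) (a + x - a) := by
      rw [hx]; exact (hF _ hxU).differentiableAt.hasFDerivAt
    simpa using h1.comp (a + x) hsub
  refine ⟨(fun y => y - a) ⁻¹' U, m, fun y => F (y - a), ?_, ?_, ⟨x, hxZ, rfl⟩, ?_, ?_, ?_, ?_⟩
  · exact hU.preimage (continuous_id.sub continuous_const)
  · simpa [hx] using hxU
  · have : AnalyticOnNhd ℂ (fun y : V => y - a) ((fun y => y - a) ⁻¹' U) :=
      analyticOnNhd_id.sub analyticOnNhd_const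
    exact hF.comp this (fun y hy => hy)
  · ext y
    have := Set.ext_iff.1 hZU (y - a)
    constructor
    · rintro ⟨⟨z, hz, rfl⟩, hy⟩
      have hz' : a + z - a = z := by abel
      simp only [Set.mem_preimage, hz'] at hy
      have h2 := (Set.ext_iff.1 hZU z).1 ⟨hz, hy⟩
      simpa [hz'] using h2
    · rintro ⟨hy, hFy⟩
      have h2 := this.2 ⟨hy, hFy⟩
      exact ⟨⟨y - a, h2.1, by show a + (y - a) = y; abel⟩, hy⟩
  · rw [hd.fderiv]; exact hr
  · rw [hd.fderiv]; exact hk

/-- For a periodic set, regularity and the tangent space are invariant under the lattice. -/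
theorem IsRegularPoint.add_lattice {Λ : Submodule ℤ V} {Z : Set V} (hZ : IsPeriodic Λ Z) {x : V}
    {T : Submodule ℂ V} {l : V} (hl : l ∈ Λ) (h : IsRegularPoint Z x T) :
    IsRegularPoint Z (l + x) T := by
  have : (fun y => l + y) '' Z = Z := by
    ext y
    constructor
    · rintro ⟨z, hz, rfl⟩; exact hZ l hl z hz
    · intro hy
      exact ⟨-l + y, hZ (-l) (Λ.neg_mem hl) y hy, by show l + (-l + y) = y; abel⟩
  have h2 := h.translate l
  rwa [this] at h2

end Claimed.Open.R032
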