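import Claimed.Open.R032.SanitySubtorusClass

/-!
# Sanity checks for R032: the sign in the projection formula is `+1`

Let `f : A = V / Λ → A' = V' / Λ'` be the homomorphism induced by a `ℂ`-linear map `N : V → V'`
with `N Λ = Λ'`, and `Z = ker f`.

* `apply_realify_eq` : for a complex subspace `W` and ANY family `w` of `dim W` vectors of `W`,
  `ψ (w₀, i w₀, w₁, i w₁, …) = |det_ℂ w|² * evalOn W ψ`.
* `MapsLatticeOnto.integralOver_wedge_pullback_eq` (projection formula, with its sign):
  `∫_A f^*τ ∧ ψ = ∫_{A'} τ · ∫_Z ψ`.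
* `MapsLatticeOnto.isCycleClass_pullback` : the class of the abelian subvariety `Z = ker f` is
  `f^* τ`, where `∫_{A'} τ = 1` (i.e. `τ` is the class of a point of `A'`): `[f⁻¹(pt)] = f^*[pt]`.
-/

open MeasureTheory Module

set_option linter.unusedSectionVars false

namespace Claimed.Open.R032

variable {V : Type*} [NormedAddCommGroup V] [InnerProductSpace ℂ V] [FiniteDimensional ℂ V]
variable {V' : Type*} [NormedAddCommGroup V'] [InnerProductSpace ℂ V'] [FiniteDimensional ℂ V']

/-! ### Values of a form on complex frames -/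

/-- For ANY family `w` of `dim W` vectors of the complex subspace `W`,
`ψ (w₀, i w₀, w₁, i w₁, …) = |det_ℂ w|² * evalOn W ψ`. -/
theorem apply_realify_eq (W : Submodule ℂ V) {n : ℕ} (hn : n = 2 * finrank ℂ W)
    (w : Fin (finrank ℂ W) → W) (ψ : Form V n) :
    ψ (realify (fun k => (w k : V)) n hn)
      = ((Complex.normSq ((stdOrthonormalBasis ℂ W).toBasis.det w) : ℝ) : ℂ) * evalOn W ψ := by
  let ψW : Form W n := ψ.compLinearMap (W.subtype.restrictScalars ℝ)
  have h1 : ψ (realify (fun k => (w k : V)) n hn) = ψW (realify w n hn) := by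
    show _ = ψ (fun j => ((realify w n hn j : W) : V))
    congr 1
    funext j
    exact (realify_map W.subtype w n hn j).symm
  have h2 : ψW (frameBasis W hn) = ψ (complexFrame W n hn) := by
    show ψ (fun j => ((frameBasis W hn j : W) : V)) = _
    congr 1
    funext j
    rw [coe_frameBasis, coe_frameVec]
  rw [evalOn, dif_pos hn, h1, form_eq_det_mul (frameBasis W hn) ψW, frameBasis_det_realify, h2]

/-- The same with flexible indices. -/
theorem exists_apply_realify_eq (W : Submodule ℂ V) {d n : ℕ} (hd : d = finrank ℂ W)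
    (hn : n = 2 * d) (w : Fin d → V) (hw : ∀ k, w k ∈ W) :
    ∃ c : ℝ, 0 ≤ c ∧ ∀ ψ : Form V n, ψ (realify w n hn) = (c : ℂ) * evalOn W ψ := by
  subst hd
  exact ⟨_, Complex.normSq_nonneg _, fun ψ => apply_realify_eq W hn (fun k => ⟨w k, hw k⟩) ψ⟩

/-- There is a form whose density on `W` is `1`. -/
theorem exists_evalOn_eq_one (W : Submodule ℂ V) {n : ℕ} (hn : n = 2 * finrank ℂ W) :
    ∃ ψ : Form V n, evalOn W ψ = 1 := by
  obtain ⟨P, hP⟩ := LinearMap.exists_leftInverse_of_injective (W.subtype.restrictScalars ℝ)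
    (LinearMap.ker_eq_bot.2 Subtype.val_injective)
  refine ⟨(Complex.ofRealCLM.toLinearMap.compAlternatingMap (frameBasis W hn).det).compLinearMap P,
    ?_⟩
  have h : (fun j => P (complexFrame W n hn j)) = frameBasis W hn := by
    funext j
    rw [← coe_frameVec, coe_frameBasis]
    exact congrArg (fun f => f (frameVec W hn j)) hP
  rw [evalOn, dif_pos hn]
  show ((frameBasis W hn).det (fun j => P (complexFrame W n hn j)) : ℂ) = 1
  rw [h, Basis.det_self]
  simp

/-- `realify` of a concatenation. -/
theorem realify_append {E : Type*} [AddCommGroup E] [Module ℂ E] {p d : ℕ} (u : Fin p → E)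
    (w : Fin d → E) (h : 2 * p + 2 * d = 2 * (p + d)) :
    realify (Fin.append u w) (2 * p + 2 * d) h
      = Fin.append (realify u (2 * p) rfl) (realify w (2 * d) rfl) := by
  funext j
  refine Fin.addCases (fun i => ?_) (fun i => ?_) j
  · rw [Fin.append_left]
    have h1 : (⟨((Fin.castAdd (2 * d) i : Fin (2 * p + 2 * d)) : ℕ) / 2, by
        have := i.2; simp only [Fin.val_castAdd]; omega⟩ : Fin (p + d))
        = Fin.castAdd d ⟨(i : ℕ) / 2, by omega⟩ := by
      ext; simp
    unfold realify
    rw [h1, Fin.append_left]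
    simp
  · rw [Fin.append_right]
    have h1 : (⟨((Fin.natAdd (2 * p) i : Fin (2 * p + 2 * d)) : ℕ) / 2, by
        have := i.2; simp only [Fin.val_natAdd]; omega⟩ : Fin (p + d))
        = Fin.natAdd p ⟨(i : ℕ) / 2, by omega⟩ := by
      ext; simp only [Fin.val_natAdd]; omega
    have h2 : ((Fin.natAdd (2 * p) i : Fin (2 * p + 2 * d)) : ℕ) % 2 = (i : ℕ) % 2 := by
      simp only [Fin.val_natAdd]; omega
    unfold realify
    rw [h1, Fin.append_right, h2]

/-! ### The pointwise statement -/

/-- The canonical orientation of `V` is the product of the canonical orientations of `V' = V / W`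
and of `W = ker N`: the density of `N^* τ ∧ ψ` on `V` is a positive multiple of the product of the
densities of `τ` on `V'` and of `ψ` on `W`. -/
theorem exists_mul_evalOn_wedge_pullback (N : V →L[ℂ] V') (hN : Function.Surjective N) {p d : ℕ}
    (hp : p = finrank ℂ V') (hd : d = finrank ℂ (LinearMap.ker N.toLinearMap)) :
    ∃ c : ℝ, 0 ≤ c ∧ ∀ (τ : Form V' (2 * p)) (ψ : Form V (2 * d)),
      (c : ℂ) * evalOn ⊤ (wedge (pullback N τ) ψ)
        = evalOn ⊤ τ * evalOn (LinearMap.ker N.toLinearMap) ψ := by
  have hp' : p = finrank ℂ (⊤ : Submodule ℂ V') := by rw [finrank_top]; exact hp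
  have hdim : p + d = finrank ℂ (⊤ : Submodule ℂ V) := by
    have h := LinearMap.finrank_range_add_finrank_ker N.toLinearMap
    have h2 : LinearMap.range N.toLinearMap = ⊤ := LinearMap.range_eq_top.2 hN
    rw [h2, finrank_top] at h
    rw [finrank_top, hp, hd]
    exact h
  subst hp' hd
  set W := LinearMap.ker N.toLinearMap with hW
  choose u hu using fun k => hN (stdOrthonormalBasis ℂ (⊤ : Submodule ℂ V') k : V')
  let w : Fin (finrank ℂ W) → V := fun k => (stdOrthonormalBasis ℂ W k : V)
  obtain ⟨c, hc, h⟩ := exists_apply_realify_eq (⊤ : Submodule ℂ V) hdim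
    (n := 2 * finrank ℂ (⊤ : Submodule ℂ V') + 2 * finrank ℂ W) (by ring) (Fin.append u w)
    (fun _ => Submodule.mem_top)
  refine ⟨c, hc, fun τ ψ => ?_⟩
  rw [← h, realify_append, wedge_apply_of_vanish]
  · congr 1
    · rw [pullback_apply, evalOn, dif_pos rfl, complexFrame_eq_realify]
      congr 1
      funext i
      rw [Function.comp_apply, Fin.append_left]
      have := realify_map N.toLinearMap u _ rfl i
      refine this.trans ?_
      congr 1
      funext k
      exact hu k
    · rw [evalOn, dif_pos rfl, complexFrame_eq_realify]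
      congr 1
      funext i
      rw [Function.comp_apply, Fin.append_right]
  · rintro x ⟨i, j, hij⟩
    rw [pullback_apply]
    refine τ.map_coord_zero i ?_
    rw [hij, Fin.append_right]
    have := realify_map N.toLinearMap w _ rfl j
    refine this.trans ?_
    have h0 : (N.toLinearMap ∘ w) = fun _ => 0 := by
      funext k
      exact (stdOrthonormalBasis ℂ W k).2
    rw [h0]
    unfold realify
    split_ifs <;> simp

/-! ### The projection formula -/

variable {ι ι' : Type*} {b : Basis ι ℝ V} {b' : Basis ι' ℝ V'} {N : V →L[ℂ] V'}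
variable [MeasurableSpace V] [BorelSpace V] [MeasurableSpace V'] [BorelSpace V']

/-- The period parallelotope has positive volume. -/
theorem measureReal_fundamentalDomain_pos (b : Basis ι ℝ V) {n : ℕ} (hn : n = 2 * finrank ℂ V) :
    0 < (μHE[n] : Measure V).real (ZSpan.fundamentalDomain b) := by
  have := finite_index b
  have := Fintype.ofFinite ι
  have hcard : Fintype.card ι = n := by
    rw [← Module.finrank_eq_card_basis b, finrank_real_of_complex, hn]
  let σ : ι ≃ Fin n := Fintype.equivFinOfCardEq hcard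
  obtain ⟨ε, hε, h⟩ := integralOver_univ_eq b hn σ
  let δ : Form V n := Complex.ofRealCLM.toLinearMap.compAlternatingMap (b.reindex σ).det
  have hδ : δ (b ∘ σ.symm) = 1 := by
    rw [← b.coe_reindex σ]
    show (((b.reindex σ).det (b.reindex σ) : ℝ) : ℂ) = 1
    rw [Basis.det_self]
    simp
  have h1 := h δ
  rw [integralOver_univ, hδ, mul_one] at h1
  refine lt_of_le_of_ne measureReal_nonneg fun h0 => ?_
  rw [← h0] at h1
  rcases hε with rfl | rfl <;> simp at h1

/-- `∫_{ker f} ψ` is a nonnegative multiple of the density of `ψ` on `ker N`. -/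
theorem MapsLatticeOnto.exists_integralOver_preimage_eq (hN : MapsLatticeOnto b b' N) (n : ℕ) :
    ∃ v : ℝ, 0 ≤ v ∧ ∀ ψ : Form V n, integralOver b (N ⁻¹' (lattice b' : Set V')) ψ
      = (v : ℂ) * evalOn (LinearMap.ker N.toLinearMap) ψ := by
  obtain ⟨μ, hμ⟩ := hN.exists_kerBasis
  have hlat : lattice b = lattice (hN.adaptedBasis μ) := (hN.lattice_adaptedBasis μ hμ).symm
  refine ⟨(μHE[n] : Measure V).real (Subtype.val '' ZSpan.fundamentalDomain μ),
    measureReal_nonneg, fun ψ => ?_⟩
  rw [integralOver_eq_of_lattice_eq b _ hlat (isSubvariety_preimage_lattice hN).periodic,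
    hN.integralOver_adaptedBasis μ]

/-- **Projection formula** `∫_A f^*τ ∧ ψ = ∫_{A'} τ · ∫_{ker f} ψ`, with the sign `+1`. -/
theorem MapsLatticeOnto.integralOver_wedge_pullback_eq (hN : MapsLatticeOnto b b' N) {p d : ℕ}
    (hp : p = finrank ℂ V') (hd : d = finrank ℂ (LinearMap.ker N.toLinearMap))
    (τ : Form V' (2 * p)) (ψ : Form V (2 * d)) :
    integralOver b Set.univ (wedge (pullback N τ) ψ) =
      integralOver b' Set.univ τ * integralOver b (N ⁻¹' (lattice b' : Set V')) ψ := by
  obtain ⟨ε, hε, h⟩ := hN.integralOver_wedge_pullback hp hd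
  rcases hε with rfl | rfl
  · simpa using h τ ψ
  exfalso
  obtain ⟨c, hc, hC⟩ := exists_mul_evalOn_wedge_pullback N hN.surjective hp hd
  obtain ⟨v, hv, hV⟩ := hN.exists_integralOver_preimage_eq (2 * d)
  obtain ⟨τ₀, hτ₀⟩ := exists_evalOn_eq_one (⊤ : Submodule ℂ V') (n := 2 * p)
    (by rw [finrank_top, hp])
  obtain ⟨ψ₀, hψ₀⟩ := exists_evalOn_eq_one (LinearMap.ker N.toLinearMap) (n := 2 * d) (by rw [hd])
  have hdim : 2 * p + 2 * d = 2 * finrank ℂ V := by
    rw [← hN.finrank_add, hp, hd]; ring
  have hpos := measureReal_fundamentalDomain_pos b hdim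
  have h1 := h τ₀ ψ₀
  have h2 := hC τ₀ ψ₀
  rw [integralOver_univ, integralOver_univ, hV, hτ₀, hψ₀] at h1
  rw [hτ₀, hψ₀] at h2
  set A : ℝ := (μHE[2 * p + 2 * d] : Measure V).real (ZSpan.fundamentalDomain b) with hA
  set A' : ℝ := (μHE[2 * p] : Measure V').real (ZSpan.fundamentalDomain b') with hA'
  have hA'0 : 0 ≤ A' := measureReal_nonneg
  have h3 : (A : ℂ) = ((-(A' * v * c) : ℝ) : ℂ) := by
    push_cast at h1 ⊢
    linear_combination (c : ℂ) * h1 - (A : ℂ) * h2
  have h4 : A = -(A' * v * c) := by exact_mod_cast h3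
  have h5 : 0 ≤ A' * v * c := by positivity
  linarith

/-- `[f⁻¹(pt)] = f^*[pt]`: the class of the abelian subvariety `ker f` is `f^* τ`, where `τ` is the
class of top degree on `A'` with `∫_{A'} τ = 1`. -/
theorem MapsLatticeOnto.isCycleClass_pullback (hN : MapsLatticeOnto b b' N) {p d : ℕ}
    (hp : p = finrank ℂ V') (hd : d = finrank ℂ (LinearMap.ker N.toLinearMap))
    (τ : Form V' (2 * p)) (hτ : integralOver b' Set.univ τ = 1) :
    IsCycleClass b p d (N ⁻¹' (lattice b' : Set V')) (pullback N τ) := by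
  intro ψ
  rw [hN.integralOver_wedge_pullback_eq hp hd, hτ, one_mul]

end Claimed.Open.R032
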