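import Claimed.Open.R032.SanityLefschetz

/-!
# Theta functions of the lattices `ℤ + ℤ τ`, and `GeneralizedHodgeCM` in degree `k ≤ 2`

`SanityTheta.lean` and `SanityLefschetz.lean` treat the lattice `ℤ[i]`.  Here the same is done for all
lattices `ℤ + ℤ τ`, `Im τ > 0`, with `θ_τ(z) = ∑_n exp (2 π i n z + π i n² τ)` (Mathlib's
`jacobiTheta₂ z τ`): `θ_τ(z + 1) = θ_τ(z)`, `θ_τ(z + τ) = exp (- π i (τ + 2 z)) θ_τ(z)`, so that

* the zero set of `θ_τ` is `ℤ + ℤ τ`-periodic;
* `g(z) = θ_τ'(z) / θ_τ(z) + 2 π i Im z / Im τ` is smooth and `ℤ + ℤ τ`-periodic off the zeros, and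
  `d (g dz) = (2 π i / Im τ) E`, `E` the standard area form: `restrictsToZero_tau`.

If `Im τ ≥ 1` then `θ_τ(0) ≠ 0` (Mathlib's bound for `jacobiTheta τ - 1`); this is enough, because every
lattice `ℤ + ℤ ρ` is mapped into `ℤ + ℤ (k ρ)` by the multiplication by `k`.

Main results, for a complex torus `A = V / Λ`:

* `exists_divisor_hermSquare_quad` : if `m` is a `ℂ`-linear form with values in `ℚ + ℚ ρ` on `Λ` (`ρ ∉ ℝ`
  arbitrary), all multiples of `m ∧ m̄` restrict to zero on the complement of a divisor;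
* `generalizedHodge_le_two_of_quadratic_periods` : **the conclusion of `GeneralizedHodgeCM` holds in degree
  `k ≤ 2`, for all `r` and `W`, for every complex torus whose period matrix has entries in an imaginary
  quadratic field**, i.e. for all abelian varieties isogenous to a power of a CM elliptic curve.
-/

open MeasureTheory Module Set Complex
open scoped ContDiff Real

namespace Claimed.Open.R032

/-! ### The lattice `ℤ + ℤ τ` -/

/-- The `ℝ`-basis `(1, τ)` of `ℂ`. -/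
noncomputable def tauBasis (τ : ℂ) (hτ : τ.im ≠ 0) : Basis (Fin 2) ℝ ℂ :=
  basisOfLinearIndependentOfCardEqFinrank (b := ![1, τ])
    (by
      rw [LinearIndependent.pair_iff]
      intro s t hst
      have h1 := congrArg Complex.im hst
      have h2 := congrArg Complex.re hst
      simp at h1 h2
      have ht : t = 0 := h1.resolve_right hτ
      rw [ht] at h2
      exact ⟨by simpa using h2, ht⟩)
    (by simp [Complex.finrank_real_complex])

theorem coe_tauBasis (τ : ℂ) (hτ : τ.im ≠ 0) : ⇑(tauBasis τ hτ) = ![1, τ] :=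
  coe_basisOfLinearIndependentOfCardEqFinrank _ _

theorem mem_lattice_tauBasis {τ : ℂ} (hτ : τ.im ≠ 0) (l : ℂ) :
    l ∈ lattice (tauBasis τ hτ) ↔ ∃ a c : ℤ, l = a + c * τ := by
  constructor
  · intro hl
    refine Submodule.span_induction (p := fun l _ => ∃ a c : ℤ, l = a + c * τ) ?_ ⟨0, 0, by simp⟩ ?_ ?_ hl
    · rintro _ ⟨i, rfl⟩
      rw [coe_tauBasis]
      fin_cases i
      · exact ⟨1, 0, by simp⟩
      · exact ⟨0, 1, by simp⟩
    · rintro _ _ _ _ ⟨a, c, rfl⟩ ⟨a', c', rfl⟩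
      exact ⟨a + a', c + c', by push_cast; ring⟩
    · rintro n _ _ ⟨a, c, rfl⟩
      exact ⟨n * a, n * c, by simp only [zsmul_eq_mul]; push_cast; ring⟩
  · rintro ⟨a, c, rfl⟩
    have h0 : (1 : ℂ) ∈ lattice (tauBasis τ hτ) :=
      Submodule.subset_span ⟨0, by rw [coe_tauBasis]; rfl⟩
    have h1 : τ ∈ lattice (tauBasis τ hτ) :=
      Submodule.subset_span ⟨1, by rw [coe_tauBasis]; rfl⟩
    have := Submodule.add_mem _ (Submodule.smul_mem _ a h0) (Submodule.smul_mem _ c h1)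
    simpa using this

/-! ### Jacobi's theta function of the lattice `ℤ + ℤ τ` -/

/-- Jacobi's theta function of the lattice `ℤ + ℤ τ`: `θ_τ(z) = ∑_n exp (2 π i n z + π i n² τ)`. -/
noncomputable def tauTheta (τ z : ℂ) : ℂ := jacobiTheta₂ z τ

section theta

variable {τ : ℂ}

theorem tauTheta_differentiable (hτ : 0 < τ.im) : Differentiable ℂ (tauTheta τ) :=
  fun z => differentiableAt_jacobiTheta₂_fst z hτ

theorem tauTheta_deriv (hτ : 0 < τ.im) (z : ℂ) : deriv (tauTheta τ) z = jacobiTheta₂' z τ :=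
  (hasDerivAt_jacobiTheta₂_fst z hτ).deriv

theorem tauTheta_analyticOnNhd (hτ : 0 < τ.im) : AnalyticOnNhd ℂ (tauTheta τ) Set.univ :=
  (tauTheta_differentiable hτ).differentiableOn.analyticOnNhd isOpen_univ

/-- `θ_τ(0) ≠ 0` if `Im τ ≥ 1`. -/
theorem tauTheta_zero_ne_zero (hτ : 1 ≤ τ.im) : tauTheta τ 0 ≠ 0 := by
  intro h
  have h1 := norm_jacobiTheta_sub_one_le (τ := τ) (by linarith)
  rw [jacobiTheta_eq_jacobiTheta₂] at h1
  change ‖tauTheta τ 0 - 1‖ ≤ _ at h1
  rw [h] at h1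
  simp only [zero_sub, norm_neg, norm_one] at h1
  have hx : Real.exp (-π * τ.im) < 1 / 4 := by
    have h2 : Real.exp (-π * τ.im) ≤ Real.exp (-π) := by
      apply Real.exp_le_exp.2
      have := Real.pi_pos
      nlinarith
    refine lt_of_le_of_lt h2 ?_
    rw [Real.exp_neg, one_div]
    apply inv_strictAnti₀ (by norm_num)
    have := Real.add_one_le_exp π
    have := Real.pi_gt_three
    linarith
  have hx0 : 0 < Real.exp (-π * τ.im) := Real.exp_pos _
  have : 2 / (1 - Real.exp (-π * τ.im)) * Real.exp (-π * τ.im) < 1 := by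
    rw [div_mul_eq_mul_div, div_lt_one (by linarith)]
    linarith
  linarith

theorem tauTheta_add_one (z : ℂ) : tauTheta τ (z + 1) = tauTheta τ z :=
  jacobiTheta₂_add_left z τ

theorem tauTheta_add_tau (z : ℂ) :
    tauTheta τ (z + τ) = cexp (-π * I * (τ + 2 * z)) * tauTheta τ z :=
  jacobiTheta₂_add_left' z τ

theorem deriv_tauTheta_add_one (hτ : 0 < τ.im) (z : ℂ) :
    deriv (tauTheta τ) (z + 1) = deriv (tauTheta τ) z := by
  rw [tauTheta_deriv hτ, tauTheta_deriv hτ, jacobiTheta₂'_add_left]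

theorem deriv_tauTheta_add_tau (hτ : 0 < τ.im) (z : ℂ) :
    deriv (tauTheta τ) (z + τ) =
      cexp (-π * I * (τ + 2 * z)) * (deriv (tauTheta τ) z - 2 * π * I * tauTheta τ z) := by
  rw [tauTheta_deriv hτ, tauTheta_deriv hτ, jacobiTheta₂'_add_left']
  rfl

end theta

/-! ### The zero set of `θ_τ`, and the periodic function `θ_τ'/θ_τ + 2 π i Im z / Im τ` -/

/-- The zero set of `θ_τ`. -/
def tauZeros (τ : ℂ) : Set ℂ := {z | tauTheta τ z = 0}

/-- The function `g(z) = θ_τ'(z) / θ_τ(z) + 2 π i Im z / Im τ`. -/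
noncomputable def tauLog (τ z : ℂ) : ℂ :=
  deriv (tauTheta τ) z / tauTheta τ z + 2 * π * I / (τ.im : ℂ) * (z.im : ℂ)

/-- The group of the common periods of the zero set of `θ_τ` and of the function `g` off it. -/
def tauPeriods (τ : ℂ) : AddSubgroup ℂ where
  carrier := {l | ∀ x, (l + x ∈ tauZeros τ ↔ x ∈ tauZeros τ) ∧
    (x ∉ tauZeros τ → tauLog τ (l + x) = tauLog τ x)}
  zero_mem' := by intro x; simp
  add_mem' := by
    intro a b ha hb x
    have h1 := hb x
    have h2 := ha (b + x)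
    rw [add_assoc]
    exact ⟨h2.1.trans h1.1, fun hx => (h2.2 (fun h => hx (h1.1.1 h))).trans (h1.2 hx)⟩
  neg_mem' := by
    intro a ha x
    have h1 := ha (-a + x)
    rw [add_neg_cancel_left] at h1
    exact ⟨h1.1.symm, fun hx => (h1.2 (fun h => hx (h1.1.2 h))).symm⟩

section periods

variable {τ : ℂ}

theorem one_mem_tauPeriods (hτ : 0 < τ.im) : (1 : ℂ) ∈ tauPeriods τ := by
  intro x
  rw [add_comm]
  refine ⟨by simp [tauZeros, tauTheta_add_one], fun _ => ?_⟩
  simp [tauLog, tauTheta_add_one, deriv_tauTheta_add_one hτ]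

theorem tau_mem_tauPeriods (hτ : 0 < τ.im) : τ ∈ tauPeriods τ := by
  intro x
  rw [add_comm]
  refine ⟨by simp [tauZeros, tauTheta_add_tau, Complex.exp_ne_zero], fun hx => ?_⟩
  have hx' : tauTheta τ x ≠ 0 := hx
  have he : cexp (-π * I * (τ + 2 * x)) ≠ 0 := Complex.exp_ne_zero _
  have hi : (τ.im : ℂ) ≠ 0 := by exact_mod_cast hτ.ne'
  simp only [tauLog, tauTheta_add_tau, deriv_tauTheta_add_tau hτ, add_im]
  push_cast
  field_simp
  ring

theorem mem_tauPeriods_of_mem_lattice (hτ : 0 < τ.im) {l : ℂ}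
    (hl : l ∈ lattice (tauBasis τ hτ.ne')) : l ∈ tauPeriods τ := by
  obtain ⟨a, c, rfl⟩ := (mem_lattice_tauBasis hτ.ne' l).1 hl
  have := (tauPeriods τ).add_mem ((tauPeriods τ).zsmul_mem (one_mem_tauPeriods hτ) a)
    ((tauPeriods τ).zsmul_mem (tau_mem_tauPeriods hτ) c)
  simpa using this

theorem tauZeros_isPeriodic (hτ : 0 < τ.im) : IsPeriodic (lattice (tauBasis τ hτ.ne')) (tauZeros τ) :=
  fun _ hl x hx => ((mem_tauPeriods_of_mem_lattice hτ hl) x).1.2 hx

theorem tauLog_periodic (hτ : 0 < τ.im) {l : ℂ} (hl : l ∈ lattice (tauBasis τ hτ.ne')) {x : ℂ}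
    (hx : x ∉ tauZeros τ) : tauLog τ (l + x) = tauLog τ x :=
  ((mem_tauPeriods_of_mem_lattice hτ hl) x).2 hx

theorem tauZeros_isClosed (hτ : 0 < τ.im) : IsClosed (tauZeros τ) :=
  isClosed_singleton.preimage (tauTheta_differentiable hτ).continuous

/-- The zeros of `θ_τ` do not accumulate (identity theorem). -/
theorem tauZeros_inter_finite (hτ : 1 ≤ τ.im) {K : Set ℂ} (hK : IsCompact K) :
    (tauZeros τ ∩ K).Finite := by
  by_contra hinf
  obtain ⟨x, -, hx⟩ := Set.Infinite.exists_accPt_of_subset_isCompact hinf hK inter_subset_right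
  rw [accPt_iff_frequently_nhdsNE] at hx
  have := (tauTheta_analyticOnNhd (τ := τ) (by linarith)).eqOn_zero_of_preconnected_of_frequently_eq_zero
    isPreconnected_univ (mem_univ x) (hx.mono fun y hy => hy.1)
  exact tauTheta_zero_ne_zero hτ (this (mem_univ 0))

/-- The zero set of `θ_τ` is a finite union of classes modulo any lattice contained in `ℤ + ℤ τ`. -/
theorem tauZeros_eq_iUnion_of_le (hτ : 1 ≤ τ.im) (hτ0 : 0 < τ.im) {ι' : Type*} (b' : Basis ι' ℝ ℂ)
    (h : ∀ l ∈ lattice b', l ∈ lattice (tauBasis τ hτ0.ne')) : ∃ (m : ℕ) (a : Fin m → ℂ),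
    tauZeros τ = ⋃ j, (fun y => a j + y) '' (lattice b' : Set ℂ) := by
  have := finite_index b'
  have := Fintype.ofFinite ι'
  have hfin := tauZeros_inter_finite hτ (K := closure (ZSpan.fundamentalDomain b'))
    (ZSpan.fundamentalDomain_isBounded b').isCompact_closure
  let S := hfin.toFinset
  let e := S.equivFin
  refine ⟨S.card, fun j => ((e.symm j : ℂ)), ?_⟩
  ext z
  simp only [mem_iUnion]
  constructor
  · intro hz
    have hl : ((ZSpan.floor b' z : Submodule.span ℤ (Set.range b')) : ℂ) ∈ lattice b' :=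
      (ZSpan.floor b' z).2
    have hfr : ZSpan.fract b' z = -((ZSpan.floor b' z : Submodule.span ℤ (Set.range b')) : ℂ) + z := by
      rw [ZSpan.fract_apply]; ring
    have hz' : ZSpan.fract b' z ∈ tauZeros τ := by
      rw [hfr]
      exact tauZeros_isPeriodic hτ0 _ ((lattice (tauBasis τ hτ0.ne')).neg_mem (h _ hl)) z hz
    have hS : ZSpan.fract b' z ∈ S :=
      hfin.mem_toFinset.2 ⟨hz', subset_closure (ZSpan.fract_mem_fundamentalDomain b' z)⟩
    refine ⟨e ⟨_, hS⟩, _, hl, ?_⟩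
    simp [hfr]
  · rintro ⟨j, l, hl, rfl⟩
    have hj : ((e.symm j : ℂ)) ∈ tauZeros τ := (hfin.mem_toFinset.1 (e.symm j).2).1
    have := tauZeros_isPeriodic hτ0 l (h l hl) _ hj
    rwa [add_comm] at this

/-! ### The primitive of the area form on the complement of the zeros of `θ_τ` -/

/-- The `1`-form `η = c g(z) dz`, where `g(z) = θ_τ'(z) / θ_τ(z) + 2 π i Im z / Im τ`. -/
noncomputable def tauForm (τ c : ℂ) (z : ℂ) : ℂ [⋀^Fin 1]→L[ℝ] ℂ := mulDz (c * tauLog τ z)

theorem tauLog_contDiffOn (hτ : 0 < τ.im) : ContDiffOn ℝ ∞ (tauLog τ) (tauZeros τ)ᶜ := by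
  have h1 : AnalyticOnNhd ℂ (fun z => deriv (tauTheta τ) z / tauTheta τ z) (tauZeros τ)ᶜ :=
    ((tauTheta_analyticOnNhd hτ).deriv.mono (subset_univ _)).div
      ((tauTheta_analyticOnNhd hτ).mono (subset_univ _)) (fun z hz => hz)
  have h2 : ContDiffOn ℝ ∞ (fun z => deriv (tauTheta τ) z / tauTheta τ z) (tauZeros τ)ᶜ :=
    (h1.contDiffOn (n := ∞) (tauZeros_isClosed hτ).isOpen_compl.uniqueDiffOn).restrict_scalars ℝ
  have h3 : ContDiff ℝ ∞ (fun z : ℂ => 2 * π * I / (τ.im : ℂ) * (z.im : ℂ)) :=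
    contDiff_const.mul (Complex.ofRealCLM.comp Complex.imCLM).contDiff
  exact h2.add h3.contDiffOn

theorem tauForm_contDiffOn (hτ : 0 < τ.im) (c : ℂ) : ContDiffOn ℝ ∞ (tauForm τ c) (tauZeros τ)ᶜ :=
  mulDz.contDiff.comp_contDiffOn (contDiffOn_const.mul (tauLog_contDiffOn hτ))

/-- The real differential of `g`: a complex linear map (as `θ_τ'/θ_τ` is holomorphic) plus
`(2 π i / Im τ) Im`. -/
theorem tauLog_hasFDerivAt (hτ : 0 < τ.im) {x : ℂ} (hx : x ∉ tauZeros τ) :
    ∃ (ℓ : ℂ) (D : ℂ →L[ℝ] ℂ), HasFDerivAt (tauLog τ) D x ∧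
      ∀ v, D v = v * ℓ + 2 * π * I / (τ.im : ℂ) * (v.im : ℂ) := by
  have hd : DifferentiableAt ℂ (fun z => deriv (tauTheta τ) z / tauTheta τ z) x :=
    (((tauTheta_analyticOnNhd hτ).deriv x (mem_univ x)).differentiableAt).div
      (tauTheta_differentiable hτ x) hx
  have h1 := hd.hasDerivAt.hasFDerivAt.restrictScalars ℝ
  have h2 : HasFDerivAt (fun z : ℂ => 2 * π * I / (τ.im : ℂ) * (z.im : ℂ))
      ((2 * π * I / (τ.im : ℂ) : ℂ) • (Complex.ofRealCLM.comp Complex.imCLM)) x :=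
    (Complex.ofRealCLM.comp Complex.imCLM).hasFDerivAt.const_mul _
  refine ⟨deriv (fun z => deriv (tauTheta τ) z / tauTheta τ z) x, _, h1.add h2, fun v => ?_⟩
  simp

/-- `d (c g dz) = (2 π i / Im τ) c E` off the zeros of `θ_τ`. -/
theorem extDeriv_tauForm (hτ : 0 < τ.im) (c : ℂ) {x : ℂ} (hx : x ∉ tauZeros τ) (v : Fin 2 → ℂ) :
    extDeriv (tauForm τ c) x v =
      c * (2 * π * I / (τ.im : ℂ)) * ((gaussForm (v 0) (v 1) : ℝ) : ℂ) := by
  obtain ⟨ℓ, D, hD, hDv⟩ := tauLog_hasFDerivAt hτ hx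
  have h : HasFDerivAt (tauForm τ c) (mulDz.comp (c • D)) x :=
    mulDz.hasFDerivAt.comp x (hD.const_mul c)
  have hw : ∀ w : Fin 1 → ℂ, HasFDerivAt (fun y => tauForm τ c y w) ((w 0) • (c • D)) x :=
    fun w => (hD.const_mul c).mul_const (w 0)
  rw [extDeriv_apply h.differentiableAt, Fin.sum_univ_two, (hw _).fderiv, (hw _).fderiv]
  simp only [smul_apply, hDv, gaussForm_apply]
  generalize (2 * π * I / (τ.im : ℂ) : ℂ) = κ
  simp [Fin.removeNth]
  have h0 : v 0 = ((v 0).re : ℂ) + ((v 0).im : ℂ) * I := (Complex.re_add_im _).symm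
  have h1 : v 1 = ((v 1).re : ℂ) + ((v 1).im : ℂ) * I := (Complex.re_add_im _).symm
  generalize (v 0).re = a0 at *
  generalize (v 0).im = c0 at *
  generalize (v 1).re = a1 at *
  generalize (v 1).im = c1 at *
  rw [h0, h1]
  ring

/-- **The area form of `ℂ / (ℤ + ℤ τ)`, and each of its complex multiples, restricts to zero on the
complement of the zeros of `θ_τ`.** -/
theorem restrictsToZero_tau (hτ : 0 < τ.im) (q : ℂ) :
    RestrictsToZero (lattice (tauBasis τ hτ.ne')) (tauZeros τ)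
      (q • formOfBilin gaussForm gauss_isRiemannForm.alt) := by
  have hi : (τ.im : ℂ) ≠ 0 := by exact_mod_cast hτ.ne'
  refine ⟨tauForm τ (q / (2 * π * I / (τ.im : ℂ))), tauForm_contDiffOn hτ _, fun l hl x hx => ?_,
    fun x hx v => ?_⟩
  · simp only [tauForm, tauLog_periodic hτ hl hx]
  · have h2 : (2 * π * I / (τ.im : ℂ) : ℂ) ≠ 0 := by simp [Real.pi_ne_zero, hi]
    rw [extDeriv_tauForm hτ _ hx, div_mul_cancel₀ _ h2]
    rfl

end periods

/-! ### Divisors on complex tori with many homomorphisms to elliptic curves -/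

variable {V : Type*} [NormedAddCommGroup V] [InnerProductSpace ℂ V] [FiniteDimensional ℂ V]
  {ι : Type*}

/-- The preimage of the zeros of `θ_τ` under a homomorphism `A → ℂ / (ℤ + ℤ τ)` is a closed algebraic
subset of codimension one. -/
theorem preimage_tauZeros_isAlgebraic {τ : ℂ} (hτ : 1 ≤ τ.im) (hτ0 : 0 < τ.im) (b : Basis ι ℝ V)
    (N : V →L[ℂ] ℂ) (hN : ∀ l ∈ lattice b, N l ∈ lattice (tauBasis τ hτ0.ne')) :
    IsAlgebraicSubsetOfCodimGE (lattice b) 1 (N ⁻¹' tauZeros τ) := by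
  by_cases hsurj : Function.Surjective N
  · obtain ⟨b', hb'⟩ := exists_basis_mapsLatticeOnto b (tauBasis τ hτ0.ne') N hsurj hN
    have hle : ∀ l ∈ lattice b', l ∈ lattice (tauBasis τ hτ0.ne') := by
      intro l hl
      obtain ⟨x, hx, rfl⟩ := (hb' l).1 hl
      exact hN x hx
    obtain ⟨m, a, h⟩ := tauZeros_eq_iUnion_of_le hτ hτ0 b' hle
    rw [h, Set.preimage_iUnion]
    refine isAlgebraicSubsetOfCodimGE_iUnion _
      (fun _ => finrank ℂ (LinearMap.ker N.toLinearMap))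
      (fun j => isSubvariety_preimage_coset hb' _) (fun _ => ?_)
    have := hb'.finrank_ker_add
    simp only [finrank_self] at this
    exact this.le
  · have h0 : ∀ x, N x = 0 := by
      intro x
      by_contra hx
      exact hsurj fun y => ⟨(y / N x) • x, by rw [map_smul, smul_eq_mul, div_mul_cancel₀ _ hx]⟩
    have h1 : N ⁻¹' tauZeros τ = ∅ := by
      ext x
      simp only [Set.mem_preimage, h0, Set.mem_empty_iff_false, iff_false]
      exact tauTheta_zero_ne_zero hτ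
    rw [h1]
    exact isAlgebraicSubsetOfCodimGE_empty _ _

omit [FiniteDimensional ℂ V] in
/-- Finitely many elements of `ℚ + ℚ ρ` have a common denominator. -/
theorem exists_common_denominator_quad (ρ : ℂ) {κ : Type*} [Finite κ] (x : κ → ℂ)
    (hx : ∀ i, ∃ r s : ℚ, x i = r + s * ρ) :
    ∃ M : ℕ, M ≠ 0 ∧ ∀ i, ∃ a c : ℤ, (M : ℂ) * x i = a + c * ρ := by
  classical
  have := Fintype.ofFinite κ
  choose r s hrs using hx
  let M : ℕ := ∏ i, ((r i).den * (s i).den)
  have hM : M ≠ 0 := Finset.prod_ne_zero_iff.2 fun i _ =>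
    Nat.mul_ne_zero (r i).den_ne_zero (s i).den_ne_zero
  refine ⟨M, hM, fun i => ?_⟩
  have hdr : ∃ a : ℤ, (M : ℚ) * r i = a := by
    have hdvd : (r i).den ∣ M :=
      (Dvd.intro _ rfl).trans (Finset.dvd_prod_of_mem (fun i => (r i).den * (s i).den)
        (Finset.mem_univ i))
    obtain ⟨c, hc⟩ := hdvd
    refine ⟨c * (r i).num, ?_⟩
    rw [hc]
    push_cast
    have := Rat.den_mul_eq_num (r i)
    linear_combination (c : ℚ) * this
  have hds : ∃ a : ℤ, (M : ℚ) * s i = a := by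
    have hdvd : (s i).den ∣ M :=
      (Dvd.intro_left _ rfl).trans (Finset.dvd_prod_of_mem (fun i => (r i).den * (s i).den)
        (Finset.mem_univ i))
    obtain ⟨c, hc⟩ := hdvd
    refine ⟨c * (s i).num, ?_⟩
    rw [hc]
    push_cast
    have := Rat.den_mul_eq_num (s i)
    linear_combination (c : ℚ) * this
  obtain ⟨a, ha⟩ := hdr
  obtain ⟨c, hc⟩ := hds
  have ha' : (M : ℂ) * r i = a := by exact_mod_cast congrArg (fun q : ℚ => (q : ℂ)) ha
  have hc' : (M : ℂ) * s i = c := by exact_mod_cast congrArg (fun q : ℚ => (q : ℂ)) hc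
  refine ⟨a, c, ?_⟩
  rw [hrs, ← ha', ← hc']
  ring

omit [FiniteDimensional ℂ V] in
/-- Finitely many elements of `ℚ + ℚ ρ`, `ρ ∉ ℝ`, are mapped by the multiplication by a positive integer
into a lattice `ℤ + ℤ τ` with `Im τ ≥ 1` (namely `τ = ± k ρ`). -/
theorem exists_tau_common_denominator (ρ : ℂ) (hρ : ρ.im ≠ 0) {κ : Type*} [Finite κ] (x : κ → ℂ)
    (hx : ∀ i, ∃ r s : ℚ, x i = r + s * ρ) :
    ∃ (τ : ℂ) (_ : 1 ≤ τ.im) (hτ0 : 0 < τ.im) (M : ℕ), M ≠ 0 ∧
      ∀ i, (M : ℂ) * x i ∈ lattice (tauBasis τ hτ0.ne') := by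
  obtain ⟨M₀, hM₀, hx₀⟩ := exists_common_denominator_quad ρ x hx
  obtain ⟨k, hk⟩ := exists_nat_ge (1 / |ρ.im|)
  have habs : 0 < |ρ.im| := abs_pos.2 hρ
  have hk1 : 1 ≤ (k : ℝ) * |ρ.im| := by
    rwa [div_le_iff₀ habs] at hk
  have hk0 : k ≠ 0 := by
    rintro rfl
    simp at hk1
    linarith
  rcases lt_or_gt_of_ne hρ with hneg | hpos
  · have him : ((-(k : ℂ)) * ρ).im = (k : ℝ) * |ρ.im| := by
      rw [abs_of_neg hneg]; simp
    have h1 : 1 ≤ ((-(k : ℂ)) * ρ).im := by rw [him]; exact hk1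
    refine ⟨(-(k : ℂ)) * ρ, h1, by linarith, k * M₀, Nat.mul_ne_zero hk0 hM₀, fun i => ?_⟩
    obtain ⟨a, c, h⟩ := hx₀ i
    refine (mem_lattice_tauBasis _ _).2 ⟨k * a, -c, ?_⟩
    push_cast
    linear_combination (k : ℂ) * h
  · have him : ((k : ℂ) * ρ).im = (k : ℝ) * |ρ.im| := by
      rw [abs_of_pos hpos]; simp
    have h1 : 1 ≤ ((k : ℂ) * ρ).im := by rw [him]; exact hk1
    refine ⟨(k : ℂ) * ρ, h1, by linarith, k * M₀, Nat.mul_ne_zero hk0 hM₀, fun i => ?_⟩
    obtain ⟨a, c, h⟩ := hx₀ i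
    refine (mem_lattice_tauBasis _ _).2 ⟨k * a, c, ?_⟩
    push_cast
    linear_combination (k : ℂ) * h

/-- For a `ℂ`-linear form `m` with values in `ℚ + ℚ ρ` on `Λ` (`ρ ∉ ℝ` arbitrary), all multiples of the class
`m ∧ m̄` restrict to zero on the complement of a closed algebraic subset of codimension one. -/
theorem exists_divisor_hermSquare_quad (b : Basis ι ℝ V) (ρ : ℂ) (hρ : ρ.im ≠ 0)
    (m : Fin 1 → V →ₗ[ℝ] ℂ) (hm : ∀ j, m j ∈ quadForms b ρ) :
    ∃ Z : Set V, IsAlgebraicSubsetOfCodimGE (lattice b) 1 Z ∧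
      ∀ c : ℂ, RestrictsToZero (lattice b) Z (c • hermSquare m) := by
  have := finite_index b
  obtain ⟨τ, hτ, hτ0, M, hM, hMx⟩ :=
    exists_tau_common_denominator ρ hρ (fun i => m 0 (b i)) (hm 0).2
  have hMc : (M : ℂ) ≠ 0 := by exact_mod_cast hM
  let m' : V →L[ℂ] ℂ := LinearMap.toContinuousLinearMap (complexify (m 0) (hm 0).1)
  let N : V →L[ℂ] ℂ := (M : ℂ) • m'
  have hNv : ∀ v, N v = (M : ℂ) * m 0 v := fun v => rfl
  have hN : ∀ l ∈ lattice b, N l ∈ lattice (tauBasis τ hτ0.ne') := by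
    intro l hl
    have h2 : (lattice b).map (N.toLinearMap.restrictScalars ℤ) ≤ lattice (tauBasis τ hτ0.ne') := by
      rw [lattice, Submodule.map_span, Submodule.span_le]
      rintro _ ⟨_, ⟨i, rfl⟩, rfl⟩
      exact hMx i
    exact h2 ⟨l, hl, rfl⟩
  -- `m = μ ∘ N` with `μ` the multiplication by `1 / M`
  let μ : Fin 1 → ℂ →ₗ[ℝ] ℂ := fun _ => (LinearMap.mulLeft ℂ ((M : ℂ)⁻¹)).restrictScalars ℝ
  have hpull : hermSquare m = pullback N (hermSquare μ) := by
    rw [hermSquare, hermSquare, pairWedge, pairWedge, pullback_wedgeOfForms]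
    congr 1
    funext i
    ext v
    have hj : ∀ j : Fin 1, m j v = (M : ℂ)⁻¹ * N v := by
      intro j
      rw [Subsingleton.elim j 0, hNv, inv_mul_cancel_left₀ hMc]
    unfold interleave
    split_ifs
    · simpa [μ] using hj _
    · simp [μ, hj]
  obtain ⟨c₀, hc₀⟩ := form_two_eq_smul (hermSquare μ)
  refine ⟨N ⁻¹' tauZeros τ, preimage_tauZeros_isAlgebraic hτ hτ0 b N hN, fun c => ?_⟩
  have h3 : c • hermSquare m =
      pullback N ((c * c₀) • formOfBilin gaussForm gauss_isRiemannForm.alt) := by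
    rw [hpull, mul_smul, pullback_smul, pullback_smul, ← pullback_smul N c₀, ← hc₀]
  rw [h3]
  exact (restrictsToZero_tau hτ0 (c * c₀)).pullback N hN (tauZeros_isClosed hτ0)

/-- **All of `H^{1,1}(A)` restricts to zero on the complement of one divisor**, for every complex torus `A`
whose period matrix has entries in an imaginary quadratic field `ℚ + ℚ ρ`. -/
theorem exists_divisor_hodgePiece_one_one_quad (b : Basis ι ℝ V) {n : ℕ} (w : Basis (Fin n) ℂ V)
    (ρ : ℂ) (hρ : ρ.im ≠ 0) (hρ2 : ∃ r s : ℚ, ρ ^ 2 = r + s * ρ)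
    (hb : ∀ i k, ∃ r s : ℚ, w.repr (b i) k = r + s * ρ) :
    ∃ Z : Set V, IsAlgebraicSubsetOfCodimGE (lattice b) 1 Z ∧
      ∀ φ ∈ hodgePiece V 1 (2 * 1), RestrictsToZero (lattice b) Z φ := by
  classical
  have hcoord : ∀ k, (w.coord k).restrictScalars ℝ ∈ quadForms b ρ := by
    intro k
    refine ⟨fun v => by simp, fun i => ?_⟩
    simpa using hb i k
  set S : Set (Form V (2 * 1)) :=
    {φ | ∃ m : Fin 1 → V →ₗ[ℝ] ℂ, (∀ j, m j ∈ quadForms b ρ) ∧ φ = hermSquare m} with hS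
  have h2 : ∀ x : (Fin 1 → Fin n) × (Fin 1 → Fin n),
      ∃ T : Finset (Form V (2 * 1)), (T : Set (Form V (2 * 1))) ⊆ S ∧
        pairWedge (fun j => (w.coord (x.1 j)).restrictScalars ℝ)
          (fun j => conjForm ((w.coord (x.2 j)).restrictScalars ℝ)) ∈
            Submodule.span ℂ (T : Set (Form V (2 * 1))) := fun x =>
    Submodule.mem_span_finite_of_mem_span
      (pairWedge_mem_span_hermSquare ρ hρ (quadForms b ρ)
        (fun m hm => smul_mem_quadForms b hρ2 hm)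
        (fun j => (w.coord (x.1 j)).restrictScalars ℝ) (fun j => (w.coord (x.2 j)).restrictScalars ℝ)
        (fun j => hcoord _) (fun j => hcoord _))
  choose T hTS hT using h2
  let 𝒯 : Finset (Form V (2 * 1)) := Finset.univ.biUnion T
  have h𝒯S : ∀ t : 𝒯, (t : Form V (2 * 1)) ∈ S := by
    rintro ⟨t, ht⟩
    obtain ⟨x, -, hx⟩ := Finset.mem_biUnion.1 ht
    exact hTS x hx
  have h3 : ∀ t : 𝒯, ∃ Z : Set V, IsAlgebraicSubsetOfCodimGE (lattice b) 1 Z ∧
      ∀ c : ℂ, RestrictsToZero (lattice b) Z (c • (t : Form V (2 * 1))) := by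
    intro t
    obtain ⟨m, hm, ht⟩ := h𝒯S t
    rw [ht]
    exact exists_divisor_hermSquare_quad b ρ hρ m hm
  choose Z hZ hZr using h3
  have hU : IsAlgebraicSubsetOfCodimGE (lattice b) 1 (⋃ t, Z t) :=
    IsAlgebraicSubsetOfCodimGE.iUnion hZ
  have hcl : IsClosed (⋃ t, Z t) := hU.isClosed
  refine ⟨⋃ t, Z t, hU, fun φ hφ => ?_⟩
  have h4 : φ ∈ Submodule.span ℂ (𝒯 : Set (Form V (2 * 1))) := by
    refine (hodgePiece_le_span_pairWedge w 1).trans ?_ hφ
    rw [Submodule.span_le]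
    rintro _ ⟨k, l, rfl⟩
    refine Submodule.span_mono ?_ (hT (k, l))
    intro t ht
    exact Finset.mem_biUnion.2 ⟨(k, l), Finset.mem_univ _, ht⟩
  refine Submodule.span_induction
    (p := fun φ _ => RestrictsToZero (lattice b) (⋃ t, Z t) φ)
    (fun t ht => ?_) (restrictsToZero_zero _ _) (fun x y _ _ hx hy => hx.add hcl hy)
    (fun c x _ hx => hx.smul hcl c) h4
  have := (hZr ⟨t, ht⟩ 1).mono (Set.subset_iUnion Z ⟨t, ht⟩)
  rwa [one_smul] at this

omit [FiniteDimensional ℂ V] in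
/-- If `W ⊆ H²(A,ℚ)` is a rational Hodge substructure and `W(1)` is effective, then `W ⊆ H^{1,1}(A)`. -/
theorem IsHodgeSubstructure.le_hodgePiece_one_one {Λ : Submodule ℤ V}
    {W : Submodule ℚ (Form V (2 * 1))} (hW : IsHodgeSubstructure Λ W) (hr : IsEffectiveTwist W 1)
    {φ : Form V (2 * 1)} (hφ : φ ∈ W) : φ ∈ hodgePiece V 1 (2 * 1) := by
  have h1 : complexSpan W ≤ hodgePiece V 1 (2 * 1) := by
    refine hW.decomp.trans (iSup_le fun p => ?_)
    by_cases hp : (p : ℕ) = 1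
    · rw [hp]; exact inf_le_right
    · have := p.2
      rw [hr p (2 * 1 - p) (by omega) (by omega)]
      exact bot_le
  exact h1 (Submodule.subset_span hφ)

/-- **The conclusion of `GeneralizedHodgeCM` in degree `k ≤ 2`**, for every complex torus whose period matrix
has entries in an imaginary quadratic field, i.e. for all abelian varieties isogenous to a power of a CM
elliptic curve. -/
theorem generalizedHodge_le_two_of_quadratic_periods (b : Basis ι ℝ V) {n : ℕ}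
    (w : Basis (Fin n) ℂ V) (ρ : ℂ) (hρ : ρ.im ≠ 0) (hρ2 : ∃ r s : ℚ, ρ ^ 2 = r + s * ρ)
    (hb : ∀ i k, ∃ r s : ℚ, w.repr (b i) k = r + s * ρ) {k : ℕ} (hk : k ≤ 2) (r : ℕ)
    (W : Submodule ℚ (Form V k)) (hW : IsHodgeSubstructure (lattice b) W)
    (hr : IsEffectiveTwist W r) :
    ∃ Z : Set V, IsAlgebraicSubsetOfCodimGE (lattice b) r Z ∧
      ∀ φ ∈ W, RestrictsToZero (lattice b) Z φ := by
  rcases Nat.eq_zero_or_pos r with rfl | hr0
  · exact generalizedHodge_of_r_eq_zero _ W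
  by_cases hkr : k < 2 * r
  · exact generalizedHodge_of_lt_two_mul hkr W hW hr
  obtain ⟨rfl, rfl⟩ : k = 2 * 1 ∧ r = 1 := by omega
  obtain ⟨Z, hZ, h⟩ := exists_divisor_hodgePiece_one_one_quad b w ρ hρ hρ2 hb
  exact ⟨Z, hZ, fun φ hφ => h φ (hW.le_hodgePiece_one_one hr hφ)⟩

end Claimed.Open.R032
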