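import Claimed.Open.R032.SanityMixExample
import Claimed.Open.R032.SanityCompanion

/-!
# A CM abelian surface which is not isogenous to a product of elliptic curves

`A = ℂ² / Φ(ℤ[ζ])`, `ζ = exp(2πi/5)`, `Φ(a) = (φ₁ a, φ₂ a)`, `φ_j ζ = ζ^j` (the Jacobian of `y² = x⁵ - 1`): period basis
`b_i = (ζ^i, ζ^{2i})`, `i < 4`.

* `zeta_isPolarizable`, `zeta_isCM`: `A` satisfies the hypotheses of `HodgeCM` and of `GeneralizedHodgeCM`; the CM algebra is the FIELD
  `ℚ(ζ)` of degree `4`.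
* `zeta_not_hasMixedQuadraticPeriods`: `A` is not isogenous to a product of CM elliptic curves.  So `A` lies outside the classes for
  which the conclusions of `Statement` are proved in this folder (in codimension `1` the conclusion of `HodgeCM` for `A` is the
  Lefschetz (1,1) theorem for the theta divisors of `A`, which is NOT proved here).
-/

open MeasureTheory Module Complex
open scoped Real

namespace Claimed.Open.R032

/-- `ζ = exp(2πi/5)`. -/
noncomputable def zeta5 : ℂ := Complex.exp (2 * π * I / 5)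

/-- POST Z1 (`Complex.isPrimitiveRoot_exp 5`). -/
theorem zeta5_pow_five : zeta5 ^ 5 = 1 := by
  have h := Complex.isPrimitiveRoot_exp 5 (by norm_num)
  have h2 : IsPrimitiveRoot zeta5 5 := by simpa [zeta5] using h
  exact h2.pow_eq_one

/-- POST Z1. -/
theorem zeta5_ne_one : zeta5 ≠ 1 := by
  have h := Complex.isPrimitiveRoot_exp 5 (by norm_num)
  have h2 : IsPrimitiveRoot zeta5 5 := by simpa [zeta5] using h
  exact h2.ne_one (by norm_num)

/-- POST Z1. -/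
theorem zeta5_sum : 1 + zeta5 + zeta5 ^ 2 + zeta5 ^ 3 + zeta5 ^ 4 = 0 := by
  have h : (zeta5 - 1) * (1 + zeta5 + zeta5 ^ 2 + zeta5 ^ 3 + zeta5 ^ 4) = 0 := by
    have := zeta5_pow_five
    linear_combination this
  exact (mul_eq_zero.1 h).resolve_left (sub_ne_zero.2 zeta5_ne_one)

/-- POST Z1.  `conj ζ = ζ⁴`. -/
theorem conj_zeta5 : (starRingEnd ℂ) zeta5 = zeta5 ^ 4 := by
  have hn : ‖zeta5‖ = 1 := by
    have e : (2 * π * I / 5 : ℂ) = ((2 * π / 5 : ℝ) : ℂ) * I := by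
      push_cast
      ring
    unfold zeta5
    rw [e, Complex.norm_exp_ofReal_mul_I]
  have h1 : zeta5 * (starRingEnd ℂ) zeta5 = 1 := by
    rw [Complex.mul_conj, Complex.normSq_eq_norm_sq, hn]
    simp
  have h2 : zeta5 * zeta5 ^ 4 = 1 := by
    rw [← pow_succ']
    exact zeta5_pow_five
  have h0 : zeta5 ≠ 0 := by
    intro h
    rw [h] at h2
    simp at h2
  exact mul_left_cancel₀ h0 (h1.trans h2.symm)

/-- POST Z1.  `Im ζ > 0` and `Im ζ² > 0` (`sin (2π/5)`, `sin (4π/5)`). -/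
theorem zeta5_im_pos : 0 < zeta5.im ∧ 0 < (zeta5 ^ 2).im := by
  have e1 : zeta5 = Complex.exp (((2 * π / 5 : ℝ) : ℂ) * I) := by
    unfold zeta5
    congr 1
    push_cast
    ring
  have e2 : zeta5 ^ 2 = Complex.exp (((4 * π / 5 : ℝ) : ℂ) * I) := by
    rw [e1, ← Complex.exp_nat_mul]
    congr 1
    push_cast
    ring
  constructor
  · rw [e1, Complex.exp_ofReal_mul_I_im]
    exact Real.sin_pos_of_pos_of_lt_pi (by positivity) (by linarith [Real.pi_pos])
  · rw [e2, Complex.exp_ofReal_mul_I_im]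
    exact Real.sin_pos_of_pos_of_lt_pi (by positivity) (by linarith [Real.pi_pos])

/-- POST Z2.  A fifth root of unity `z ≠ 1` has an irrational real part: `x = z + conj z = 2 Re z` satisfies `x² + x - 1 = 0`
(`conj z = z⁻¹ = z⁴`), which has no rational solution. -/
theorem re_ne_rat_of_pow_five {z : ℂ} (h5 : z ^ 5 = 1) (h1 : z ≠ 1) (q : ℚ) : z.re ≠ q := by
  intro hq
  have hS : 1 + z + z ^ 2 + z ^ 3 + z ^ 4 = 0 := by
    have h : (z - 1) * (1 + z + z ^ 2 + z ^ 3 + z ^ 4) = 0 := by linear_combination h5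
    exact (mul_eq_zero.1 h).resolve_left (sub_ne_zero.2 h1)
  have hnorm : ‖z‖ = 1 := by
    have h : ‖z‖ ^ 5 = 1 := by rw [← norm_pow, h5, norm_one]
    exact (pow_eq_one_iff_of_nonneg (norm_nonneg z) (by norm_num)).1 h
  have hn : z.re ^ 2 + z.im ^ 2 = 1 := by
    have h := Complex.sq_norm z
    rw [hnorm, Complex.normSq_apply] at h
    linarith
  have hRe := congrArg Complex.re hS
  simp only [pow_succ, pow_zero, one_mul, Complex.add_re, Complex.mul_re, Complex.mul_im, Complex.one_re,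
    Complex.zero_re] at hRe
  have hprod : (4 * z.re ^ 2 + 2 * z.re - 1) * (2 * z.re ^ 2 - 1) = 0 := by
    linear_combination hRe - (z.im ^ 2 - 3 * z.re - 7 * z.re ^ 2) * hn
  rw [hq] at hprod
  rcases mul_eq_zero.1 hprod with h | h
  · have h' : (4 * (q : ℝ) + 1) ^ 2 = 5 := by linear_combination 4 * h
    have hirr : Irrational (√5) := by exact_mod_cast Nat.prime_five.irrational_sqrt
    apply hirr
    refine ⟨|4 * q + 1|, ?_⟩
    rw [← h', Real.sqrt_sq_eq_abs]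
    push_cast
    rfl
  · have h' : (2 * (q : ℝ)) ^ 2 = 2 := by linear_combination 2 * h
    apply irrational_sqrt_two
    refine ⟨|2 * q|, ?_⟩
    rw [← h', Real.sqrt_sq_eq_abs]
    push_cast
    rfl

/-- The standard `ℂ`-basis of `ℂ²`. -/
noncomputable def stdW2 : Basis (Fin 2) ℂ (Cn 2) :=
  Basis.ofEquivFun (WithLp.linearEquiv 2 ℂ (Fin 2 → ℂ))

theorem stdW2_repr (z : Cn 2) (k : Fin 2) : stdW2.repr z k = z k := rfl

/-- `b_i = (ζ^i, ζ^{2i})`. -/
noncomputable def zvec (i : Fin 4) : Cn 2 :=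
  (WithLp.linearEquiv 2 ℂ (Fin 2 → ℂ)).symm ![zeta5 ^ (i : ℕ), zeta5 ^ (2 * (i : ℕ))]

theorem zvec_zero (i : Fin 4) : zvec i 0 = zeta5 ^ (i : ℕ) := rfl

theorem zvec_one (i : Fin 4) : zvec i 1 = zeta5 ^ (2 * (i : ℕ)) := rfl

/-- POST Z3.  If `∑ r_i b_i = 0` with `r_i` real, the real polynomial `∑ r_i X^i` of degree `≤ 3` vanishes at `ζ, ζ²` and at their
conjugates `ζ⁴, ζ³`: four different numbers. -/
theorem zvec_linearIndependent : LinearIndependent ℝ zvec := by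
  rw [Fintype.linearIndependent_iff]
  intro g hsum
  have hprim : IsPrimitiveRoot zeta5 5 := by
    have := Complex.isPrimitiveRoot_exp 5 (by norm_num)
    simpa [zeta5] using this
  -- the two coordinates
  have hco : ∀ k : Fin 2, ∑ i, (g i : ℂ) * zvec i k = 0 := by
    intro k
    have h := congrArg (fun w : Cn 2 => w k) hsum
    simpa [Finset.sum_apply, PiLp.smul_apply, Complex.real_smul] using h
  have h1 : ∑ i : Fin 4, (g i : ℂ) * zeta5 ^ (i : ℕ) = 0 := by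
    simpa only [zvec_zero] using hco 0
  have h2 : ∑ i : Fin 4, (g i : ℂ) * zeta5 ^ (2 * (i : ℕ)) = 0 := by
    simpa only [zvec_one] using hco 1
  -- their conjugates
  have h4 : ∑ i : Fin 4, (g i : ℂ) * (zeta5 ^ 4) ^ (i : ℕ) = 0 := by
    have h := congrArg (starRingEnd ℂ) h1
    simpa only [map_sum, map_mul, map_pow, Complex.conj_ofReal, conj_zeta5, map_zero] using h
  have h8 : zeta5 ^ 8 = zeta5 ^ 3 := by
    calc zeta5 ^ 8 = zeta5 ^ 5 * zeta5 ^ 3 := by ring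
      _ = zeta5 ^ 3 := by rw [zeta5_pow_five, one_mul]
  have h3 : ∑ i : Fin 4, (g i : ℂ) * (zeta5 ^ 3) ^ (i : ℕ) = 0 := by
    have h := congrArg (starRingEnd ℂ) h2
    simp only [map_sum, map_mul, map_pow, Complex.conj_ofReal, conj_zeta5, map_zero] at h
    rw [← h]
    refine Finset.sum_congr rfl fun i _ => ?_
    rw [← h8, ← pow_mul, ← pow_mul]
    congr 2
    ring
  -- Vandermonde
  set v : Fin 4 → ℂ := fun k => zeta5 ^ ((k : ℕ) + 1) with hv
  have hinj : Function.Injective v := by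
    intro a b hab
    have := hprim.pow_inj (by omega) (by omega) hab
    exact Fin.ext (by omega)
  have hdet : (Matrix.vandermonde v).det ≠ 0 := Matrix.det_vandermonde_ne_zero_iff.2 hinj
  have hmul : (Matrix.vandermonde v).mulVec (fun i => (g i : ℂ)) = 0 := by
    funext k
    simp only [Matrix.mulVec, dotProduct, Matrix.vandermonde_apply, Pi.zero_apply, hv]
    fin_cases k
    · simpa [mul_comm] using h1
    · have : ∑ i : Fin 4, (g i : ℂ) * (zeta5 ^ 2) ^ (i : ℕ) = 0 := by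
        simpa only [pow_mul] using h2
      simpa [mul_comm] using this
    · simpa [mul_comm] using h3
    · simpa [mul_comm] using h4
  have hz := Matrix.eq_zero_of_mulVec_eq_zero hdet hmul
  intro i
  have := congrFun hz i
  simpa using this

/-- The period basis of `A = ℂ² / Φ(ℤ[ζ])`. -/
noncomputable def zetaBasis : Basis (Fin 4) ℝ (Cn 2) :=
  basisOfLinearIndependentOfCardEqFinrank zvec_linearIndependent
    (by rw [finrank_real_of_complex]; simp)

theorem zetaBasis_apply (i : Fin 4) : zetaBasis i = zvec i := by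
  simp [zetaBasis]

theorem ind184_term (a x y : ℂ) : ((4 * a.im * (x.im * y.re - x.re * y.im) : ℝ) : ℂ) =
    -((a - (starRingEnd ℂ) a) * (x * (starRingEnd ℂ) y - (starRingEnd ℂ) x * y)) := by
  have ha : a - (starRingEnd ℂ) a = ((2 * a.im : ℝ) : ℂ) * I := Complex.sub_conj a
  have hx : x * (starRingEnd ℂ) y - (starRingEnd ℂ) x * y =
      ((2 * (x.im * y.re - x.re * y.im) : ℝ) : ℂ) * I := by
    apply Complex.ext
    · simp
    · simp
      ring
  rw [ha, hx]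
  push_cast
  linear_combination (4 * (a.im : ℂ) * ((x.im : ℂ) * y.re - x.re * y.im)) * Complex.I_sq

theorem ind184_formula (i l : ℕ) (hi : i < 4) (hl : l < 4) :
    ((mix92_form stdW2 ![4 * zeta5.im, 4 * (zeta5 ^ 2).im] (zetaBasis ⟨i, hi⟩) (zetaBasis ⟨l, hl⟩) : ℝ) : ℂ) =
      -((zeta5 - zeta5 ^ 4) * (zeta5 ^ i * zeta5 ^ (4 * l) - zeta5 ^ (4 * i) * zeta5 ^ l)) -
        (zeta5 ^ 2 - zeta5 ^ 8) * (zeta5 ^ (2 * i) * zeta5 ^ (8 * l) - zeta5 ^ (8 * i) * zeta5 ^ (2 * l)) := by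
  rw [mix92_form_apply, Fin.sum_univ_two]
  simp only [zetaBasis_apply, stdW2_repr, zvec_zero, zvec_one, Matrix.cons_val_zero, Matrix.cons_val_one]
  rw [Complex.ofReal_add, ind184_term, ind184_term]
  simp only [map_pow, conj_zeta5]
  ring

/-- POST Z4.  The values of `E(x,y) = 4 ∑_j Im ζ^j · Im (x_j conj y_j)` (`j = 1, 2`) on the periods are integers:
`E(b_i, b_l) = 5 ([5 ∣ m - 1] - [5 ∣ m + 1])`, `m = i - l` (16 cases; write `4 Im a Im c = -(a - conj a)(c - conj c)`, use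
`conj_zeta5`, `zeta5_pow_five`, `zeta5_sum`). -/
theorem zeta_form_integral (i l : Fin 4) : ∃ z : ℤ,
    mix92_form stdW2 ![4 * zeta5.im, 4 * (zeta5 ^ 2).im] (zetaBasis i) (zetaBasis l) = z := by
  have key : ∀ z : ℤ, ((mix92_form stdW2 ![4 * zeta5.im, 4 * (zeta5 ^ 2).im] (zetaBasis i) (zetaBasis l) : ℝ) : ℂ)
      = (z : ℂ) → ∃ z : ℤ,
        mix92_form stdW2 ![4 * zeta5.im, 4 * (zeta5 ^ 2).im] (zetaBasis i) (zetaBasis l) = z :=
    fun z h => ⟨z, by exact_mod_cast h⟩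
  have hs := zeta5_sum
  obtain ⟨i, hi⟩ := i
  obtain ⟨l, hl⟩ := l
  interval_cases i <;> interval_cases l
  · refine key (0) ?_
    rw [ind184_formula 0 0 hi hl]
    push_cast
    linear_combination (0) * hs
  · refine key (-5) ?_
    rw [ind184_formula 0 1 hi hl]
    push_cast
    linear_combination ((5) * zeta5 ^ 0 + (-5) * zeta5 ^ 1 + (1) * zeta5 ^ 2 + (-1) * zeta5 ^ 3 + (1) * zeta5 ^ 4 + (2) * zeta5 ^ 5 + (-3) * zeta5 ^ 6 + (1) * zeta5 ^ 7 + (-1) * zeta5 ^ 11 + (1) * zeta5 ^ 12) * hs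
  · refine key (0) ?_
    rw [ind184_formula 0 2 hi hl]
    push_cast
    linear_combination ((1) * zeta5 ^ 3 + (-1) * zeta5 ^ 4 + (1) * zeta5 ^ 8 + (-2) * zeta5 ^ 9 + (1) * zeta5 ^ 10 + (1) * zeta5 ^ 13 + (-2) * zeta5 ^ 14 + (1) * zeta5 ^ 15 + (-1) * zeta5 ^ 19 + (1) * zeta5 ^ 20) * hs
  · refine key (0) ?_
    rw [ind184_formula 0 3 hi hl]
    push_cast
    linear_combination ((1) * zeta5 ^ 4 + (-1) * zeta5 ^ 5 + (-1) * zeta5 ^ 7 + (2) * zeta5 ^ 8 + (-1) * zeta5 ^ 10 + (-1) * zeta5 ^ 12 + (1) * zeta5 ^ 13 + (1) * zeta5 ^ 16 + (-2) * zeta5 ^ 17 + (1) * zeta5 ^ 18 + (1) * zeta5 ^ 21 + (-2) * zeta5 ^ 22 + (1) * zeta5 ^ 23 + (-1) * zeta5 ^ 27 + (1) * zeta5 ^ 28) * hs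
  · refine key (5) ?_
    rw [ind184_formula 1 0 hi hl]
    push_cast
    linear_combination ((-5) * zeta5 ^ 0 + (5) * zeta5 ^ 1 + (-1) * zeta5 ^ 2 + (1) * zeta5 ^ 3 + (-1) * zeta5 ^ 4 + (-2) * zeta5 ^ 5 + (3) * zeta5 ^ 6 + (-1) * zeta5 ^ 7 + (1) * zeta5 ^ 11 + (-1) * zeta5 ^ 12) * hs
  · refine key (0) ?_
    rw [ind184_formula 1 1 hi hl]
    push_cast
    linear_combination (0) * hs
  · refine key (-5) ?_
    rw [ind184_formula 1 2 hi hl]
    push_cast
    linear_combination ((5) * zeta5 ^ 0 + (-5) * zeta5 ^ 1 + (5) * zeta5 ^ 5 + (-5) * zeta5 ^ 6 + (1) * zeta5 ^ 7 + (-1) * zeta5 ^ 8 + (3) * zeta5 ^ 10 + (-3) * zeta5 ^ 11 + (1) * zeta5 ^ 12 + (2) * zeta5 ^ 15 + (-3) * zeta5 ^ 16 + (1) * zeta5 ^ 17 + (-1) * zeta5 ^ 21 + (1) * zeta5 ^ 22) * hs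
  · refine key (0) ?_
    rw [ind184_formula 1 3 hi hl]
    push_cast
    linear_combination ((1) * zeta5 ^ 8 + (-1) * zeta5 ^ 9 + (-1) * zeta5 ^ 11 + (1) * zeta5 ^ 12 + (1) * zeta5 ^ 13 + (-2) * zeta5 ^ 14 + (1) * zeta5 ^ 15 + (1) * zeta5 ^ 17 + (-2) * zeta5 ^ 19 + (1) * zeta5 ^ 20 + (1) * zeta5 ^ 23 + (-2) * zeta5 ^ 24 + (1) * zeta5 ^ 25 + (-1) * zeta5 ^ 29 + (1) * zeta5 ^ 30) * hs
  · refine key (0) ?_
    rw [ind184_formula 2 0 hi hl]
    push_cast
    linear_combination ((-1) * zeta5 ^ 3 + (1) * zeta5 ^ 4 + (-1) * zeta5 ^ 8 + (2) * zeta5 ^ 9 + (-1) * zeta5 ^ 10 + (-1) * zeta5 ^ 13 + (2) * zeta5 ^ 14 + (-1) * zeta5 ^ 15 + (1) * zeta5 ^ 19 + (-1) * zeta5 ^ 20) * hs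
  · refine key (5) ?_
    rw [ind184_formula 2 1 hi hl]
    push_cast
    linear_combination ((-5) * zeta5 ^ 0 + (5) * zeta5 ^ 1 + (-5) * zeta5 ^ 5 + (5) * zeta5 ^ 6 + (-1) * zeta5 ^ 7 + (1) * zeta5 ^ 8 + (-3) * zeta5 ^ 10 + (3) * zeta5 ^ 11 + (-1) * zeta5 ^ 12 + (-2) * zeta5 ^ 15 + (3) * zeta5 ^ 16 + (-1) * zeta5 ^ 17 + (1) * zeta5 ^ 21 + (-1) * zeta5 ^ 22) * hs
  · refine key (0) ?_
    rw [ind184_formula 2 2 hi hl]
    push_cast
    linear_combination (0) * hs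
  · refine key (-5) ?_
    rw [ind184_formula 2 3 hi hl]
    push_cast
    linear_combination ((5) * zeta5 ^ 0 + (-5) * zeta5 ^ 1 + (5) * zeta5 ^ 5 + (-5) * zeta5 ^ 6 + (5) * zeta5 ^ 10 + (-5) * zeta5 ^ 11 + (1) * zeta5 ^ 12 + (-1) * zeta5 ^ 13 + (3) * zeta5 ^ 15 + (-3) * zeta5 ^ 16 + (1) * zeta5 ^ 17 + (-1) * zeta5 ^ 19 + (3) * zeta5 ^ 20 + (-3) * zeta5 ^ 21 + (1) * zeta5 ^ 22 + (2) * zeta5 ^ 25 + (-3) * zeta5 ^ 26 + (1) * zeta5 ^ 27 + (-1) * zeta5 ^ 31 + (1) * zeta5 ^ 32) * hs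
  · refine key (0) ?_
    rw [ind184_formula 3 0 hi hl]
    push_cast
    linear_combination ((-1) * zeta5 ^ 4 + (1) * zeta5 ^ 5 + (1) * zeta5 ^ 7 + (-2) * zeta5 ^ 8 + (1) * zeta5 ^ 10 + (1) * zeta5 ^ 12 + (-1) * zeta5 ^ 13 + (-1) * zeta5 ^ 16 + (2) * zeta5 ^ 17 + (-1) * zeta5 ^ 18 + (-1) * zeta5 ^ 21 + (2) * zeta5 ^ 22 + (-1) * zeta5 ^ 23 + (1) * zeta5 ^ 27 + (-1) * zeta5 ^ 28) * hs
  · refine key (0) ?_
    rw [ind184_formula 3 1 hi hl]
    push_cast
    linear_combination ((-1) * zeta5 ^ 8 + (1) * zeta5 ^ 9 + (1) * zeta5 ^ 11 + (-1) * zeta5 ^ 12 + (-1) * zeta5 ^ 13 + (2) * zeta5 ^ 14 + (-1) * zeta5 ^ 15 + (-1) * zeta5 ^ 17 + (2) * zeta5 ^ 19 + (-1) * zeta5 ^ 20 + (-1) * zeta5 ^ 23 + (2) * zeta5 ^ 24 + (-1) * zeta5 ^ 25 + (1) * zeta5 ^ 29 + (-1) * zeta5 ^ 30) * hs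
  · refine key (5) ?_
    rw [ind184_formula 3 2 hi hl]
    push_cast
    linear_combination ((-5) * zeta5 ^ 0 + (5) * zeta5 ^ 1 + (-5) * zeta5 ^ 5 + (5) * zeta5 ^ 6 + (-5) * zeta5 ^ 10 + (5) * zeta5 ^ 11 + (-1) * zeta5 ^ 12 + (1) * zeta5 ^ 13 + (-3) * zeta5 ^ 15 + (3) * zeta5 ^ 16 + (-1) * zeta5 ^ 17 + (1) * zeta5 ^ 19 + (-3) * zeta5 ^ 20 + (3) * zeta5 ^ 21 + (-1) * zeta5 ^ 22 + (-2) * zeta5 ^ 25 + (3) * zeta5 ^ 26 + (-1) * zeta5 ^ 27 + (1) * zeta5 ^ 31 + (-1) * zeta5 ^ 32) * hs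
  · refine key (0) ?_
    rw [ind184_formula 3 3 hi hl]
    push_cast
    linear_combination (0) * hs

/-- POST Z5 (as in the proof of `isPolarizable_of_mixed_periods`, `SanityMixCM.lean`: `mix92_form` with positive weights;
`integral_on_lattice_of_basis`, Z4, `zeta5_im_pos`). -/
theorem zeta_isPolarizable : IsPolarizable (lattice zetaBasis) := by
  classical
  obtain ⟨c, hc⟩ : ∃ c : Fin 2 → ℝ, c = ![4 * zeta5.im, 4 * (zeta5 ^ 2).im] := ⟨_, rfl⟩
  have hcpos : ∀ k, 0 < c k := by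
    intro k
    rw [hc]
    fin_cases k
    · exact mul_pos (by norm_num) zeta5_im_pos.1
    · exact mul_pos (by norm_num) zeta5_im_pos.2
  refine ⟨mix92_form stdW2 c, ?_, ?_, ?_, ?_⟩
  · intro v
    rw [mix92_form_apply]
    simp [mul_comm]
  · apply integral_on_lattice_of_basis
    intro i j
    rw [hc]
    exact zeta_form_integral i j
  · intro v v'
    simp only [mix92_form_apply, map_smul, Finsupp.smul_apply, smul_eq_mul]
    refine Finset.sum_congr rfl fun k _ => ?_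
    congr 1
    simp
    ring
  · intro v hv
    rw [mix92_form_apply]
    have hk : ∃ k, stdW2.repr v k ≠ 0 := by
      by_contra hcon
      push Not at hcon
      apply hv
      apply stdW2.repr.injective
      ext k
      simp [hcon k]
    obtain ⟨k, hk⟩ := hk
    have hterm : ∀ k, (stdW2.repr (I • v) k).im * (stdW2.repr v k).re - (stdW2.repr (I • v) k).re * (stdW2.repr v k).im
        = Complex.normSq (stdW2.repr v k) := by
      intro k
      rw [map_smul, Finsupp.smul_apply, Complex.normSq_apply]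
      simp
    simp only [hterm]
    exact Finset.sum_pos' (fun k _ => mul_nonneg (hcpos k).le (Complex.normSq_nonneg _))
      ⟨k, Finset.mem_univ k, mul_pos (hcpos k) (Complex.normSq_pos.2 hk)⟩

/-- The multiplication by `ζ`: `diag(ζ, ζ²)`. -/
noncomputable def zetaEnd : Module.End ℂ (Cn 2) := diagEnd stdW2 ![zeta5, zeta5 ^ 2]

/-- Helper of POST Z6: `zetaEnd` in coordinates. -/
theorem z6_zetaEnd_apply (v : Cn 2) (k : Fin 2) : zetaEnd v k = ![zeta5, zeta5 ^ 2] k * v k := by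
  have h := repr_diagEnd stdW2 ![zeta5, zeta5 ^ 2] v k
  rwa [stdW2_repr, stdW2_repr] at h

theorem z6_ext {x y : Cn 2} (h0 : x 0 = y 0) (h1 : x 1 = y 1) : x = y := by
  ext k
  fin_cases k
  · exact h0
  · exact h1

theorem z6_zetaEnd_zvec_zero : zetaEnd (zvec 0) = zvec 1 := by
  refine z6_ext ?_ ?_
  · rw [z6_zetaEnd_apply, zvec_zero, zvec_zero]
    simp
  · rw [z6_zetaEnd_apply, zvec_one, zvec_one]
    simp

theorem z6_zetaEnd_zvec_one : zetaEnd (zvec 1) = zvec 2 := by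
  refine z6_ext ?_ ?_
  · rw [z6_zetaEnd_apply, zvec_zero, zvec_zero]
    simp
    ring
  · rw [z6_zetaEnd_apply, zvec_one, zvec_one]
    simp
    ring

theorem z6_zetaEnd_zvec_two : zetaEnd (zvec 2) = zvec 3 := by
  refine z6_ext ?_ ?_
  · rw [z6_zetaEnd_apply, zvec_zero, zvec_zero]
    simp
    ring
  · rw [z6_zetaEnd_apply, zvec_one, zvec_one]
    simp
    ring

theorem z6_zetaEnd_zvec_three : zetaEnd (zvec 3) = -(zvec 0 + zvec 1 + zvec 2 + zvec 3) := by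
  have h5 := zeta5_pow_five
  have hs := zeta5_sum
  refine z6_ext ?_ ?_
  · rw [z6_zetaEnd_apply]
    simp only [PiLp.neg_apply, PiLp.add_apply, zvec_zero]
    simp
    linear_combination hs
  · rw [z6_zetaEnd_apply]
    simp only [PiLp.neg_apply, PiLp.add_apply, zvec_one]
    simp
    linear_combination (zeta5 ^ 3 + zeta5) * h5 + hs

/-- POST Z6.  `ζ b_i = b_{i+1}`, `b_4 = -(b_0 + b_1 + b_2 + b_3)`. -/
theorem zetaEnd_mem_lattice : ∀ v ∈ lattice zetaBasis, zetaEnd v ∈ lattice zetaBasis := by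
  have hb : ∀ i : Fin 4, zvec i ∈ lattice zetaBasis := fun i =>
    Submodule.subset_span ⟨i, zetaBasis_apply i⟩
  intro v hv
  induction hv using Submodule.span_induction with
  | mem x hx =>
    obtain ⟨i, rfl⟩ := hx
    rw [zetaBasis_apply]
    fin_cases i
    · rw [show zetaEnd (zvec ((fun i => i) ⟨0, by decide⟩)) = zvec 1 from z6_zetaEnd_zvec_zero]
      exact hb 1
    · rw [show zetaEnd (zvec ((fun i => i) ⟨1, by decide⟩)) = zvec 2 from z6_zetaEnd_zvec_one]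
      exact hb 2
    · rw [show zetaEnd (zvec ((fun i => i) ⟨2, by decide⟩)) = zvec 3 from z6_zetaEnd_zvec_two]
      exact hb 3
    · rw [show zetaEnd (zvec ((fun i => i) ⟨3, by decide⟩)) = -(zvec 0 + zvec 1 + zvec 2 + zvec 3)
        from z6_zetaEnd_zvec_three]
      exact neg_mem (add_mem (add_mem (add_mem (hb 0) (hb 1)) (hb 2)) (hb 3))
  | zero => rw [map_zero]; exact zero_mem _
  | add x y _ _ hx hy => rw [map_add]; exact add_mem hx hy
  | smul n x _ hx => rw [map_zsmul]; exact Submodule.smul_mem _ n hx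

theorem z7_rat_add {V : Type*} [NormedAddCommGroup V] [InnerProductSpace ℂ V] {Λ : Submodule ℤ V}
    {f g : Module.End ℂ V} (hf : IsRationalEndomorphism Λ f) (hg : IsRationalEndomorphism Λ g) :
    IsRationalEndomorphism Λ (f + g) := by
  obtain ⟨n, hn, hf⟩ := hf
  obtain ⟨m, hm, hg⟩ := hg
  refine ⟨n * m, Nat.mul_pos hn hm, fun v hv => ?_⟩
  have h1 : (n * m) • (f + g) v = m • (n • f v) + n • (m • g v) := by
    rw [LinearMap.add_apply, smul_add, smul_smul, smul_smul, mul_comm m n]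
  rw [h1]
  exact Λ.add_mem (Λ.smul_of_tower_mem m (hf v hv)) (Λ.smul_of_tower_mem n (hg v hv))

theorem z7_rat_mul {V : Type*} [NormedAddCommGroup V] [InnerProductSpace ℂ V] {Λ : Submodule ℤ V}
    {f g : Module.End ℂ V} (hf : IsRationalEndomorphism Λ f) (hg : IsRationalEndomorphism Λ g) :
    IsRationalEndomorphism Λ (f * g) := by
  obtain ⟨n, hn, hf⟩ := hf
  obtain ⟨m, hm, hg⟩ := hg
  refine ⟨n * m, Nat.mul_pos hn hm, fun v hv => ?_⟩
  have h1 : (n * m) • (f * g) v = n • f (m • g v) := by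
    rw [Module.End.mul_apply, map_nsmul, smul_smul]
  rw [h1]
  exact hf _ (hg v hv)

theorem z7_rat_pow {V : Type*} [NormedAddCommGroup V] [InnerProductSpace ℂ V] {Λ : Submodule ℤ V}
    {f : Module.End ℂ V} (hf : IsRationalEndomorphism Λ f) (k : ℕ) :
    IsRationalEndomorphism Λ (f ^ k) := by
  induction k with
  | zero => exact ⟨1, one_pos, fun v hv => by simpa using hv⟩
  | succ k ih => rw [pow_succ]; exact z7_rat_mul ih hf

theorem z7_diag_const (c : ℂ) (v : Cn 2) : diagEnd stdW2 (fun _ => c) v = c • v := by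
  apply stdW2.repr.injective
  ext k
  rw [repr_diagEnd, map_smul, Finsupp.smul_apply, smul_eq_mul]

theorem z7_rat_const (Λ : Submodule ℤ (Cn 2)) (q : ℚ) :
    IsRationalEndomorphism Λ (diagEnd stdW2 (fun _ => (q : ℂ))) := by
  refine ⟨q.den, q.den_pos, fun v hv => ?_⟩
  have h1 : q.den • diagEnd stdW2 (fun _ => (q : ℂ)) v = q.num • v := by
    rw [z7_diag_const, ← Nat.cast_smul_eq_nsmul ℂ, smul_smul, ← Int.cast_smul_eq_zsmul ℂ]
    congr 1
    have := Rat.den_mul_eq_num q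
    exact_mod_cast congrArg (fun r : ℚ => (r : ℂ)) this
  rw [h1]
  exact Λ.smul_mem _ hv

theorem z7_eval (j : Fin 2) :
    (Polynomial.cyclotomic 5 ℚ).eval₂ (algebraMap ℚ ℂ) (![zeta5, zeta5 ^ 2] j) = 0 := by
  have : Fact (Nat.Prime 5) := ⟨by norm_num⟩
  rw [Polynomial.cyclotomic_prime ℚ 5]
  simp only [Finset.sum_range_succ, Finset.sum_range_zero, Polynomial.eval₂_add, Polynomial.eval₂_pow,
    Polynomial.eval₂_X, pow_zero, Polynomial.eval₂_one, zero_add, pow_one]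
  fin_cases j
  · simp only [Fin.zero_eta, Matrix.cons_val_zero]
    linear_combination zeta5_sum
  · simp only [Fin.mk_one, Matrix.cons_val_one, Matrix.cons_val_zero]
    linear_combination zeta5_sum + (zeta5 + zeta5 ^ 3) * zeta5_pow_five

/-- POST Z7.  `A` is of CM type, by the field `F = ℚ(ζ) = AdjoinRoot (cyclotomic 5 ℚ)` (`Polynomial.cyclotomic.irreducible_rat`,
`AdjoinRoot.powerBasis`: `finrank = 4`), `ι a = diag(φ₁ a, φ₂ a)`, `φ_j = AdjoinRoot.lift _ (ζ^j) _`.  Every `a ∈ F` is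
`N⁻¹ ∑_{i<4} n_i root^i` with integers `n_i`, `N ≥ 1`, and `ι root = zetaEnd` preserves the lattice (Z6). -/
theorem zeta_isCM : IsCM (lattice zetaBasis) := by
  have : Fact (Irreducible (Polynomial.cyclotomic 5 ℚ)) :=
    ⟨Polynomial.cyclotomic.irreducible_rat (by norm_num)⟩
  have hne : Polynomial.cyclotomic 5 ℚ ≠ 0 := Polynomial.cyclotomic_ne_zero 5 ℚ
  let φ : Fin 2 → (AdjoinRoot (Polynomial.cyclotomic 5 ℚ) →+* ℂ) := fun j =>
    AdjoinRoot.lift (algebraMap ℚ ℂ) (![zeta5, zeta5 ^ 2] j) (z7_eval j)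
  let ι : AdjoinRoot (Polynomial.cyclotomic 5 ℚ) →+* Module.End ℂ (Cn 2) :=
    (diagEnd stdW2).comp (RingHom.pi φ)
  have hroot : ι (AdjoinRoot.root _) = zetaEnd := by
    change diagEnd stdW2 (fun j => φ j (AdjoinRoot.root _)) = diagEnd stdW2 ![zeta5, zeta5 ^ 2]
    congr 1
    funext j
    exact AdjoinRoot.lift_root (z7_eval j)
  have hof : ∀ q : ℚ, ι (AdjoinRoot.of _ q) = diagEnd stdW2 (fun _ => (q : ℂ)) := by
    intro q
    change diagEnd stdW2 (fun j => φ j (AdjoinRoot.of _ q)) = _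
    congr 1
    funext j
    exact AdjoinRoot.lift_of (z7_eval j)
  have hz : IsRationalEndomorphism (lattice zetaBasis) zetaEnd :=
    ⟨1, one_pos, fun v hv => by rw [one_smul]; exact zetaEnd_mem_lattice v hv⟩
  refine ⟨AdjoinRoot (Polynomial.cyclotomic 5 ℚ), inferInstance, inferInstance, ι, inferInstance, ?_, ?_, ?_⟩
  · rw [(AdjoinRoot.powerBasis hne).finrank, AdjoinRoot.powerBasis_dim, Polynomial.natDegree_cyclotomic]
    simp [Nat.totient_prime (by norm_num : Nat.Prime 5)]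
  · exact RingHom.injective _
  · intro a
    induction a using AdjoinRoot.induction_on with
    | ih p =>
      induction p using Polynomial.induction_on' with
      | add p q hp hq => rw [map_add, map_add]; exact z7_rat_add hp hq
      | monomial n q =>
        have e : AdjoinRoot.mk (Polynomial.cyclotomic 5 ℚ) (Polynomial.monomial n q)
            = AdjoinRoot.of _ q * AdjoinRoot.root _ ^ n := by
          rw [← Polynomial.C_mul_X_pow_eq_monomial, map_mul, map_pow, AdjoinRoot.mk_C, AdjoinRoot.mk_X]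
        rw [e, map_mul, map_pow, hroot, hof]
        exact z7_rat_mul (z7_rat_const _ q) (z7_rat_pow hz n)

/-! ### `A` is not isogenous to a product of CM elliptic curves -/

/-- POST Z8.  `K = ℚ + ℚ ω` is closed under multiplication ... -/
theorem quadField_mul {ω : ℂ} (hω2 : ∃ r s : ℚ, ω ^ 2 = r + s * ω) {x y : ℂ}
    (hx : ∃ r s : ℚ, x = r + s * ω) (hy : ∃ r s : ℚ, y = r + s * ω) : ∃ r s : ℚ, x * y = r + s * ω := by
  obtain ⟨r, s, h2⟩ := hω2
  obtain ⟨a, b, rfl⟩ := hx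
  obtain ⟨c, d, rfl⟩ := hy
  refine ⟨a * c + b * d * r, a * d + b * c + b * d * s, ?_⟩
  push_cast
  linear_combination ((b : ℂ) * d) * h2

/-- POST Z8.  ... under subtraction ... -/
theorem quadField_sub {ω : ℂ} {x y : ℂ}
    (hx : ∃ r s : ℚ, x = r + s * ω) (hy : ∃ r s : ℚ, y = r + s * ω) : ∃ r s : ℚ, x - y = r + s * ω := by
  obtain ⟨a, b, rfl⟩ := hx
  obtain ⟨c, d, rfl⟩ := hy
  refine ⟨a - c, b - d, ?_⟩
  push_cast
  ring

/-- POST Z8.  ... and under inversion (`ω ∉ ℝ`); -/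
theorem quadField_inv {ω : ℂ} (hω : ω.im ≠ 0) (hω2 : ∃ r s : ℚ, ω ^ 2 = r + s * ω) {x : ℂ}
    (hx : ∃ r s : ℚ, x = r + s * ω) : ∃ r s : ℚ, x⁻¹ = r + s * ω := by
  obtain ⟨r, s, h2⟩ := hω2
  obtain ⟨a, b, rfl⟩ := hx
  by_cases hx0 : ((a : ℂ) + b * ω) = 0
  · exact ⟨0, 0, by rw [hx0]; simp⟩
  have hx' : ((a : ℂ) + b * s - b * ω) ≠ 0 := by
    intro h
    have him := congrArg Complex.im h
    have hb : (b : ℝ) * ω.im = 0 := by
      simp only [Complex.sub_im, Complex.add_im, Complex.mul_im, Complex.ratCast_im,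
        Complex.ratCast_re, Complex.zero_im] at him
      linarith
    have hb0 : (b : ℝ) = 0 := (mul_eq_zero.1 hb).resolve_right hω
    have hb0' : b = 0 := by exact_mod_cast hb0
    subst hb0'
    apply hx0
    simpa using h
  have hN : ((a : ℂ) + b * ω) * ((a : ℂ) + b * s - b * ω) =
      ((a ^ 2 + a * b * s - b ^ 2 * r : ℚ) : ℂ) := by
    push_cast
    linear_combination (-(b : ℂ) ^ 2) * h2
  have hN0 : ((a ^ 2 + a * b * s - b ^ 2 * r : ℚ) : ℂ) ≠ 0 := by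
    rw [← hN]
    exact mul_ne_zero hx0 hx'
  refine ⟨(a + b * s) / (a ^ 2 + a * b * s - b ^ 2 * r), -b / (a ^ 2 + a * b * s - b ^ 2 * r), ?_⟩
  have e : ((a : ℂ) + b * ω)⁻¹ =
      ((a : ℂ) + b * s - b * ω) / ((a ^ 2 + a * b * s - b ^ 2 * r : ℚ) : ℂ) := by
    rw [eq_div_iff hN0, ← hN, ← mul_assoc, inv_mul_cancel₀ hx0, one_mul]
  rw [e, Rat.cast_div, Rat.cast_div]
  generalize ((a ^ 2 + a * b * s - b ^ 2 * r : ℚ) : ℂ) = N at hN0
  push_cast
  field_simp
  ring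

/-- POST Z8.  its elements have rational real parts. -/
theorem quadField_re {ω : ℂ} (hω : ω.im ≠ 0) (hω2 : ∃ r s : ℚ, ω ^ 2 = r + s * ω) {x : ℂ}
    (hx : ∃ r s : ℚ, x = r + s * ω) : ∃ q : ℚ, x.re = q := by
  obtain ⟨r, s, h2⟩ := hω2
  obtain ⟨a, b, rfl⟩ := hx
  have him := congrArg Complex.im h2
  have hre : ω.re = (s : ℝ) / 2 := by
    rw [sq] at him
    simp only [Complex.add_im, Complex.mul_im, Complex.ratCast_im, Complex.ratCast_re] at him
    have : (2 * ω.re - s) * ω.im = 0 := by linarith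
    have := (mul_eq_zero.1 this).resolve_right hω
    linarith
  refine ⟨a + b * s / 2, ?_⟩
  simp only [Complex.add_re, Complex.mul_re, Complex.ratCast_im, Complex.ratCast_re, hre]
  push_cast
  ring

lemma z9_not_mem {ω : ℂ} (hω : ω.im ≠ 0) (hω2 : ∃ r s : ℚ, ω ^ 2 = r + s * ω) {z : ℂ} (h5 : z ^ 5 = 1)
    (h1 : z ≠ 1) : ¬ ∃ r s : ℚ, z = r + s * ω := by
  intro h
  obtain ⟨q, hq⟩ := quadField_re hω hω2 h
  exact re_ne_rat_of_pow_five h5 h1 q hq

lemma z9_quot {ω : ℂ} (hω : ω.im ≠ 0) (hω2 : ∃ r s : ℚ, ω ^ 2 = r + s * ω) {a b z : ℂ}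
    (ha : ∃ r s : ℚ, a = r + s * ω) (hb : ∃ r s : ℚ, b = r + s * ω) (ha0 : a ≠ 0) (h : b = z * a) :
    ∃ r s : ℚ, z = r + s * ω := by
  have hz : z = b * a⁻¹ := by
    rw [h, mul_assoc, mul_inv_cancel₀ ha0, mul_one]
  rw [hz]
  exact quadField_mul hω2 hb (quadField_inv hω hω2 ha)

/-- POST Z9.  A `ℂ`-linear form `(z₀, z₁) ↦ α z₀ + β z₁` whose values `v_i = α ζ^i + β ζ^{2i}`, `i < 4`, on the periods lie in ONE imaginary
quadratic field `K` is zero.  (`D = v₁² - v₀ v₂ = -α β ζ² (ζ - 1)²` and `ζ³ D = v₂² - v₁ v₃`.  If `α β ≠ 0` then `ζ³ ∈ K`; if `β = 0 ≠ α`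
then `ζ = v₁ / v₀ ∈ K`; if `α = 0 ≠ β` then `ζ² = v₁ / v₀ ∈ K`: impossible by `quadField_re` and `re_ne_rat_of_pow_five`.) -/
theorem eq_zero_of_values_quadField {ω : ℂ} (hω : ω.im ≠ 0) (hω2 : ∃ r s : ℚ, ω ^ 2 = r + s * ω) (α β : ℂ)
    (h : ∀ i : Fin 4, ∃ r s : ℚ, α * zeta5 ^ (i : ℕ) + β * zeta5 ^ (2 * (i : ℕ)) = r + s * ω) :
    α = 0 ∧ β = 0 := by
  have hz5 := zeta5_pow_five
  have hz1 := zeta5_ne_one
  have hz0 : zeta5 ≠ 0 := by
    intro h0
    rw [h0] at hz5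
    norm_num at hz5
  have h0 : ∃ r s : ℚ, α + β = r + s * ω := by simpa using h 0
  have h1 : ∃ r s : ℚ, α * zeta5 + β * zeta5 ^ 2 = r + s * ω := by simpa using h 1
  have h2 : ∃ r s : ℚ, α * zeta5 ^ 2 + β * zeta5 ^ 4 = r + s * ω := h 2
  have h3 : ∃ r s : ℚ, α * zeta5 ^ 3 + β * zeta5 ^ 6 = r + s * ω := h 3
  have hp2 : (zeta5 ^ 2) ^ 5 = 1 := by rw [← pow_mul, mul_comm, pow_mul, hz5, one_pow]
  have hp3 : (zeta5 ^ 3) ^ 5 = 1 := by rw [← pow_mul, mul_comm, pow_mul, hz5, one_pow]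
  have hn2 : zeta5 ^ 2 ≠ 1 := by
    intro h'
    apply hz1
    calc zeta5 = zeta5 * zeta5 ^ 5 := by rw [hz5, mul_one]
      _ = (zeta5 ^ 2) ^ 3 := by ring
      _ = 1 := by rw [h', one_pow]
  have hn3 : zeta5 ^ 3 ≠ 1 := by
    intro h'
    apply hz1
    calc zeta5 = zeta5 * zeta5 ^ 5 := by rw [hz5, mul_one]
      _ = (zeta5 ^ 3) ^ 2 := by ring
      _ = 1 := by rw [h', one_pow]
  by_cases hα : α = 0
  · by_cases hβ : β = 0
    · exact ⟨hα, hβ⟩
    · exfalso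
      refine z9_not_mem hω hω2 hp2 hn2 (z9_quot hω hω2 h0 h1 ?_ ?_)
      · rw [hα, zero_add]; exact hβ
      · rw [hα]; ring
  · by_cases hβ : β = 0
    · exfalso
      refine z9_not_mem hω hω2 hz5 hz1 (z9_quot hω hω2 h0 h1 ?_ ?_)
      · rw [hβ, add_zero]; exact hα
      · rw [hβ]; ring
    · exfalso
      refine z9_not_mem hω hω2 hp3 hn3 (z9_quot hω hω2
        (quadField_sub (quadField_mul hω2 h1 h1) (quadField_mul hω2 h0 h2))
        (quadField_sub (quadField_mul hω2 h2 h2) (quadField_mul hω2 h1 h3)) ?_ ?_)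
      · have e : (α * zeta5 + β * zeta5 ^ 2) * (α * zeta5 + β * zeta5 ^ 2)
            - (α + β) * (α * zeta5 ^ 2 + β * zeta5 ^ 4)
            = -(α * β * zeta5 ^ 2 * (zeta5 - 1) ^ 2) := by ring
        rw [e]
        exact neg_ne_zero.mpr (mul_ne_zero (mul_ne_zero (mul_ne_zero hα hβ) (pow_ne_zero 2 hz0))
          (pow_ne_zero 2 (sub_ne_zero.mpr hz1)))
      · ring

/-- POST Z10 (from Z9: every coordinate form `w.coord k` of a basis as in `HasMixedQuadraticPeriods` would vanish; but `ℂ² ≠ 0`). -/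
theorem zeta_not_hasMixedQuadraticPeriods : ¬ HasMixedQuadraticPeriods zetaBasis := by
  rintro ⟨n, w, ω, hω, hω2, hper⟩
  have hn : 0 < n := by
    have h1 : Module.finrank ℂ (Cn 2) = n := by
      rw [Module.finrank_eq_card_basis w]; simp
    have h2 : Module.finrank ℂ (Cn 2) = 2 := by
      rw [Module.finrank_eq_card_basis stdW2]; simp
    omega
  let k : Fin n := ⟨0, hn⟩
  have hlin : ∀ z : Cn 2, w.repr z k = w.repr (stdW2 0) k * z 0 + w.repr (stdW2 1) k * z 1 := by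
    intro z
    have hz : z = z 0 • stdW2 0 + z 1 • stdW2 1 := by
      conv_lhs => rw [← stdW2.sum_repr z]
      simp [Fin.sum_univ_two, stdW2_repr]
    conv_lhs => rw [hz]
    simp [mul_comm]
  obtain ⟨ha, hb⟩ := eq_zero_of_values_quadField (hω k) (hω2 k) (w.repr (stdW2 0) k)
    (w.repr (stdW2 1) k) (fun i => by
      obtain ⟨r, s, hrs⟩ := hper i k
      refine ⟨r, s, ?_⟩
      rw [← hrs, hlin (zetaBasis i), zetaBasis_apply, zvec_zero, zvec_one])
  have h1 : w.repr (w k) k = 1 := by simp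
  rw [hlin (w k), ha, hb] at h1
  simp at h1

end Claimed.Open.R032
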