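import Claimed.Open.R032.SanityCM
import Claimed.Open.R032.SanityNonCM
import Claimed.Open.R032.SanityRiemann
import Claimed.Open.R032.SanityHodge
import Claimed.Open.R032.SanityAnalytic
import Claimed.Open.R032.SanityCycles
import Claimed.Open.R032.SanityDuality
import Claimed.Open.R032.SanityInvariance
import Claimed.Open.R032.SanitySubtorusSign
import Claimed.Open.R032.SanityOrientation
import Claimed.Open.R032.SanityPullback
import Claimed.Open.R032.SanityWedge
import Claimed.Open.R032.SanityGHC
import Claimed.Open.R032.SanityProducts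
import Claimed.Open.R032.SanityPowerLA
import Claimed.Open.R032.PowerCM
import Claimed.Open.R032.PowerMain
import Claimed.Open.R032.SanityCompanion
import Claimed.Open.R032.SanityNonExamples
import Claimed.Open.R032.SanityTheta
import Claimed.Open.R032.SanityGHCNonExamples
import Claimed.Open.R032.SanityRestrict
import Claimed.Open.R032.SanityThetaPower
import Claimed.Open.R032.SanityLefschetz
import Claimed.Open.R032.SanityThetaTau
import Claimed.Open.R032.SanityDimOne
import Claimed.Open.R032.SanityConiveauOne
import Claimed.Open.R032.SanityBMMain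
import Claimed.Open.R032.SanityMixWitness
import Claimed.Open.R032.SanityIndMain
import Claimed.Open.R032.SanityCycleType
import Claimed.Open.R032.SanityZetaFive
import Claimed.Open.R032.SanityInjectH1
import Claimed.Open.R032.SanityHodgeRing
import Claimed.Open.R032.SanityInjectPoints

/-!
# R032: checked examples and non-examples for `Statement.lean`

This file collects the headline results of the files `Sanity*.lean` and `Power*.lean` of this folder.
Everything is proved (no `sorry`, only the three standard axioms).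

1. The hypotheses of `HodgeCM` (the first conjunct of `Statement`) can be met, in every dimension, and
   they are genuine restrictions; they are stable under finite products and powers.
2. The Hodge classes of `Statement.lean` are the usual ones, and there are nonzero ones.
3. The subvarieties and cycle classes of `Statement.lean` behave as they should:
   `[A] = 1`, the class of a point, uniqueness and existence of the class, independence of the
   period basis, invariance under translation, `[f⁻¹(pt)] = f^*[pt]` for homomorphisms `f`.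
4. The conclusion of `HodgeCM` is *proved* in codimension `0` and `dim A` for every complex torus,
   and in all codimensions for every complex torus whose period matrix has entries in an imaginary
   quadratic field, i.e. for all abelian varieties isogenous to a power of a CM elliptic curve.
5. The other conjuncts of `Statement`: examples of their hypotheses, and cases of their conclusions.
6. Non-examples of every definition which enters `Statement`.
7. Joint witnesses (`hypotheses_can_be_met_*`): for each of the four conjuncts of `Statement`, one object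
   which satisfies all its hypotheses at once.
8. The conclusion of `GeneralizedHodgeCM` is *proved* for the CM elliptic curve `ℂ / ℤ[i]`.
9. Non-examples of the definitions which enter `GeneralizedHodgeCM`; its hypothesis of effectivity cannot
   be dropped.
10. The conclusion of `GeneralizedHodgeCM` is *proved* in degree `k ≤ 2` (all `r`, all `W`) for every complex
   torus whose period matrix has entries in `ℚ(i)`, in every dimension; `RestrictsToZero` is monotone in `Z`,
   linear in the class and compatible with pull-backs.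
11. **`Statement` restricted to `dim A ≤ 1` is a theorem** (`sanity_statement_dim_le_one`); the conclusion of
   `GeneralizedHodgeCM` is *proved* for all `k`, all `r ≤ 1` and all `W`, and for all `r` if `k ≤ 2`, for every complex
   torus whose period matrix has entries in an imaginary quadratic field, in every dimension.
12. **`Statement` restricted to the complex tori whose period matrix has entries in an imaginary quadratic field, i.e. to
   the abelian varieties isogenous to a power of a CM elliptic curve, is a theorem**, in every dimension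
   (`sanity_statement_quadratic_periods`); in particular the conclusion of `GeneralizedHodgeCM` is *proved* for them for
   all `k`, `r` and `W` (`sanity_ghc_quadratic_periods`).
13. **The conjuncts `HodgeCM`, `SplitWeilSixfolds`, `QuadraticFive` of `Statement`, restricted to the abelian varieties
   isogenous to a product of CM elliptic curves with arbitrary (different) CM fields, are theorems**
   (`sanity_statement_mixed_periods`); these are CM abelian varieties (`sanity_mixed_periods_hypotheses`), and the class is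
   strictly larger than that of 12 (`sanity_mixed_periods_example`: `ℂ/ℤ[i] × ℂ/ℤ[√-2]`).
14. **`Statement` restricted to the abelian varieties isogenous to a product of CM elliptic curves whose CM fields are
   independent (for instance: at most three different fields) is a theorem** (`sanity_statement_independent_fields`); in
   particular the conclusion of `GeneralizedHodgeCM` is *proved* for them for all `k`, `r` and `W`
   (`sanity_ghc_independent_fields`).
15. The image of the cycle class map consists of real classes of type `(p,p)` (`sanity_algebraicClasses_type`), for every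
   complex torus; the hypothesis "of type `(p,p)`" of `HodgeConjecture` cannot be dropped (`sanity_type_cannot_be_dropped`).
16. Where the proved cases end: `ℂ² / Φ(ℤ[ζ₅])` is a polarizable complex torus of CM type, by the quartic FIELD `ℚ(ζ₅)`, which
   is not isogenous to a product of CM elliptic curves (`sanity_zeta_five`).
17. `RestrictsToZero Λ Z ·` is a genuine condition also for `Z ≠ ∅`: `H¹(A,ℂ) → H¹(A∖Z,ℂ)` is injective for every complex torus and
   every closed algebraic subset `Z` of positive codimension (`sanity_restrictsToZero_one_iff`); the conclusion of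
   `GeneralizedHodgeCM` with `r > 0` fails for `W = H¹(A,ℚ)` (`sanity_ghc_conclusion_fails_H1`).
18. The cup product respects the Hodge types, the complex conjugation exchanges `H^{p,q}` and `H^{q,p}`, products of Hodge classes
   are rational of type `(p+q,p+q)` (`sanity_hodge_ring`); "`W(r)` is effective" needs only `p ≥ r` (`sanity_isEffectiveTwist_iff`).
19. The subvarieties of dimension `0` are the points of `A` (`sanity_dim_zero`); `H^k(A) → H^k(A ∖ Z)` is injective for `k < 2 dim A` and
   `Z` of codimension `dim A` (`sanity_restrict_points_injective`); the codimension in the conclusion of `GeneralizedHodgeCM` is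
   sharp in an example (`sanity_ghc_codimension_sharp`).
-/

open MeasureTheory Module

set_option linter.unusedSectionVars false

namespace Claimed.Open.R032

/-! ## 1. The hypotheses -/

/-- The elliptic curve `ℂ / ℤ[i]` satisfies the hypotheses of `HodgeCM`. -/
theorem sanity_hypotheses_gauss :
    IsPolarizable (lattice Complex.basisOneI) ∧ IsCM (lattice Complex.basisOneI) :=
  ⟨gauss_isPolarizable, gauss_isCM⟩

/-- The elliptic curve `ℂ / (ℤ + ℤ τ)`, `τ = √2 (1 + i)`, is an abelian variety which is not of CM
type: `IsCM` is a genuine restriction. -/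
theorem sanity_nonCM : IsPolarizable (lattice nonCMBasis) ∧ ¬ IsCM (lattice nonCMBasis) :=
  ⟨nonCM_isPolarizable, nonCM_not_isCM⟩

section

variable {V : Type*} [NormedAddCommGroup V] [InnerProductSpace ℂ V] [FiniteDimensional ℂ V]

/-! ## 2. Hodge classes -/

/-- `H^n(A,ℂ) = ⨁_a H^{a,n-a}(A)`: existence of the Hodge decomposition ... -/
theorem sanity_hodge_decomposition {n : ℕ} (φ : Form V n) :
    ∃ ψ : ℕ → Form V n, (∀ a, ψ a ∈ hodgePiece V a n) ∧ φ = ∑ a ∈ Finset.range (n + 1), ψ a :=
  exists_hodge_decomposition φ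

/-- ... and the intrinsic characterisation of the pieces: `H^{p,n-p}(A)` is the subspace on which
`z ∈ ℂ^*` (Deligne's torus) acts through `z^p z̄^(n-p)`. -/
theorem sanity_hodgePiece {p n : ℕ} (hp : p ≤ n) (φ : Form V n) :
    φ ∈ hodgePiece V p n ↔ ∀ (z : ℂ) (v : Fin n → V),
      φ (fun i => z • v i) = z ^ p * (starRingEnd ℂ z) ^ (n - p) * φ v :=
  mem_hodgePiece_iff hp φ

/-- A polarisation is a Hodge class of codimension one, and it is not zero if `dim A > 0`. -/
theorem sanity_polarisation [Nontrivial V] {Λ : Submodule ℤ V} {E : V →ₗ[ℝ] V →ₗ[ℝ] ℝ}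
    (hE : IsRiemannForm Λ E) :
    IsHodgeClass Λ 1 (formOfBilin E hE.alt) ∧ formOfBilin E hE.alt ≠ 0 :=
  ⟨hE.isHodgeClass, hE.formOfBilin_ne_zero⟩

/-! ## 3. Subvarieties and their classes -/

/-- The tangent space at a regular point is unique (so that `tangentEval` does not depend on the
choice made in its definition). -/
theorem sanity_tangent_unique {Z : Set V} {x : V} {T T' : Submodule ℂ V}
    (h : IsRegularPoint Z x T) (h' : IsRegularPoint Z x T') : T = T' :=
  h.unique h'

/-- Analytic subsets are closed, and satisfy the identity theorem. -/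
theorem sanity_analytic {Z : Set V} (hZ : IsAnalyticSubset Z) :
    IsClosed Z ∧ ((interior Z).Nonempty → Z = Set.univ) :=
  ⟨hZ.isClosed, hZ.eq_univ_of_interior_nonempty⟩

variable [MeasurableSpace V] [BorelSpace V] {ι : Type*} (b : Basis ι ℝ V)

/-- `A` itself is a subvariety of dimension `dim A`, with class `1 ∈ H^0(A,ℚ)`. -/
theorem sanity_fundamental_class (c : Form V (2 * 0)) (hc : ∀ v, c v = 1) :
    IsSubvariety (lattice b) (finrank ℂ V) Set.univ ∧ IsCycleClass b 0 (finrank ℂ V) Set.univ c :=
  ⟨isSubvariety_univ _, isCycleClass_univ b _ c hc⟩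

/-- A point is a subvariety of dimension `0`; its class is the class of top degree with integral
`1`. -/
theorem sanity_point_class {p : ℕ} (c : Form V (2 * p)) (hc : integralOver b Set.univ c = 1) :
    IsSubvariety (lattice b) 0 (lattice b : Set V) ∧ IsCycleClass b p 0 (lattice b : Set V) c :=
  ⟨isSubvariety_lattice b, isCycleClass_lattice b c hc⟩

/-- `∫_A` is, up to the orientation of the period basis, the evaluation on the generator
`b₀ ∧ ⋯ ∧ b_{2g-1}` of `H_{2g}(A,ℤ)`. -/
theorem sanity_integral_top {n : ℕ} (hn : n = 2 * finrank ℂ V) (σ : ι ≃ Fin n) :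
    ∃ ε : ℝ, (ε = 1 ∨ ε = -1) ∧
      ∀ φ : Form V n, integralOver b Set.univ φ = ε * φ (b ∘ σ.symm) :=
  integralOver_univ_eq b hn σ

/-- Poincaré duality: a set has at most one cycle class. -/
theorem sanity_class_unique {p d : ℕ} (hpd : p + d = finrank ℂ V) {Z : Set V}
    {c c' : Form V (2 * p)} (h : IsCycleClass b p d Z c) (h' : IsCycleClass b p d Z c') : c = c' :=
  h.unique b hpd h'

/-- Poincaré duality: a set `Z` has a cycle class as soon as `ψ ↦ ∫_Z ψ` is linear. -/
theorem sanity_class_exists {p d : ℕ} (hpd : p + d = finrank ℂ V) {Z : Set V}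
    (T : Form V (2 * d) →ₗ[ℂ] ℂ) (hT : ∀ ψ, integralOver b Z ψ = T ψ) :
    ∃ c : Form V (2 * p), IsCycleClass b p d Z c :=
  exists_isCycleClass b hpd T hT

/-- The algebraic classes depend only on the lattice, not on the period basis. -/
theorem sanity_basis_independent {ι' : Type*} (b' : Basis ι' ℝ V) (h : lattice b = lattice b')
    (p : ℕ) : algebraicClasses b p = algebraicClasses b' p :=
  algebraicClasses_eq_of_lattice_eq b b' h p

/-- Translates of a subvariety have the same class. -/
theorem sanity_translate {Z : Set V} {p d : ℕ} {c : Form V (2 * p)} (hc : IsCycleClass b p d Z c)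
    (hZ : IsPeriodic (lattice b) Z) (a : V) : IsCycleClass b p d ((fun y => a + y) '' Z) c :=
  hc.image_add hZ a

/-- Abelian subvarieties: let `f : A → A'` be the homomorphism induced by `N : V → V'` with
`N Λ = Λ'`.  Then `ker f` is a subvariety of `A` of dimension `dim ker N`, and
`[ker f] = f^*[pt]`. -/
theorem sanity_kernel_class {V' : Type*} [NormedAddCommGroup V'] [InnerProductSpace ℂ V']
    [FiniteDimensional ℂ V'] [MeasurableSpace V'] [BorelSpace V'] {ι' : Type*}
    {b' : Basis ι' ℝ V'} {N : V →L[ℂ] V'} (hN : MapsLatticeOnto b b' N)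
    (τ : Form V' (2 * finrank ℂ V')) (hτ : integralOver b' Set.univ τ = 1) :
    IsSubvariety (lattice b) (finrank ℂ (LinearMap.ker N.toLinearMap))
      (N ⁻¹' (lattice b' : Set V')) ∧
    IsCycleClass b (finrank ℂ V') (finrank ℂ (LinearMap.ker N.toLinearMap))
      (N ⁻¹' (lattice b' : Set V')) (pullback N τ) :=
  ⟨isSubvariety_preimage_lattice hN, hN.isCycleClass_pullback rfl rfl τ hτ⟩

/-! ## 4. Cases of the conclusion of `HodgeCM` -/

/-- Codimension `0`, for every complex torus. -/
theorem sanity_codim_zero (φ : Form V (2 * 0)) (hφ : IsRational (lattice b) φ) :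
    φ ∈ algebraicClasses b 0 :=
  mem_algebraicClasses_zero b φ hφ

/-- Codimension `dim A`, for every complex torus. -/
theorem sanity_codim_top {p : ℕ} (hp : p = finrank ℂ V) (φ : Form V (2 * p))
    (hφ : IsRational (lattice b) φ) : φ ∈ algebraicClasses b p :=
  mem_algebraicClasses_top b hp φ hφ

/-- **All codimensions**, for every complex torus whose period matrix (in some `ℂ`-basis `w` of `V`)
has entries in an imaginary quadratic field `ℚ + ℚ ω`: the hypotheses of `HodgeCM` hold, and so does
its conclusion.  These are the abelian varieties isogenous to a power of a CM elliptic curve; there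
is one in each dimension, e.g. `(ℂ / ℤ[i])^n`. -/
theorem sanity_quadratic_periods {n : ℕ} (w : Basis (Fin n) ℂ V) (ω : ℂ) (hω : ω.im ≠ 0)
    (hω2 : ∃ r s : ℚ, ω ^ 2 = r + s * ω) (hb : ∀ i k, ∃ r s : ℚ, w.repr (b i) k = r + s * ω) :
    IsPolarizable (lattice b) ∧ IsCM (lattice b) ∧ HodgeConjecture b :=
  ⟨isPolarizable_of_quadratic_periods b w ω hω hb, isCM_of_quadratic_periods b w ω hω hω2 hb,
    hodgeConjecture_of_quadratic_periods b w ω hω hω2 hb⟩

end

/-- All powers of every elliptic curve `ℂ / L` with complex multiplication (`ω L ⊆ L`, `ω ∉ ℝ`). -/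
theorem sanity_power_of_cm_elliptic_curve {ι : Type*} (β : Basis ι ℝ ℂ) (ω : ℂ) (hω : ω.im ≠ 0)
    (hL : ∀ x ∈ lattice β, ω * x ∈ lattice β) (n : ℕ) : HodgeConjecture (powerBasis β n) :=
  hodgeConjecture_power β ω hω hL n

/-- The hypotheses of `HodgeCM` are met in every dimension `n`: `(ℂ / ℤ[i])^n`; and the conclusion
holds there. -/
theorem sanity_gauss_power (n : ℕ) :
    finrank ℂ (PiLp 2 fun _ : Fin n => ℂ) = n ∧
    IsPolarizable (lattice (powerBasis Complex.basisOneI n)) ∧
    IsCM (lattice (powerBasis Complex.basisOneI n)) ∧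
    HodgeConjecture (powerBasis Complex.basisOneI n) :=
  ⟨by simp, isPolarizable_piBasis _ fun _ => gauss_isPolarizable,
    isCM_piBasis _ fun _ => gauss_isCM, hodgeConjecture_power_gauss n⟩

/-- The "in particular" clause of `thm:cm` follows from `HodgeCM`: finite products of CM abelian
varieties, and powers of such products. -/
theorem sanity_in_particular (H : HodgeCM) {m : ℕ} (V : Fin m → Type)
    [∀ k, NormedAddCommGroup (V k)] [∀ k, InnerProductSpace ℂ (V k)]
    [∀ k, FiniteDimensional ℂ (V k)] [∀ k, MeasurableSpace (V k)] [∀ k, BorelSpace (V k)]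
    (ι : Fin m → Type) (b : ∀ k, Basis (ι k) ℝ (V k))
    (hpol : ∀ k, IsPolarizable (lattice (b k))) (hcm : ∀ k, IsCM (lattice (b k))) :
    HodgeConjecture (piBasis b) ∧ ∀ r, HodgeConjecture (powerBasis (piBasis b) r) :=
  ⟨H.piBasis V ι b hpol hcm, H.powerBasis_piBasis V ι b hpol hcm⟩

/-! ## 5. The other conjuncts of `Statement` -/

section

variable {V : Type*} [NormedAddCommGroup V] [InnerProductSpace ℂ V] [FiniteDimensional ℂ V]

/-- `RestrictsToZero` is a genuine condition: a nonzero class does not restrict to zero on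
`A ∖ ∅ = A` (a nonzero invariant form is not exact on `A`). -/
theorem sanity_restrictsToZero_empty {ι : Type*} (b : Basis ι ℝ V) {k : ℕ} (φ : Form V k) :
    RestrictsToZero (lattice b) ∅ φ ↔ φ = 0 :=
  restrictsToZero_empty_iff b φ

/-- The conclusion of `GeneralizedHodgeCM` for `r = 0`. -/
theorem sanity_ghc_zero (Λ : Submodule ℤ V) {k : ℕ} (W : Submodule ℚ (Form V k)) :
    ∃ Z : Set V, IsAlgebraicSubsetOfCodimGE Λ 0 Z ∧ ∀ φ ∈ W, RestrictsToZero Λ Z φ :=
  generalizedHodge_of_r_eq_zero Λ W

/-- The hypotheses of `GeneralizedHodgeCM` on `W` can be met with `r > 0`: if `φ` is a Hodge class of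
codimension `p`, then `W = ℚ φ ⊆ H^{2p}(A,ℚ)` is a rational Hodge substructure and `W(p)` is
effective.  (E.g. `φ` the class of a polarisation, `p = 1`, which is not zero.) -/
theorem sanity_ghc_hypotheses {Λ : Submodule ℤ V} {p : ℕ} {φ : Form V (2 * p)}
    (hφ : IsHodgeClass Λ p φ) :
    IsHodgeSubstructure Λ (Submodule.span ℚ {φ}) ∧ IsEffectiveTwist (Submodule.span ℚ {φ}) p :=
  ⟨hφ.isHodgeSubstructure, hφ.isEffectiveTwist⟩

end

/-- `ℂ / ℤ[i]` satisfies the hypotheses of `QuadraticFive`, and its conclusion holds for it. -/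
theorem sanity_quadraticFive :
    IsPolarizable (lattice Complex.basisOneI) ∧ finrank ℂ ℂ ≤ 5 ∧
      (∃ d u, IsQuadraticAction (lattice Complex.basisOneI) d u) ∧
      ∀ m : ℕ, 1 ≤ m → HodgeConjecture (powerBasis Complex.basisOneI m) :=
  quadraticFive_example

/-- `(ℂ / ℤ[i])^6` with `u = diag(i,i,i,-i,-i,-i)`, the standard polarisation and the vectors
`x_j = e_j + e_{j+3}` satisfies the hypotheses of `SplitWeilSixfolds` (verbatim), and its conclusion
holds for it. -/
theorem sanity_splitWeilSixfolds :
    (finrank ℂ (Cn 6) = 6 ∧ IsQuadraticAction (lattice weilBasis) 1 weilU ∧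
      IsRiemannForm (lattice weilBasis) weilE ∧ (∀ x y, weilE (weilU x) y = -weilE x (weilU y)) ∧
      ∃ x : Fin 3 → Cn 6, (∀ i, x i ∈ lattice weilBasis) ∧
        LinearIndependent ℝ (Sum.elim x (fun i => weilU (x i))) ∧
        ∀ i j, weilE (x i) (x j) = 0 ∧ weilE (x i) (weilU (x j)) = 0) ∧
    ∀ m : ℕ, HodgeConjecture (powerBasis weilBasis m) :=
  ⟨splitWeilSixfolds_example, weil_hodgeConjecture_power⟩

/-! ## 6. Non-examples -/

/-- `IsPolarizable` is a genuine restriction: the complex torus `ℂ² / (ℤ² + i T ℤ²)`,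
`T = (1, L; L², -L³)` with `L` Liouville's number, is not an abelian variety. -/
theorem sanity_not_polarizable : ¬ IsPolarizable (lattice nonAlgBasis) :=
  nonAlg_not_isPolarizable

/-- The hypothesis of `QuadraticFive` is a genuine restriction: an elliptic curve without complex
multiplication admits no action of an imaginary quadratic field. -/
theorem sanity_no_quadraticAction :
    IsPolarizable (lattice nonCMBasis) ∧ ¬ ∃ d u, IsQuadraticAction (lattice nonCMBasis) d u :=
  ⟨nonCM_isPolarizable, nonCM_no_quadraticAction⟩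

/-- Both conditions in `IsHodgeClass` are genuine: `dz₁ ∧ dz₂ + dz̄₁ ∧ dz̄₂` on `(ℂ/ℤ[i])²` is rational
but not of type `(1,1)`; `√2 E` on `ℂ/ℤ[i]` is of type `(1,1)` but not rational. -/
theorem sanity_not_hodge :
    (IsRational (lattice (powerBasis Complex.basisOneI 2)) twoZeroClass ∧
      ¬ IsHodgeClass (lattice (powerBasis Complex.basisOneI 2)) 1 twoZeroClass) ∧
    (((√2 : ℝ) : ℂ) • formOfBilin gaussForm gauss_isRiemannForm.alt ∈ hodgePiece ℂ 1 (2 * 1) ∧
      ¬ IsRational (lattice Complex.basisOneI)
        (((√2 : ℝ) : ℂ) • formOfBilin gaussForm gauss_isRiemannForm.alt)) :=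
  ⟨rationalNotHodge, hodgeTypeNotRational⟩

/-- A closed periodic set which is not analytic: the circle `ℝ/ℤ` in `ℂ/ℤ[i]`. -/
theorem sanity_not_analytic :
    IsClosed realLines ∧ IsPeriodic (lattice Complex.basisOneI) realLines ∧
      ¬ IsAnalyticSubset realLines :=
  ⟨realLines_isClosed, realLines_isPeriodic, realLines_not_isAnalyticSubset⟩

/-- Non-examples of `IsSubvariety` and `IsCycleClass`: two distinct points form a reducible set; a
point is not a subvariety of dimension `d ≠ 0`; `0` is not the class of a point. -/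
theorem sanity_not_subvariety {V : Type*} [NormedAddCommGroup V] [InnerProductSpace ℂ V]
    [FiniteDimensional ℂ V] [MeasurableSpace V] [BorelSpace V] {ι : Type*} (b : Basis ι ℝ V) :
    (∀ a ∉ lattice b, ∀ d, ¬ IsSubvariety (lattice b) d
      ((lattice b : Set V) ∪ (fun y => a + y) '' (lattice b : Set V))) ∧
    (∀ d, d ≠ 0 → ¬ IsSubvariety (lattice b) d (lattice b : Set V)) ∧
    ∀ p, ¬ IsCycleClass b p 0 (lattice b : Set V) (0 : Form V (2 * p)) :=
  ⟨fun _ ha d => not_isSubvariety_two_points b ha d,
    fun _ hd => not_isSubvariety_lattice_of_ne_zero b hd, not_isCycleClass_zero_lattice b⟩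

/-! ## 7. Joint witnesses: the hypotheses of each of the four conjuncts of `Statement` can be met

For each conjunct, ONE object which satisfies ALL its hypotheses at once. -/

/-- **`HodgeCM`**: the elliptic curve `A = ℂ / ℤ[i]` is a polarisable complex torus of CM type, and the
class of its standard polarisation is a nonzero Hodge class of codimension `p = 1` on it: all
hypotheses of `HodgeCM` (those of `HodgeConjecture` included) hold at once, for a nonzero class.
(The conclusion holds for this example: `sanity_gauss_power`, `sanity_quadratic_periods`.) -/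
theorem hypotheses_can_be_met_HodgeCM :
    IsPolarizable (lattice Complex.basisOneI) ∧ IsCM (lattice Complex.basisOneI) ∧
      IsHodgeClass (lattice Complex.basisOneI) 1 (formOfBilin gaussForm gauss_isRiemannForm.alt) ∧
      formOfBilin gaussForm gauss_isRiemannForm.alt ≠ 0 :=
  ⟨gauss_isPolarizable, gauss_isCM, gauss_isRiemannForm.isHodgeClass,
    gauss_isRiemannForm.formOfBilin_ne_zero⟩

/-- **`GeneralizedHodgeCM`**: `A = ℂ / ℤ[i]`, `k = 2`, `r = 1` and `W = ℚ · [E] ⊆ H^2(A,ℚ)`, the line
spanned by the class of the standard polarisation `E`: `A` is polarisable and of CM type, `W` is a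
rational Hodge substructure, `W(1)` is effective, and `W ≠ 0`: all hypotheses of `GeneralizedHodgeCM`
hold at once, with `r > 0` and `W ≠ 0`.  (The conclusion holds for this example:
`sanity_restrictsToZero_theta`, `sanity_ghc_gauss` below.) -/
theorem hypotheses_can_be_met_GeneralizedHodgeCM :
    IsPolarizable (lattice Complex.basisOneI) ∧ IsCM (lattice Complex.basisOneI) ∧
      IsHodgeSubstructure (lattice Complex.basisOneI)
        (Submodule.span ℚ {formOfBilin gaussForm gauss_isRiemannForm.alt}) ∧
      IsEffectiveTwist (Submodule.span ℚ {formOfBilin gaussForm gauss_isRiemannForm.alt}) 1 ∧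
      Submodule.span ℚ {formOfBilin gaussForm gauss_isRiemannForm.alt} ≠ ⊥ :=
  ⟨gauss_isPolarizable, gauss_isCM, gauss_isRiemannForm.isHodgeSubstructure,
    gauss_isRiemannForm.isEffectiveTwist,
    fun h => gauss_isRiemannForm.formOfBilin_ne_zero (Submodule.span_singleton_eq_bot.1 h)⟩

/-- **`SplitWeilSixfolds`**: `(ℂ / ℤ[i])^6`, `d = 1`, `u = diag(i,i,i,-i,-i,-i)`, the standard
polarisation and `x_j = e_j + e_{j+3}` satisfy all hypotheses of `SplitWeilSixfolds`, verbatim. -/
theorem hypotheses_can_be_met_SplitWeilSixfolds :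
    finrank ℂ (Cn 6) = 6 ∧ IsQuadraticAction (lattice weilBasis) 1 weilU ∧
      IsRiemannForm (lattice weilBasis) weilE ∧ (∀ x y, weilE (weilU x) y = -weilE x (weilU y)) ∧
      ∃ x : Fin 3 → Cn 6, (∀ i, x i ∈ lattice weilBasis) ∧
        LinearIndependent ℝ (Sum.elim x (fun i => weilU (x i))) ∧
        ∀ i j, weilE (x i) (x j) = 0 ∧ weilE (x i) (weilU (x j)) = 0 :=
  splitWeilSixfolds_example

/-- **`QuadraticFive`**: `ℂ / ℤ[i]` with the action of `ℚ(i)` satisfies all hypotheses of
`QuadraticFive`. -/
theorem hypotheses_can_be_met_QuadraticFive :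
    IsPolarizable (lattice Complex.basisOneI) ∧ finrank ℂ ℂ ≤ 5 ∧
      ∃ d u, IsQuadraticAction (lattice Complex.basisOneI) d u :=
  ⟨quadraticFive_example.1, quadraticFive_example.2.1, quadraticFive_example.2.2.1⟩

/-! ## 8. `GeneralizedHodgeCM` for the CM elliptic curve `ℂ / ℤ[i]` -/

/-- A nontrivial example of `RestrictsToZero`, and of the conclusion of `GeneralizedHodgeCM` for the
witness `hypotheses_can_be_met_GeneralizedHodgeCM` (`k = 2`, `r = 1`, `W = ℚ · [E]`): the class `[E]` of
the polarisation of `A = ℂ / ℤ[i]` is not zero, it does not restrict to zero on `A ∖ ∅ = A`, but it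
restricts to zero on `A ∖ Z`, where `Z ≠ A` is the closed algebraic subset of codimension one of the
zeros of Jacobi's theta function `θ`: `2 π i E = d ((θ'/θ + 2 π i Im z) dz)` there. -/
theorem sanity_restrictsToZero_theta :
    formOfBilin gaussForm gauss_isRiemannForm.alt ≠ 0 ∧
    ¬ RestrictsToZero (lattice Complex.basisOneI) ∅
      (formOfBilin gaussForm gauss_isRiemannForm.alt) ∧
    IsAlgebraicSubsetOfCodimGE (lattice Complex.basisOneI) 1 thetaZeros ∧ thetaZeros ≠ Set.univ ∧
    ∀ φ ∈ Submodule.span ℚ {formOfBilin gaussForm gauss_isRiemannForm.alt},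
      RestrictsToZero (lattice Complex.basisOneI) thetaZeros φ := by
  refine ⟨gauss_isRiemannForm.formOfBilin_ne_zero, not_restrictsToZero_gauss_empty.1,
    thetaZeros_isAlgebraic, not_restrictsToZero_gauss_empty.2, fun φ _ => ?_⟩
  obtain ⟨c, rfl⟩ := form_two_eq_smul φ
  exact restrictsToZero_gauss c

/-- The conclusion of `GeneralizedHodgeCM` holds for the CM elliptic curve `ℂ / ℤ[i]`: all `k`, all `r`,
all `W`. -/
theorem sanity_ghc_gauss (k r : ℕ) (W : Submodule ℚ (Form ℂ k))
    (hW : IsHodgeSubstructure (lattice Complex.basisOneI) W) (hr : IsEffectiveTwist W r) :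
    ∃ Z : Set ℂ, IsAlgebraicSubsetOfCodimGE (lattice Complex.basisOneI) r Z ∧
      ∀ φ ∈ W, RestrictsToZero (lattice Complex.basisOneI) Z φ :=
  generalizedHodgeCM_gauss k r W hW hr

/-- Translates of subvarieties are subvarieties. -/
theorem sanity_translate_subvariety {V : Type*} [NormedAddCommGroup V] [InnerProductSpace ℂ V]
    {Λ : Submodule ℤ V} {d : ℕ} {Z : Set V} (hZ : IsSubvariety Λ d Z) (a : V) :
    IsSubvariety Λ d ((fun y => a + y) '' Z) :=
  hZ.image_add a

/-! ## 9. Non-examples of the definitions which enter `GeneralizedHodgeCM` -/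

/-- `IsHodgeSubstructure` is a genuine condition: on `(ℂ/ℤ[i])²` the line spanned by the rational class
`dz₁ ∧ dz₂ + dz̄₁ ∧ dz̄₂`, of mixed type `(2,0) + (0,2)`, consists of rational classes, but it is not a
rational Hodge substructure. -/
theorem sanity_not_hodgeSubstructure :
    (∀ φ ∈ Submodule.span ℚ {twoZeroClass},
      IsRational (lattice (powerBasis Complex.basisOneI 2)) φ) ∧
    ¬ IsHodgeSubstructure (lattice (powerBasis Complex.basisOneI 2))
      (Submodule.span ℚ {twoZeroClass}) :=
  not_isHodgeSubstructure_twoZero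

/-- `IsEffectiveTwist` is a genuine condition: for `W = ℚ · [E] ⊆ H²(ℂ/ℤ[i],ℚ)`, of type `(1,1)`, `W(1)` is
effective and `W(2)` is not. -/
theorem sanity_not_effectiveTwist :
    IsEffectiveTwist (Submodule.span ℚ {formOfBilin gaussForm gauss_isRiemannForm.alt}) 1 ∧
    ¬ IsEffectiveTwist (Submodule.span ℚ {formOfBilin gaussForm gauss_isRiemannForm.alt}) 2 :=
  not_isEffectiveTwist_gauss

/-- `IsAlgebraicSubsetOfCodimGE` is a genuine condition: `A` is not of codimension `≥ r > 0` in itself; a
point of the elliptic curve `ℂ/ℤ[i]` is of codimension `≥ 1`, not `≥ 2`. -/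
theorem sanity_not_algebraicSubsetOfCodimGE :
    (∀ r, 0 < r → ¬ IsAlgebraicSubsetOfCodimGE (lattice Complex.basisOneI) r (Set.univ : Set ℂ)) ∧
    IsAlgebraicSubsetOfCodimGE (lattice Complex.basisOneI) 1
      (lattice Complex.basisOneI : Set ℂ) ∧
    ¬ IsAlgebraicSubsetOfCodimGE (lattice Complex.basisOneI) 2
      (lattice Complex.basisOneI : Set ℂ) :=
  ⟨fun _ hr => not_isAlgebraicSubsetOfCodimGE_univ _ hr, not_isAlgebraicSubsetOfCodimGE_point⟩

/-- The hypothesis "`W(r)` is effective" of `GeneralizedHodgeCM` cannot be dropped: for `A = ℂ/ℤ[i]`, the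
rational Hodge substructure `W = ℚ · [E]` and `r = 2` the conclusion fails. -/
theorem sanity_ghc_effectivity_needed :
    IsHodgeSubstructure (lattice Complex.basisOneI)
      (Submodule.span ℚ {formOfBilin gaussForm gauss_isRiemannForm.alt}) ∧
    ¬ ∃ Z : Set ℂ, IsAlgebraicSubsetOfCodimGE (lattice Complex.basisOneI) 2 Z ∧
      ∀ φ ∈ Submodule.span ℚ {formOfBilin gaussForm gauss_isRiemannForm.alt},
        RestrictsToZero (lattice Complex.basisOneI) Z φ :=
  generalizedHodge_conclusion_fails_without_effectivity

/-! ## 10. `GeneralizedHodgeCM` in degree `k ≤ 2`, in every dimension -/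

/-- A joint witness in every dimension `n > 0`, with a divisor which is not a finite set of points:
`A = (ℂ/ℤ[i])^n`, `k = 2`, `r = 1`, `W ≠ 0` the `ℚ`-span of the classes `pr_j^* [E]`.  All hypotheses of
`GeneralizedHodgeCM` hold, and so does its conclusion. -/
theorem sanity_ghc_gauss_power (n : ℕ) (hn : 0 < n) :
    (IsPolarizable (lattice (powerBasis Complex.basisOneI n)) ∧
      IsCM (lattice (powerBasis Complex.basisOneI n)) ∧
      IsHodgeSubstructure (lattice (powerBasis Complex.basisOneI n)) (gaussPowerW n) ∧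
      IsEffectiveTwist (gaussPowerW n) 1 ∧ gaussPowerW n ≠ ⊥) ∧
    ∃ Z : Set (Cn n), IsAlgebraicSubsetOfCodimGE (lattice (powerBasis Complex.basisOneI n)) 1 Z ∧
      ∀ φ ∈ gaussPowerW n, RestrictsToZero (lattice (powerBasis Complex.basisOneI n)) Z φ :=
  ⟨⟨(gaussPowerW_hypotheses n).1, (gaussPowerW_hypotheses n).2.1, (gaussPowerW_hypotheses n).2.2.1,
    (gaussPowerW_hypotheses n).2.2.2.1, (gaussPowerW_hypotheses n).2.2.2.2 hn⟩,
    gaussPowerW_conclusion n⟩

section

variable {V : Type*} [NormedAddCommGroup V] [InnerProductSpace ℂ V] [FiniteDimensional ℂ V]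
  {ι : Type*}

/-- The conclusion of `GeneralizedHodgeCM` for `k ≤ 2`, all `r` and all `W`, for every complex torus whose
period matrix has entries in `ℚ(i)` (the abelian varieties isogenous to a power of `ℂ/ℤ[i]`). -/
theorem sanity_ghc_le_two (b : Basis ι ℝ V) {n : ℕ} (w : Basis (Fin n) ℂ V)
    (hb : ∀ i k, ∃ r s : ℚ, w.repr (b i) k = r + s * Complex.I) {k : ℕ} (hk : k ≤ 2) (r : ℕ)
    (W : Submodule ℚ (Form V k)) (hW : IsHodgeSubstructure (lattice b) W)
    (hr : IsEffectiveTwist W r) :
    ∃ Z : Set V, IsAlgebraicSubsetOfCodimGE (lattice b) r Z ∧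
      ∀ φ ∈ W, RestrictsToZero (lattice b) Z φ :=
  generalizedHodge_le_two_of_gauss_periods b w hb hk r W hW hr

/-- For these tori one divisor kills all of `H^{1,1}`. -/
theorem sanity_divisor_kills_one_one (b : Basis ι ℝ V) {n : ℕ} (w : Basis (Fin n) ℂ V)
    (hb : ∀ i k, ∃ r s : ℚ, w.repr (b i) k = r + s * Complex.I) :
    ∃ Z : Set V, IsAlgebraicSubsetOfCodimGE (lattice b) 1 Z ∧
      ∀ φ ∈ hodgePiece V 1 (2 * 1), RestrictsToZero (lattice b) Z φ :=
  exists_divisor_hodgePiece_one_one b w hb

end

/-! ## 11. `Statement` in dimension `≤ 1`; `GeneralizedHodgeCM` for `r ≤ 1` in all degrees -/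

/-- **`Statement` restricted to `dim A ≤ 1` is a theorem.**  The four conjuncts below are the four conjuncts
`HodgeCM`, `GeneralizedHodgeCM`, `SplitWeilSixfolds`, `QuadraticFive` of `Statement`, word for word, with the one
additional hypothesis `finrank ℂ V ≤ 1`.  (The third is about sixfolds, so that it says nothing here.  In the first
two the hypotheses "polarisable" and "CM" are not used: the conclusions hold for every elliptic curve.  In the fourth
the action of the imaginary quadratic field is used.) -/
theorem sanity_statement_dim_le_one :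
    (∀ (V : Type) [NormedAddCommGroup V] [InnerProductSpace ℂ V] [FiniteDimensional ℂ V]
      [MeasurableSpace V] [BorelSpace V] (ι : Type) (b : Basis ι ℝ V), finrank ℂ V ≤ 1 →
      IsPolarizable (lattice b) → IsCM (lattice b) → HodgeConjecture b) ∧
    (∀ (V : Type) [NormedAddCommGroup V] [InnerProductSpace ℂ V] [FiniteDimensional ℂ V]
      (ι : Type) (b : Basis ι ℝ V), finrank ℂ V ≤ 1 →
      IsPolarizable (lattice b) → IsCM (lattice b) →
        ∀ (k r : ℕ) (W : Submodule ℚ (Form V k)),
          IsHodgeSubstructure (lattice b) W → IsEffectiveTwist W r →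
            ∃ Z : Set V, IsAlgebraicSubsetOfCodimGE (lattice b) r Z ∧
              ∀ φ ∈ W, RestrictsToZero (lattice b) Z φ) ∧
    (∀ (V : Type) [NormedAddCommGroup V] [InnerProductSpace ℂ V] [FiniteDimensional ℂ V]
      [MeasurableSpace V] [BorelSpace V] (ι : Type) (b : Basis ι ℝ V), finrank ℂ V ≤ 1 →
      finrank ℂ V = 6 → ∀ (d : ℕ) (u : Module.End ℂ V), IsQuadraticAction (lattice b) d u →
      ∀ e : V →ₗ[ℝ] V →ₗ[ℝ] ℝ, IsRiemannForm (lattice b) e → (∀ x y, e (u x) y = -e x (u y)) →
      (∃ x : Fin 3 → V, (∀ i, x i ∈ lattice b) ∧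
        LinearIndependent ℝ (Sum.elim x (fun i => u (x i))) ∧
        ∀ i j, e (x i) (x j) = 0 ∧ e (x i) (u (x j)) = 0) →
        ∀ m : ℕ, 1 ≤ m → HodgeConjecture (powerBasis b m)) ∧
    (∀ (V : Type) [NormedAddCommGroup V] [InnerProductSpace ℂ V] [FiniteDimensional ℂ V]
      [MeasurableSpace V] [BorelSpace V] (ι : Type) (b : Basis ι ℝ V), finrank ℂ V ≤ 1 →
      IsPolarizable (lattice b) → finrank ℂ V ≤ 5 →
      (∃ d u, IsQuadraticAction (lattice b) d u) →
        ∀ m : ℕ, 1 ≤ m → HodgeConjecture (powerBasis b m)) :=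
  ⟨fun _ _ _ _ _ _ _ b h1 _ _ => hodgeConjecture_of_finrank_le_one b h1,
    fun _ _ _ _ _ b h1 _ _ k r W hW hr => generalizedHodge_of_finrank_le_one b h1 k r W hW hr,
    fun _ _ _ _ _ _ _ _ h1 h6 => by omega,
    fun _ _ _ _ _ _ _ b h1 _ _ h m _ => quadraticFive_of_finrank_le_one b h1 h m⟩

section

variable {V : Type*} [NormedAddCommGroup V] [InnerProductSpace ℂ V] [FiniteDimensional ℂ V]
  {ι : Type*}

/-- The conclusion of `GeneralizedHodgeCM` for **all `k`**, all `r ≤ 1` and all `W`, for every complex torus whose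
period matrix has entries in an imaginary quadratic field `ℚ + ℚ ρ` (the abelian varieties isogenous to a power of a
CM elliptic curve): a rational Hodge substructure `W ⊆ H^k(A,ℚ)` with `W(1)` effective is supported on a divisor. -/
theorem sanity_ghc_r_le_one (b : Basis ι ℝ V) {n : ℕ} (w : Basis (Fin n) ℂ V) (ρ : ℂ)
    (hρ : ρ.im ≠ 0) (hρ2 : ∃ r s : ℚ, ρ ^ 2 = r + s * ρ)
    (hb : ∀ i k, ∃ r s : ℚ, w.repr (b i) k = r + s * ρ) (k : ℕ) {r : ℕ} (hr1 : r ≤ 1)
    (W : Submodule ℚ (Form V k)) (hW : IsHodgeSubstructure (lattice b) W)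
    (hr : IsEffectiveTwist W r) :
    ∃ Z : Set V, IsAlgebraicSubsetOfCodimGE (lattice b) r Z ∧
      ∀ φ ∈ W, RestrictsToZero (lattice b) Z φ :=
  generalizedHodge_le_one_of_quadratic_periods b w ρ hρ hρ2 hb k hr1 W hW hr

/-- The conclusion of `GeneralizedHodgeCM` for `k ≤ 2`, all `r` and all `W`, for the same tori
(`sanity_ghc_le_two` is the case `ρ = i`). -/
theorem sanity_ghc_le_two_quadratic (b : Basis ι ℝ V) {n : ℕ} (w : Basis (Fin n) ℂ V) (ρ : ℂ)
    (hρ : ρ.im ≠ 0) (hρ2 : ∃ r s : ℚ, ρ ^ 2 = r + s * ρ)
    (hb : ∀ i k, ∃ r s : ℚ, w.repr (b i) k = r + s * ρ) {k : ℕ} (hk : k ≤ 2) (r : ℕ)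
    (W : Submodule ℚ (Form V k)) (hW : IsHodgeSubstructure (lattice b) W)
    (hr : IsEffectiveTwist W r) :
    ∃ Z : Set V, IsAlgebraicSubsetOfCodimGE (lattice b) r Z ∧
      ∀ φ ∈ W, RestrictsToZero (lattice b) Z φ :=
  generalizedHodge_le_two_of_quadratic_periods b w ρ hρ hρ2 hb hk r W hW hr

/-- For these tori one divisor kills `H^{p,q}` for all `p, q ≥ 1`. -/
theorem sanity_divisor_kills_coniveau_one (b : Basis ι ℝ V) {n : ℕ} (w : Basis (Fin n) ℂ V)
    (ρ : ℂ) (hρ : ρ.im ≠ 0) (hρ2 : ∃ r s : ℚ, ρ ^ 2 = r + s * ρ)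
    (hb : ∀ i k, ∃ r s : ℚ, w.repr (b i) k = r + s * ρ) :
    ∃ Z : Set V, IsAlgebraicSubsetOfCodimGE (lattice b) 1 Z ∧
      ∀ k p : ℕ, 1 ≤ p → p + 1 ≤ k → ∀ φ ∈ hodgePiece V p k, RestrictsToZero (lattice b) Z φ :=
  exists_divisor_hodgePiece_quad b w ρ hρ hρ2 hb

end

/-! ## 12. `Statement` for the abelian varieties isogenous to a power of a CM elliptic curve -/

/-- The period matrix of `A = V / lattice b`, in some `ℂ`-basis `w` of `V`, has entries in an imaginary quadratic field
`K = ℚ + ℚ ρ`.  Then `lattice b` is commensurable with `⊕_k (ℤ + ℤ ρ) w_k`, so that `A` is isogenous to the power `E^n`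
of the CM elliptic curve `E = ℂ / (ℤ + ℤ ρ)`, `n = dim A`; and every abelian variety isogenous to `E^n` is of this
form. -/
def HasQuadraticPeriods {V : Type*} [NormedAddCommGroup V] [InnerProductSpace ℂ V] {ι : Type*}
    (b : Basis ι ℝ V) : Prop :=
  ∃ (n : ℕ) (w : Basis (Fin n) ℂ V) (ρ : ℂ), ρ.im ≠ 0 ∧ (∃ r s : ℚ, ρ ^ 2 = r + s * ρ) ∧
    ∀ i k, ∃ r s : ℚ, w.repr (b i) k = r + s * ρ

section

variable {V : Type*} [NormedAddCommGroup V] [InnerProductSpace ℂ V] [FiniteDimensional ℂ V]
  {ι : Type*}

/-- These tori satisfy the hypotheses of `HodgeCM` and of `GeneralizedHodgeCM`. -/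
theorem sanity_quadratic_periods_hypotheses (b : Basis ι ℝ V) (h : HasQuadraticPeriods b) :
    IsPolarizable (lattice b) ∧ IsCM (lattice b) := by
  obtain ⟨n, w, ρ, hρ, hρ2, hb⟩ := h
  exact ⟨isPolarizable_of_quadratic_periods b w ρ hρ hb, isCM_of_quadratic_periods b w ρ hρ hρ2 hb⟩

/-- **The conclusion of `GeneralizedHodgeCM`, for all `k`, `r` and `W`**, for every complex torus whose period matrix
has entries in an imaginary quadratic field. -/
theorem sanity_ghc_quadratic_periods (b : Basis ι ℝ V) (h : HasQuadraticPeriods b) (k r : ℕ)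
    (W : Submodule ℚ (Form V k)) (hW : IsHodgeSubstructure (lattice b) W)
    (hr : IsEffectiveTwist W r) :
    ∃ Z : Set V, IsAlgebraicSubsetOfCodimGE (lattice b) r Z ∧
      ∀ φ ∈ W, RestrictsToZero (lattice b) Z φ := by
  obtain ⟨n, w, ρ, hρ, hρ2, hb⟩ := h
  exact generalizedHodge_of_quadratic_periods b w ρ hρ hρ2 hb k r W hW hr

/-- For these tori and every `r`, one closed algebraic subset of codimension `≥ r` kills `H^{p,q}` for all
`p, q ≥ r`. -/
theorem sanity_codim_kills_coniveau (b : Basis ι ℝ V) (h : HasQuadraticPeriods b) (r : ℕ) :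
    ∃ Z : Set V, IsAlgebraicSubsetOfCodimGE (lattice b) r Z ∧
      ∀ k p : ℕ, r ≤ p → p + r ≤ k → ∀ φ ∈ hodgePiece V p k, RestrictsToZero (lattice b) Z φ := by
  obtain ⟨n, w, ρ, hρ, hρ2, hb⟩ := h
  exact exists_codim_hodgePiece_quad b w ρ hρ hρ2 hb r

end

/-- The joint witnesses of section 7 are of this kind: `ℂ / ℤ[i]` and `(ℂ / ℤ[i])^6`. -/
theorem sanity_quadratic_periods_examples :
    HasQuadraticPeriods Complex.basisOneI ∧ HasQuadraticPeriods weilBasis := by
  refine ⟨⟨1, Basis.singleton (Fin 1) ℂ, Complex.I, by simp, ⟨-1, 0, by simp⟩, fun i k => ?_⟩,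
    ⟨6, weilW, Complex.I, by simp, ⟨-1, 0, by simp⟩, weilBasis_coord_rat⟩⟩
  fin_cases i
  · exact ⟨1, 0, by simp⟩
  · exact ⟨0, 1, by simp⟩

/-- **`Statement` restricted to the complex tori whose period matrix has entries in an imaginary quadratic field is a
theorem.**  The four conjuncts below are the four conjuncts `HodgeCM`, `GeneralizedHodgeCM`, `SplitWeilSixfolds`,
`QuadraticFive` of `Statement`, word for word, with the one additional hypothesis `HasQuadraticPeriods b`.  None of
them is empty: the joint witnesses of section 7 satisfy the additional hypothesis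
(`sanity_quadratic_periods_examples`). -/
theorem sanity_statement_quadratic_periods :
    (∀ (V : Type) [NormedAddCommGroup V] [InnerProductSpace ℂ V] [FiniteDimensional ℂ V]
      [MeasurableSpace V] [BorelSpace V] (ι : Type) (b : Basis ι ℝ V), HasQuadraticPeriods b →
      IsPolarizable (lattice b) → IsCM (lattice b) → HodgeConjecture b) ∧
    (∀ (V : Type) [NormedAddCommGroup V] [InnerProductSpace ℂ V] [FiniteDimensional ℂ V]
      (ι : Type) (b : Basis ι ℝ V), HasQuadraticPeriods b →
      IsPolarizable (lattice b) → IsCM (lattice b) →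
        ∀ (k r : ℕ) (W : Submodule ℚ (Form V k)),
          IsHodgeSubstructure (lattice b) W → IsEffectiveTwist W r →
            ∃ Z : Set V, IsAlgebraicSubsetOfCodimGE (lattice b) r Z ∧
              ∀ φ ∈ W, RestrictsToZero (lattice b) Z φ) ∧
    (∀ (V : Type) [NormedAddCommGroup V] [InnerProductSpace ℂ V] [FiniteDimensional ℂ V]
      [MeasurableSpace V] [BorelSpace V] (ι : Type) (b : Basis ι ℝ V), HasQuadraticPeriods b →
      finrank ℂ V = 6 → ∀ (d : ℕ) (u : Module.End ℂ V), IsQuadraticAction (lattice b) d u →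
      ∀ e : V →ₗ[ℝ] V →ₗ[ℝ] ℝ, IsRiemannForm (lattice b) e → (∀ x y, e (u x) y = -e x (u y)) →
      (∃ x : Fin 3 → V, (∀ i, x i ∈ lattice b) ∧
        LinearIndependent ℝ (Sum.elim x (fun i => u (x i))) ∧
        ∀ i j, e (x i) (x j) = 0 ∧ e (x i) (u (x j)) = 0) →
        ∀ m : ℕ, 1 ≤ m → HodgeConjecture (powerBasis b m)) ∧
    (∀ (V : Type) [NormedAddCommGroup V] [InnerProductSpace ℂ V] [FiniteDimensional ℂ V]
      [MeasurableSpace V] [BorelSpace V] (ι : Type) (b : Basis ι ℝ V), HasQuadraticPeriods b →
      IsPolarizable (lattice b) → finrank ℂ V ≤ 5 →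
      (∃ d u, IsQuadraticAction (lattice b) d u) →
        ∀ m : ℕ, 1 ≤ m → HodgeConjecture (powerBasis b m)) := by
  refine ⟨?_, ?_, ?_, ?_⟩
  · rintro V _ _ _ _ _ ι b ⟨n, w, ρ, hρ, hρ2, hb⟩ _ _
    exact hodgeConjecture_of_quadratic_periods b w ρ hρ hρ2 hb
  · intro V _ _ _ ι b h _ _ k r W hW hr
    exact sanity_ghc_quadratic_periods b h k r W hW hr
  · rintro V _ _ _ _ _ ι b ⟨n, w, ρ, hρ, hρ2, hb⟩ _ d u _ e _ _ _ m _
    exact hodgeConjecture_powerBasis_of_quadratic_periods b w ρ hρ hρ2 hb m
  · rintro V _ _ _ _ _ ι b ⟨n, w, ρ, hρ, hρ2, hb⟩ _ _ _ m _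
    exact hodgeConjecture_powerBasis_of_quadratic_periods b w ρ hρ hρ2 hb m

/-! ## 13. `HodgeCM` and the two companion theorems for the abelian varieties isogenous to a product of CM elliptic curves

`HasMixedQuadraticPeriods b` (`SanityMixExample.lean`): in some `ℂ`-basis of `V` the `k`-th coordinates of the periods lie in an
imaginary quadratic field `K_k`, which may depend on `k`. -/

section

variable {V : Type*} [NormedAddCommGroup V] [InnerProductSpace ℂ V] [FiniteDimensional ℂ V]
  {ι : Type*}

omit [FiniteDimensional ℂ V] in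
/-- The tori of section 12 (one field) are among them. -/
theorem sanity_mixed_of_quadratic_periods (b : Basis ι ℝ V) (h : HasQuadraticPeriods b) :
    HasMixedQuadraticPeriods b := by
  obtain ⟨n, w, ρ, hρ, hρ2, hb⟩ := h
  exact ⟨n, w, fun _ => ρ, fun _ => hρ, fun _ => hρ2, hb⟩

/-- These tori satisfy the hypotheses of `HodgeCM`: they are CM abelian varieties. -/
theorem sanity_mixed_periods_hypotheses (b : Basis ι ℝ V) (h : HasMixedQuadraticPeriods b) :
    IsPolarizable (lattice b) ∧ IsCM (lattice b) := by
  obtain ⟨n, w, ω, hω, hω2, hb⟩ := h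
  exact ⟨isPolarizable_of_mixed_periods b w ω hω hb, isCM_of_mixed_periods b w ω hω hω2 hb⟩

/-- **The conclusion of `HodgeCM`** (all codimensions) for every abelian variety isogenous to a product of CM elliptic
curves, with arbitrary CM fields. -/
theorem sanity_hodge_mixed_periods [MeasurableSpace V] [BorelSpace V] (b : Basis ι ℝ V)
    (h : HasMixedQuadraticPeriods b) : HodgeConjecture b := by
  obtain ⟨n, w, ω, hω, hω2, hb⟩ := h
  exact hodgeConjecture_of_mixed_periods b w ω hω hω2 hb

end

/-- The class is strictly larger than that of section 12: `ℂ/ℤ[i] × ℂ/ℤ[√-2]` belongs to it, and is not isogenous to a power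
of an elliptic curve. -/
theorem sanity_mixed_periods_example :
    HasMixedQuadraticPeriods twoFieldsBasis ∧ ¬ HasQuadraticPeriods twoFieldsBasis :=
  ⟨twoFields_hasMixedQuadraticPeriods, twoFields_not_one_field⟩

/-- A joint witness of `QuadraticFive` with two different CM fields: `A = (ℂ/ℤ[i])² × ℂ/ℤ[√-2]`, of dimension `3 ≤ 5`, with the
action of `ℚ(√-2)` given by `u (z₀, z₁, z₂) = (-2 z₁, z₀, √-2 z₂)`. -/
theorem sanity_mixed_periods_quadraticFive_witness :
    HasMixedQuadraticPeriods threeBasis ∧ IsPolarizable (lattice threeBasis) ∧ finrank ℂ (Cn 3) ≤ 5 ∧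
      ∃ d u, IsQuadraticAction (lattice threeBasis) d u :=
  ⟨three_hasMixedQuadraticPeriods, (sanity_mixed_periods_hypotheses _ three_hasMixedQuadraticPeriods).1, by simp,
    2, threeU, threeU_isQuadraticAction⟩

/-- **The conjuncts `HodgeCM`, `SplitWeilSixfolds` and `QuadraticFive` of `Statement`, restricted to the abelian varieties
isogenous to a product of CM elliptic curves, are theorems**: word for word, with the one additional hypothesis
`HasMixedQuadraticPeriods b`.  (`GeneralizedHodgeCM` is NOT claimed for this class; see `CLAIM.md`.) -/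
theorem sanity_statement_mixed_periods :
    (∀ (V : Type) [NormedAddCommGroup V] [InnerProductSpace ℂ V] [FiniteDimensional ℂ V]
      [MeasurableSpace V] [BorelSpace V] (ι : Type) (b : Basis ι ℝ V), HasMixedQuadraticPeriods b →
      IsPolarizable (lattice b) → IsCM (lattice b) → HodgeConjecture b) ∧
    (∀ (V : Type) [NormedAddCommGroup V] [InnerProductSpace ℂ V] [FiniteDimensional ℂ V]
      [MeasurableSpace V] [BorelSpace V] (ι : Type) (b : Basis ι ℝ V), HasMixedQuadraticPeriods b →
      finrank ℂ V = 6 → ∀ (d : ℕ) (u : Module.End ℂ V), IsQuadraticAction (lattice b) d u →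
      ∀ e : V →ₗ[ℝ] V →ₗ[ℝ] ℝ, IsRiemannForm (lattice b) e → (∀ x y, e (u x) y = -e x (u y)) →
      (∃ x : Fin 3 → V, (∀ i, x i ∈ lattice b) ∧
        LinearIndependent ℝ (Sum.elim x (fun i => u (x i))) ∧
        ∀ i j, e (x i) (x j) = 0 ∧ e (x i) (u (x j)) = 0) →
        ∀ m : ℕ, 1 ≤ m → HodgeConjecture (powerBasis b m)) ∧
    (∀ (V : Type) [NormedAddCommGroup V] [InnerProductSpace ℂ V] [FiniteDimensional ℂ V]
      [MeasurableSpace V] [BorelSpace V] (ι : Type) (b : Basis ι ℝ V), HasMixedQuadraticPeriods b →
      IsPolarizable (lattice b) → finrank ℂ V ≤ 5 →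
      (∃ d u, IsQuadraticAction (lattice b) d u) →
        ∀ m : ℕ, 1 ≤ m → HodgeConjecture (powerBasis b m)) := by
  refine ⟨?_, ?_, ?_⟩
  · intro V _ _ _ _ _ ι b h _ _
    exact sanity_hodge_mixed_periods b h
  · intro V _ _ _ _ _ ι b h _ d u _ e _ _ _ m _
    exact sanity_hodge_mixed_periods _ (hasMixedQuadraticPeriods_powerBasis b h m)
  · intro V _ _ _ _ _ ι b h _ _ _ m _
    exact sanity_hodge_mixed_periods _ (hasMixedQuadraticPeriods_powerBasis b h m)

/-! ## 14. `Statement` for the products of CM elliptic curves with independent CM fields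

`HasIndependentQuadraticPeriods b` (`SanityIndMain.lean`): the coordinates of `V` are distributed into blocks, the periods have
their coordinates of the block `c` in an imaginary quadratic field `K_c = ℚ + ℚ ρ_c`, and no product of an even positive number of
different `Im ρ_c` is rational (the compositum of the `K_c`, `c < s`, has degree `2^s`). -/

section

variable {V : Type*} [NormedAddCommGroup V] [InnerProductSpace ℂ V] [FiniteDimensional ℂ V]
  {ι : Type*}

omit [FiniteDimensional ℂ V] in
/-- The tori of section 12 (one field) are among them ... -/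
theorem sanity_independent_of_quadratic_periods (b : Basis ι ℝ V) (h : HasQuadraticPeriods b) :
    HasIndependentQuadraticPeriods b := by
  obtain ⟨n, w, ρ, hρ, hρ2, hb⟩ := h
  refine ⟨n, 1, w, fun _ => ρ, fun _ => 0, fun _ => hρ, fun _ => hρ2, ?_, hb⟩
  intro T hT hev
  have h1 : T.card ≤ 1 := by simpa using Finset.card_le_univ T
  have h2 : 0 < T.card := Finset.card_pos.2 hT
  have h3 : T.card = 1 := by omega
  rw [h3] at hev
  exact absurd hev (by decide)

omit [FiniteDimensional ℂ V] in
/-- ... and they are among the tori of section 13. -/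
theorem sanity_mixed_of_independent (b : Basis ι ℝ V) (h : HasIndependentQuadraticPeriods b) :
    HasMixedQuadraticPeriods b := h.hasMixed

/-- **The conclusion of `GeneralizedHodgeCM`, for all `k`, `r` and `W`**, for every abelian variety isogenous to a product of CM
elliptic curves with independent CM fields. -/
theorem sanity_ghc_independent_fields (b : Basis ι ℝ V) (h : HasIndependentQuadraticPeriods b) (k r : ℕ)
    (W : Submodule ℚ (Form V k)) (hW : IsHodgeSubstructure (lattice b) W)
    (hr : IsEffectiveTwist W r) :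
    ∃ Z : Set V, IsAlgebraicSubsetOfCodimGE (lattice b) r Z ∧
      ∀ φ ∈ W, RestrictsToZero (lattice b) Z φ := by
  obtain ⟨d, s, w, ρ, κ, hρ, hρ2, hind, hb⟩ := h
  exact generalizedHodge_of_independent_fields b w ρ κ hρ hρ2 hind hb k r W hW hr

end

/-- At most three different fields are independent. -/
theorem sanity_independent_of_le_three {s : ℕ} (hs : s ≤ 3) (y : Fin s → ℝ)
    (h : ∀ c c', c ≠ c' → ∀ q : ℚ, y c * y c' ≠ q) :
    ∀ T : Finset (Fin s), T.Nonempty → Even T.card → ∀ q : ℚ, ∏ c ∈ T, y c ≠ q :=
  independent_of_le_three hs y h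

/-- Examples with two different fields: `ℂ/ℤ[i] × ℂ/ℤ[√-2]` (not isogenous to a power of an elliptic curve) and the joint
witness `(ℂ/ℤ[i])² × ℂ/ℤ[√-2]` of `QuadraticFive` of section 13. -/
theorem sanity_independent_examples :
    HasIndependentQuadraticPeriods twoFieldsBasis ∧ ¬ HasQuadraticPeriods twoFieldsBasis ∧
      HasIndependentQuadraticPeriods threeBasis :=
  ⟨twoFields_hasIndependentQuadraticPeriods, twoFields_not_one_field, three_hasIndependentQuadraticPeriods⟩

/-- **`Statement` restricted to the abelian varieties isogenous to a product of CM elliptic curves with independent CM fields is a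
theorem.**  The four conjuncts below are the four conjuncts `HodgeCM`, `GeneralizedHodgeCM`, `SplitWeilSixfolds`,
`QuadraticFive` of `Statement`, word for word, with the one additional hypothesis `HasIndependentQuadraticPeriods b`. -/
theorem sanity_statement_independent_fields :
    (∀ (V : Type) [NormedAddCommGroup V] [InnerProductSpace ℂ V] [FiniteDimensional ℂ V]
      [MeasurableSpace V] [BorelSpace V] (ι : Type) (b : Basis ι ℝ V), HasIndependentQuadraticPeriods b →
      IsPolarizable (lattice b) → IsCM (lattice b) → HodgeConjecture b) ∧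
    (∀ (V : Type) [NormedAddCommGroup V] [InnerProductSpace ℂ V] [FiniteDimensional ℂ V]
      (ι : Type) (b : Basis ι ℝ V), HasIndependentQuadraticPeriods b →
      IsPolarizable (lattice b) → IsCM (lattice b) →
        ∀ (k r : ℕ) (W : Submodule ℚ (Form V k)),
          IsHodgeSubstructure (lattice b) W → IsEffectiveTwist W r →
            ∃ Z : Set V, IsAlgebraicSubsetOfCodimGE (lattice b) r Z ∧
              ∀ φ ∈ W, RestrictsToZero (lattice b) Z φ) ∧
    (∀ (V : Type) [NormedAddCommGroup V] [InnerProductSpace ℂ V] [FiniteDimensional ℂ V]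
      [MeasurableSpace V] [BorelSpace V] (ι : Type) (b : Basis ι ℝ V), HasIndependentQuadraticPeriods b →
      finrank ℂ V = 6 → ∀ (d : ℕ) (u : Module.End ℂ V), IsQuadraticAction (lattice b) d u →
      ∀ e : V →ₗ[ℝ] V →ₗ[ℝ] ℝ, IsRiemannForm (lattice b) e → (∀ x y, e (u x) y = -e x (u y)) →
      (∃ x : Fin 3 → V, (∀ i, x i ∈ lattice b) ∧
        LinearIndependent ℝ (Sum.elim x (fun i => u (x i))) ∧
        ∀ i j, e (x i) (x j) = 0 ∧ e (x i) (u (x j)) = 0) →
        ∀ m : ℕ, 1 ≤ m → HodgeConjecture (powerBasis b m)) ∧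
    (∀ (V : Type) [NormedAddCommGroup V] [InnerProductSpace ℂ V] [FiniteDimensional ℂ V]
      [MeasurableSpace V] [BorelSpace V] (ι : Type) (b : Basis ι ℝ V), HasIndependentQuadraticPeriods b →
      IsPolarizable (lattice b) → finrank ℂ V ≤ 5 →
      (∃ d u, IsQuadraticAction (lattice b) d u) →
        ∀ m : ℕ, 1 ≤ m → HodgeConjecture (powerBasis b m)) := by
  refine ⟨?_, ?_, ?_, ?_⟩
  · intro V _ _ _ _ _ ι b h _ _
    exact sanity_hodge_mixed_periods b h.hasMixed
  · intro V _ _ _ ι b h _ _ k r W hW hr
    exact sanity_ghc_independent_fields b h k r W hW hr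
  · intro V _ _ _ _ _ ι b h _ d u _ e _ _ _ m _
    exact sanity_hodge_mixed_periods _ (hasMixedQuadraticPeriods_powerBasis b h.hasMixed m)
  · intro V _ _ _ _ _ ι b h _ _ _ m _
    exact sanity_hodge_mixed_periods _ (hasMixedQuadraticPeriods_powerBasis b h.hasMixed m)

/-! ## 15. The image of the cycle class map consists of real classes of type `(p,p)`

(`SanityCycleType.lean`.)  The circle `|z| = 1` and the complex conjugation preserve `∫_Z`, because the tangent spaces of `Z` are
complex subspaces, and a set has at most one class.  That the classes of cycles are RATIONAL is classical, needs the topology of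
`Z`, and is not proved in this folder (it is not part of `Statement`). -/

section

variable {V : Type*} [NormedAddCommGroup V] [InnerProductSpace ℂ V] [FiniteDimensional ℂ V]
  [MeasurableSpace V] [BorelSpace V] {ι : Type*}

/-- The class of a set `Z` (any set which has one) is real of type `(p,p)`. -/
theorem sanity_cycleClass_type (b : Basis ι ℝ V) {p d : ℕ} (hpd : p + d = finrank ℂ V) {Z : Set V}
    {c : Form V (2 * p)} (hc : IsCycleClass b p d Z c) :
    c ∈ hodgePiece V p (2 * p) ∧ ∀ v, (c v).im = 0 :=
  ⟨hc.mem_hodgePiece hpd, hc.im_eq_zero hpd⟩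

/-- The image of `cl_B` lies in `H^{2p}(A,ℝ) ∩ H^{p,p}(A)`. -/
theorem sanity_algebraicClasses_type (b : Basis ι ℝ V) (p : ℕ) {φ : Form V (2 * p)}
    (hφ : φ ∈ algebraicClasses b p) :
    φ ∈ hodgePiece V p (2 * p) ∧ ∀ v, (φ v).im = 0 :=
  ⟨algebraicClasses_le_hodgePiece b p hφ, algebraicClasses_im_eq_zero b p hφ⟩

end

/-- On `(ℂ/ℤ[i])²` the integral class `dz₁ ∧ dz₂ + dz̄₁ ∧ dz̄₂` is not algebraic: the hypothesis "of type `(p,p)`" of
`HodgeConjecture` cannot be dropped. -/
theorem sanity_type_cannot_be_dropped :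
    IsRational (lattice (powerBasis Complex.basisOneI 2)) twoZeroClass ∧
      twoZeroClass ∉ algebraicClasses (powerBasis Complex.basisOneI 2) 1 :=
  twoZeroClass_not_mem_algebraicClasses

/-! ## 16. Where the proved cases end: a CM abelian surface which is not isogenous to a product of elliptic curves

(`SanityZetaFive.lean`.)  `A = ℂ² / Φ(ℤ[ζ])`, `ζ = exp(2πi/5)`, `Φ(a) = (φ₁ a, φ₂ a)`, `φ_j ζ = ζ^j` (the Jacobian of
`y² = x⁵ - 1`), with the period basis `zetaBasis i = (ζ^i, ζ^{2i})`, `i < 4`. -/

/-- `A` satisfies the hypotheses of `HodgeCM` and of `GeneralizedHodgeCM` (its CM algebra is the field `ℚ(ζ)` of degree `4`), and it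
lies outside the classes of sections 12, 13, 14.  For `A` the conclusion of `HodgeCM` is proved in this folder in codimension `0`
and `2` only (section 4); in codimension `1` it is the Lefschetz (1,1) theorem for `A`, which is NOT proved here. -/
theorem sanity_zeta_five :
    IsPolarizable (lattice zetaBasis) ∧ IsCM (lattice zetaBasis) ∧
      ¬ HasMixedQuadraticPeriods zetaBasis ∧ ¬ HasIndependentQuadraticPeriods zetaBasis ∧
      ¬ HasQuadraticPeriods zetaBasis :=
  ⟨zeta_isPolarizable, zeta_isCM, zeta_not_hasMixedQuadraticPeriods,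
    fun h => zeta_not_hasMixedQuadraticPeriods (sanity_mixed_of_independent _ h),
    fun h => zeta_not_hasMixedQuadraticPeriods
      (sanity_mixed_of_independent _ (sanity_independent_of_quadratic_periods _ h))⟩

/-! ## 17. `RestrictsToZero` in degree one, for arbitrary `Z`

(`SanityInjectH1.lean`.)  The complement of a finite union of analytic subsets is connected, and a primitive of `φ` differs from `φ`
by a constant. -/

section

variable {V : Type*} [NormedAddCommGroup V] [InnerProductSpace ℂ V] [FiniteDimensional ℂ V]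
  {ι : Type*}

/-- `H¹(A,ℂ) → H¹(A∖Z,ℂ)` is injective, for every complex torus and every closed algebraic subset `Z` of codimension `≥ r > 0`. -/
theorem sanity_restrictsToZero_one_iff (b : Basis ι ℝ V) {r : ℕ} (hr : 0 < r) {Z : Set V}
    (hZ : IsAlgebraicSubsetOfCodimGE (lattice b) r Z) (φ : Form V 1) :
    RestrictsToZero (lattice b) Z φ ↔ φ = 0 :=
  restrictsToZero_one_iff b hr hZ φ

/-- In degree `k = 1` the conclusion of `GeneralizedHodgeCM` with `r > 0` holds only for `W = 0` ... -/
theorem sanity_ghc_conclusion_one (b : Basis ι ℝ V) {r : ℕ} (hr : 0 < r) (W : Submodule ℚ (Form V 1))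
    (h : ∃ Z : Set V, IsAlgebraicSubsetOfCodimGE (lattice b) r Z ∧
      ∀ φ ∈ W, RestrictsToZero (lattice b) Z φ) : W = ⊥ :=
  eq_bot_of_generalizedHodge_conclusion_one b hr W h

/-- ... and it fails for the rational Hodge structure `W = H¹(A,ℚ)`, on every complex torus of positive dimension: the hypothesis of
effectivity cannot be dropped, whatever `Z` is. -/
theorem sanity_ghc_conclusion_fails_H1 (b : Basis ι ℝ V) [Nontrivial V] {r : ℕ} (hr : 0 < r) :
    IsHodgeSubstructure (lattice b) (rationalClasses (lattice b) 1) ∧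
    ¬ ∃ Z : Set V, IsAlgebraicSubsetOfCodimGE (lattice b) r Z ∧
      ∀ φ ∈ rationalClasses (lattice b) 1, RestrictsToZero (lattice b) Z φ :=
  generalizedHodge_conclusion_fails_H1 b hr

/-! ## 18. The ring of Hodge classes; Hodge symmetry

(`SanityHodgeRing.lean`.) -/

/-- The cup product respects the Hodge types, the complex conjugation exchanges `H^{p,q}` and `H^{q,p}`, and the product of two Hodge
classes is rational of type `(p+q,p+q)`. -/
theorem sanity_hodge_ring :
    (∀ {p a q k : ℕ}, p ≤ a → q ≤ k → ∀ {α : Form V a} {β : Form V k},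
      α ∈ hodgePiece V p a → β ∈ hodgePiece V q k → wedge α β ∈ hodgePiece V (p + q) (a + k)) ∧
    (∀ {p n : ℕ}, p ≤ n → ∀ {φ : Form V n}, φ ∈ hodgePiece V p n → conjAct φ ∈ hodgePiece V (n - p) n) ∧
    (∀ {Λ : Submodule ℤ V} {p q : ℕ} {α : Form V (2 * p)} {β : Form V (2 * q)},
      IsHodgeClass Λ p α → IsHodgeClass Λ q β →
        IsRational Λ (wedge α β) ∧ wedge α β ∈ hodgePiece V (p + q) (2 * p + 2 * q)) :=
  ⟨fun hp hq _ _ hα hβ => wedge_mem_hodgePiece hp hq hα hβ,
    fun hp _ hφ => conjAct_mem_hodgePiece hp hφ, fun hα hβ => hα.wedge hβ⟩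

/-- For `W ⊆ H^k(A,ℚ)` the space `W_ℂ` is stable under conjugation, so that "`W(r)` is effective" needs only the condition
`p ≥ r`. -/
theorem sanity_isEffectiveTwist_iff (b : Basis ι ℝ V) {k : ℕ} {W : Submodule ℚ (Form V k)}
    (hW : ∀ φ ∈ W, IsRational (lattice b) φ) (r : ℕ) :
    IsEffectiveTwist W r ↔
      ∀ p q : ℕ, p + q = k → p < r → complexSpan W ⊓ hodgePiece V p k = ⊥ :=
  isEffectiveTwist_iff_of_rational b hW r

end

/-! ## 19. Points: `H^k(A) → H^k(A ∖ Z)` is injective for `k < 2 dim A` and `Z` of codimension `dim A`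

(`SanityInjectPoints.lean`.)  Stokes' theorem on a translate, which misses the countable set `Z ⊆ V`, of the real subtorus spanned by
`k` lattice vectors.  In degrees `k ≥ 2` these are the only non-examples of `RestrictsToZero` with `Z ≠ ∅` which are checked. -/

section

variable {V : Type*} [NormedAddCommGroup V] [InnerProductSpace ℂ V] [FiniteDimensional ℂ V] {ι : Type*}

/-- The subvarieties of dimension `0` of `A = V/Λ` are exactly the points of `A`. -/
theorem sanity_dim_zero (b : Basis ι ℝ V) (Z : Set V) :
    IsSubvariety (lattice b) 0 Z ↔ ∃ a : V, Z = (fun y => a + y) '' (lattice b : Set V) :=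
  ⟨fun h => h.eq_coset_of_dim_zero, by
    rintro ⟨a, rfl⟩
    exact (isSubvariety_lattice b).image_add a⟩

/-- `H^k(A,ℂ) → H^k(A ∖ Z,ℂ)` is injective for `k < 2 dim A`, if `Z` is of codimension `≥ dim A`. -/
theorem sanity_restrict_points_injective (b : Basis ι ℝ V) {r : ℕ} (hr : finrank ℂ V ≤ r) {Z : Set V}
    (hZ : IsAlgebraicSubsetOfCodimGE (lattice b) r Z) {k : ℕ} (hk : k < 2 * finrank ℂ V)
    (φ : Form V k) : RestrictsToZero (lattice b) Z φ ↔ φ = 0 :=
  restrictsToZero_points_iff b hr hZ hk φ

end

/-- On `(ℂ/ℤ[i])^n`, `n ≥ 2`, the span `W` of the classes `pr_k^*[E]` (for which `W(1)` is effective, section 10) dies off a divisor,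
but not off any closed algebraic subset of codimension `n`. -/
theorem sanity_ghc_codimension_sharp {n : ℕ} (hn : 2 ≤ n) :
    (∃ Z : Set (Cn n), IsAlgebraicSubsetOfCodimGE (lattice (powerBasis Complex.basisOneI n)) 1 Z ∧
      ∀ φ ∈ gaussPowerW n, RestrictsToZero (lattice (powerBasis Complex.basisOneI n)) Z φ) ∧
    ¬ ∃ Z : Set (Cn n), IsAlgebraicSubsetOfCodimGE (lattice (powerBasis Complex.basisOneI n)) n Z ∧
      ∀ φ ∈ gaussPowerW n, RestrictsToZero (lattice (powerBasis Complex.basisOneI n)) Z φ :=
  gaussPowerW_not_points hn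

/-! ## 17 and 18 again: the names under which these results were landed first

(Four theorems of an earlier version of this file, kept word for word so that no declaration is lost; they restate
`sanity_restrictsToZero_one_iff`, `sanity_ghc_conclusion_fails_H1`, `sanity_hodge_ring`, `sanity_isEffectiveTwist_iff`.) -/

section

variable {V : Type*} [NormedAddCommGroup V] [InnerProductSpace ℂ V] [FiniteDimensional ℂ V] {ι : Type*}

/-- `H¹(A,ℂ) → H¹(A ∖ Z,ℂ)` is injective for every closed algebraic subset `Z` of positive codimension. -/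
theorem sanity_restrict_h1_injective (b : Basis ι ℝ V) {r : ℕ} (hr : 0 < r) {Z : Set V}
    (hZ : IsAlgebraicSubsetOfCodimGE (lattice b) r Z) (φ : Form V 1) :
    RestrictsToZero (lattice b) Z φ ↔ φ = 0 :=
  restrictsToZero_one_iff b hr hZ φ

/-- On every complex torus of positive dimension the conclusion of `GeneralizedHodgeCM` fails for the rational Hodge structure
`W = H¹(A,ℚ)` and every `r > 0`: the hypothesis "`W(r)` is effective" cannot be dropped, whatever `Z` is. -/
theorem sanity_ghc_fails_for_h1 (b : Basis ι ℝ V) [Nontrivial V] {r : ℕ} (hr : 0 < r) :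
    IsHodgeSubstructure (lattice b) (rationalClasses (lattice b) 1) ∧
    ¬ ∃ Z : Set V, IsAlgebraicSubsetOfCodimGE (lattice b) r Z ∧
      ∀ φ ∈ rationalClasses (lattice b) 1, RestrictsToZero (lattice b) Z φ :=
  generalizedHodge_conclusion_fails_H1 b hr

/-- The cup product respects the Hodge types, and conjugation exchanges `H^{p,q}` and `H^{q,p}`. -/
theorem sanity_hodge_types {p a q k : ℕ} (hp : p ≤ a) (hq : q ≤ k) {α : Form V a} {β : Form V k}
    (hα : α ∈ hodgePiece V p a) (hβ : β ∈ hodgePiece V q k) :
    wedge α β ∈ hodgePiece V (p + q) (a + k) ∧ conjAct α ∈ hodgePiece V (a - p) a :=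
  ⟨wedge_mem_hodgePiece hp hq hα hβ, conjAct_mem_hodgePiece hp hα⟩

/-- For `W ⊆ H^k(A,ℚ)`, "`W(r)` is effective" needs only the condition on the first index. -/
theorem sanity_effective_one_clause (b : Basis ι ℝ V) {k : ℕ} {W : Submodule ℚ (Form V k)}
    (hW : ∀ φ ∈ W, IsRational (lattice b) φ) (r : ℕ) :
    IsEffectiveTwist W r ↔
      ∀ p q : ℕ, p + q = k → p < r → complexSpan W ⊓ hodgePiece V p k = ⊥ :=
  isEffectiveTwist_iff_of_rational b hW r

end

end Claimed.Open.R032
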