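import Claimed.Open.R032.SanityThetaTau

/-!
# Common zeros of theta functions: closed algebraic subsets of codimension `r`
-/

open MeasureTheory Module Set Complex

namespace Claimed.Open.R032

variable {V : Type*} [NormedAddCommGroup V] [InnerProductSpace ℂ V] [FiniteDimensional ℂ V]
  {ι : Type*}

/-- `(zeros of θ_τ)^r ⊆ ℂ^r`. -/
def tauZerosPi (τ : ℂ) (r : ℕ) : Set (Cn r) := {y | ∀ j, y j ∈ tauZeros τ}

theorem tauZerosPi_isPeriodic {τ : ℂ} (hτ0 : 0 < τ.im) (r : ℕ) :
    IsPeriodic (lattice (powerBasis (tauBasis τ hτ0.ne') r)) (tauZerosPi τ r) := by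
  intro l hl x hx j
  rw [← piBasis_const, mem_lattice_piBasis] at hl
  exact tauZeros_isPeriodic hτ0 _ (hl j) _ (hx j)

/-- `(zeros of θ_τ)^r` meets every compact set in a finite set. -/
theorem tauZerosPi_inter_finite {τ : ℂ} (hτ : 1 ≤ τ.im) (r : ℕ) {K : Set (Cn r)} (hK : IsCompact K) :
    (tauZerosPi τ r ∩ K).Finite := by
  have hc : ∀ j : Fin r, IsCompact ((fun y : Cn r => y j) '' K) := fun j =>
    hK.image (PiLp.continuous_apply 2 (fun _ : Fin r => ℂ) j)
  have hfin : (Set.pi Set.univ fun j : Fin r => tauZeros τ ∩ ((fun y : Cn r => y j) '' K)).Finite :=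
    Set.Finite.pi fun j => tauZeros_inter_finite hτ (hc j)
  refine Set.Finite.of_injOn (f := fun y : Cn r => (fun j => y j : Fin r → ℂ)) ?_ ?_ hfin
  · intro y hy j _
    exact ⟨hy.1 j, ⟨y, hy.2, rfl⟩⟩
  · intro x _ y _ h
    ext j
    exact congrFun h j

/-- `(zeros of θ_τ)^r` is a finite union of classes modulo any lattice contained in `(ℤ + ℤ τ)^r`. -/
theorem tauZerosPi_eq_iUnion_of_le {τ : ℂ} (hτ : 1 ≤ τ.im) (hτ0 : 0 < τ.im) (r : ℕ) {ι' : Type*}
    (b' : Basis ι' ℝ (Cn r))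
    (h : ∀ l ∈ lattice b', l ∈ lattice (powerBasis (tauBasis τ hτ0.ne') r)) :
    ∃ (M : ℕ) (a : Fin M → Cn r),
      tauZerosPi τ r = ⋃ j, (fun y => a j + y) '' (lattice b' : Set (Cn r)) := by
  have := finite_index b'
  have := Fintype.ofFinite ι'
  have hfin := tauZerosPi_inter_finite hτ r (K := closure (ZSpan.fundamentalDomain b'))
    (ZSpan.fundamentalDomain_isBounded b').isCompact_closure
  let S := hfin.toFinset
  let e := S.equivFin
  refine ⟨S.card, fun j => ((e.symm j : Cn r)), ?_⟩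
  ext z
  simp only [mem_iUnion]
  constructor
  · intro hz
    have hl : ((ZSpan.floor b' z : Submodule.span ℤ (Set.range b')) : Cn r) ∈ lattice b' :=
      (ZSpan.floor b' z).2
    have hfr : ZSpan.fract b' z
        = -((ZSpan.floor b' z : Submodule.span ℤ (Set.range b')) : Cn r) + z := by
      rw [ZSpan.fract_apply]; abel
    have hz' : ZSpan.fract b' z ∈ tauZerosPi τ r := by
      rw [hfr]
      exact tauZerosPi_isPeriodic hτ0 r _
        ((lattice (powerBasis (tauBasis τ hτ0.ne') r)).neg_mem (h _ hl)) z hz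
    have hS : ZSpan.fract b' z ∈ S :=
      hfin.mem_toFinset.2 ⟨hz', subset_closure (ZSpan.fract_mem_fundamentalDomain b' z)⟩
    refine ⟨e ⟨_, hS⟩, _, hl, ?_⟩
    simp [hfr]
  · rintro ⟨j, l, hl, rfl⟩
    have hj : ((e.symm j : Cn r)) ∈ tauZerosPi τ r := (hfin.mem_toFinset.1 (e.symm j).2).1
    have := tauZerosPi_isPeriodic hτ0 r l (h l hl) _ hj
    rwa [add_comm] at this

/-- If `f = (m_j)_j : A → (ℂ / (ℤ + ℤ τ))^r` is a surjective homomorphism, then
`f⁻¹ ((zeros of θ_τ)^r)` is a closed algebraic subset of codimension `r`: a finite union of fibres of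
`A → ℂ^r / f(Λ)`. -/
theorem preimage_tauZeros_pi_isAlgebraic {τ : ℂ} (hτ : 1 ≤ τ.im) (hτ0 : 0 < τ.im) (b : Basis ι ℝ V)
    {r : ℕ} (m : Fin r → V →ₗ[ℂ] ℂ)
    (hm : ∀ j, ∀ l ∈ lattice b, m j l ∈ lattice (tauBasis τ hτ0.ne'))
    (hsurj : Function.Surjective (formsMap m)) :
    IsAlgebraicSubsetOfCodimGE (lattice b) r {x | ∀ j, m j x ∈ tauZeros τ} := by
  have hN : ∀ l ∈ lattice b, formsMap m l ∈ lattice (powerBasis (tauBasis τ hτ0.ne') r) := by
    intro l hl
    rw [← piBasis_const, mem_lattice_piBasis]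
    intro j
    exact hm j l hl
  obtain ⟨b', hb'⟩ := exists_basis_mapsLatticeOnto b (powerBasis (tauBasis τ hτ0.ne') r) (formsMap m) hsurj hN
  have hle : ∀ l ∈ lattice b', l ∈ lattice (powerBasis (tauBasis τ hτ0.ne') r) := by
    intro l hl
    obtain ⟨x, hx, rfl⟩ := (hb' l).1 hl
    exact hN x hx
  obtain ⟨M, a, h⟩ := tauZerosPi_eq_iUnion_of_le hτ hτ0 r b' hle
  have hpre : {x | ∀ j, m j x ∈ tauZeros τ} = formsMap m ⁻¹' tauZerosPi τ r := rfl
  rw [hpre, h, Set.preimage_iUnion]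
  refine isAlgebraicSubsetOfCodimGE_iUnion _
    (fun _ => finrank ℂ (LinearMap.ker (formsMap m).toLinearMap))
    (fun j => isSubvariety_preimage_coset hb' _) (fun _ => ?_)
  have := hb'.finrank_ker_add
  have hr : finrank ℂ (Cn r) = r := by simp [Cn]
  rw [hr] at this
  exact this.le

/-- If `(m_j)_j : V → ℂ^r` is not surjective, there is a non-trivial linear relation between the `m_j`. -/
theorem bm_exists_relation_of_not_surjective {r : ℕ} (m : Fin r → V →ₗ[ℂ] ℂ)
    (hns : ¬ Function.Surjective (formsMap m)) :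
    ∃ c : Fin r → ℂ, c ≠ 0 ∧ ∀ v, ∑ a, c a * m a v = 0 := by
  classical
  have hns' : ¬ Function.Surjective (LinearMap.pi m : V →ₗ[ℂ] (Fin r → ℂ)) := by
    intro hs
    apply hns
    intro y
    obtain ⟨v, hv⟩ := hs (fun a => y a)
    refine ⟨v, ?_⟩
    ext a
    simpa using congrFun hv a
  have hlt : LinearMap.range (LinearMap.pi m : V →ₗ[ℂ] (Fin r → ℂ)) < ⊤ := by
    rw [lt_top_iff_ne_top]
    intro h
    exact hns' (LinearMap.range_eq_top.1 h)
  obtain ⟨f, hf0, hf⟩ := Submodule.exists_le_ker_of_lt_top _ hlt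
  refine ⟨fun a => f (fun b => if a = b then 1 else 0), ?_, fun v => ?_⟩
  · intro hc
    apply hf0
    refine LinearMap.ext fun x => ?_
    rw [LinearMap.pi_apply_eq_sum_univ f x]
    simp only [LinearMap.zero_apply]
    refine Finset.sum_eq_zero fun a _ => ?_
    rw [show f (fun b => if a = b then 1 else 0) = 0 from congrFun hc a, smul_zero]
  · have h1 : f (LinearMap.pi m v) = 0 := hf ⟨v, rfl⟩
    rw [LinearMap.pi_apply_eq_sum_univ f] at h1
    refine Eq.trans (Finset.sum_congr rfl fun a _ => ?_) h1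
    rw [LinearMap.pi_apply, smul_eq_mul, mul_comm]

/-- If `(m_j)_j : V → ℂ^r` is not surjective, the `m_j` are linearly dependent and every wedge product in which
all of them occur vanishes. -/
theorem wedgeOfForms_eq_zero_of_not_surjective {r : ℕ} (m : Fin r → V →ₗ[ℂ] ℂ)
    (hns : ¬ Function.Surjective (formsMap m)) {n : ℕ} (ℓ : Fin n → V →ₗ[ℝ] ℂ) (j : Fin r → Fin n)
    (hj : Function.Injective j) (hℓ : ∀ a, ℓ (j a) = (m a).restrictScalars ℝ) :
    wedgeOfForms ℓ = 0 := by
  classical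
  obtain ⟨c, hc0, hc⟩ := bm_exists_relation_of_not_surjective m hns
  ext v
  rw [wedgeOfForms_eq_det, AlternatingMap.zero_apply]
  by_contra hdet
  have hli := (Matrix.linearIndependent_rows_of_det_ne_zero hdet).comp j hj
  rw [Fintype.linearIndependent_iff] at hli
  apply hc0
  funext a
  refine hli c ?_ a
  funext k
  simp only [Finset.sum_apply, Pi.smul_apply, Function.comp_apply, Matrix.of_apply,
    smul_eq_mul, Pi.zero_apply, hℓ, LinearMap.coe_restrictScalars]
  exact hc (v k)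

end Claimed.Open.R032
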