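import Mathlib

/-!
# An algebraic identity (used in `SanityBMMain.lean`)

Let `u_i, H_i, λ` be numbers, `s = ∑ u_i ≠ 0`, `P_j(t) = ∏_{i ≠ j} (λ + t H_i)`, and let `L` be the linear form
`t^m ↦ m! / s^{m+1}` on polynomials.  With `Q_j = L(P_j)` and `Q_j⁺ = L(t P_j)`:
`∑_j ((H_j - λ u_j) Q_j - u_j H_j Q_j⁺) = L(P') - s L(P) = - P(0) = - λ^r`, where `P = ∏_i (λ + t H_i)`.

PROOF TYPED HERE (double counting, no polynomials).  `c(T) = |T|! H_T λ^{r-|T|} / s^{|T|}` for `T ⊆ Fin r`.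
* `∑_j H_j Q_j = ∑_S ∑_{j ∈ S} (|S|-1)! H_S λ^{r-|S|} / s^{|S|} = ∑_{S ≠ ∅} c(S)`   (`S = T ∪ {j}`);
* `∑_j u_j λ Q_j = ∑_T (c(T)/s) ∑_{j ∉ T} u_j`;
* `∑_j u_j H_j Q_j⁺ = ∑_S (c(S)/s) ∑_{j ∈ S} u_j`   (`S = T ∪ {j}`);
the last two add up to `∑_T c(T)`, so the whole sum is `- c(∅) = - λ^r`.
-/

open Finset

namespace Claimed.Open.R032

/-- `Q_j = ∑_{T ∌ j} |T|! H_T λ^{r-1-|T|} / s^{|T|+1}`. -/
noncomputable def bmQ {r : ℕ} (H : Fin r → ℂ) (lam s : ℂ) (j : Fin r) : ℂ :=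
  ∑ T ∈ (univ.erase j).powerset,
    (T.card.factorial : ℂ) * (∏ i ∈ T, H i) * lam ^ (r - 1 - T.card) / s ^ (T.card + 1)

/-- `Q_j⁺ = ∑_{T ∌ j} (|T|+1)! H_T λ^{r-1-|T|} / s^{|T|+2}` (`= - ∂Q_j/∂s`). -/
noncomputable def bmQp {r : ℕ} (H : Fin r → ℂ) (lam s : ℂ) (j : Fin r) : ℂ :=
  ∑ T ∈ (univ.erase j).powerset,
    ((T.card + 1).factorial : ℂ) * (∏ i ∈ T, H i) * lam ^ (r - 1 - T.card) / s ^ (T.card + 2)

/-- `c(T) = |T|! H_T λ^{r-|T|} / s^{|T|}`. -/
noncomputable def bmC {r : ℕ} (H : Fin r → ℂ) (lam s : ℂ) (T : Finset (Fin r)) : ℂ :=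
  (T.card.factorial : ℂ) * (∏ i ∈ T, H i) * lam ^ (r - T.card) / s ^ T.card

/-- `e(S) = (|S|-1)! H_S λ^{r-|S|} / s^{|S|}`. -/
noncomputable def bmE {r : ℕ} (H : Fin r → ℂ) (lam s : ℂ) (S : Finset (Fin r)) : ℂ :=
  ((S.card - 1).factorial : ℂ) * (∏ i ∈ S, H i) * lam ^ (r - S.card) / s ^ S.card

theorem bm_card_lt {r : ℕ} {T : Finset (Fin r)} {j : Fin r} (hj : j ∉ T) : T.card < r := by
  have h : T ⊂ univ := (Finset.ssubset_univ_iff).2 fun h => hj (h ▸ mem_univ j)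
  simpa using Finset.card_lt_card h

theorem bm_not_mem {r : ℕ} {T : Finset (Fin r)} {j : Fin r} (hT : T ∈ (univ.erase j).powerset) : j ∉ T :=
  ((Finset.subset_erase).1 (Finset.mem_powerset.1 hT)).2

theorem bm_term1 {r : ℕ} (H : Fin r → ℂ) (lam : ℂ) {s : ℂ} (hs : s ≠ 0) {T : Finset (Fin r)} {j : Fin r} (hj : j ∉ T) :
    lam * ((T.card.factorial : ℂ) * (∏ i ∈ T, H i) * lam ^ (r - 1 - T.card) / s ^ (T.card + 1)) =
      bmC H lam s T / s := by
  have h := bm_card_lt hj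
  have e : r - T.card = (r - 1 - T.card) + 1 := by omega
  unfold bmC
  rw [e, pow_succ, pow_succ]
  field_simp

theorem bm_term2 {r : ℕ} (H : Fin r → ℂ) (lam s : ℂ) {T : Finset (Fin r)} {j : Fin r} (hj : j ∉ T) :
    H j * ((T.card.factorial : ℂ) * (∏ i ∈ T, H i) * lam ^ (r - 1 - T.card) / s ^ (T.card + 1)) =
      bmE H lam s (insert j T) := by
  have e : r - (T.card + 1) = r - 1 - T.card := by omega
  unfold bmE
  rw [Finset.card_insert_of_notMem hj, Finset.prod_insert hj, e, Nat.add_sub_cancel]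
  ring

theorem bm_term3 {r : ℕ} (H : Fin r → ℂ) (lam : ℂ) {s : ℂ} (hs : s ≠ 0) {T : Finset (Fin r)} {j : Fin r} (hj : j ∉ T) :
    H j * (((T.card + 1).factorial : ℂ) * (∏ i ∈ T, H i) * lam ^ (r - 1 - T.card) / s ^ (T.card + 2)) =
      bmC H lam s (insert j T) / s := by
  have e : r - (T.card + 1) = r - 1 - T.card := by omega
  unfold bmC
  rw [Finset.card_insert_of_notMem hj, Finset.prod_insert hj, e, pow_succ s (T.card + 1)]
  field_simp

theorem bm_sum_insert {r : ℕ} (j : Fin r) (g : Finset (Fin r) → ℂ) :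
    ∑ T ∈ (univ.erase j).powerset, g (insert j T) =
      ∑ S ∈ univ.filter (fun S : Finset (Fin r) => j ∈ S), g S := by
  refine Finset.sum_nbij' (fun T => insert j T) (fun S => S.erase j) ?_ ?_ ?_ ?_ ?_
  · intro T _
    simp
  · intro S _
    exact Finset.mem_powerset.2 (Finset.erase_subset_erase j (Finset.subset_univ S))
  · intro T hT
    exact Finset.erase_insert (bm_not_mem hT)
  · intro S hS
    exact Finset.insert_erase (Finset.mem_filter.1 hS).2
  · intro T _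
    rfl

theorem bm_swap_mem {r : ℕ} (f : Fin r → Finset (Fin r) → ℂ) :
    ∑ j, ∑ S ∈ univ.filter (fun S : Finset (Fin r) => j ∈ S), f j S = ∑ S : Finset (Fin r), ∑ j ∈ S, f j S := by
  refine Finset.sum_comm' ?_
  intro j S
  simp

theorem bm_swap_not_mem {r : ℕ} (f : Fin r → Finset (Fin r) → ℂ) :
    ∑ j, ∑ T ∈ (univ.erase j).powerset, f j T = ∑ T : Finset (Fin r), ∑ j ∈ Tᶜ, f j T := by
  refine Finset.sum_comm' ?_
  intro j T
  simp [Finset.subset_erase]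

theorem bm_card_mul_E {r : ℕ} (H : Fin r → ℂ) (lam s : ℂ) (S : Finset (Fin r)) :
    (S.card : ℂ) * bmE H lam s S = bmC H lam s S - if S = ∅ then lam ^ r else 0 := by
  by_cases hS : S = ∅
  · subst hS
    simp [bmC]
  · rw [if_neg hS, sub_zero]
    have hc : 0 < S.card := Finset.card_pos.2 (Finset.nonempty_iff_ne_empty.2 hS)
    have hf : ((S.card.factorial : ℕ) : ℂ) = (S.card : ℂ) * ((S.card - 1).factorial : ℂ) := by
      rw [← Nat.cast_mul, Nat.mul_factorial_pred hc.ne']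
    unfold bmC bmE
    rw [hf]
    ring

/-- first sum. -/
theorem bm_sumA {r : ℕ} (H : Fin r → ℂ) (lam s : ℂ) :
    ∑ j, H j * bmQ H lam s j = (∑ S : Finset (Fin r), bmC H lam s S) - lam ^ r := by
  have h1 : ∀ j, H j * bmQ H lam s j = ∑ S ∈ univ.filter (fun S : Finset (Fin r) => j ∈ S), bmE H lam s S := by
    intro j
    rw [← bm_sum_insert j (bmE H lam s), bmQ, Finset.mul_sum]
    exact Finset.sum_congr rfl fun T hT => bm_term2 H lam s (bm_not_mem hT)
  simp only [h1]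
  rw [bm_swap_mem fun _ S => bmE H lam s S]
  simp only [Finset.sum_const, nsmul_eq_mul, bm_card_mul_E, Finset.sum_sub_distrib]
  simp

/-- second sum. -/
theorem bm_sumB {r : ℕ} (u H : Fin r → ℂ) (lam : ℂ) {s : ℂ} (hs : s ≠ 0) :
    ∑ j, lam * u j * bmQ H lam s j = ∑ T : Finset (Fin r), bmC H lam s T / s * ∑ j ∈ Tᶜ, u j := by
  have h1 : ∀ j, lam * u j * bmQ H lam s j = ∑ T ∈ (univ.erase j).powerset, bmC H lam s T / s * u j := by
    intro j
    rw [bmQ, Finset.mul_sum]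
    refine Finset.sum_congr rfl fun T hT => ?_
    rw [← bm_term1 H lam hs (bm_not_mem hT)]
    ring
  simp only [h1]
  rw [bm_swap_not_mem fun j T => bmC H lam s T / s * u j]
  simp only [Finset.mul_sum]

/-- third sum. -/
theorem bm_sumC {r : ℕ} (u H : Fin r → ℂ) (lam : ℂ) {s : ℂ} (hs : s ≠ 0) :
    ∑ j, u j * H j * bmQp H lam s j = ∑ S : Finset (Fin r), bmC H lam s S / s * ∑ j ∈ S, u j := by
  have h1 : ∀ j, u j * H j * bmQp H lam s j =
      ∑ S ∈ univ.filter (fun S : Finset (Fin r) => j ∈ S), bmC H lam s S / s * u j := by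
    intro j
    rw [← bm_sum_insert j (fun S => bmC H lam s S / s * u j), bmQp, Finset.mul_sum]
    refine Finset.sum_congr rfl fun T hT => ?_
    rw [← bm_term3 H lam hs (bm_not_mem hT)]
    ring
  simp only [h1]
  rw [bm_swap_mem fun j S => bmC H lam s S / s * u j]
  simp only [Finset.mul_sum]

theorem bm_identity {r : ℕ} (u H : Fin r → ℂ) (lam : ℂ) (hs : ∑ i, u i ≠ 0) :
    ∑ j, ((H j - lam * u j) * bmQ H lam (∑ i, u i) j - u j * H j * bmQp H lam (∑ i, u i) j) =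
      -lam ^ r := by
  set s := ∑ i, u i with hsdef
  have h0 : ∀ j, (H j - lam * u j) * bmQ H lam s j - u j * H j * bmQp H lam s j =
      H j * bmQ H lam s j - lam * u j * bmQ H lam s j - u j * H j * bmQp H lam s j := fun j => by ring
  simp only [h0, Finset.sum_sub_distrib]
  rw [bm_sumA, bm_sumB u H lam hs, bm_sumC u H lam hs]
  have h1 : (∑ T : Finset (Fin r), bmC H lam s T / s * ∑ j ∈ Tᶜ, u j) +
      ∑ S : Finset (Fin r), bmC H lam s S / s * ∑ j ∈ S, u j = ∑ T : Finset (Fin r), bmC H lam s T := by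
    rw [← Finset.sum_add_distrib]
    refine Finset.sum_congr rfl fun T _ => ?_
    rw [← mul_add, add_comm, Finset.sum_add_sum_compl, ← hsdef]
    field_simp
  linear_combination -h1

end Claimed.Open.R032
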