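import Claimed.Open.R032.SanityConiveauOne

/-!
# Polarisation in `r` pairs of slots
-/

open MeasureTheory Module Set Complex

namespace Claimed.Open.R032

variable {V : Type*} [NormedAddCommGroup V] [InnerProductSpace ℂ V]

/-- The forms `ℓ₀ ∧ ⋯ ∧ ℓ_{n-1}` with `ℓ_{j a} = μ_a` and `ℓ_{i a} = μ̄_a`, `a < r`, in `2 r` different slots, for
some `μ_a` in the finite family `polFam`. -/
def goodFormsR {d : ℕ} (w : Basis (Fin d) ℂ V) (ρ : ℂ) (r n : ℕ) : Set (Form V n) :=
  {φ | ∃ (x : Fin r → (Fin d × Fin d) × Fin 4) (ℓ : Fin n → V →ₗ[ℝ] ℂ) (i j : Fin r → Fin n),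
    Function.Injective i ∧ Function.Injective j ∧ (∀ a c, i a ≠ j c) ∧
    (∀ a, ℓ (i a) = conjForm (polFam w ρ (x a))) ∧ (∀ a, ℓ (j a) = polFam w ρ (x a)) ∧
    φ = wedgeOfForms ℓ}

/-- `H^{p,q}`, `p, q ≥ r`, is spanned by the forms in `goodFormsR`. -/
theorem hodgePiece_le_span_goodFormsR {d : ℕ} (w : Basis (Fin d) ℂ V) (ρ : ℂ) (hρ : ρ.im ≠ 0)
    {n p r : ℕ} (hrp : r ≤ p) (hpn : p + r ≤ n) :
    hodgePiece V p n ≤ Submodule.span ℂ (goodFormsR w ρ r n) := by
  -- the slots
  obtain ⟨j, hjv⟩ : ∃ j : Fin r → Fin n, ∀ a, ((j a : Fin n) : ℕ) = a :=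
    ⟨fun a => ⟨a, by have := a.2; omega⟩, fun a => rfl⟩
  obtain ⟨i, hiv⟩ : ∃ i : Fin r → Fin n, ∀ a, ((i a : Fin n) : ℕ) = p + a :=
    ⟨fun a => ⟨p + a, by have := a.2; omega⟩, fun a => rfl⟩
  have hj : Function.Injective j := by
    intro a c h
    have h' := congrArg Fin.val h
    rw [hjv, hjv] at h'
    exact Fin.ext h'
  have hi : Function.Injective i := by
    intro a c h
    have h' := congrArg Fin.val h
    rw [hiv, hiv] at h'
    exact Fin.ext (by omega)
  have hij : ∀ a c, i a ≠ j c := by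
    intro a c h
    have h' := congrArg Fin.val h
    rw [hiv, hjv] at h'
    have := c.2
    omega
  -- downward induction on the number `s` of pairs of slots that are already polarised
  have key : ∀ t s : ℕ, s + t = r → ∀ (x : Fin r → (Fin d × Fin d) × Fin 4)
      (ℓ : Fin n → V →ₗ[ℝ] ℂ),
      (∀ a : Fin r, (a : ℕ) < s →
        ℓ (i a) = conjForm (polFam w ρ (x a)) ∧ ℓ (j a) = polFam w ρ (x a)) →
      (∀ a : Fin r, s ≤ (a : ℕ) →
        (∀ v, ℓ (j a) (I • v) = I * ℓ (j a) v) ∧ (∀ v, ℓ (i a) (I • v) = -I * ℓ (i a) v)) →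
      wedgeOfForms ℓ ∈ Submodule.span ℂ (goodFormsR w ρ r n) := by
    intro t
    induction t with
    | zero =>
      intro s hs x ℓ h1 _
      exact Submodule.subset_span ⟨x, ℓ, i, j, hi, hj, hij,
        fun a => (h1 a (by have := a.2; omega)).1, fun a => (h1 a (by have := a.2; omega)).2, rfl⟩
    | succ t ih =>
      intro s hs x ℓ h1 h2
      have hsr : s < r := by omega
      obtain ⟨a₀, ha₀⟩ : ∃ a₀ : Fin r, (a₀ : ℕ) = s := ⟨⟨s, hsr⟩, rfl⟩
      have hne : i a₀ ≠ j a₀ := hij a₀ a₀
      have hlin := eq_sum_coord_of_linear w (h2 a₀ ha₀.ge).1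
      have hanti := eq_sum_conj_coord_of_antilinear w (h2 a₀ ha₀.ge).2
      have hgood : ∀ y, wedgeTwo ℓ hne (polFam w ρ y) (conjForm (polFam w ρ y)) ∈
          Submodule.span ℂ (goodFormsR w ρ r n) := by
        intro y
        rw [wedgeTwo_apply]
        refine ih (s + 1) (by omega) (Function.update x a₀ y) _ ?_ ?_
        · intro a ha
          by_cases ha : a = a₀
          · rw [ha, Function.update_self, Function.update_self,
              Function.update_of_ne hne.symm, Function.update_self]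
            exact ⟨rfl, rfl⟩
          · have hlt : (a : ℕ) < s := by
              have : (a : ℕ) ≠ s := fun h => ha (Fin.ext (h.trans ha₀.symm))
              omega
            rw [Function.update_of_ne (hi.ne ha), Function.update_of_ne (hij a a₀),
              Function.update_of_ne (hij a₀ a).symm, Function.update_of_ne (hj.ne ha),
              Function.update_of_ne ha]
            exact h1 a hlt
        · intro a ha
          have hane : a ≠ a₀ := by
            intro h
            rw [h, ha₀] at ha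
            omega
          rw [Function.update_of_ne (hi.ne hane), Function.update_of_ne (hij a a₀),
            Function.update_of_ne (hij a₀ a).symm, Function.update_of_ne (hj.ne hane)]
          exact h2 a (by omega)
      have hpair : ∀ a c : Fin d, wedgeTwo ℓ hne ((w.coord a).restrictScalars ℝ)
          (conjForm ((w.coord c).restrictScalars ℝ)) ∈
          Submodule.span ℂ (goodFormsR w ρ r n) := by
        intro a c
        rw [wedgeTwo_polarise ρ hρ]
        have g0 := hgood ((a, c), 0)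
        have g1 := hgood ((a, c), 1)
        have g2 := hgood ((a, c), 2)
        have g3 := hgood ((a, c), 3)
        simp only [polFam] at g0 g1 g2 g3
        refine Submodule.smul_mem _ _ (Submodule.sub_mem _ (Submodule.smul_mem _ _ ?_) ?_)
        · exact Submodule.sub_mem _ (Submodule.sub_mem _ g2 g0) g1
        · exact Submodule.sub_mem _ (Submodule.sub_mem _ g3 g0) (Submodule.smul_mem _ _ g1)
      rw [← wedgeTwo_self ℓ hne, hlin, hanti]
      simp only [map_sum, map_smul, LinearMap.sum_apply, LinearMap.smul_apply]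
      exact Submodule.sum_mem _ fun c _ => Submodule.smul_mem _ _
        (Submodule.sum_mem _ fun a _ => Submodule.smul_mem _ _ (hpair a c))
  rw [hodgePiece, Submodule.span_le]
  rintro _ ⟨ℓ, h1, h2, rfl⟩
  have hlast : ∀ a : Fin r, 0 ≤ (a : ℕ) →
      (∀ v, ℓ (j a) (I • v) = I * ℓ (j a) v) ∧ (∀ v, ℓ (i a) (I • v) = -I * ℓ (i a) v) :=
    fun a _ => ⟨h1 (j a) (by rw [hjv]; have := a.2; omega), h2 (i a) (by rw [hiv]; omega)⟩
  rcases Nat.eq_zero_or_pos d with hd | hd
  · rcases Nat.eq_zero_or_pos r with hr | hr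
    · exact key r 0 (by omega) (fun a => absurd a.2 (by omega)) ℓ
        (fun a ha => absurd ha (by omega)) hlast
    · -- `V = 0`
      subst hd
      have hlin := eq_sum_coord_of_linear w (hlast ⟨0, hr⟩ le_rfl).1
      change wedgeOfForms ℓ ∈ _
      rw [← wedgeTwo_self ℓ (hij ⟨0, hr⟩ ⟨0, hr⟩), hlin]
      simp
  · exact key r 0 (by omega) (fun _ => ((⟨0, hd⟩, ⟨0, hd⟩), 0)) ℓ
      (fun a ha => absurd ha (by omega)) hlast

end Claimed.Open.R032
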