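import Claimed.Open.R032.SanityBMOne
import Claimed.Open.R032.SanityBMId
import Claimed.Open.R032.SanityBMAlg
import Claimed.Open.R032.SanityBMPol

/-!
# `GeneralizedHodgeCM` for all abelian varieties isogenous to a power of a CM elliptic curve

Let `A = V / Λ` be a complex torus whose period matrix, in some `ℂ`-basis of `V`, has entries in an imaginary
quadratic field `K` (these are the abelian varieties isogenous to a power of a CM elliptic curve; they are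
polarisable and of CM type, `PowerCM.lean`).

* `generalizedHodge_of_quadratic_periods` : **the conclusion of `GeneralizedHodgeCM` holds for `A`, for all `k`, `r`
  and `W`.**
* `exists_codim_hodgePiece_quad` : for every `r` there is ONE closed algebraic subset `Z` of codimension `≥ r` such
  that `H^{p,q}(A)` restricts to zero on `A ∖ Z` for all `p, q ≥ r`.

Proof.  `H^{p,q}`, `p, q ≥ r`, is spanned by forms `φ = ℓ₀ ∧ ⋯ ∧ ℓ_n` in which `2 r` of the factors are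
`μ_a, μ̄_a`, `a < r`, where the `μ_a` belong to a finite family of `ℂ`-linear forms with values in `K` on `Λ`
(`SanityBMPol.lean`).  If the `μ_a` are linearly dependent then `φ = 0`; otherwise
`f = (N_a)_a = (M μ_a)_a : A → (ℂ / (ℤ + ℤ τ))^r` is a surjective homomorphism and
`Z = f⁻¹ ((zeros of θ_τ)^r)` is a closed algebraic subset of codimension `r` (`SanityBMAlg.lean`).
With the functions `u = |θ_τ|² h`, `G = ∂u`, `H = |G|² / u` of `SanityBMOne.lean`, `λ = π / Im τ`,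
`u_a = u ∘ N_a`, ..., `s = ∑_a u_a` (which vanishes exactly on `Z`), put

  `A_a = G_a ∑_{T ∌ a} |T|! (∏_{i ∈ T} H_i) λ^{r-1-|T|} / s^{|T|+1}`,
  `η = ∑_a ± A_a · (ℓ₀ ∧ ⋯ ∧ ℓ_n without the factor μ̄_a)`,

a smooth `Λ`-periodic form on `V ∖ Z` (for `r = 1`: `A = G / u = ∂ log u`, the form of `SanityConiveauOne.lean`; in
general a form of Bochner--Martinelli type).  In `dη` only the coefficient of `μ̄_a` in `dA_a` survives
(`HasDMod`: differentials modulo the span of the other factors), it is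
`M ((H_a - λ u_a) Q_a - u_a H_a Q_a⁺)` (`bmA_hasDMod`), and the sum over `a` of these coefficients is the constant
`- M λ^r ≠ 0` (`bm_identity`, `SanityBMId.lean`).  Hence `dη = c φ`, `c ≠ 0`: `restrictsToZero_wedgeOfForms_bm`.
-/

open MeasureTheory Module Set Complex
open scoped ContDiff Real

namespace Claimed.Open.R032

variable {V : Type*} [NormedAddCommGroup V] [InnerProductSpace ℂ V]

/-! ### Differentials modulo a subspace of forms -/

/-- `f` is differentiable at `x`, and `df ≡ y ν` modulo the complex subspace `K` of the `ℝ`-linear forms. -/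
def HasDMod (K : Submodule ℂ (V →ₗ[ℝ] ℂ)) (ν : V →ₗ[ℝ] ℂ) (f : V → ℂ) (y : ℂ) (x : V) : Prop :=
  ∃ D : V →L[ℝ] ℂ, HasFDerivAt f D x ∧ ((D : V →ₗ[ℝ] ℂ) - y • ν) ∈ K

namespace HasDMod

variable {K : Submodule ℂ (V →ₗ[ℝ] ℂ)} {ν : V →ₗ[ℝ] ℂ} {f g : V → ℂ} {y y' : ℂ} {x : V}

theorem const (c : ℂ) : HasDMod K ν (fun _ => c) 0 x :=
  ⟨0, hasFDerivAt_const c x, by simp⟩

theorem congr_val (h : HasDMod K ν f y x) (hy : y = y') : HasDMod K ν f y' x := hy ▸ h

theorem add (hf : HasDMod K ν f y x) (hg : HasDMod K ν g y' x) :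
    HasDMod K ν (fun z => f z + g z) (y + y') x := by
  obtain ⟨D, hD, hK⟩ := hf
  obtain ⟨D', hD', hK'⟩ := hg
  refine ⟨D + D', hD.add hD', ?_⟩
  have : (((D + D' : V →L[ℝ] ℂ) : V →ₗ[ℝ] ℂ) - (y + y') • ν) =
      ((D : V →ₗ[ℝ] ℂ) - y • ν) + ((D' : V →ₗ[ℝ] ℂ) - y' • ν) := by
    ext v; simp [add_mul]; ring
  rw [this]
  exact K.add_mem hK hK'

theorem mul (hf : HasDMod K ν f y x) (hg : HasDMod K ν g y' x) :
    HasDMod K ν (fun z => f z * g z) (f x * y' + g x * y) x := by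
  obtain ⟨D, hD, hK⟩ := hf
  obtain ⟨D', hD', hK'⟩ := hg
  refine ⟨f x • D' + g x • D, hD.mul hD', ?_⟩
  have : (((f x • D' + g x • D : V →L[ℝ] ℂ) : V →ₗ[ℝ] ℂ) - (f x * y' + g x * y) • ν) =
      f x • ((D' : V →ₗ[ℝ] ℂ) - y' • ν) + g x • ((D : V →ₗ[ℝ] ℂ) - y • ν) := by
    ext v; simp; ring
  rw [this]
  exact K.add_mem (K.smul_mem _ hK') (K.smul_mem _ hK)

theorem const_mul (c : ℂ) (hf : HasDMod K ν f y x) : HasDMod K ν (fun z => c * f z) (c * y) x :=
  ((const c).mul hf).congr_val (by simp)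

theorem mul_const (c : ℂ) (hf : HasDMod K ν f y x) : HasDMod K ν (fun z => f z * c) (c * y) x :=
  (hf.mul (const c)).congr_val (by simp)

theorem comp_deriv {φ : ℂ → ℂ} {φ' : ℂ} (hφ : HasDerivAt φ φ' (f x)) (hf : HasDMod K ν f y x) :
    HasDMod K ν (fun z => φ (f z)) (φ' * y) x := by
  obtain ⟨D, hD, hK⟩ := hf
  refine ⟨φ' • D, hφ.comp_hasFDerivAt x hD, ?_⟩
  have : (((φ' • D : V →L[ℝ] ℂ) : V →ₗ[ℝ] ℂ) - (φ' * y) • ν) = φ' • ((D : V →ₗ[ℝ] ℂ) - y • ν) := by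
    ext v; simp; ring
  rw [this]
  exact K.smul_mem _ hK

theorem sum {α : Type*} (S : Finset α) {F : α → V → ℂ} {Y : α → ℂ}
    (h : ∀ a ∈ S, HasDMod K ν (F a) (Y a) x) :
    HasDMod K ν (fun z => ∑ a ∈ S, F a z) (∑ a ∈ S, Y a) x := by
  classical
  induction S using Finset.induction_on with
  | empty => simpa using const (K := K) (ν := ν) (x := x) 0
  | insert a S ha ih =>
    simp only [Finset.sum_insert ha]
    exact (h a (Finset.mem_insert_self a S)).add (ih fun c hc => h c (Finset.mem_insert_of_mem hc))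

theorem prod_zero {α : Type*} (S : Finset α) {F : α → V → ℂ}
    (h : ∀ a ∈ S, HasDMod K ν (F a) 0 x) : HasDMod K ν (fun z => ∏ a ∈ S, F a z) 0 x := by
  classical
  induction S using Finset.induction_on with
  | empty => simpa using const (K := K) (ν := ν) (x := x) 1
  | insert a S ha ih =>
    simp only [Finset.prod_insert ha]
    exact ((h a (Finset.mem_insert_self a S)).mul
      (ih fun c hc => h c (Finset.mem_insert_of_mem hc))).congr_val (by simp)

end HasDMod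

/-- Every `ℝ`-linear map `ℂ → ℂ` is `v ↦ α v + β v̄`. -/
theorem exists_wirtinger (D : ℂ →L[ℝ] ℂ) :
    ∃ α β : ℂ, ∀ v, D v = α * v + β * (starRingEnd ℂ) v := by
  refine ⟨(D 1 - I * D I) / 2, (D 1 + I * D I) / 2, fun v => ?_⟩
  have hv : v = v.re • (1 : ℂ) + v.im • I := by
    apply Complex.ext <;> simp
  have h1 : D v = (v.re : ℂ) * D 1 + (v.im : ℂ) * D I := by
    conv_lhs => rw [hv, map_add, map_smul, map_smul]
    simp
  have h2 : (starRingEnd ℂ) v = (v.re : ℂ) - (v.im : ℂ) * I := by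
    apply Complex.ext <;> simp
  have h3 : v = (v.re : ℂ) + (v.im : ℂ) * I := (Complex.re_add_im v).symm
  rw [h1, h2]
  conv_rhs => rw [h3]
  simp only [ofReal_re, ofReal_im, add_re, mul_re, I_re, I_im, add_im, mul_im]
  have hI : I * I = -1 := Complex.I_mul_I
  ring_nf
  rw [Complex.I_sq]
  ring

/-! ### The setting: homomorphisms `N_a = M μ_a : A → ℂ / (ℤ + ℤ τ)`, `a < r` -/

/-- The subspace spanned by the `μ_a` (all `a`) and the `μ̄_a`, `a ≠ a₀`. -/
noncomputable def bmK {r : ℕ} (μ : Fin r → V →ₗ[ℝ] ℂ) (a₀ : Fin r) : Submodule ℂ (V →ₗ[ℝ] ℂ) :=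
  Submodule.span ℂ (Set.range μ ∪ {κ | ∃ a, a ≠ a₀ ∧ κ = conjForm (μ a)})

theorem hasDMod_comp {r : ℕ} {μ : Fin r → V →ₗ[ℝ] ℂ} {N : Fin r → V →L[ℂ] ℂ} {M : ℕ}
    (hNμ : ∀ a v, N a v = (M : ℂ) * μ a v) (a₀ a : Fin r) {Φ : ℂ → ℂ} {x : V} {D : ℂ →L[ℝ] ℂ}
    {α β : ℂ} (hD : HasFDerivAt Φ D (N a x)) (hDv : ∀ v, D v = α * v + β * (starRingEnd ℂ) v) :
    HasDMod (bmK μ a₀) (conjForm (μ a₀)) (fun z => Φ (N a z)) (if a = a₀ then (M : ℂ) * β else 0)
      x := by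
  let NR : V →L[ℝ] ℂ := (N a).restrictScalars ℝ
  have hlin : ((D.comp NR : V →L[ℝ] ℂ) : V →ₗ[ℝ] ℂ) =
      (α * M) • μ a + (β * M) • conjForm (μ a) := by
    ext v
    simp only [ContinuousLinearMap.coe_coe, ContinuousLinearMap.comp_apply, LinearMap.add_apply,
      LinearMap.smul_apply, conjForm_apply, smul_eq_mul, hDv]
    change α * N a v + β * (starRingEnd ℂ) (N a v) = _
    rw [hNμ, map_mul, Complex.conj_natCast]
    ring
  have hμ : μ a ∈ bmK μ a₀ := Submodule.subset_span (Or.inl ⟨a, rfl⟩)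
  refine ⟨D.comp NR, hD.comp x NR.hasFDerivAt, ?_⟩
  rw [hlin]
  split_ifs with h
  · subst h
    have : (α * M) • μ a + (β * M) • conjForm (μ a) - ((M : ℂ) * β) • conjForm (μ a) =
        (α * M) • μ a := by
      rw [mul_comm (M : ℂ) β]; abel
    rw [this]
    exact Submodule.smul_mem _ _ hμ
  · rw [zero_smul, sub_zero]
    exact Submodule.add_mem _ (Submodule.smul_mem _ _ hμ)
      (Submodule.smul_mem _ _ (Submodule.subset_span (Or.inr ⟨a, h, rfl⟩)))

/-- `s = ∑_a u (N_a x)`. -/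
noncomputable def bmS (τ : ℂ) {r : ℕ} (N : Fin r → V →L[ℂ] ℂ) (x : V) : ℂ := ∑ a, bmu τ (N a x)

/-- `A_a = G (N_a x) Q_a`. -/
noncomputable def bmA (τ : ℂ) {r : ℕ} (N : Fin r → V →L[ℂ] ℂ) (a : Fin r) (x : V) : ℂ :=
  bmG τ (N a x) * bmQ (fun i => bmH τ (N i x)) (π / (τ.im : ℂ)) (bmS τ N x) a

theorem bmA_hasDMod {τ : ℂ} (hτ0 : 0 < τ.im) {r : ℕ} {μ : Fin r → V →ₗ[ℝ] ℂ}
    {N : Fin r → V →L[ℂ] ℂ} {M : ℕ} (hNμ : ∀ a v, N a v = (M : ℂ) * μ a v) {x : V}
    (hx : bmS τ N x ≠ 0) (a : Fin r) :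
    HasDMod (bmK μ a) (conjForm (μ a)) (bmA τ N a)
      ((M : ℂ) * ((bmH τ (N a x) - π / (τ.im : ℂ) * bmu τ (N a x)) *
          bmQ (fun i => bmH τ (N i x)) (π / (τ.im : ℂ)) (bmS τ N x) a -
        bmu τ (N a x) * bmH τ (N a x) *
          bmQp (fun i => bmH τ (N i x)) (π / (τ.im : ℂ)) (bmS τ N x) a)) x := by
  classical
  set lam : ℂ := π / (τ.im : ℂ) with hlam
  -- `G`
  obtain ⟨αG, DG, hDG, hDGv⟩ := bmG_hasFDerivAt hτ0 (N a x)
  have hG := (hasDMod_comp hNμ a a hDG hDGv).congr_val (if_pos rfl)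
  -- `s`
  have hS : HasDMod (bmK μ a) (conjForm (μ a)) (bmS τ N)
      ((M : ℂ) * (starRingEnd ℂ) (bmG τ (N a x))) x := by
    have h1 : ∀ c ∈ (Finset.univ : Finset (Fin r)), HasDMod (bmK μ a) (conjForm (μ a))
        (fun z => bmu τ (N c z))
        (if c = a then (M : ℂ) * (starRingEnd ℂ) (bmG τ (N c x)) else 0) x := by
      intro c _
      obtain ⟨D, hD, hDv⟩ := bmu_hasFDerivAt hτ0 (N c x)
      exact hasDMod_comp hNμ a c hD hDv
    exact (HasDMod.sum Finset.univ h1).congr_val (by simp)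
  -- `H_i`, `i ≠ a`
  have hH : ∀ i, i ≠ a → HasDMod (bmK μ a) (conjForm (μ a)) (fun z => bmH τ (N i z)) 0 x := by
    intro i hi
    have hd := ((bmH_contDiff hτ0).differentiable (by simp) (N i x)).hasFDerivAt
    obtain ⟨α, β, hαβ⟩ := exists_wirtinger (fderiv ℝ (bmH τ) (N i x))
    exact (hasDMod_comp hNμ a i hd hαβ).congr_val (if_neg hi)
  -- `Q`
  have hQ : HasDMod (bmK μ a) (conjForm (μ a))
      (fun z => bmQ (fun i => bmH τ (N i z)) lam (bmS τ N z) a)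
      (-bmQp (fun i => bmH τ (N i x)) lam (bmS τ N x) a *
        ((M : ℂ) * (starRingEnd ℂ) (bmG τ (N a x)))) x := by
    unfold bmQ bmQp
    have hterm : ∀ T ∈ (Finset.univ.erase a).powerset, HasDMod (bmK μ a) (conjForm (μ a))
        (fun z => (T.card.factorial : ℂ) * (∏ i ∈ T, bmH τ (N i z)) * lam ^ (r - 1 - T.card) /
          bmS τ N z ^ (T.card + 1))
        (-(((T.card + 1).factorial : ℂ) * (∏ i ∈ T, bmH τ (N i x)) * lam ^ (r - 1 - T.card) /
          bmS τ N x ^ (T.card + 2)) * ((M : ℂ) * (starRingEnd ℂ) (bmG τ (N a x)))) x := by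
      intro T hT
      have hTa : ∀ i ∈ T, i ≠ a := fun i hi =>
        Finset.ne_of_mem_erase (Finset.mem_powerset.1 hT hi)
      have hc := (((HasDMod.prod_zero T fun i hi => hH i (hTa i hi)).const_mul
        (T.card.factorial : ℂ)).mul_const (lam ^ (r - 1 - T.card)))
      have hφ : HasDerivAt (fun s : ℂ => (s ^ (T.card + 1))⁻¹)
          (-(((T.card + 1 : ℕ) : ℂ) * bmS τ N x ^ T.card) / (bmS τ N x ^ (T.card + 1)) ^ 2)
          (bmS τ N x) := by
        have := (hasDerivAt_pow (T.card + 1) (bmS τ N x)).fun_inv (pow_ne_zero _ hx)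
        simpa using this
      have hm := hc.mul (hS.comp_deriv hφ)
      simp only [div_eq_mul_inv]
      refine hm.congr_val ?_
      rw [Nat.factorial_succ]
      push_cast
      field_simp
      ring
    refine (HasDMod.sum _ hterm).congr_val ?_
    rw [← Finset.sum_mul, Finset.sum_neg_distrib]
  refine (hG.mul hQ).congr_val ?_
  have hGG := bmG_mul_conj (τ := τ) (N a x)
  linear_combination (-(M : ℂ) * bmQp (fun i => bmH τ (N i x)) lam (bmS τ N x) a) * hGG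

/-! ### The common zeros; smoothness and periodicity of the `A_a` -/

/-- `u ≥ 0`. -/
theorem bmu_eq_ofReal (τ z : ℂ) : ∃ t : ℝ, 0 ≤ t ∧ bmu τ z = (t : ℂ) := by
  refine ⟨Real.exp (-(2 * π / τ.im) * z.im ^ 2) * Complex.normSq (tauTheta τ z),
    mul_nonneg (Real.exp_pos _).le (Complex.normSq_nonneg _), ?_⟩
  unfold bmu bmh
  rw [mul_assoc, Complex.mul_conj]
  push_cast
  rfl

/-- `s` vanishes exactly at the common zeros of the `θ_τ ∘ N_a`. -/
theorem bmS_ne_zero_iff (τ : ℂ) {r : ℕ} (N : Fin r → V →L[ℂ] ℂ) (x : V) :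
    bmS τ N x ≠ 0 ↔ x ∈ {y | ∀ a, N a y ∈ tauZeros τ}ᶜ := by
  choose t ht0 ht using fun a => bmu_eq_ofReal τ (N a x)
  have h1 : bmS τ N x = ((∑ a, t a : ℝ) : ℂ) := by
    unfold bmS
    push_cast
    exact Finset.sum_congr rfl fun a _ => ht a
  rw [h1, Ne, Complex.ofReal_eq_zero, Finset.sum_eq_zero_iff_of_nonneg fun a _ => ht0 a]
  simp only [Finset.mem_univ, true_implies, Set.mem_compl_iff, Set.mem_ofPred_eq]
  refine not_congr (forall_congr' fun a => ?_)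
  rw [← bmu_eq_zero_iff, ht a, Complex.ofReal_eq_zero]

theorem bmS_contDiff {τ : ℂ} (hτ0 : 0 < τ.im) {r : ℕ} (N : Fin r → V →L[ℂ] ℂ) :
    ContDiff ℝ ∞ (bmS τ N) :=
  ContDiff.sum fun a _ => (bmu_contDiff hτ0).comp ((N a).restrictScalars ℝ).contDiff

theorem bmA_contDiffOn {τ : ℂ} (hτ0 : 0 < τ.im) {r : ℕ} (N : Fin r → V →L[ℂ] ℂ) (a : Fin r) :
    ContDiffOn ℝ ∞ (bmA τ N a) {y | ∀ a, N a y ∈ tauZeros τ}ᶜ := by
  unfold bmA bmQ
  refine ContDiffOn.mul
    ((bmG_contDiff hτ0).comp ((N a).restrictScalars ℝ).contDiff).contDiffOn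
    (ContDiffOn.sum fun T _ => ?_)
  simp only [div_eq_mul_inv]
  refine ContDiffOn.mul (ContDiff.contDiffOn ?_) (ContDiffOn.inv ?_ ?_)
  · exact (contDiff_const.mul (contDiff_prod fun i _ =>
      (bmH_contDiff hτ0).comp ((N i).restrictScalars ℝ).contDiff)).mul contDiff_const
  · exact ((bmS_contDiff hτ0 N).pow _).contDiffOn
  · exact fun x hx => pow_ne_zero _ ((bmS_ne_zero_iff τ N x).2 hx)

theorem bmA_periodic {τ : ℂ} (hτ0 : 0 < τ.im) {Λ : Submodule ℤ V} {r : ℕ}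
    {N : Fin r → V →L[ℂ] ℂ} (hN : ∀ a, ∀ l ∈ Λ, N a l ∈ lattice (tauBasis τ hτ0.ne')) {l : V}
    (hl : l ∈ Λ) (a : Fin r) (x : V) : bmA τ N a (l + x) = bmA τ N a x := by
  unfold bmA bmS
  simp only [map_add, bmu_periodic hτ0 (hN _ l hl), bmG_periodic hτ0 (hN _ l hl),
    bmH_periodic hτ0 (hN _ l hl)]

/-! ### The wedge products -/

/-- Replacing the factor `μ̄_{a₀}` of `ℓ₀ ∧ ⋯ ∧ ℓ_{n-1}` by an element of `bmK μ a₀` gives zero. -/
theorem wedgeOfForms_update_eq_zero_of_mem_bmK {r n : ℕ} {μ : Fin r → V →ₗ[ℝ] ℂ}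
    (ℓ : Fin n → V →ₗ[ℝ] ℂ) (i j : Fin r → Fin n) (hi : Function.Injective i)
    (hij : ∀ a c, i a ≠ j c) (hℓi : ∀ a, ℓ (i a) = conjForm (μ a)) (hℓj : ∀ a, ℓ (j a) = μ a)
    (a₀ : Fin r) {κ : V →ₗ[ℝ] ℂ} (hκ : κ ∈ bmK μ a₀) :
    wedgeOfForms (Function.update ℓ (i a₀) κ) = 0 := by
  let L : (V →ₗ[ℝ] ℂ) →ₗ[ℂ] Form V n := (wedgeOfFormsML V n).toLinearMap ℓ (i a₀)
  have hL : ∀ κ, L κ = wedgeOfForms (Function.update ℓ (i a₀) κ) := fun κ => rfl
  have hle : bmK μ a₀ ≤ LinearMap.ker L := by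
    refine Submodule.span_le.2 ?_
    rintro κ (⟨a, rfl⟩ | ⟨a, ha, rfl⟩)
    · refine wedgeOfForms_eq_zero_of_eq _ (hij a₀ a) ?_
      rw [Function.update_self, Function.update_of_ne (hij a₀ a).symm, hℓj]
    · have hne : i a₀ ≠ i a := fun h => ha (hi h).symm
      refine wedgeOfForms_eq_zero_of_eq _ hne ?_
      rw [Function.update_self, Function.update_of_ne hne.symm, hℓi]
  exact hle hκ

theorem extDeriv_finset_sum {n : ℕ} {α : Type*} (S : Finset α)
    (Ω : α → V → V [⋀^Fin n]→L[ℝ] ℂ) {x : V} (h : ∀ a ∈ S, DifferentiableAt ℝ (Ω a) x) :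
    extDeriv (fun z => ∑ a ∈ S, Ω a z) x = ∑ a ∈ S, extDeriv (Ω a) x := by
  classical
  induction S using Finset.induction_on with
  | empty =>
    ext v
    simp [extDeriv, ContinuousAlternatingMap.alternatizeUncurryFin_apply]
  | insert a S ha ih =>
    simp only [Finset.sum_insert ha]
    rw [extDeriv_fun_add (h a (Finset.mem_insert_self a S))
      (DifferentiableAt.fun_sum fun c hc => h c (Finset.mem_insert_of_mem hc)),
      ih fun c hc => h c (Finset.mem_insert_of_mem hc)]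

section main

variable [FiniteDimensional ℂ V]

theorem extDeriv_smulWedge_of_hasDMod {r n : ℕ} {μ : Fin r → V →ₗ[ℝ] ℂ}
    (ℓ : Fin (n + 1) → V →ₗ[ℝ] ℂ) (i j : Fin r → Fin (n + 1)) (hi : Function.Injective i)
    (hij : ∀ a c, i a ≠ j c) (hℓi : ∀ a, ℓ (i a) = conjForm (μ a)) (hℓj : ∀ a, ℓ (j a) = μ a)
    (a₀ : Fin r) {f : V → ℂ} {y : ℂ} {x : V}
    (hf : HasDMod (bmK μ a₀) (conjForm (μ a₀)) f y x) :
    DifferentiableAt ℝ (fun z => smulWedge (ℓ ∘ (i a₀).succAbove) (f z)) x ∧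
    ∀ v, extDeriv (fun z => smulWedge (ℓ ∘ (i a₀).succAbove) (f z)) x v =
      (-1 : ℂ) ^ (i a₀ : ℕ) * (y * wedgeOfForms ℓ v) := by
  obtain ⟨D, hD, hK⟩ := hf
  refine ⟨((smulWedge (ℓ ∘ (i a₀).succAbove)).hasFDerivAt.comp x hD).differentiableAt,
    fun v => ?_⟩
  rw [extDeriv_smul_wedgeCont ℓ (i a₀) hD v]
  have h1 : (D : V →ₗ[ℝ] ℂ) = ((D : V →ₗ[ℝ] ℂ) - y • conjForm (μ a₀)) + y • conjForm (μ a₀) := by
    abel
  rw [h1, wedgeOfForms_update_add, wedgeOfForms_update_smul,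
    wedgeOfForms_update_eq_zero_of_mem_bmK ℓ i j hi hij hℓi hℓj a₀ hK, ← hℓi,
    Function.update_eq_self, zero_add, AlternatingMap.smul_apply, smul_eq_mul]

/-- **The primitive.**  Let `N_a = M μ_a : A → ℂ / (ℤ + ℤ τ)`, `a < r`, be homomorphisms.  All multiples of a form
`ℓ₀ ∧ ⋯ ∧ ℓ_n` with `ℓ_{j a} = μ_a` and `ℓ_{i a} = μ̄_a` for all `a < r` restrict to zero on the complement of the
common zeros of the functions `θ_τ ∘ N_a`. -/
theorem restrictsToZero_wedgeOfForms_bm {τ : ℂ} (hτ0 : 0 < τ.im) {Λ : Submodule ℤ V} {r : ℕ}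
    (μ : Fin r → V →ₗ[ℝ] ℂ) (N : Fin r → V →L[ℂ] ℂ) {M : ℕ} (hM : M ≠ 0)
    (hNμ : ∀ a v, N a v = (M : ℂ) * μ a v)
    (hN : ∀ a, ∀ l ∈ Λ, N a l ∈ lattice (tauBasis τ hτ0.ne')) {n : ℕ}
    (ℓ : Fin (n + 1) → V →ₗ[ℝ] ℂ) (i j : Fin r → Fin (n + 1)) (hi : Function.Injective i)
    (hij : ∀ a c, i a ≠ j c) (hℓi : ∀ a, ℓ (i a) = conjForm (μ a)) (hℓj : ∀ a, ℓ (j a) = μ a)
    (c : ℂ) :
    RestrictsToZero Λ {y | ∀ a, N a y ∈ tauZeros τ} (c • wedgeOfForms ℓ) := by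
  have hMc : (M : ℂ) ≠ 0 := by exact_mod_cast hM
  have hic : (τ.im : ℂ) ≠ 0 := by exact_mod_cast hτ0.ne'
  have hpi : (π : ℂ) ≠ 0 := by exact_mod_cast Real.pi_ne_zero
  set lam : ℂ := π / (τ.im : ℂ) with hlam
  have hlam0 : lam ≠ 0 := div_ne_zero hpi hic
  set c' : ℂ := c / (-((M : ℂ) * lam ^ r)) with hc'
  have hden : -((M : ℂ) * lam ^ r) ≠ 0 := neg_ne_zero.2 (mul_ne_zero hMc (pow_ne_zero _ hlam0))
  refine ⟨fun z => ∑ a, smulWedge (ℓ ∘ (i a).succAbove)
    (c' * (-1 : ℂ) ^ (i a : ℕ) * bmA τ N a z), ?_, ?_, ?_⟩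
  · exact ContDiffOn.sum fun a _ => (smulWedge (ℓ ∘ (i a).succAbove)).contDiff.comp_contDiffOn
      (contDiffOn_const.mul (bmA_contDiffOn hτ0 N a))
  · intro l hl x _
    simp only [bmA_periodic hτ0 hN hl]
  · intro x hx v
    have hs : bmS τ N x ≠ 0 := (bmS_ne_zero_iff τ N x).2 hx
    have hA := fun a => extDeriv_smulWedge_of_hasDMod ℓ i j hi hij hℓi hℓj a
      ((bmA_hasDMod hτ0 hNμ hs a).const_mul (c' * (-1 : ℂ) ^ (i a : ℕ)))
    rw [extDeriv_finset_sum _ _ fun a _ => (hA a).1]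
    rw [ContinuousAlternatingMap.sum_apply]
    simp only [(hA _).2]
    have hid := bm_identity (fun a => bmu τ (N a x)) (fun a => bmH τ (N a x)) lam hs
    have hsq : ∀ a : Fin r, (-1 : ℂ) ^ (i a : ℕ) * (-1 : ℂ) ^ (i a : ℕ) = 1 := fun a => by
      rw [← pow_add, ← two_mul, pow_mul]; simp
    have hterm : ∀ a : Fin r, (-1 : ℂ) ^ (i a : ℕ) * (c' * (-1 : ℂ) ^ (i a : ℕ) *
        ((M : ℂ) * ((bmH τ (N a x) - lam * bmu τ (N a x)) *
          bmQ (fun i => bmH τ (N i x)) lam (bmS τ N x) a -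
        bmu τ (N a x) * bmH τ (N a x) * bmQp (fun i => bmH τ (N i x)) lam (bmS τ N x) a)) *
        wedgeOfForms ℓ v) = c' * (M : ℂ) * wedgeOfForms ℓ v *
        ((bmH τ (N a x) - lam * bmu τ (N a x)) *
          bmQ (fun i => bmH τ (N i x)) lam (bmS τ N x) a -
        bmu τ (N a x) * bmH τ (N a x) * bmQp (fun i => bmH τ (N i x)) lam (bmS τ N x) a) := by
      intro a
      linear_combination (c' * ((M : ℂ) * ((bmH τ (N a x) - lam * bmu τ (N a x)) *
          bmQ (fun i => bmH τ (N i x)) lam (bmS τ N x) a -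
        bmu τ (N a x) * bmH τ (N a x) * bmQp (fun i => bmH τ (N i x)) lam (bmS τ N x) a)) *
        wedgeOfForms ℓ v) * hsq a
    simp only [← hlam, hterm]
    rw [← Finset.mul_sum]
    have hid' : ∑ a, ((bmH τ (N a x) - lam * bmu τ (N a x)) *
          bmQ (fun i => bmH τ (N i x)) lam (bmS τ N x) a -
        bmu τ (N a x) * bmH τ (N a x) * bmQp (fun i => bmH τ (N i x)) lam (bmS τ N x) a) =
        -lam ^ r := hid
    rw [hid', AlternatingMap.smul_apply, smul_eq_mul, hc']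
    field_simp

end main

/-! ### The generalized Hodge conjecture for tori with periods in an imaginary quadratic field -/

section final

variable [FiniteDimensional ℂ V] {ι : Type*}

/-- **One closed algebraic subset of codimension `r` kills `H^{p,q}(A)` for all `p, q ≥ r`**, for every complex
torus `A` whose period matrix has entries in an imaginary quadratic field `ℚ + ℚ ρ`. -/
theorem exists_codim_hodgePiece_quad (b : Basis ι ℝ V) {d : ℕ} (w : Basis (Fin d) ℂ V)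
    (ρ : ℂ) (hρ : ρ.im ≠ 0) (hρ2 : ∃ r s : ℚ, ρ ^ 2 = r + s * ρ)
    (hb : ∀ i k, ∃ r s : ℚ, w.repr (b i) k = r + s * ρ) (r : ℕ) :
    ∃ Z : Set V, IsAlgebraicSubsetOfCodimGE (lattice b) r Z ∧
      ∀ k p : ℕ, r ≤ p → p + r ≤ k → ∀ φ ∈ hodgePiece V p k, RestrictsToZero (lattice b) Z φ := by
  classical
  rcases Nat.eq_zero_or_pos r with rfl | hr0
  · exact ⟨Set.univ, isAlgebraicSubsetOfCodimGE_univ _, fun k p _ _ φ _ => restrictsToZero_univ _ φ⟩
  have := finite_index b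
  have hq : ∀ x, polFam w ρ x ∈ quadForms b ρ := polFam_mem_quadForms b w ρ hρ2 hb
  obtain ⟨τ, hτ, hτ0, M, hM, hMx⟩ := exists_tau_common_denominator ρ hρ
    (fun p : ((Fin d × Fin d) × Fin 4) × ι => polFam w ρ p.1 (b p.2)) (fun p => (hq p.1).2 p.2)
  have hMc : (M : ℂ) ≠ 0 := by exact_mod_cast hM
  let mC : (Fin d × Fin d) × Fin 4 → V →ₗ[ℂ] ℂ := fun x => complexify (polFam w ρ x) (hq x).1
  let NN : (Fin d × Fin d) × Fin 4 → V →L[ℂ] ℂ := fun x =>
    (M : ℂ) • LinearMap.toContinuousLinearMap (mC x)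
  have hNv : ∀ x v, NN x v = (M : ℂ) * polFam w ρ x v := fun x v => rfl
  have hNL : ∀ x, ∀ l ∈ lattice b, NN x l ∈ lattice (tauBasis τ hτ0.ne') := by
    intro x l hl
    have h2 : (lattice b).map ((NN x).toLinearMap.restrictScalars ℤ) ≤
        lattice (tauBasis τ hτ0.ne') := by
      rw [lattice, Submodule.map_span, Submodule.span_le]
      rintro _ ⟨_, ⟨i, rfl⟩, rfl⟩
      exact hMx (x, i)
    exact h2 ⟨l, hl, rfl⟩
  let Zx : (Fin r → (Fin d × Fin d) × Fin 4) → Set V := fun xs =>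
    if Function.Surjective (formsMap fun a => mC (xs a)) then
      {y | ∀ a, NN (xs a) y ∈ tauZeros τ} else ∅
  have hZx : ∀ xs, IsAlgebraicSubsetOfCodimGE (lattice b) r (Zx xs) := by
    intro xs
    simp only [Zx]
    split_ifs with hs
    · refine preimage_tauZeros_pi_isAlgebraic hτ hτ0 b (fun a => (M : ℂ) • mC (xs a))
        (fun a l hl => hNL (xs a) l hl) ?_
      intro y
      obtain ⟨v, hv⟩ := hs y
      refine ⟨(M : ℂ)⁻¹ • v, ?_⟩
      ext a
      have h6 := congrArg (fun z : Cn r => z a) hv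
      change ((M : ℂ) • mC (xs a)) ((M : ℂ)⁻¹ • v) = y a
      rw [LinearMap.smul_apply, map_smul, smul_eq_mul, smul_eq_mul, mul_inv_cancel_left₀ hMc]
      exact h6
    · exact isAlgebraicSubsetOfCodimGE_empty _ _
  have hU : IsAlgebraicSubsetOfCodimGE (lattice b) r (⋃ xs, Zx xs) :=
    IsAlgebraicSubsetOfCodimGE.iUnion hZx
  have hcl : IsClosed (⋃ xs, Zx xs) := hU.isClosed
  refine ⟨⋃ xs, Zx xs, hU, fun k p hp1 hpk φ hφ => ?_⟩
  obtain ⟨n, rfl⟩ : ∃ n, k = n + 1 := ⟨k - 1, by omega⟩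
  have h4 : Submodule.span ℂ (goodFormsR w ρ r (n + 1)) ≤ restrictKer (lattice b) hcl (n + 1) := by
    rw [Submodule.span_le]
    rintro _ ⟨xs, ℓ, i, j, hi, hj, hij, hℓi, hℓj, rfl⟩
    by_cases hs : Function.Surjective (formsMap fun a => mC (xs a))
    · have h5 := restrictsToZero_wedgeOfForms_bm hτ0 (Λ := lattice b)
        (fun a => polFam w ρ (xs a)) (fun a => NN (xs a)) hM (fun a v => hNv _ v)
        (fun a => hNL (xs a)) ℓ i j hi hij hℓi hℓj 1
      rw [one_smul] at h5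
      refine h5.mono (Set.subset_iUnion_of_subset xs ?_)
      simp only [Zx, if_pos hs]
      exact subset_rfl
    · have h0 : wedgeOfForms ℓ = 0 :=
        wedgeOfForms_eq_zero_of_not_surjective (fun a => mC (xs a)) hs ℓ j hj (fun a => hℓj a)
      rw [h0]
      exact Submodule.zero_mem _
  exact h4 (hodgePiece_le_span_goodFormsR w ρ hρ hp1 hpk hφ)

/-- **The conclusion of `GeneralizedHodgeCM`, for all `k`, `r` and `W`, for every complex torus whose period matrix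
has entries in an imaginary quadratic field**, i.e. for all abelian varieties isogenous to a power of a CM elliptic
curve. -/
theorem generalizedHodge_of_quadratic_periods (b : Basis ι ℝ V) {d : ℕ}
    (w : Basis (Fin d) ℂ V) (ρ : ℂ) (hρ : ρ.im ≠ 0) (hρ2 : ∃ r s : ℚ, ρ ^ 2 = r + s * ρ)
    (hb : ∀ i k, ∃ r s : ℚ, w.repr (b i) k = r + s * ρ) (k r : ℕ)
    (W : Submodule ℚ (Form V k)) (hW : IsHodgeSubstructure (lattice b) W)
    (hr : IsEffectiveTwist W r) :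
    ∃ Z : Set V, IsAlgebraicSubsetOfCodimGE (lattice b) r Z ∧
      ∀ φ ∈ W, RestrictsToZero (lattice b) Z φ := by
  obtain ⟨Z, hZ, h⟩ := exists_codim_hodgePiece_quad b w ρ hρ hρ2 hb r
  refine ⟨Z, hZ, fun φ hφ => ?_⟩
  have h1 : complexSpan W ≤ restrictKer (lattice b) hZ.isClosed k := by
    refine hW.decomp.trans (iSup_le fun p => ?_)
    have hp := p.2
    by_cases hp1 : r ≤ (p : ℕ) ∧ (p : ℕ) + r ≤ k
    · exact inf_le_right.trans fun ψ hψ => h k p hp1.1 hp1.2 ψ hψ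
    · rw [hr p (k - p) (by omega) (by omega)]
      exact bot_le
  exact h1 (Submodule.subset_span hφ)

end final

end Claimed.Open.R032
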