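import Claimed.Open.R032.SanityThetaTau

/-!
# The functions `u = |θ_τ|² h`, `G = ∂u`, `H = |G|² / u` on `ℂ`

Let `Im τ > 0`, `θ = θ_τ`, `h(z) = exp (- 2 π (Im z)² / Im τ)` and `k = θ' + (2 π i Im z / Im τ) θ`.  The functions

* `u = h θ θ̄` (the squared norm of the section `θ` of the theta line bundle),
* `G = h θ̄ k = ∂u/∂z`,
* `H = h k k̄`

are smooth and `ℤ + ℤ τ`-periodic on all of `ℂ`; `u` vanishes exactly at the zeros of `θ`; `du = G dz + Ḡ dz̄`,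
`∂G/∂z̄ = H - (π / Im τ) u` and `G Ḡ = u H`.
-/

open MeasureTheory Module Set Complex
open scoped ContDiff Real

namespace Claimed.Open.R032

/-- `h(z) = exp (- 2 π (Im z)² / Im τ)`. -/
noncomputable def bmh (τ z : ℂ) : ℂ := cexp (-(2 * π / (τ.im : ℂ)) * (z.im : ℂ) ^ 2)

/-- `k = θ' + (2 π i Im z / Im τ) θ`. -/
noncomputable def bmk (τ z : ℂ) : ℂ :=
  deriv (tauTheta τ) z + 2 * π * I / (τ.im : ℂ) * (z.im : ℂ) * tauTheta τ z

/-- `u = h θ θ̄`. -/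
noncomputable def bmu (τ z : ℂ) : ℂ := bmh τ z * tauTheta τ z * (starRingEnd ℂ) (tauTheta τ z)

/-- `G = h θ̄ k`. -/
noncomputable def bmG (τ z : ℂ) : ℂ := bmh τ z * (starRingEnd ℂ) (tauTheta τ z) * bmk τ z

/-- `H = h k k̄`. -/
noncomputable def bmH (τ z : ℂ) : ℂ := bmh τ z * bmk τ z * (starRingEnd ℂ) (bmk τ z)

variable {τ : ℂ}

/-! ### POST A1: algebra, smoothness, periodicity -/

theorem bm228_h_ne_zero (τ z : ℂ) : bmh τ z ≠ 0 := Complex.exp_ne_zero _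

/-- `h` is real. -/
theorem bm228_conj_h (τ z : ℂ) : (starRingEnd ℂ) (bmh τ z) = bmh τ z := by
  unfold bmh
  rw [← Complex.exp_conj]
  simp only [map_neg, map_mul, map_div₀, map_pow, Complex.conj_ofReal, map_ofNat]

theorem bmu_eq_zero_iff (z : ℂ) : bmu τ z = 0 ↔ z ∈ tauZeros τ := by
  unfold bmu tauZeros
  simp [bm228_h_ne_zero]

theorem bmG_mul_conj (z : ℂ) : bmG τ z * (starRingEnd ℂ) (bmG τ z) = bmu τ z * bmH τ z := by
  unfold bmG bmu bmH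
  simp only [map_mul, bm228_conj_h, Complex.conj_conj]
  ring

theorem bm228_theta_contDiff (hτ : 0 < τ.im) : ContDiff ℝ ∞ (tauTheta τ) :=
  ((tauTheta_differentiable hτ).contDiff (n := ∞)).restrict_scalars ℝ

theorem bm228_dtheta_differentiable (hτ : 0 < τ.im) : Differentiable ℂ (deriv (tauTheta τ)) :=
  fun z => ((tauTheta_analyticOnNhd hτ).deriv z (mem_univ z)).differentiableAt

theorem bm228_dtheta_contDiff (hτ : 0 < τ.im) : ContDiff ℝ ∞ (deriv (tauTheta τ)) :=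
  ((bm228_dtheta_differentiable hτ).contDiff (n := ∞)).restrict_scalars ℝ

theorem bm228_im_contDiff : ContDiff ℝ ∞ (fun z : ℂ => (z.im : ℂ)) :=
  (Complex.ofRealCLM.comp Complex.imCLM).contDiff

theorem bm228_conj_contDiff {f : ℂ → ℂ} (hf : ContDiff ℝ ∞ f) :
    ContDiff ℝ ∞ (fun z => (starRingEnd ℂ) (f z)) :=
  Complex.conjCLE.contDiff.comp hf

theorem bm228_h_contDiff (τ : ℂ) : ContDiff ℝ ∞ (bmh τ) :=
  (contDiff_const.mul (bm228_im_contDiff.pow 2)).cexp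

theorem bm228_k_contDiff (hτ : 0 < τ.im) : ContDiff ℝ ∞ (bmk τ) :=
  (bm228_dtheta_contDiff hτ).add ((contDiff_const.mul bm228_im_contDiff).mul (bm228_theta_contDiff hτ))

theorem bmu_contDiff (hτ : 0 < τ.im) : ContDiff ℝ ∞ (bmu τ) :=
  ((bm228_h_contDiff τ).mul (bm228_theta_contDiff hτ)).mul (bm228_conj_contDiff (bm228_theta_contDiff hτ))

theorem bmG_contDiff (hτ : 0 < τ.im) : ContDiff ℝ ∞ (bmG τ) :=
  ((bm228_h_contDiff τ).mul (bm228_conj_contDiff (bm228_theta_contDiff hτ))).mul (bm228_k_contDiff hτ)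

theorem bmH_contDiff (hτ : 0 < τ.im) : ContDiff ℝ ∞ (bmH τ) :=
  ((bm228_h_contDiff τ).mul (bm228_k_contDiff hτ)).mul (bm228_conj_contDiff (bm228_k_contDiff hτ))

/-- The group of the common periods of `u`, `G`, `H`. -/
def bm228Periods (τ : ℂ) : AddSubgroup ℂ where
  carrier := {l | ∀ x, bmu τ (l + x) = bmu τ x ∧ bmG τ (l + x) = bmG τ x ∧ bmH τ (l + x) = bmH τ x}
  zero_mem' := by intro x; simp
  add_mem' := by
    intro a b ha hb x
    have h1 := hb x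
    have h2 := ha (b + x)
    rw [add_assoc]
    exact ⟨h2.1.trans h1.1, h2.2.1.trans h1.2.1, h2.2.2.trans h1.2.2⟩
  neg_mem' := by
    intro a ha x
    have h1 := ha (-a + x)
    rw [add_neg_cancel_left] at h1
    exact ⟨h1.1.symm, h1.2.1.symm, h1.2.2.symm⟩

theorem bm228_h_add_one (z : ℂ) : bmh τ (z + 1) = bmh τ z := by
  simp [bmh]

theorem bm228_k_add_one (hτ : 0 < τ.im) (z : ℂ) : bmk τ (z + 1) = bmk τ z := by
  simp [bmk, tauTheta_add_one, deriv_tauTheta_add_one hτ]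

theorem bm228_one_mem (hτ : 0 < τ.im) : (1 : ℂ) ∈ bm228Periods τ := by
  intro x
  rw [add_comm]
  simp [bmu, bmG, bmH, bm228_h_add_one, bm228_k_add_one hτ, tauTheta_add_one]

/-- `k(z + τ) = e k(z)`, `e = exp (- π i (τ + 2 z))`. -/
theorem bm228_k_add_tau (hτ : 0 < τ.im) (z : ℂ) :
    bmk τ (z + τ) = cexp (-π * I * (τ + 2 * z)) * bmk τ z := by
  have hi : (τ.im : ℂ) ≠ 0 := by exact_mod_cast hτ.ne'
  simp only [bmk, tauTheta_add_tau, deriv_tauTheta_add_tau hτ, add_im]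
  push_cast
  field_simp
  ring

/-- `h(z + τ) e ē = h(z)`. -/
theorem bm228_h_add_tau (hτ : 0 < τ.im) (z : ℂ) :
    bmh τ (z + τ) * cexp (-π * I * (τ + 2 * z)) * (starRingEnd ℂ) (cexp (-π * I * (τ + 2 * z))) = bmh τ z := by
  have hi : (τ.im : ℂ) ≠ 0 := by exact_mod_cast hτ.ne'
  unfold bmh
  rw [← Complex.exp_conj, ← Complex.exp_add, ← Complex.exp_add]
  congr 1
  have h1 : (starRingEnd ℂ) τ = τ - 2 * I * (τ.im : ℂ) := by
    apply Complex.ext <;> simp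
    ring
  have h2 : (starRingEnd ℂ) z = z - 2 * I * (z.im : ℂ) := by
    apply Complex.ext <;> simp
    ring
  simp only [map_mul, map_add, map_neg, Complex.conj_I, Complex.conj_ofReal, h1, h2, add_im, map_ofNat]
  push_cast
  field_simp
  ring_nf
  simp only [Complex.I_sq]
  ring

theorem bm228_tau_mem (hτ : 0 < τ.im) : τ ∈ bm228Periods τ := by
  intro x
  rw [add_comm]
  have h := bm228_h_add_tau hτ x
  set e := cexp (-π * I * (τ + 2 * x)) with he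
  refine ⟨?_, ?_, ?_⟩
  · simp only [bmu, tauTheta_add_tau, ← he, map_mul]
    rw [← h]
    ring
  · simp only [bmG, tauTheta_add_tau, bm228_k_add_tau hτ, ← he, map_mul]
    rw [← h]
    ring
  · simp only [bmH, bm228_k_add_tau hτ, ← he, map_mul]
    rw [← h]
    ring

theorem bm228_mem_of_mem_lattice (hτ : 0 < τ.im) {l : ℂ}
    (hl : l ∈ lattice (tauBasis τ hτ.ne')) : l ∈ bm228Periods τ := by
  obtain ⟨a, c, rfl⟩ := (mem_lattice_tauBasis hτ.ne' l).1 hl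
  have := (bm228Periods τ).add_mem ((bm228Periods τ).zsmul_mem (bm228_one_mem hτ) a)
    ((bm228Periods τ).zsmul_mem (bm228_tau_mem hτ) c)
  simpa using this

theorem bmu_periodic (hτ : 0 < τ.im) {l : ℂ} (hl : l ∈ lattice (tauBasis τ hτ.ne')) (z : ℂ) :
    bmu τ (l + z) = bmu τ z :=
  ((bm228_mem_of_mem_lattice hτ hl) z).1

theorem bmG_periodic (hτ : 0 < τ.im) {l : ℂ} (hl : l ∈ lattice (tauBasis τ hτ.ne')) (z : ℂ) :
    bmG τ (l + z) = bmG τ z :=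
  ((bm228_mem_of_mem_lattice hτ hl) z).2.1

theorem bmH_periodic (hτ : 0 < τ.im) {l : ℂ} (hl : l ∈ lattice (tauBasis τ hτ.ne')) (z : ℂ) :
    bmH τ (l + z) = bmH τ z :=
  ((bm228_mem_of_mem_lattice hτ hl) z).2.2

/-! ### POST A2: the differentials -/

theorem bm228_im_eq (v : ℂ) : (v.im : ℂ) = -I / 2 * (v - (starRingEnd ℂ) v) := by
  rw [Complex.sub_conj]
  push_cast
  ring_nf
  simp only [Complex.I_sq]
  ring

theorem bm228_im_hasFDerivAt (z : ℂ) :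
    HasFDerivAt (fun z : ℂ => (z.im : ℂ)) (Complex.ofRealCLM.comp Complex.imCLM) z :=
  (Complex.ofRealCLM.comp Complex.imCLM).hasFDerivAt

theorem bm228_theta_hasFDerivAt (hτ : 0 < τ.im) (z : ℂ) :
    HasFDerivAt (tauTheta τ) ((ContinuousLinearMap.toSpanSingleton ℂ (deriv (tauTheta τ) z)).restrictScalars ℝ) z :=
  (tauTheta_differentiable hτ z).hasDerivAt.hasFDerivAt.restrictScalars ℝ

theorem bm228_dtheta_hasFDerivAt (hτ : 0 < τ.im) (z : ℂ) :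
    HasFDerivAt (deriv (tauTheta τ))
      ((ContinuousLinearMap.toSpanSingleton ℂ (deriv (deriv (tauTheta τ)) z)).restrictScalars ℝ) z :=
  (bm228_dtheta_differentiable hτ z).hasDerivAt.hasFDerivAt.restrictScalars ℝ

theorem bm228_conj_hasFDerivAt {f : ℂ → ℂ} {D : ℂ →L[ℝ] ℂ} {z : ℂ} (hf : HasFDerivAt f D z) :
    HasFDerivAt (fun z => (starRingEnd ℂ) (f z)) ((Complex.conjCLE : ℂ →L[ℝ] ℂ).comp D) z :=
  (Complex.conjCLE : ℂ →L[ℝ] ℂ).hasFDerivAt.comp z hf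

theorem bm228_h_hasFDerivAt (τ z : ℂ) :
    HasFDerivAt (bmh τ) (bmh τ z • ((-(2 * π / (τ.im : ℂ)) : ℂ) •
      (((2 : ℕ) • (z.im : ℂ) ^ (2 - 1)) • (Complex.ofRealCLM.comp Complex.imCLM)))) z :=
  (((bm228_im_hasFDerivAt z).pow 2).const_mul _).cexp

theorem bm228_k_hasFDerivAt (hτ : 0 < τ.im) (z : ℂ) :
    ∃ D : ℂ →L[ℝ] ℂ, HasFDerivAt (bmk τ) D z ∧ ∀ v, D v = deriv (deriv (tauTheta τ)) z * v
      + 2 * π * I / (τ.im : ℂ) * (v.im : ℂ) * tauTheta τ z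
      + 2 * π * I / (τ.im : ℂ) * (z.im : ℂ) * (deriv (tauTheta τ) z * v) := by
  refine ⟨_, (bm228_dtheta_hasFDerivAt hτ z).add
    (((bm228_im_hasFDerivAt z).const_mul (2 * π * I / (τ.im : ℂ))).mul (bm228_theta_hasFDerivAt hτ z)), fun v => ?_⟩
  simp
  ring

/-- `du = G dz + Ḡ dz̄`. -/
theorem bmu_hasFDerivAt (hτ : 0 < τ.im) (z : ℂ) :
    ∃ D : ℂ →L[ℝ] ℂ, HasFDerivAt (bmu τ) D z ∧
      ∀ v, D v = bmG τ z * v + (starRingEnd ℂ) (bmG τ z) * (starRingEnd ℂ) v := by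
  refine ⟨_, ((bm228_h_hasFDerivAt τ z).mul (bm228_theta_hasFDerivAt hτ z)).mul
    (bm228_conj_hasFDerivAt (bm228_theta_hasFDerivAt hτ z)), fun v => ?_⟩
  simp only [bmG, bmk, map_mul, map_add, bm228_conj_h, Complex.conj_conj, map_div₀, Complex.conj_I,
    Complex.conj_ofReal, map_ofNat]
  simp
  rw [bm228_im_eq v]
  ring

/-- `dG = (⋯) dz + (H - (π / Im τ) u) dz̄`. -/
theorem bmG_hasFDerivAt (hτ : 0 < τ.im) (z : ℂ) :
    ∃ (a : ℂ) (D : ℂ →L[ℝ] ℂ), HasFDerivAt (bmG τ) D z ∧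
      ∀ v, D v = a * v + (bmH τ z - π / (τ.im : ℂ) * bmu τ z) * (starRingEnd ℂ) v := by
  obtain ⟨Dk, hDk, hk⟩ := bm228_k_hasFDerivAt hτ z
  refine ⟨2 * π * I / (τ.im : ℂ) * (z.im : ℂ) * bmh τ z * (starRingEnd ℂ) (tauTheta τ z) * bmk τ z
      + bmh τ z * (starRingEnd ℂ) (tauTheta τ z) * (deriv (deriv (tauTheta τ)) z + π / (τ.im : ℂ) * tauTheta τ z
        + 2 * π * I / (τ.im : ℂ) * (z.im : ℂ) * deriv (tauTheta τ) z),
    _, ((bm228_h_hasFDerivAt τ z).mul (bm228_conj_hasFDerivAt (bm228_theta_hasFDerivAt hτ z))).mul hDk,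
    fun v => ?_⟩
  simp only [bmH, bmu, bmk, map_mul, map_add, map_div₀, Complex.conj_I, Complex.conj_ofReal, map_ofNat]
  simp [hk]
  rw [bm228_im_eq v]
  ring_nf
  simp only [Complex.I_sq]
  ring

end Claimed.Open.R032
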