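import Claimed.Open.R032.PowerGlue

/-!
# Homomorphisms onto products of distinct CM elliptic curves

`hermSquare_mem_span_algebraic_mixed` is `hermSquare_mem_span_algebraic` (`PowerGlue.lean`) with a field `ℚ + ℚ ω_j`
which depends on the factor `j`.
-/

open MeasureTheory Module

namespace Claimed.Open.R032

variable {V : Type*} [NormedAddCommGroup V] [InnerProductSpace ℂ V] [FiniteDimensional ℂ V]
variable {ι : Type*}

/-- The period basis of the product `∏_j ℂ / lattice (β j)`. -/
noncomputable def prodBasis {p : ℕ} (β : Fin p → Basis (Fin 2) ℝ ℂ) : Basis (Σ _ : Fin p, Fin 2) ℝ (Cn p) :=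
  (Pi.basis β).map (WithLp.linearEquiv 2 ℝ (Fin p → ℂ)).symm

/-- POST A1 (copy of `mem_lattice_powerBasis_of_forall`). -/
theorem mem_lattice_prodBasis_of_forall {p : ℕ} (β : Fin p → Basis (Fin 2) ℝ ℂ) (z : Cn p)
    (hz : ∀ k, z k ∈ lattice (β k)) : z ∈ lattice (prodBasis β) := by
  classical
  have h1 : ∀ (k : Fin p) (x : ℂ), x ∈ lattice (β k) →
      (WithLp.linearEquiv 2 ℝ (Fin p → ℂ)).symm (Pi.single k x) ∈ lattice (prodBasis β) := by
    intro k x hx
    let f : ℂ →ₗ[ℤ] Cn p :=
      ((WithLp.linearEquiv 2 ℝ (Fin p → ℂ)).symm.toLinearMap.restrictScalars ℤ) ∘ₗ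
        (LinearMap.single ℤ (fun _ : Fin p => ℂ) k)
    have h2 : (lattice (β k)).map f ≤ lattice (prodBasis β) := by
      rw [lattice, Submodule.map_span, Submodule.span_le]
      rintro _ ⟨_, ⟨i, rfl⟩, rfl⟩
      refine Submodule.subset_span ⟨⟨k, i⟩, ?_⟩
      simp [prodBasis, f, Pi.basis_apply]
    exact h2 ⟨x, hx, rfl⟩
  have h3 : z = ∑ k, (WithLp.linearEquiv 2 ℝ (Fin p → ℂ)).symm (Pi.single k (z k)) := by
    rw [← map_sum]
    apply (WithLp.linearEquiv 2 ℝ (Fin p → ℂ)).injective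
    rw [LinearEquiv.apply_symm_apply]
    funext j
    simp [Finset.sum_apply, Pi.single_apply]
  rw [h3]
  exact Submodule.sum_mem _ fun k _ => h1 k _ (hz k)

variable [MeasurableSpace V] [BorelSpace V]

/-- POST A2 (copy of `hermSquare_mem_span_algebraic`, with `prodBasis` for `powerBasis`; uses A1).
If the `ℂ`-linear form `m_j` takes values in `ℚ + ℚ ω_j` on the lattice, for every `j`, then
`m₀ ∧ conj m₀ ∧ m₁ ∧ conj m₁ ∧ ⋯` is a complex multiple of a rational algebraic class, namely of the class of the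
connected component of the kernel of `(m_j)_j : V / Λ → ℂ^p / (m_j)_j(Λ)`. -/
theorem hermSquare_mem_span_algebraic_mixed (b : Basis ι ℝ V) {p : ℕ} (ω : Fin p → ℂ) (hω : ∀ j, (ω j).im ≠ 0)
    (m : Fin p → V →ₗ[ℝ] ℂ) (hm : ∀ j, m j ∈ quadForms b (ω j)) :
    hermSquare m ∈ Submodule.span ℂ
      {c : Form V (2 * p) | IsRational (lattice b) c ∧ c ∈ algebraicClasses b p} := by
  have := finite_index b
  let m' : Fin p → V →ₗ[ℂ] ℂ := fun j => complexify (m j) (hm j).1
  have hmm' : m = fun j => (m' j).restrictScalars ℝ := rfl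
  have hp : p = finrank ℂ (Cn p) := by simp
  rw [hmm', hermSquare_eq_pullback]
  by_cases hsurj : Function.Surjective (formsMap m')
  swap
  · rw [pullback_eq_zero_of_not_surjective _ hsurj (by rw [← hp])]
    exact Submodule.zero_mem _
  have hex : ∀ j : Fin p, ∃ β : Basis (Fin 2) ℝ ℂ, ∀ i, m j (b i) ∈ lattice β := fun j =>
    exists_basis_forall_mem_lattice (ω j) (hω j) (fun i : ι => m j (b i)) (fun i => (hm j).2 i)
  choose β hβ using hex
  have hsub : ∀ l ∈ lattice b, formsMap m' l ∈ lattice (prodBasis β) := by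
    intro l hl
    have h2 : (lattice b).map ((formsMap m').toLinearMap.restrictScalars ℤ) ≤
        lattice (prodBasis β) := by
      rw [lattice, Submodule.map_span, Submodule.span_le]
      rintro _ ⟨_, ⟨i, rfl⟩, rfl⟩
      exact mem_lattice_prodBasis_of_forall β _ fun k => hβ k i
    exact h2 ⟨l, hl, rfl⟩
  obtain ⟨b', hb'⟩ := exists_basis_mapsLatticeOnto b (prodBasis β) (formsMap m') hsurj hsub
  obtain ⟨z, δ, hδ, hz⟩ := exists_eq_smul_isRational b' (n := 2 * p) (by rw [← hp])
    (hermSquare (fun j : Fin p => dz j))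
  rw [hz, pullback_smul]
  refine Submodule.smul_mem _ _ (Submodule.subset_span ⟨?_, hb'.pullback_mem_algebraicClasses hp δ hδ⟩)
  intro v hv
  exact hδ _ fun i => (hb' _).2 ⟨v i, hv i, rfl⟩

end Claimed.Open.R032
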