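import Claimed.Open.R032.SanityBMAlg
import Claimed.Open.R032.SanityMixAlg

/-!
# Preimages of points under homomorphisms onto a product of DIFFERENT elliptic curves
-/

open MeasureTheory Module Set Complex

namespace Claimed.Open.R032

variable {V : Type*} [NormedAddCommGroup V] [InnerProductSpace ℂ V] [FiniteDimensional ℂ V]
variable {ι : Type*}

/-- `∏_j (zeros of θ_{τ_j}) ⊆ ℂ^r`. -/
def ind159_tauZerosPi {r : ℕ} (τ : Fin r → ℂ) : Set (Cn r) := {y | ∀ j, y j ∈ tauZeros (τ j)}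

theorem ind159_mem_lattice_prodBasis {r : ℕ} (β : Fin r → Basis (Fin 2) ℝ ℂ) (x : Cn r) :
    x ∈ lattice (prodBasis β) ↔ ∀ k, x k ∈ lattice (β k) :=
  mem_lattice_piBasis (V := fun _ : Fin r => ℂ) β x

theorem ind159_tauZerosPi_isPeriodic {r : ℕ} {τ : Fin r → ℂ} (hτ0 : ∀ a, 0 < (τ a).im) :
    IsPeriodic (lattice (prodBasis fun a => tauBasis (τ a) (hτ0 a).ne')) (ind159_tauZerosPi τ) := by
  intro l hl x hx j
  rw [ind159_mem_lattice_prodBasis] at hl
  exact tauZeros_isPeriodic (hτ0 j) _ (hl j) _ (hx j)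

/-- `∏_j (zeros of θ_{τ_j})` meets every compact set in a finite set. -/
theorem ind159_tauZerosPi_inter_finite {r : ℕ} {τ : Fin r → ℂ} (hτ : ∀ a, 1 ≤ (τ a).im)
    {K : Set (Cn r)} (hK : IsCompact K) : (ind159_tauZerosPi τ ∩ K).Finite := by
  have hc : ∀ j : Fin r, IsCompact ((fun y : Cn r => y j) '' K) := fun j =>
    hK.image (PiLp.continuous_apply 2 (fun _ : Fin r => ℂ) j)
  have hfin : (Set.pi Set.univ fun j : Fin r => tauZeros (τ j) ∩ ((fun y : Cn r => y j) '' K)).Finite :=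
    Set.Finite.pi fun j => tauZeros_inter_finite (hτ j) (hc j)
  refine Set.Finite.of_injOn (f := fun y : Cn r => (fun j => y j : Fin r → ℂ)) ?_ ?_ hfin
  · intro y hy j _
    exact ⟨hy.1 j, ⟨y, hy.2, rfl⟩⟩
  · intro x _ y _ h
    ext j
    exact congrFun h j

/-- `∏_j (zeros of θ_{τ_j})` is a finite union of classes modulo any lattice contained in `∏_j (ℤ + ℤ τ_j)`. -/
theorem ind159_tauZerosPi_eq_iUnion_of_le {r : ℕ} {τ : Fin r → ℂ} (hτ : ∀ a, 1 ≤ (τ a).im)
    (hτ0 : ∀ a, 0 < (τ a).im) {ι' : Type*} (b' : Basis ι' ℝ (Cn r))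
    (h : ∀ l ∈ lattice b', l ∈ lattice (prodBasis fun a => tauBasis (τ a) (hτ0 a).ne')) :
    ∃ (M : ℕ) (a : Fin M → Cn r),
      ind159_tauZerosPi τ = ⋃ j, (fun y => a j + y) '' (lattice b' : Set (Cn r)) := by
  have := finite_index b'
  have := Fintype.ofFinite ι'
  have hfin := ind159_tauZerosPi_inter_finite hτ (K := closure (ZSpan.fundamentalDomain b'))
    (ZSpan.fundamentalDomain_isBounded b').isCompact_closure
  let S := hfin.toFinset
  let e := S.equivFin
  refine ⟨S.card, fun j => ((e.symm j : Cn r)), ?_⟩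
  ext z
  simp only [mem_iUnion]
  constructor
  · intro hz
    have hl : ((ZSpan.floor b' z : Submodule.span ℤ (Set.range b')) : Cn r) ∈ lattice b' :=
      (ZSpan.floor b' z).2
    have hfr : ZSpan.fract b' z
        = -((ZSpan.floor b' z : Submodule.span ℤ (Set.range b')) : Cn r) + z := by
      rw [ZSpan.fract_apply]; abel
    have hz' : ZSpan.fract b' z ∈ ind159_tauZerosPi τ := by
      rw [hfr]
      exact ind159_tauZerosPi_isPeriodic hτ0 _
        ((lattice (prodBasis fun a => tauBasis (τ a) (hτ0 a).ne')).neg_mem (h _ hl)) z hz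
    have hS : ZSpan.fract b' z ∈ S :=
      hfin.mem_toFinset.2 ⟨hz', subset_closure (ZSpan.fract_mem_fundamentalDomain b' z)⟩
    refine ⟨e ⟨_, hS⟩, _, hl, ?_⟩
    simp [hfr]
  · rintro ⟨j, l, hl, rfl⟩
    have hj : ((e.symm j : Cn r)) ∈ ind159_tauZerosPi τ := (hfin.mem_toFinset.1 (e.symm j).2).1
    have := ind159_tauZerosPi_isPeriodic hτ0 l (h l hl) _ hj
    rwa [add_comm] at this

/-- POST M4 (adapt `preimage_tauZeros_pi_isAlgebraic` and its helpers `tauZerosPi*` of `SanityBMAlg.lean`, with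
`prodBasis fun a => tauBasis (τ a) _` (`SanityMixAlg.lean`) for `powerBasis (tauBasis τ _) r`).
If `f = (m_j)_j : A → ∏_j ℂ / (ℤ + ℤ τ_j)` is a surjective homomorphism, then `f⁻¹ (∏_j zeros of θ_{τ_j})` is a closed
algebraic subset of codimension `r`. -/
theorem preimage_tauZeros_pi_isAlgebraic_mixed {r : ℕ} {τ : Fin r → ℂ} (hτ : ∀ a, 1 ≤ (τ a).im)
    (hτ0 : ∀ a, 0 < (τ a).im) (b : Basis ι ℝ V) (m : Fin r → V →ₗ[ℂ] ℂ)
    (hm : ∀ j, ∀ l ∈ lattice b, m j l ∈ lattice (tauBasis (τ j) (hτ0 j).ne'))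
    (hsurj : Function.Surjective (formsMap m)) :
    IsAlgebraicSubsetOfCodimGE (lattice b) r {x | ∀ j, m j x ∈ tauZeros (τ j)} := by
  have hN : ∀ l ∈ lattice b,
      formsMap m l ∈ lattice (prodBasis fun a => tauBasis (τ a) (hτ0 a).ne') := by
    intro l hl
    rw [ind159_mem_lattice_prodBasis]
    intro j
    exact hm j l hl
  obtain ⟨b', hb'⟩ := exists_basis_mapsLatticeOnto b
    (prodBasis fun a => tauBasis (τ a) (hτ0 a).ne') (formsMap m) hsurj hN
  have hle : ∀ l ∈ lattice b', l ∈ lattice (prodBasis fun a => tauBasis (τ a) (hτ0 a).ne') := by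
    intro l hl
    obtain ⟨x, hx, rfl⟩ := (hb' l).1 hl
    exact hN x hx
  obtain ⟨M, a, h⟩ := ind159_tauZerosPi_eq_iUnion_of_le hτ hτ0 b' hle
  have hpre : {x | ∀ j, m j x ∈ tauZeros (τ j)} = formsMap m ⁻¹' ind159_tauZerosPi τ := rfl
  rw [hpre, h, Set.preimage_iUnion]
  refine isAlgebraicSubsetOfCodimGE_iUnion _
    (fun _ => finrank ℂ (LinearMap.ker (formsMap m).toLinearMap))
    (fun j => isSubvariety_preimage_coset hb' _) (fun _ => ?_)
  have := hb'.finrank_ker_add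
  have hr : finrank ℂ (Cn r) = r := by simp [Cn]
  rw [hr] at this
  exact this.le

end Claimed.Open.R032
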