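import Claimed.Open.R032.SanityBMMain

/-!
# The Bochner--Martinelli type primitive for homomorphisms onto a product of DIFFERENT elliptic curves

`restrictsToZero_wedgeOfForms_bm_mixed` is `restrictsToZero_wedgeOfForms_bm` (`SanityBMMain.lean`) for homomorphisms
`N_a = M μ_a : A → ℂ / (ℤ + ℤ τ_a)` with `τ_a` depending on `a`.  With `λ_a = π / Im τ_a` put `H̃_a = H_a / λ_a`; then
`∂̄G_a = λ_a (H̃_a - u_a)`, and the identity `bm_identity` for `(u, H̃, λ = 1)` shows that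
`A_a = λ_a⁻¹ G_a Q_a(H̃, 1, s)` satisfies `∑_a ∂A_a/∂μ̄_a = - M`.
-/

open MeasureTheory Module Set Complex
open scoped ContDiff Real

namespace Claimed.Open.R032

variable {V : Type*} [NormedAddCommGroup V] [InnerProductSpace ℂ V]

/-- `λ = π / Im τ`. -/
noncomputable def bmLam (τ : ℂ) : ℂ := π / (τ.im : ℂ)

/-- `s = ∑_a u_{τ_a} (N_a x)`. -/
noncomputable def bmSm {r : ℕ} (τ : Fin r → ℂ) (N : Fin r → V →L[ℂ] ℂ) (x : V) : ℂ :=
  ∑ a, bmu (τ a) (N a x)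

/-- `H̃_a = H_{τ_a} (N_a x) / λ_a`. -/
noncomputable def bmHm {r : ℕ} (τ : Fin r → ℂ) (N : Fin r → V →L[ℂ] ℂ) (x : V) (a : Fin r) : ℂ :=
  bmH (τ a) (N a x) / bmLam (τ a)

/-- `A_a = λ_a⁻¹ G (N_a x) Q_a(H̃, 1, s)`. -/
noncomputable def bmAm {r : ℕ} (τ : Fin r → ℂ) (N : Fin r → V →L[ℂ] ℂ) (a : Fin r) (x : V) : ℂ :=
  (bmLam (τ a))⁻¹ * bmG (τ a) (N a x) * bmQ (bmHm τ N x) 1 (bmSm τ N x) a

/-- POST M1 (adapt `bmA_hasDMod`). -/
theorem bmAm_hasDMod {r : ℕ} {τ : Fin r → ℂ} (hτ0 : ∀ a, 0 < (τ a).im) {μ : Fin r → V →ₗ[ℝ] ℂ}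
    {N : Fin r → V →L[ℂ] ℂ} {M : ℕ} (hNμ : ∀ a v, N a v = (M : ℂ) * μ a v) {x : V}
    (hx : bmSm τ N x ≠ 0) (a : Fin r) :
    HasDMod (bmK μ a) (conjForm (μ a)) (bmAm τ N a)
      ((M : ℂ) * ((bmHm τ N x a - 1 * bmu (τ a) (N a x)) * bmQ (bmHm τ N x) 1 (bmSm τ N x) a -
        bmu (τ a) (N a x) * bmHm τ N x a * bmQp (bmHm τ N x) 1 (bmSm τ N x) a)) x := by
  classical
  have hlam : bmLam (τ a) ≠ 0 := by
    unfold bmLam
    exact div_ne_zero (by exact_mod_cast Real.pi_ne_zero) (by exact_mod_cast (hτ0 a).ne')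
  -- `G`
  obtain ⟨αG, DG, hDG, hDGv⟩ := bmG_hasFDerivAt (hτ0 a) (N a x)
  have hG := (hasDMod_comp hNμ a a hDG hDGv).congr_val (if_pos rfl)
  -- `s`
  have hS : HasDMod (bmK μ a) (conjForm (μ a)) (bmSm τ N)
      ((M : ℂ) * (starRingEnd ℂ) (bmG (τ a) (N a x))) x := by
    have h1 : ∀ c ∈ (Finset.univ : Finset (Fin r)), HasDMod (bmK μ a) (conjForm (μ a))
        (fun z => bmu (τ c) (N c z))
        (if c = a then (M : ℂ) * (starRingEnd ℂ) (bmG (τ c) (N c x)) else 0) x := by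
      intro c _
      obtain ⟨D, hD, hDv⟩ := bmu_hasFDerivAt (hτ0 c) (N c x)
      exact hasDMod_comp hNμ a c hD hDv
    exact (HasDMod.sum Finset.univ h1).congr_val (by simp)
  -- `H̃_i`, `i ≠ a`
  have hH : ∀ i, i ≠ a → HasDMod (bmK μ a) (conjForm (μ a)) (fun z => bmHm τ N z i) 0 x := by
    intro i hi
    have hd := ((bmH_contDiff (hτ0 i)).differentiable (by simp) (N i x)).hasFDerivAt
    obtain ⟨α, β, hαβ⟩ := exists_wirtinger (fderiv ℝ (bmH (τ i)) (N i x))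
    have h0 := ((hasDMod_comp hNμ a i hd hαβ).congr_val (if_neg hi)).mul_const (bmLam (τ i))⁻¹
    simp only [mul_zero] at h0
    simpa only [bmHm, div_eq_mul_inv] using h0
  -- `Q`
  have hQ : HasDMod (bmK μ a) (conjForm (μ a))
      (fun z => bmQ (bmHm τ N z) 1 (bmSm τ N z) a)
      (-bmQp (bmHm τ N x) 1 (bmSm τ N x) a *
        ((M : ℂ) * (starRingEnd ℂ) (bmG (τ a) (N a x)))) x := by
    unfold bmQ bmQp
    have hterm : ∀ T ∈ (Finset.univ.erase a).powerset, HasDMod (bmK μ a) (conjForm (μ a))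
        (fun z => (T.card.factorial : ℂ) * (∏ i ∈ T, bmHm τ N z i) * 1 ^ (r - 1 - T.card) /
          bmSm τ N z ^ (T.card + 1))
        (-(((T.card + 1).factorial : ℂ) * (∏ i ∈ T, bmHm τ N x i) * 1 ^ (r - 1 - T.card) /
          bmSm τ N x ^ (T.card + 2)) * ((M : ℂ) * (starRingEnd ℂ) (bmG (τ a) (N a x)))) x := by
      intro T hT
      have hTa : ∀ i ∈ T, i ≠ a := fun i hi =>
        Finset.ne_of_mem_erase (Finset.mem_powerset.1 hT hi)
      have hc := (((HasDMod.prod_zero T fun i hi => hH i (hTa i hi)).const_mul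
        (T.card.factorial : ℂ)).mul_const ((1 : ℂ) ^ (r - 1 - T.card)))
      have hφ : HasDerivAt (fun s : ℂ => (s ^ (T.card + 1))⁻¹)
          (-(((T.card + 1 : ℕ) : ℂ) * bmSm τ N x ^ T.card) / (bmSm τ N x ^ (T.card + 1)) ^ 2)
          (bmSm τ N x) := by
        have := (hasDerivAt_pow (T.card + 1) (bmSm τ N x)).fun_inv (pow_ne_zero _ hx)
        simpa using this
      have hm := hc.mul (hS.comp_deriv hφ)
      simp only [div_eq_mul_inv]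
      refine hm.congr_val ?_
      rw [Nat.factorial_succ]
      push_cast
      field_simp
      ring
    refine (HasDMod.sum _ hterm).congr_val ?_
    rw [← Finset.sum_mul, Finset.sum_neg_distrib]
  refine ((hG.const_mul (bmLam (τ a))⁻¹).mul hQ).congr_val ?_
  have hGG := bmG_mul_conj (τ := τ a) (N a x)
  have hHm : bmHm τ N x a = bmH (τ a) (N a x) / bmLam (τ a) := rfl
  have hL : (π : ℂ) / ((τ a).im : ℂ) = bmLam (τ a) := rfl
  rw [hHm, hL]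
  field_simp
  linear_combination (-(M : ℂ) * bmQp (bmHm τ N x) 1 (bmSm τ N x) a) * hGG

/-- POST M2 (adapt `bmS_ne_zero_iff`). -/
theorem bmSm_ne_zero_iff {r : ℕ} (τ : Fin r → ℂ) (N : Fin r → V →L[ℂ] ℂ) (x : V) :
    bmSm τ N x ≠ 0 ↔ x ∈ {y | ∀ a, N a y ∈ tauZeros (τ a)}ᶜ := by
  choose t ht0 ht using fun a => bmu_eq_ofReal (τ a) (N a x)
  have h1 : bmSm τ N x = ((∑ a, t a : ℝ) : ℂ) := by
    unfold bmSm
    push_cast
    exact Finset.sum_congr rfl fun a _ => ht a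
  rw [h1, Ne, Complex.ofReal_eq_zero, Finset.sum_eq_zero_iff_of_nonneg fun a _ => ht0 a]
  simp only [Finset.mem_univ, true_implies, Set.mem_compl_iff, Set.mem_ofPred_eq]
  refine not_congr (forall_congr' fun a => ?_)
  rw [← bmu_eq_zero_iff, ht a, Complex.ofReal_eq_zero]

theorem ind184_bmSm_contDiff {r : ℕ} {τ : Fin r → ℂ} (hτ0 : ∀ a, 0 < (τ a).im) (N : Fin r → V →L[ℂ] ℂ) :
    ContDiff ℝ ∞ (bmSm τ N) :=
  ContDiff.sum fun a _ => (bmu_contDiff (hτ0 a)).comp ((N a).restrictScalars ℝ).contDiff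

/-- POST M2 (adapt `bmA_contDiffOn`). -/
theorem bmAm_contDiffOn {r : ℕ} {τ : Fin r → ℂ} (hτ0 : ∀ a, 0 < (τ a).im) (N : Fin r → V →L[ℂ] ℂ)
    (a : Fin r) : ContDiffOn ℝ ∞ (bmAm τ N a) {y | ∀ a, N a y ∈ tauZeros (τ a)}ᶜ := by
  unfold bmAm bmQ bmHm
  refine ContDiffOn.mul
    (contDiff_const.mul ((bmG_contDiff (hτ0 a)).comp ((N a).restrictScalars ℝ).contDiff)).contDiffOn
    (ContDiffOn.sum fun T _ => ?_)
  simp only [div_eq_mul_inv]
  refine ContDiffOn.mul (ContDiff.contDiffOn ?_) (ContDiffOn.inv ?_ ?_)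
  · exact (contDiff_const.mul (contDiff_prod fun i _ =>
      ((bmH_contDiff (hτ0 i)).comp ((N i).restrictScalars ℝ).contDiff).mul contDiff_const)).mul contDiff_const
  · exact ((ind184_bmSm_contDiff hτ0 N).pow _).contDiffOn
  · exact fun x hx => pow_ne_zero _ ((bmSm_ne_zero_iff τ N x).2 hx)

/-- POST M2 (adapt `bmA_periodic`). -/
theorem bmAm_periodic {r : ℕ} {τ : Fin r → ℂ} (hτ0 : ∀ a, 0 < (τ a).im) {Λ : Submodule ℤ V}
    {N : Fin r → V →L[ℂ] ℂ} (hN : ∀ a, ∀ l ∈ Λ, N a l ∈ lattice (tauBasis (τ a) (hτ0 a).ne')) {l : V}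
    (hl : l ∈ Λ) (a : Fin r) (x : V) : bmAm τ N a (l + x) = bmAm τ N a x := by
  unfold bmAm bmSm bmHm
  simp only [map_add, bmu_periodic (hτ0 _) (hN _ l hl), bmG_periodic (hτ0 _) (hN _ l hl),
    bmH_periodic (hτ0 _) (hN _ l hl)]

variable [FiniteDimensional ℂ V]

/-- POST M3 (adapt `restrictsToZero_wedgeOfForms_bm`; uses M1, M2 and `bm_identity _ _ 1`).  **The primitive.**
Let `N_a = M μ_a : A → ℂ / (ℤ + ℤ τ_a)`, `a < r`, be homomorphisms.  All multiples of a form `ℓ₀ ∧ ⋯ ∧ ℓ_n` with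
`ℓ_{j a} = μ_a` and `ℓ_{i a} = μ̄_a` for all `a < r` restrict to zero on the complement of the common zeros of the
functions `θ_{τ_a} ∘ N_a`. -/
theorem restrictsToZero_wedgeOfForms_bm_mixed {r : ℕ} {τ : Fin r → ℂ} (hτ0 : ∀ a, 0 < (τ a).im)
    {Λ : Submodule ℤ V} (μ : Fin r → V →ₗ[ℝ] ℂ) (N : Fin r → V →L[ℂ] ℂ) {M : ℕ} (hM : M ≠ 0)
    (hNμ : ∀ a v, N a v = (M : ℂ) * μ a v)
    (hN : ∀ a, ∀ l ∈ Λ, N a l ∈ lattice (tauBasis (τ a) (hτ0 a).ne')) {n : ℕ}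
    (ℓ : Fin (n + 1) → V →ₗ[ℝ] ℂ) (i j : Fin r → Fin (n + 1)) (hi : Function.Injective i)
    (hij : ∀ a c, i a ≠ j c) (hℓi : ∀ a, ℓ (i a) = conjForm (μ a)) (hℓj : ∀ a, ℓ (j a) = μ a)
    (c : ℂ) :
    RestrictsToZero Λ {y | ∀ a, N a y ∈ tauZeros (τ a)} (c • wedgeOfForms ℓ) := by
  have hMc : (M : ℂ) ≠ 0 := by exact_mod_cast hM
  set c' : ℂ := c / (-(M : ℂ)) with hc'
  have hden : -(M : ℂ) ≠ 0 := neg_ne_zero.2 hMc
  refine ⟨fun z => ∑ a, smulWedge (ℓ ∘ (i a).succAbove)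
    (c' * (-1 : ℂ) ^ (i a : ℕ) * bmAm τ N a z), ?_, ?_, ?_⟩
  · exact ContDiffOn.sum fun a _ => (smulWedge (ℓ ∘ (i a).succAbove)).contDiff.comp_contDiffOn
      (contDiffOn_const.mul (bmAm_contDiffOn hτ0 N a))
  · intro l hl x _
    simp only [bmAm_periodic hτ0 hN hl]
  · intro x hx v
    have hs : bmSm τ N x ≠ 0 := (bmSm_ne_zero_iff τ N x).2 hx
    have hA := fun a => extDeriv_smulWedge_of_hasDMod ℓ i j hi hij hℓi hℓj a
      ((bmAm_hasDMod hτ0 hNμ hs a).const_mul (c' * (-1 : ℂ) ^ (i a : ℕ)))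
    rw [extDeriv_finset_sum _ _ fun a _ => (hA a).1]
    rw [ContinuousAlternatingMap.sum_apply]
    simp only [(hA _).2]
    have hid := bm_identity (fun a => bmu (τ a) (N a x)) (bmHm τ N x) 1 hs
    have hsq : ∀ a : Fin r, (-1 : ℂ) ^ (i a : ℕ) * (-1 : ℂ) ^ (i a : ℕ) = 1 := fun a => by
      rw [← pow_add, ← two_mul, pow_mul]; simp
    have hterm : ∀ a : Fin r, (-1 : ℂ) ^ (i a : ℕ) * (c' * (-1 : ℂ) ^ (i a : ℕ) *
        ((M : ℂ) * ((bmHm τ N x a - 1 * bmu (τ a) (N a x)) *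
          bmQ (bmHm τ N x) 1 (bmSm τ N x) a -
        bmu (τ a) (N a x) * bmHm τ N x a * bmQp (bmHm τ N x) 1 (bmSm τ N x) a)) *
        wedgeOfForms ℓ v) = c' * (M : ℂ) * wedgeOfForms ℓ v *
        ((bmHm τ N x a - 1 * bmu (τ a) (N a x)) *
          bmQ (bmHm τ N x) 1 (bmSm τ N x) a -
        bmu (τ a) (N a x) * bmHm τ N x a * bmQp (bmHm τ N x) 1 (bmSm τ N x) a) := by
      intro a
      linear_combination (c' * ((M : ℂ) * ((bmHm τ N x a - 1 * bmu (τ a) (N a x)) *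
          bmQ (bmHm τ N x) 1 (bmSm τ N x) a -
        bmu (τ a) (N a x) * bmHm τ N x a * bmQp (bmHm τ N x) 1 (bmSm τ N x) a)) *
        wedgeOfForms ℓ v) * hsq a
    simp only [hterm]
    rw [← Finset.mul_sum]
    have hid' : ∑ a, ((bmHm τ N x a - 1 * bmu (τ a) (N a x)) *
          bmQ (bmHm τ N x) 1 (bmSm τ N x) a -
        bmu (τ a) (N a x) * bmHm τ N x a * bmQp (bmHm τ N x) 1 (bmSm τ N x) a) =
        -1 ^ r := hid
    rw [hid', AlternatingMap.smul_apply, smul_eq_mul, hc', one_pow]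
    field_simp

end Claimed.Open.R032
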