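import Claimed.Open.R032.SanityMixNum

/-!
# Products of square roots of rational numbers

`y_c`, `c < s`, are nonzero real numbers with rational squares, and *independent*: no product of an even positive number of
different `y_c` is rational.  Then the numbers `x_g = ∏_{c ∈ g} y_c⁻¹`, for `g` running through the subsets of odd
cardinality, are linearly independent over `ℚ`.
-/

namespace Claimed.Open.R032

/-- `x_g = ∏_{c ∈ g} y_c⁻¹`. -/
noncomputable def xg {s : ℕ} (y : Fin s → ℝ) (g : Finset (Fin s)) : ℝ := ∏ c ∈ g, (y c)⁻¹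

/-- POST N3. -/
theorem xg_ne_zero {s : ℕ} (y : Fin s → ℝ) (hy : ∀ c, y c ≠ 0) (g : Finset (Fin s)) : xg y g ≠ 0 := by
  unfold xg
  exact Finset.prod_ne_zero_iff.2 fun c _ => inv_ne_zero (hy c)

/-- POST N3. -/
theorem exists_rat_xg_sq {s : ℕ} (y : Fin s → ℝ) (hy2 : ∀ c, ∃ q : ℚ, (y c)⁻¹ ^ 2 = q)
    (g : Finset (Fin s)) : ∃ q : ℚ, xg y g ^ 2 = q := by
  choose q hq using hy2
  refine ⟨∏ c ∈ g, q c, ?_⟩
  unfold xg
  rw [← Finset.prod_pow]
  push_cast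
  exact Finset.prod_congr rfl fun c _ => hq c

/-- POST N3.  `y_c⁻¹ x_g ∈ ℚ x_{g ∆ {c}}`. -/
theorem exists_rat_inv_mul_xg {s : ℕ} (y : Fin s → ℝ) (hy2 : ∀ c, ∃ q : ℚ, (y c)⁻¹ ^ 2 = q)
    (g : Finset (Fin s)) (c : Fin s) : ∃ q : ℚ, (y c)⁻¹ * xg y g = q * xg y (symmDiff g {c}) := by
  by_cases hc : c ∈ g
  · obtain ⟨q, hq⟩ := hy2 c
    have h1 : symmDiff g {c} = g.erase c := by
      ext z
      simp only [Finset.mem_symmDiff, Finset.mem_singleton, Finset.mem_erase]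
      constructor
      · rintro (⟨h1, h2⟩ | ⟨h1, h2⟩)
        · exact ⟨h2, h1⟩
        · exact absurd (h1 ▸ hc) h2
      · rintro ⟨h1, h2⟩
        exact Or.inl ⟨h2, h1⟩
    refine ⟨q, ?_⟩
    rw [h1, ← hq]
    unfold xg
    rw [← Finset.mul_prod_erase g _ hc]
    ring
  · have h1 : symmDiff g {c} = insert c g := by
      ext z
      simp only [Finset.mem_symmDiff, Finset.mem_singleton, Finset.mem_insert]
      constructor
      · rintro (⟨h1, _⟩ | ⟨h1, _⟩)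
        · exact Or.inr h1
        · exact Or.inl h1
      · rintro (h1 | h1)
        · exact Or.inr ⟨h1, h1 ▸ hc⟩
        · exact Or.inl ⟨h1, fun h => hc (h ▸ h1)⟩
    refine ⟨1, ?_⟩
    rw [h1]
    unfold xg
    rw [Finset.prod_insert hc]
    simp

/-- `x_g = x_{g ∩ g₀} x_{g \ g₀}` -/
theorem n4_xg_split {s : ℕ} (y : Fin s → ℝ) (g g₀ : Finset (Fin s)) :
    xg y g = xg y (g ∩ g₀) * xg y (g \ g₀) := by
  unfold xg
  exact (Finset.prod_inter_mul_prod_sdiff g g₀ _).symm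

/-- `x_{g ∆ g₀} = x_{g \ g₀} x_{g₀ \ g}` -/
theorem n4_xg_symmDiff {s : ℕ} (y : Fin s → ℝ) (g g₀ : Finset (Fin s)) :
    xg y (symmDiff g g₀) = xg y (g \ g₀) * xg y (g₀ \ g) := by
  unfold xg
  rw [symmDiff_def, Finset.sup_eq_union, Finset.prod_union disjoint_sdiff_sdiff]

/-- POST N4.  If `x_g ∈ ℚ x_{g₀}` then `∏_{c ∈ g ∆ g₀} y_c ∈ ℚ`. -/
theorem exists_rat_prod_symmDiff {s : ℕ} (y : Fin s → ℝ) (hy : ∀ c, y c ≠ 0)
    (hy2 : ∀ c, ∃ q : ℚ, (y c)⁻¹ ^ 2 = q) (g g₀ : Finset (Fin s)) (h : ∃ q : ℚ, xg y g = q * xg y g₀) :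
    ∃ q : ℚ, ∏ c ∈ symmDiff g g₀, y c = q := by
  obtain ⟨q, hq⟩ := h
  obtain ⟨qB, hqB⟩ := exists_rat_xg_sq y hy2 (g₀ \ g)
  have hI : xg y (g ∩ g₀) ≠ 0 := xg_ne_zero y hy _
  have h1 : xg y (g \ g₀) = q * xg y (g₀ \ g) := by
    rw [n4_xg_split y g g₀, n4_xg_split y g₀ g, Finset.inter_comm g₀ g] at hq
    have : xg y (g ∩ g₀) * xg y (g \ g₀) = xg y (g ∩ g₀) * (q * xg y (g₀ \ g)) := by
      rw [hq]
      ring
    exact mul_left_cancel₀ hI this
  have h2 : ∏ c ∈ symmDiff g g₀, y c = (xg y (symmDiff g g₀))⁻¹ := by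
    unfold xg
    rw [Finset.prod_inv_distrib, inv_inv]
  refine ⟨(q * qB)⁻¹, ?_⟩
  rw [h2, n4_xg_symmDiff, h1]
  push_cast
  rw [← hqB]
  congr 1
  ring

/-- the symmetric difference of two sets of odd cardinality has even cardinality -/
theorem n5_even_card_symmDiff {s : ℕ} (g g₀ : Finset (Fin s)) (h : ¬ Even g.card) (h₀ : ¬ Even g₀.card) :
    Even (symmDiff g g₀).card := by
  have e1 : (symmDiff g g₀).card = (g \ g₀).card + (g₀ \ g).card := by
    rw [symmDiff_def, Finset.sup_eq_union, Finset.card_union_of_disjoint disjoint_sdiff_sdiff]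
  have e2 := Finset.card_sdiff_add_card_inter g g₀
  have e3 := Finset.card_sdiff_add_card_inter g₀ g
  rw [Finset.inter_comm g₀ g] at e3
  rw [Nat.even_iff] at h h₀ ⊢
  omega

/-- POST N5 (from `sum_sqClass_eq_zero`, N3, N4; `|g ∆ g₀|` is even and positive for `g ≠ g₀` both odd). -/
theorem xg_independent {s : ℕ} (y : Fin s → ℝ) (hy : ∀ c, y c ≠ 0) (hy2 : ∀ c, ∃ q : ℚ, (y c)⁻¹ ^ 2 = q)
    (hind : ∀ T : Finset (Fin s), T.Nonempty → Even T.card → ∀ q : ℚ, ∏ c ∈ T, y c ≠ q)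
    (q : Finset (Fin s) → ℚ) (hq : ∀ g, Even g.card → q g = 0)
    (h : ∑ g, (q g : ℝ) * xg y g = 0) : ∀ g, q g = 0 := by
  classical
  intro g₀
  by_cases h₀ : Even g₀.card
  · exact hq g₀ h₀
  have key := sum_sqClass_eq_zero (xg y) (exists_rat_xg_sq y hy2) (xg_ne_zero y hy) q h g₀
  rw [Finset.sum_eq_single g₀] at key
  · have := (mul_eq_zero.1 key).resolve_right (xg_ne_zero y hy g₀)
    exact_mod_cast this
  · intro g hg hne
    rw [Finset.mem_filter] at hg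
    by_cases hge : Even g.card
    · rw [hq g hge]
      simp
    · exfalso
      obtain ⟨r, hr⟩ := exists_rat_prod_symmDiff y hy hy2 g g₀ hg.2
      refine hind (symmDiff g g₀) ?_ (n5_even_card_symmDiff g g₀ hge h₀) r hr
      rw [Finset.nonempty_iff_ne_empty, ← Finset.bot_eq_empty, Ne, symmDiff_eq_bot]
      exact hne
  · intro hg
    exfalso
    apply hg
    rw [Finset.mem_filter]
    exact ⟨Finset.mem_univ _, 1, by simp⟩

end Claimed.Open.R032
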