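import Claimed.Open.R032.SanityMixMain
import Claimed.Open.R032.SanityIndNum

/-!
# Sign flips of the block weights

The coordinates `j < d` of `V` are distributed into blocks by `κ : Fin d → Fin s`; the periods have their `j`-th coordinates in
`ℚ + ℚ ρ_{κ j}`; `y_c = Im ρ_c`.  For signs `ε_c = ± 1` let `I^ε` be the multiplication by `ε_c i` on the block `c`, and
`A_ε = D_{I^ε}` (`signDer`); `A_1 = D_I`.  `A_ε = ∑_c ε_c a_c`, `a_c = D_{I_c}` (`blockDer`).

`signDer_mul_hop_eq_zero`: if the `y_c` are independent (`SanityIndNum.lean`), `φ` is rational and `P(A_1) φ = 0` for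
`P = X ∏_{δ=1}^{K} (X² + δ²)`, then `P(A_ε) φ = 0` for all `ε`.

Proof.  `a_c = y_c⁻¹ D_{J_c}` with `J_c ∈ End(A) ⊗ ℚ`; hence `a_c` maps the multilinear maps with values in `ℚ x_g` on the lattice
(`TwRat`) to those with values in `ℚ x_{g ∆ {c}}`.  On families `Ψ = (Ψ_g)_g` let `(𝐀 Ψ)_g = ∑_c a_c Ψ_{g ∆ {c}}` (`gradeDer`) and
`real_ε Ψ = ∑_g ε(g) Ψ_g`, `ε(g) = ∏_{c ∈ g} ε_c` (`realize`); then `real_ε ∘ 𝐀 = A_ε ∘ real_ε`.  Start with `Ψ⁰ = (φ at g = ∅)`;
`Ψ' = P(𝐀) Ψ⁰` has `Ψ'_g` with values in `ℚ x_g`, is supported on the odd `g`, and `∑_g Ψ'_g = P(A_1) φ = 0`.  By the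
independence of the `x_g`, `g` odd, `Ψ' = 0`; hence `P(A_ε) φ = real_ε Ψ' = 0`.
-/

open Module Complex

namespace Claimed.Open.R032

variable {V : Type*} [NormedAddCommGroup V] [InnerProductSpace ℂ V]
variable {ι : Type*}

/-- The multilinear map `ψ` takes values in `ℚ x` on the lattice. -/
def TwRat (Λ : Submodule ℤ V) (x : ℝ) {k : ℕ} (ψ : MForm V k) : Prop :=
  ∀ v : Fin k → V, (∀ i, v i ∈ Λ) → ∃ q : ℚ, ψ v = (q : ℂ) * (x : ℂ)

/-- `a_c = D_{I_c}`, `I_c` = multiplication by `i` on the block `c`, `0` on the other blocks. -/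
noncomputable def blockDer {d s : ℕ} (w : Basis (Fin d) ℂ V) (κ : Fin d → Fin s) (c : Fin s) (k : ℕ) :
    Module.End ℂ (MForm V k) :=
  derEnd (diagR w fun j => if κ j = c then I else 0) k

/-- `A_ε = D_{I^ε}`, `I^ε` = multiplication by `ε_c i` on the block `c`. -/
noncomputable def signDer {d s : ℕ} (w : Basis (Fin d) ℂ V) (κ : Fin d → Fin s) (ε : Fin s → ℤˣ) (k : ℕ) :
    Module.End ℂ (MForm V k) :=
  derEnd (diagR w fun j => (((ε (κ j) : ℤˣ) : ℤ) : ℂ) * I) k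

/-- `ε(g) = ∏_{c ∈ g} ε_c`. -/
def sgnOf {s : ℕ} (ε : Fin s → ℤˣ) (g : Finset (Fin s)) : ℤˣ := ∏ c ∈ g, ε c

/-- `(𝐀 Ψ)_g = ∑_c a_c Ψ_{g ∆ {c}}`. -/
noncomputable def gradeDer {d s : ℕ} (w : Basis (Fin d) ℂ V) (κ : Fin d → Fin s) (k : ℕ) :
    Module.End ℂ (Finset (Fin s) → MForm V k) :=
  LinearMap.pi fun g => ∑ c, blockDer w κ c k ∘ₗ LinearMap.proj (symmDiff g {c})

/-- `real_ε Ψ = ∑_g ε(g) Ψ_g`. -/
noncomputable def realize {s : ℕ} (ε : Fin s → ℤˣ) (V : Type*) [NormedAddCommGroup V] [InnerProductSpace ℂ V]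
    (k : ℕ) : (Finset (Fin s) → MForm V k) →ₗ[ℂ] MForm V k :=
  ∑ g, (((sgnOf ε g : ℤˣ) : ℤ) : ℂ) • LinearMap.proj g

/-- `hop A t = ∏_{δ=1}^{t} (A² + δ²)`. -/
noncomputable def hop {M : Type*} [AddCommGroup M] [Module ℂ M] (A : Module.End ℂ M) : ℕ → Module.End ℂ M
  | 0 => 1
  | t + 1 => (A * A + (((t + 1 : ℕ) : ℂ) ^ 2) • (1 : Module.End ℂ M)) * hop A t

/-! ### `TwRat` -/

/-- POST T1. -/
theorem TwRat.zero (Λ : Submodule ℤ V) (x : ℝ) (k : ℕ) : TwRat Λ x (0 : MForm V k) := by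
  intro v _
  exact ⟨0, by simp⟩

/-- POST T1. -/
theorem TwRat.add {Λ : Submodule ℤ V} {x : ℝ} {k : ℕ} {ψ ψ' : MForm V k} (h : TwRat Λ x ψ) (h' : TwRat Λ x ψ') :
    TwRat Λ x (ψ + ψ') := by
  intro v hv
  obtain ⟨q, hq⟩ := h v hv
  obtain ⟨q', hq'⟩ := h' v hv
  refine ⟨q + q', ?_⟩
  rw [add_apply, hq, hq']
  push_cast
  ring

/-- POST T1. -/
theorem TwRat.sum {Λ : Submodule ℤ V} {x : ℝ} {k : ℕ} {α : Type*} (S : Finset α) {ψ : α → MForm V k}
    (h : ∀ a ∈ S, TwRat Λ x (ψ a)) : TwRat Λ x (∑ a ∈ S, ψ a) := by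
  classical
  induction S using Finset.induction_on with
  | empty => simpa using TwRat.zero Λ x k
  | insert a S ha ih =>
    rw [Finset.sum_insert ha]
    exact (h a (Finset.mem_insert_self a S)).add (ih fun c hc => h c (Finset.mem_insert_of_mem hc))

/-- POST T1. -/
theorem TwRat.nat_sq_smul {Λ : Submodule ℤ V} {x : ℝ} {k : ℕ} {ψ : MForm V k} (h : TwRat Λ x ψ) (t : ℕ) :
    TwRat Λ x ((((t : ℕ) : ℂ) ^ 2) • ψ) := by
  intro v hv
  obtain ⟨q, hq⟩ := h v hv
  refine ⟨(t : ℚ) ^ 2 * q, ?_⟩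
  rw [smul_apply, hq, smul_eq_mul]
  push_cast
  ring

/-- POST T1.  Change of the number `x` by a rational factor, after multiplication by a real number. -/
theorem TwRat.real_smul {Λ : Submodule ℤ V} {x x' z : ℝ} {k : ℕ} {ψ : MForm V k} (h : TwRat Λ x ψ)
    (hz : ∃ q : ℚ, z * x = q * x') : TwRat Λ x' ((z : ℂ) • ψ) := by
  intro v hv
  obtain ⟨q, hq⟩ := h v hv
  obtain ⟨r, hr⟩ := hz
  refine ⟨q * r, ?_⟩
  have hr' : (z : ℂ) * (x : ℂ) = (r : ℂ) * (x' : ℂ) := by exact_mod_cast congrArg (fun u : ℝ => (u : ℂ)) hr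
  rw [smul_apply, hq, smul_eq_mul]
  push_cast
  calc (z : ℂ) * ((q : ℂ) * (x : ℂ)) = (q : ℂ) * ((z : ℂ) * (x : ℂ)) := by ring
    _ = (q : ℂ) * (r : ℂ) * (x' : ℂ) := by rw [hr']; ring

/-- POST T2 (adapt `exists_rat_derEnd`, `SanityMixDer.lean`). -/
theorem twRat_derEnd {Λ : Submodule ℤ V} {x : ℝ} {k : ℕ} {ψ : MForm V k} (h : TwRat Λ x ψ)
    (f : Module.End ℂ V) (hf : IsRationalEndomorphism Λ f) :
    TwRat Λ x (derEnd (f.restrictScalars ℝ) k ψ) := by
  obtain ⟨N, hN, hf⟩ := hf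
  intro v hv
  rw [derEnd_apply]
  have key : ∀ i, ∃ q : ℚ,
      ψ (Function.update v i ((f.restrictScalars ℝ) (v i))) = (q : ℂ) * (x : ℂ) := by
    intro i
    obtain ⟨q, hq⟩ := h (Function.update v i (N • f (v i))) (by
      intro j
      by_cases hj : j = i
      · subst hj
        simpa using hf _ (hv j)
      · simpa [Function.update_of_ne hj] using hv j)
    refine ⟨q / N, ?_⟩
    have h1 : ψ (Function.update v i (N • f (v i)))
        = (N : ℝ) • ψ (Function.update v i (f (v i))) := by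
      rw [← Nat.cast_smul_eq_nsmul ℝ, MultilinearMap.map_update_smul]
    have hN' : (N : ℂ) ≠ 0 := by exact_mod_cast hN.ne'
    have h2 : ψ (Function.update v i (f (v i))) = (q : ℂ) * (x : ℂ) / N := by
      rw [eq_div_iff hN', ← hq, h1, Complex.real_smul]
      push_cast
      ring
    show ψ (Function.update v i (f (v i))) = _
    rw [h2]
    push_cast
    ring
  choose q hq using key
  refine ⟨∑ i, q i, ?_⟩
  push_cast
  rw [Finset.sum_mul]
  exact Finset.sum_congr rfl fun i _ => hq i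

section block

variable [FiniteDimensional ℂ V]

/-- POST T3 (as in the proof of `derEnd_block_eq_zero`, `SanityMixMain.lean`): `I_c = y_c⁻¹ J_c`,
`J_c = diag(i y_c on the block c) ∈ End(A) ⊗ ℚ` (`isRationalEndomorphism_of_coords_mixed` with `ω = ρ ∘ κ`, `exists_rat_im_sq`);
`derEnd_sum_smul`, T2, `TwRat.real_smul`, `exists_rat_inv_mul_xg`. -/
theorem twRat_blockDer (b : Basis ι ℝ V) {d s : ℕ} (w : Basis (Fin d) ℂ V) (ρ : Fin s → ℂ) (κ : Fin d → Fin s)
    (hρ : ∀ c, (ρ c).im ≠ 0) (hρ2 : ∀ c, ∃ r t : ℚ, ρ c ^ 2 = r + t * ρ c)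
    (hb : ∀ i j, ∃ r t : ℚ, w.repr (b i) j = r + t * ρ (κ j)) {k : ℕ} {g : Finset (Fin s)} {ψ : MForm V k}
    (h : TwRat (lattice b) (xg (fun c => (ρ c).im) g) ψ) (c : Fin s) :
    TwRat (lattice b) (xg (fun c => (ρ c).im) (symmDiff g {c})) (blockDer w κ c k ψ) := by
  set J : Module.End ℂ V := diagEnd w (fun j => if κ j = c then I * (ρ c).im else 0) with hJ
  have hJrat : IsRationalEndomorphism (lattice b) J := by
    refine isRationalEndomorphism_of_coords_mixed b w (fun j => ρ (κ j)) hb _ fun i j => ?_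
    rw [hJ, repr_diagEnd]
    by_cases hj : κ j = c
    · obtain ⟨r, t, hrt⟩ := hb i j
      obtain ⟨r₀, t₀, h₀⟩ := hρ2 c
      obtain ⟨-, u, hu⟩ := exists_rat_im_sq (hρ c) (hρ2 c)
      refine ⟨u * r + t * r₀, u * t + r + t * t₀, ?_⟩
      rw [if_pos hj, hu, hrt, hj]
      push_cast
      linear_combination (t : ℂ) * h₀
    · refine ⟨0, 0, ?_⟩
      rw [if_neg hj]
      simp
  have hdiag : diagR w (fun j => if κ j = c then I else 0)
      = ∑ _a ∈ ({0} : Finset ℕ), ((ρ c).im)⁻¹ • J.restrictScalars ℝ := by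
    rw [Finset.sum_singleton]
    apply LinearMap.ext
    intro v
    apply w.repr.injective
    ext j
    have h1 : w.repr (diagR w (fun j => if κ j = c then I else 0) v) j
        = (if κ j = c then I else 0) * w.repr v j := repr_diagEnd w _ v j
    have h2 : w.repr (J.restrictScalars ℝ v) j
        = (if κ j = c then I * (ρ c).im else 0) * w.repr v j := repr_diagEnd w _ v j
    rw [h1, LinearMap.smul_apply, ← Complex.coe_smul, map_smul, Finsupp.smul_apply, smul_eq_mul, h2]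
    have h0 : ((ρ c).im : ℂ) ≠ 0 := by exact_mod_cast hρ c
    split_ifs with hj
    · push_cast
      field_simp
    · simp
  have hder : blockDer w κ c k ψ = ((((ρ c).im)⁻¹ : ℝ) : ℂ) • derEnd (J.restrictScalars ℝ) k ψ := by
    rw [blockDer, hdiag, derEnd_sum_smul, Finset.sum_singleton]
  rw [hder]
  exact (twRat_derEnd h J hJrat).real_smul
    (exists_rat_inv_mul_xg (fun c => (ρ c).im) (fun c => (exists_rat_im_sq (hρ c) (hρ2 c)).1) g c)

end block

/-- POST T4 (from `xg_independent` and `mform_eq_zero_of_lattice`). -/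
theorem eq_zero_of_sum_twRat (b : Basis ι ℝ V) {s : ℕ} (y : Fin s → ℝ) (hy : ∀ c, y c ≠ 0)
    (hy2 : ∀ c, ∃ q : ℚ, (y c)⁻¹ ^ 2 = q)
    (hind : ∀ T : Finset (Fin s), T.Nonempty → Even T.card → ∀ q : ℚ, ∏ c ∈ T, y c ≠ q) {k : ℕ}
    (Ψ : Finset (Fin s) → MForm V k) (hΨ : ∀ g, TwRat (lattice b) (xg y g) (Ψ g))
    (hodd : ∀ g, Even g.card → Ψ g = 0) (hsum : ∑ g, Ψ g = 0) : Ψ = 0 := by
  classical
  funext g₀
  refine mform_eq_zero_of_lattice b (Ψ g₀) fun v hv => ?_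
  have hq : ∀ g, ∃ q : ℚ, Ψ g v = (q : ℂ) * (xg y g : ℂ) ∧ (Even g.card → q = 0) := by
    intro g
    by_cases hg : Even g.card
    · refine ⟨0, ?_, fun _ => rfl⟩
      rw [hodd g hg]
      simp
    · obtain ⟨q, hq⟩ := hΨ g v hv
      exact ⟨q, hq, fun h => absurd h hg⟩
  choose q hq1 hq2 using hq
  have h1 : ∑ g, (q g : ℝ) * xg y g = 0 := by
    have h2 : (∑ g, Ψ g) v = 0 := by
      rw [hsum]
      rfl
    rw [sum_apply] at h2
    have h3 : ((∑ g, (q g : ℝ) * xg y g : ℝ) : ℂ) = 0 := by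
      rw [← h2]
      push_cast
      exact Finset.sum_congr rfl fun g _ => (hq1 g).symm
    exact_mod_cast h3
  have h4 := xg_independent y hy hy2 hind q hq2 h1 g₀
  rw [hq1 g₀, h4]
  simp

/-! ### The graded operators -/

/-- POST G3 (`derEnd_sum_smul`; `diagR w (ε ∘ κ · i) = ∑_c ε_c • diagR w (i on the block c)`). -/
theorem signDer_eq_sum {d s : ℕ} (w : Basis (Fin d) ℂ V) (κ : Fin d → Fin s) (ε : Fin s → ℤˣ) (k : ℕ) :
    signDer w κ ε k = ∑ c, (((ε c : ℤˣ) : ℤ) : ℂ) • blockDer w κ c k := by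
  have h : diagR w (fun j => (((ε (κ j) : ℤˣ) : ℤ) : ℂ) * I) =
      ∑ c ∈ Finset.univ, (((ε c : ℤˣ) : ℤ) : ℝ) • diagR w (fun j => if κ j = c then I else 0) := by
    refine LinearMap.ext fun v => w.repr.injective (Finsupp.ext fun j => ?_)
    rw [LinearMap.sum_apply, map_sum, Finsupp.finsetSum_apply]
    have h1 : ∀ c, w.repr (((((ε c : ℤˣ) : ℤ) : ℝ) • diagR w (fun j => if κ j = c then I else 0)) v) j =
        (((ε c : ℤˣ) : ℤ) : ℂ) * ((if κ j = c then I else 0) * w.repr v j) := by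
      intro c
      rw [LinearMap.smul_apply, ← Complex.coe_smul, map_smul, Finsupp.smul_apply, smul_eq_mul]
      push_cast
      congr 1
      exact repr_diagEnd w _ v j
    simp only [h1]
    rw [Finset.sum_eq_single (κ j)]
    · rw [if_pos rfl]
      show w.repr (diagEnd w _ v) j = _
      rw [repr_diagEnd]
      ring
    · intro c _ hc
      rw [if_neg (Ne.symm hc)]
      simp
    · intro hc
      exact absurd (Finset.mem_univ _) hc
  refine LinearMap.ext fun ψ => ?_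
  unfold signDer blockDer
  rw [h, derEnd_sum_smul, LinearMap.sum_apply]
  refine Finset.sum_congr rfl fun c _ => ?_
  rw [LinearMap.smul_apply]
  push_cast
  rfl

theorem gradeDer_apply {d s : ℕ} (w : Basis (Fin d) ℂ V) (κ : Fin d → Fin s) (k : ℕ)
    (Ψ : Finset (Fin s) → MForm V k) (g : Finset (Fin s)) :
    gradeDer w κ k Ψ g = ∑ c, blockDer w κ c k (Ψ (symmDiff g {c})) := by
  simp [gradeDer, LinearMap.sum_apply]

theorem realize_apply {s : ℕ} (ε : Fin s → ℤˣ) (k : ℕ) (Ψ : Finset (Fin s) → MForm V k) :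
    realize ε V k Ψ = ∑ g, (((sgnOf ε g : ℤˣ) : ℤ) : ℂ) • Ψ g := by
  simp [realize, LinearMap.sum_apply]

/-- POST G4.  `ε(g ∆ {c}) = ε_c ε(g)`. -/
theorem sgnOf_symmDiff {s : ℕ} (ε : Fin s → ℤˣ) (g : Finset (Fin s)) (c : Fin s) :
    sgnOf ε (symmDiff g {c}) = ε c * sgnOf ε g := by
  unfold sgnOf
  by_cases hc : c ∈ g
  · have e : symmDiff g {c} = g.erase c := by
      ext x
      simp only [Finset.mem_symmDiff, Finset.mem_singleton, Finset.mem_erase]
      constructor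
      · rintro (⟨h1, h2⟩ | ⟨h1, h2⟩)
        · exact ⟨h2, h1⟩
        · exact absurd (h1 ▸ hc) h2
      · rintro ⟨h1, h2⟩
        exact Or.inl ⟨h2, h1⟩
    rw [e, ← Finset.mul_prod_erase g ε hc, ← mul_assoc, Int.units_mul_self, one_mul]
  · have e : symmDiff g {c} = insert c g := by
      ext x
      simp only [Finset.mem_symmDiff, Finset.mem_singleton, Finset.mem_insert]
      constructor
      · rintro (⟨h1, h2⟩ | ⟨h1, h2⟩)
        · exact Or.inr h1
        · exact Or.inl h1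
      · rintro (h1 | h1)
        · exact Or.inr ⟨h1, h1 ▸ hc⟩
        · exact Or.inl ⟨h1, fun h => hc (h ▸ h1)⟩
    rw [e, Finset.prod_insert hc]

/-- the square of a sign, in `ℂ` -/
theorem ind57_sign_mul_self (u : ℤˣ) : (((u : ℤˣ) : ℤ) : ℂ) * (((u : ℤˣ) : ℤ) : ℂ) = 1 := by
  rw [← Int.cast_mul, ← Units.val_mul, Int.units_mul_self]
  simp

/-- POST G4 (from G3, `sgnOf_symmDiff`; reindex the sum over `g` by the involution `g ↦ g ∆ {c}`).
`real_ε ∘ 𝐀 = A_ε ∘ real_ε`. -/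
theorem realize_gradeDer {d s : ℕ} (w : Basis (Fin d) ℂ V) (κ : Fin d → Fin s) (ε : Fin s → ℤˣ) (k : ℕ)
    (Ψ : Finset (Fin s) → MForm V k) :
    realize ε V k (gradeDer w κ k Ψ) = signDer w κ ε k (realize ε V k Ψ) := by
  rw [realize_apply, realize_apply, signDer_eq_sum]
  simp only [gradeDer_apply, LinearMap.sum_apply, LinearMap.smul_apply, map_sum, map_smul,
    Finset.smul_sum]
  conv_lhs => rw [Finset.sum_comm]
  conv_rhs => rw [Finset.sum_comm]
  refine Finset.sum_congr rfl fun c _ => ?_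
  apply Finset.sum_nbij' (fun g : Finset (Fin s) => symmDiff g {c}) (fun g : Finset (Fin s) => symmDiff g {c})
  · exact fun _ _ => Finset.mem_univ _
  · exact fun _ _ => Finset.mem_univ _
  · exact fun g _ => symmDiff_symmDiff_cancel_right _ _
  · exact fun g _ => symmDiff_symmDiff_cancel_right _ _
  intro g _
  rw [sgnOf_symmDiff, Units.val_mul, Int.cast_mul, smul_smul, mul_comm (((ε c : ℤˣ) : ℤ) : ℂ), mul_assoc,
    ind57_sign_mul_self, mul_one]

/-- POST G5 (induction on `t` from `realize_gradeDer`). -/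
theorem realize_hop {d s : ℕ} (w : Basis (Fin d) ℂ V) (κ : Fin d → Fin s) (ε : Fin s → ℤˣ) (k t : ℕ)
    (Ψ : Finset (Fin s) → MForm V k) :
    realize ε V k (hop (gradeDer w κ k) t Ψ) = hop (signDer w κ ε k) t (realize ε V k Ψ) := by
  induction t with
  | zero => rfl
  | succ t ih =>
    show realize ε V k ((gradeDer w κ k * gradeDer w κ k + (((t + 1 : ℕ) : ℂ) ^ 2) • 1)
        (hop (gradeDer w κ k) t Ψ)) =
      (signDer w κ ε k * signDer w κ ε k + (((t + 1 : ℕ) : ℂ) ^ 2) • 1)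
        (hop (signDer w κ ε k) t (realize ε V k Ψ))
    rw [← ih]
    simp only [LinearMap.add_apply, Module.End.mul_apply, LinearMap.smul_apply, Module.End.one_apply,
      map_add, map_smul, realize_gradeDer]

/-- `Ψ_g` has values in `ℚ x_g` on the lattice, for all `g`. -/
def IsGraded (Λ : Submodule ℤ V) {s : ℕ} (y : Fin s → ℝ) {k : ℕ} (Ψ : Finset (Fin s) → MForm V k) : Prop :=
  ∀ g, TwRat Λ (xg y g) (Ψ g)

section block

variable [FiniteDimensional ℂ V]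

/-- POST G6 (from T3, `TwRat.sum`; `(g ∆ {c}) ∆ {c} = g`). -/
theorem isGraded_gradeDer (b : Basis ι ℝ V) {d s : ℕ} (w : Basis (Fin d) ℂ V) (ρ : Fin s → ℂ) (κ : Fin d → Fin s)
    (hρ : ∀ c, (ρ c).im ≠ 0) (hρ2 : ∀ c, ∃ r t : ℚ, ρ c ^ 2 = r + t * ρ c)
    (hb : ∀ i j, ∃ r t : ℚ, w.repr (b i) j = r + t * ρ (κ j)) {k : ℕ} {Ψ : Finset (Fin s) → MForm V k}
    (h : IsGraded (lattice b) (fun c => (ρ c).im) Ψ) :
    IsGraded (lattice b) (fun c => (ρ c).im) (gradeDer w κ k Ψ) := by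
  intro g
  rw [gradeDer_apply]
  refine TwRat.sum _ fun c _ => ?_
  have h1 := twRat_blockDer b w ρ κ hρ hρ2 hb (h (symmDiff g {c})) c
  rwa [symmDiff_symmDiff_cancel_right] at h1

/-- POST G6 (induction on `t`; `TwRat.add`, `TwRat.nat_sq_smul`). -/
theorem isGraded_hop (b : Basis ι ℝ V) {d s : ℕ} (w : Basis (Fin d) ℂ V) (ρ : Fin s → ℂ) (κ : Fin d → Fin s)
    (hρ : ∀ c, (ρ c).im ≠ 0) (hρ2 : ∀ c, ∃ r t : ℚ, ρ c ^ 2 = r + t * ρ c)
    (hb : ∀ i j, ∃ r t : ℚ, w.repr (b i) j = r + t * ρ (κ j)) {k : ℕ} {Ψ : Finset (Fin s) → MForm V k}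
    (h : IsGraded (lattice b) (fun c => (ρ c).im) Ψ) (t : ℕ) :
    IsGraded (lattice b) (fun c => (ρ c).im) (hop (gradeDer w κ k) t Ψ) := by
  induction t with
  | zero => exact h
  | succ t ih =>
    intro g
    have h2 := isGraded_gradeDer b w ρ κ hρ hρ2 hb (isGraded_gradeDer b w ρ κ hρ hρ2 hb ih) g
    exact TwRat.add h2 (TwRat.nat_sq_smul (ih g) (t + 1))

end block

/-- Helper of POST G7: `|g ∆ {c}| = |g| ± 1`, so the parity changes. -/
theorem ind238_odd_card_symmDiff {s : ℕ} (g : Finset (Fin s)) (c : Fin s) :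
    Odd (symmDiff g {c}).card ↔ Even g.card := by
  by_cases hc : c ∈ g
  · have e : symmDiff g {c} = g.erase c := by
      ext x
      simp only [Finset.mem_symmDiff, Finset.mem_singleton, Finset.mem_erase]
      constructor
      · rintro (⟨h1, h2⟩ | ⟨h1, h2⟩)
        · exact ⟨h2, h1⟩
        · exact absurd (h1 ▸ hc) h2
      · rintro ⟨h1, h2⟩
        exact Or.inl ⟨h2, h1⟩
    obtain ⟨n, hn⟩ := Nat.exists_eq_succ_of_ne_zero (Finset.card_pos.2 ⟨c, hc⟩).ne'
    rw [e, Finset.card_erase_of_mem hc, hn, Nat.succ_eq_add_one, Nat.add_sub_cancel, Nat.even_add_one,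
      Nat.not_even_iff_odd]
  · have e : symmDiff g {c} = insert c g := by
      ext x
      simp only [Finset.mem_symmDiff, Finset.mem_singleton, Finset.mem_insert]
      constructor
      · rintro (⟨h1, -⟩ | ⟨h1, -⟩)
        · exact Or.inr h1
        · exact Or.inl h1
      · rintro (h1 | h1)
        · exact Or.inr ⟨h1, h1 ▸ hc⟩
        · exact Or.inl ⟨h1, fun h2 => hc (h2 ▸ h1)⟩
    rw [e, Finset.card_insert_of_notMem hc, Nat.odd_add_one, Nat.not_odd_iff_even]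

/-- Helper of POST G7. -/
theorem ind238_even_card_symmDiff {s : ℕ} (g : Finset (Fin s)) (c : Fin s) :
    Even (symmDiff g {c}).card ↔ Odd g.card := by
  rw [← Nat.not_odd_iff_even, ind238_odd_card_symmDiff, Nat.not_even_iff_odd]

/-- POST G7 (`|g ∆ {c}| = |g| ± 1`). -/
theorem gradeDer_odd_of_even {d s : ℕ} (w : Basis (Fin d) ℂ V) (κ : Fin d → Fin s) (k : ℕ)
    {Ψ : Finset (Fin s) → MForm V k} (h : ∀ g, Odd g.card → Ψ g = 0) :
    ∀ g, Even g.card → gradeDer w κ k Ψ g = 0 := by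
  intro g hg
  rw [gradeDer_apply]
  refine Finset.sum_eq_zero fun c _ => ?_
  rw [h _ ((ind238_odd_card_symmDiff g c).2 hg), map_zero]

/-- POST G7. -/
theorem gradeDer_even_of_odd {d s : ℕ} (w : Basis (Fin d) ℂ V) (κ : Fin d → Fin s) (k : ℕ)
    {Ψ : Finset (Fin s) → MForm V k} (h : ∀ g, Even g.card → Ψ g = 0) :
    ∀ g, Odd g.card → gradeDer w κ k Ψ g = 0 := by
  intro g hg
  rw [gradeDer_apply]
  refine Finset.sum_eq_zero fun c _ => ?_
  rw [h _ ((ind238_even_card_symmDiff g c).2 hg), map_zero]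

/-- POST G7 (induction on `t`). -/
theorem hop_gradeDer_even {d s : ℕ} (w : Basis (Fin d) ℂ V) (κ : Fin d → Fin s) (k t : ℕ)
    {Ψ : Finset (Fin s) → MForm V k} (h : ∀ g, Odd g.card → Ψ g = 0) :
    ∀ g, Odd g.card → hop (gradeDer w κ k) t Ψ g = 0 := by
  induction t with
  | zero =>
    intro g hg
    exact h g hg
  | succ t ih =>
    intro g hg
    have e : hop (gradeDer w κ k) (t + 1) Ψ =
        gradeDer w κ k (gradeDer w κ k (hop (gradeDer w κ k) t Ψ)) +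
          (((t + 1 : ℕ) : ℂ) ^ 2) • hop (gradeDer w κ k) t Ψ := rfl
    rw [e, Pi.add_apply, Pi.smul_apply, ih g hg, smul_zero, add_zero]
    exact gradeDer_even_of_odd w κ k (gradeDer_odd_of_even w κ k ih) g hg

/-- **The sign flip.** -/
theorem signDer_mul_hop_eq_zero [FiniteDimensional ℂ V] (b : Basis ι ℝ V) {d s : ℕ} (w : Basis (Fin d) ℂ V)
    (ρ : Fin s → ℂ) (κ : Fin d → Fin s)
    (hρ : ∀ c, (ρ c).im ≠ 0) (hρ2 : ∀ c, ∃ r t : ℚ, ρ c ^ 2 = r + t * ρ c)
    (hind : ∀ T : Finset (Fin s), T.Nonempty → Even T.card → ∀ q : ℚ, ∏ c ∈ T, (ρ c).im ≠ q)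
    (hb : ∀ i j, ∃ r t : ℚ, w.repr (b i) j = r + t * ρ (κ j)) {k : ℕ} (φ : MForm V k)
    (hφ : TwRat (lattice b) 1 φ) (K : ℕ)
    (h1 : (signDer w κ 1 k * hop (signDer w κ 1 k) K) φ = 0) (ε : Fin s → ℤˣ) :
    (signDer w κ ε k * hop (signDer w κ ε k) K) φ = 0 := by
  classical
  set Ψ₀ : Finset (Fin s) → MForm V k := Pi.single ∅ φ with hΨ₀
  have hreal : ∀ ε' : Fin s → ℤˣ, realize ε' V k Ψ₀ = φ := by
    intro ε'
    rw [realize_apply, Finset.sum_eq_single ∅]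
    · simp [hΨ₀, sgnOf]
    · intro g _ hg
      simp [hΨ₀, Pi.single_eq_of_ne hg]
    · intro h; exact absurd (Finset.mem_univ _) h
  have hgr : IsGraded (lattice b) (fun c => (ρ c).im) Ψ₀ := by
    intro g
    by_cases hg : g = ∅
    · subst hg
      simpa [hΨ₀, xg] using hφ
    · rw [hΨ₀, Pi.single_eq_of_ne hg]
      exact TwRat.zero _ _ _
  have hev : ∀ g : Finset (Fin s), Odd g.card → Ψ₀ g = 0 := by
    intro g hg
    have : g ≠ ∅ := by
      rintro rfl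
      simp at hg
    rw [hΨ₀, Pi.single_eq_of_ne this]
  set Ψ' := gradeDer w κ k (hop (gradeDer w κ k) K Ψ₀) with hΨ'
  have hreal' : ∀ ε' : Fin s → ℤˣ, realize ε' V k Ψ' =
      (signDer w κ ε' k * hop (signDer w κ ε' k) K) φ := by
    intro ε'
    rw [hΨ', realize_gradeDer, realize_hop, hreal]
    rfl
  have hgr' : IsGraded (lattice b) (fun c => (ρ c).im) Ψ' :=
    isGraded_gradeDer b w ρ κ hρ hρ2 hb (isGraded_hop b w ρ κ hρ hρ2 hb hgr K)
  have hodd' : ∀ g, Even g.card → Ψ' g = 0 :=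
    gradeDer_odd_of_even w κ k (hop_gradeDer_even w κ k K hev)
  have hsum : ∑ g, Ψ' g = 0 := by
    have := hreal' 1
    rw [h1, realize_apply] at this
    simpa [sgnOf] using this
  have h0 : Ψ' = 0 := eq_zero_of_sum_twRat b (fun c => (ρ c).im) hρ
    (fun c => (exists_rat_im_sq (hρ c) (hρ2 c)).1) hind Ψ' hgr' hodd' hsum
  rw [← hreal' ε, h0, map_zero]

end Claimed.Open.R032
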