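import Claimed.Open.R032.SanityBMPol

/-!
# Polarisation in `r` pairs of slots, each pair inside one block of coordinates
-/

open MeasureTheory Module Set Complex

namespace Claimed.Open.R032

variable {V : Type*} [NormedAddCommGroup V] [InnerProductSpace ℂ V]

/-- The forms `ℓ₀ ∧ ⋯ ∧ ℓ_{n-1}` with `ℓ_{j a} = dz_{ka a}` and `ℓ_{i a} = dz̄_{la a}`, `a < r`, in `2 r` different slots,
where the coordinates `ka a` and `la a` belong to the same block (`κ (ka a) = κ (la a)`). -/
def pairedForms {d s : ℕ} (w : Basis (Fin d) ℂ V) (κ : Fin d → Fin s) (r n : ℕ) : Set (Form V n) :=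
  {φ | ∃ (ℓ : Fin n → V →ₗ[ℝ] ℂ) (i j : Fin r → Fin n) (ka la : Fin r → Fin d),
    Function.Injective i ∧ Function.Injective j ∧ (∀ a c, i a ≠ j c) ∧ (∀ a, κ (ka a) = κ (la a)) ∧
    (∀ a, ℓ (j a) = (w.coord (ka a)).restrictScalars ℝ) ∧
    (∀ a, ℓ (i a) = conjForm ((w.coord (la a)).restrictScalars ℝ)) ∧ φ = wedgeOfForms ℓ}

/-- The forms `ℓ₀ ∧ ⋯ ∧ ℓ_{n-1}` with `ℓ_{j a} = μ_a` and `ℓ_{i a} = μ̄_a`, `a < r`, in `2 r` different slots, where
`μ_a = polFam w (ρ c) (x a)` for two coordinates `(x a).1.1`, `(x a).1.2` of the same block `c`. -/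
def goodFormsM {d s : ℕ} (w : Basis (Fin d) ℂ V) (ρ : Fin s → ℂ) (κ : Fin d → Fin s) (r n : ℕ) :
    Set (Form V n) :=
  {φ | ∃ (x : Fin r → (Fin d × Fin d) × Fin 4) (ℓ : Fin n → V →ₗ[ℝ] ℂ) (i j : Fin r → Fin n),
    Function.Injective i ∧ Function.Injective j ∧ (∀ a c, i a ≠ j c) ∧
    (∀ a, κ (x a).1.1 = κ (x a).1.2) ∧
    (∀ a, ℓ (i a) = conjForm (polFam w (ρ (κ (x a).1.1)) (x a))) ∧
    (∀ a, ℓ (j a) = polFam w (ρ (κ (x a).1.1)) (x a)) ∧ φ = wedgeOfForms ℓ}

/-- POST K1 (adapt the `key` induction of `hodgePiece_le_span_goodFormsR`: polarise one pair of slots at a time with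
`wedgeTwo_polarise (ρ (κ (ka a)))`; here the slots already hold coordinate forms). -/
theorem pairedForms_subset_span_goodFormsM {d s : ℕ} (w : Basis (Fin d) ℂ V) (ρ : Fin s → ℂ)
    (hρ : ∀ c, (ρ c).im ≠ 0) (κ : Fin d → Fin s) (r n : ℕ) :
    pairedForms w κ r n ⊆ Submodule.span ℂ (goodFormsM w ρ κ r n) := by
  rintro _ ⟨ℓ₀, i, j, ka, la, hi, hj, hij, hκ, hjl, hil, rfl⟩
  -- downward induction on the number `s` of pairs of slots that are already polarised
  have key : ∀ t s : ℕ, s + t = r → ∀ (x : Fin r → (Fin d × Fin d) × Fin 4)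
      (ℓ : Fin n → V →ₗ[ℝ] ℂ),
      (∀ a : Fin r, (a : ℕ) < s → κ (x a).1.1 = κ (x a).1.2 ∧
        ℓ (i a) = conjForm (polFam w (ρ (κ (x a).1.1)) (x a)) ∧
        ℓ (j a) = polFam w (ρ (κ (x a).1.1)) (x a)) →
      (∀ a : Fin r, s ≤ (a : ℕ) →
        ℓ (j a) = (w.coord (ka a)).restrictScalars ℝ ∧
        ℓ (i a) = conjForm ((w.coord (la a)).restrictScalars ℝ)) →
      wedgeOfForms ℓ ∈ Submodule.span ℂ (goodFormsM w ρ κ r n) := by
    intro t
    induction t with
    | zero =>
      intro s hs x ℓ h1 _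
      exact Submodule.subset_span ⟨x, ℓ, i, j, hi, hj, hij,
        fun a => (h1 a (by have := a.2; omega)).1, fun a => (h1 a (by have := a.2; omega)).2.1,
        fun a => (h1 a (by have := a.2; omega)).2.2, rfl⟩
    | succ t ih =>
      intro s hs x ℓ h1 h2
      have hsr : s < r := by omega
      obtain ⟨a₀, ha₀⟩ : ∃ a₀ : Fin r, (a₀ : ℕ) = s := ⟨⟨s, hsr⟩, rfl⟩
      have hne : i a₀ ≠ j a₀ := hij a₀ a₀
      have hgood : ∀ y : (Fin d × Fin d) × Fin 4, κ y.1.1 = κ y.1.2 →
          wedgeTwo ℓ hne (polFam w (ρ (κ y.1.1)) y) (conjForm (polFam w (ρ (κ y.1.1)) y)) ∈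
          Submodule.span ℂ (goodFormsM w ρ κ r n) := by
        intro y hy
        rw [wedgeTwo_apply]
        refine ih (s + 1) (by omega) (Function.update x a₀ y) _ ?_ ?_
        · intro a ha
          by_cases ha : a = a₀
          · rw [ha, Function.update_self, Function.update_self,
              Function.update_of_ne hne.symm, Function.update_self]
            exact ⟨hy, rfl, rfl⟩
          · have hlt : (a : ℕ) < s := by
              have : (a : ℕ) ≠ s := fun h => ha (Fin.ext (h.trans ha₀.symm))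
              omega
            rw [Function.update_of_ne (hi.ne ha), Function.update_of_ne (hij a a₀),
              Function.update_of_ne (hij a₀ a).symm, Function.update_of_ne (hj.ne ha),
              Function.update_of_ne ha]
            exact h1 a hlt
        · intro a ha
          have hane : a ≠ a₀ := by
            intro h
            rw [h, ha₀] at ha
            omega
          rw [Function.update_of_ne (hi.ne hane), Function.update_of_ne (hij a a₀),
            Function.update_of_ne (hij a₀ a).symm, Function.update_of_ne (hj.ne hane)]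
          exact h2 a (by omega)
      have hpair : wedgeTwo ℓ hne ((w.coord (ka a₀)).restrictScalars ℝ)
          (conjForm ((w.coord (la a₀)).restrictScalars ℝ)) ∈
          Submodule.span ℂ (goodFormsM w ρ κ r n) := by
        rw [wedgeTwo_polarise (ρ (κ (ka a₀))) (hρ _)]
        have g0 := hgood ((ka a₀, la a₀), 0) (hκ a₀)
        have g1 := hgood ((ka a₀, la a₀), 1) (hκ a₀)
        have g2 := hgood ((ka a₀, la a₀), 2) (hκ a₀)
        have g3 := hgood ((ka a₀, la a₀), 3) (hκ a₀)
        simp only [polFam] at g0 g1 g2 g3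
        refine Submodule.smul_mem _ _ (Submodule.sub_mem _ (Submodule.smul_mem _ _ ?_) ?_)
        · exact Submodule.sub_mem _ (Submodule.sub_mem _ g2 g0) g1
        · exact Submodule.sub_mem _ (Submodule.sub_mem _ g3 g0) (Submodule.smul_mem _ _ g1)
      rw [← wedgeTwo_self ℓ hne, (h2 a₀ ha₀.ge).1, (h2 a₀ ha₀.ge).2]
      exact hpair
  exact key r 0 (by omega) (fun a => ((ka a, la a), 0)) ℓ₀
    (fun a ha => absurd ha (by omega)) (fun a _ => ⟨hjl a, hil a⟩)

end Claimed.Open.R032
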