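import Claimed.Open.R032.PowerCM

/-!
# Complex tori isogenous to a product of CM elliptic curves are CM abelian varieties

Let `A = V / Λ`, `Λ = lattice b`, and suppose that in some `ℂ`-basis `w` of `V` the `k`-th coordinates of the periods
`b i` lie in `K_k = ℚ + ℚ ω_k`, `ω_k ∉ ℝ` quadratic over `ℚ` (so `A` is isogenous to `∏_k ℂ/(ℤ + ℤ ω_k)`; the fields
`K_k` are arbitrary).  These are the statements of `PowerCM.lean` with `ω` replaced by `ω k`; the proofs are the same.
-/

open Module Complex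

namespace Claimed.Open.R032

variable {V : Type*} [NormedAddCommGroup V] [InnerProductSpace ℂ V] [FiniteDimensional ℂ V]
variable {ι : Type*}

omit [FiniteDimensional ℂ V] in
/-- POST C1 (copy of `exists_rat_combination_of_coords`).
`Λ ⊗ ℚ` consists of ALL the vectors whose `k`-th coordinate lies in `ℚ + ℚ ω_k` (count dimensions). -/
theorem exists_rat_combination_of_coords_mixed [Fintype ι] (b : Basis ι ℝ V) {n : ℕ}
    (w : Basis (Fin n) ℂ V) (ω : Fin n → ℂ) (hb : ∀ i k, ∃ r s : ℚ, w.repr (b i) k = r + s * ω k) (v : V)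
    (hv : ∀ k, ∃ r s : ℚ, w.repr v k = r + s * ω k) :
    ∃ c : ι → ℚ, v = ∑ i, (c i : ℝ) • b i := by
  classical
  choose r s hrs using hb
  choose r' s' hrs' using hv
  let A : Matrix (Fin n ⊕ Fin n) ι ℚ := Matrix.of fun x i => Sum.elim (r i) (s i) x
  have hcoord : ∀ (c : ι → ℚ) (k : Fin n), w.repr (∑ i, (c i : ℝ) • b i) k
      = ((A.mulVec c (Sum.inl k) : ℚ) : ℂ) + ((A.mulVec c (Sum.inr k) : ℚ) : ℂ) * ω k := by
    intro c k
    have h1 : ∀ i, w.repr ((c i : ℝ) • b i) k = (c i : ℂ) * (r i k + s i k * ω k) := by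
      intro i
      rw [← Complex.coe_smul, map_smul, Finsupp.smul_apply, hrs]
      simp
    rw [map_sum, Finsupp.finsetSum_apply]
    simp only [h1, Matrix.mulVec, dotProduct, A, Matrix.of_apply, Sum.elim_inl, Sum.elim_inr]
    push_cast
    rw [Finset.sum_mul, ← Finset.sum_add_distrib]
    refine Finset.sum_congr rfl fun i _ => ?_
    ring
  have hinj : Function.Injective A.mulVecLin := by
    rw [← LinearMap.ker_eq_bot, LinearMap.ker_eq_bot']
    intro c hc
    have hc' : A.mulVec c = 0 := hc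
    have h0 : ∑ i, (c i : ℝ) • b i = 0 := by
      apply w.repr.injective
      ext k
      rw [hcoord, hc']
      simp
    have := Fintype.linearIndependent_iff.1 b.linearIndependent _ h0
    funext i
    exact_mod_cast this i
  have hdim : finrank ℚ (ι → ℚ) = finrank ℚ (Fin n ⊕ Fin n → ℚ) := by
    rw [Module.finrank_fintype_fun_eq_card, Module.finrank_fintype_fun_eq_card,
      ← Module.finrank_eq_card_basis b, finrank_real_of_complex, Module.finrank_eq_card_basis w]
    simp [two_mul]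
  have hsurj : Function.Surjective A.mulVecLin :=
    (LinearMap.injective_iff_surjective_of_finrank_eq_finrank hdim).1 hinj
  obtain ⟨c, hc⟩ := hsurj (Sum.elim r' s')
  have hc' : A.mulVec c = Sum.elim r' s' := hc
  refine ⟨c, ?_⟩
  apply w.repr.injective
  ext k
  rw [hcoord, hc', hrs']
  simp

/-- POST C1 (copy of `isRationalEndomorphism_of_coords`). -/
theorem isRationalEndomorphism_of_coords_mixed (b : Basis ι ℝ V) {n : ℕ}
    (w : Basis (Fin n) ℂ V) (ω : Fin n → ℂ) (hb : ∀ i k, ∃ r s : ℚ, w.repr (b i) k = r + s * ω k)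
    (f : Module.End ℂ V) (hf : ∀ i k, ∃ r s : ℚ, w.repr (f (b i)) k = r + s * ω k) :
    IsRationalEndomorphism (lattice b) f := by
  have : Finite ι := Module.Finite.finite_basis b
  have := Fintype.ofFinite ι
  choose c hc using fun i => exists_rat_combination_of_coords_mixed b w ω hb (f (b i)) (hf i)
  obtain ⟨M, hM, hMc⟩ := exists_common_den (fun ij : ι × ι => c ij.1 ij.2)
  refine ⟨M, hM, ?_⟩
  have hle : lattice b ≤ (lattice b).comap ((M • f).restrictScalars ℤ) := by
    refine Submodule.span_le.2 ?_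
    rintro _ ⟨i, rfl⟩
    show M • f (b i) ∈ lattice b
    rw [hc i, Finset.smul_sum]
    refine Submodule.sum_mem _ fun j _ => ?_
    obtain ⟨z, hz⟩ := hMc (i, j)
    have hz' : (M : ℝ) * (c i j : ℝ) = z := by exact_mod_cast congrArg (fun q : ℚ => (q : ℝ)) hz
    have : M • ((c i j : ℝ) • b j) = z • b j := by
      rw [← Nat.cast_smul_eq_nsmul ℝ, smul_smul, hz', Int.cast_smul_eq_zsmul]
    rw [this]
    exact Submodule.smul_mem _ _ (Submodule.subset_span ⟨j, rfl⟩)
  intro v hv
  exact hle hv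

/-- The form `E(x,y) = ∑_k c_k Im (x_k conj y_k)` in the coordinates of the `ℂ`-basis `w`. -/
noncomputable def mix92_form {n : ℕ} (w : Basis (Fin n) ℂ V) (c : Fin n → ℝ) :
    V →ₗ[ℝ] V →ₗ[ℝ] ℝ :=
  ∑ k, c k • gaussForm.compl₁₂ ((w.coord k).restrictScalars ℝ) ((w.coord k).restrictScalars ℝ)

omit [FiniteDimensional ℂ V] in
theorem mix92_form_apply {n : ℕ} (w : Basis (Fin n) ℂ V) (c : Fin n → ℝ) (x y : V) :
    mix92_form w c x y
      = ∑ k, c k * ((w.repr x k).im * (w.repr y k).re - (w.repr x k).re * (w.repr y k).im) := by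
  simp [mix92_form, LinearMap.sum_apply, gaussForm_apply]

/-- POST C2 (adapt `isPolarizable_of_quadratic_periods`: `E(x,y) = M ∑_k Im (x_k conj y_k) / |Im ω_k|`). -/
theorem isPolarizable_of_mixed_periods (b : Basis ι ℝ V) {n : ℕ} (w : Basis (Fin n) ℂ V)
    (ω : Fin n → ℂ) (hω : ∀ k, (ω k).im ≠ 0) (hb : ∀ i k, ∃ r s : ℚ, w.repr (b i) k = r + s * ω k) :
    IsPolarizable (lattice b) := by
  classical
  have : Finite ι := Module.Finite.finite_basis b
  choose r s hrs using hb
  -- the sign of `Im ω_k`, a rational number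
  let σ : Fin n → ℚ := fun k => if 0 < (ω k).im then 1 else -1
  have hσ : ∀ k, (ω k).im / |(ω k).im| = (σ k : ℝ) := by
    intro k
    rcases lt_or_gt_of_ne (hω k) with h | h
    · have h' : ¬ 0 < (ω k).im := not_lt.2 h.le
      simp only [σ, if_neg h', abs_of_neg h]
      push_cast
      rw [div_neg, div_self (hω k)]
    · simp only [σ, if_pos h, abs_of_pos h]
      push_cast
      rw [div_self (hω k)]
  obtain ⟨M, hM, hMq⟩ := exists_common_den
    (fun ij : ι × ι => ∑ k, σ k * (s ij.1 k * r ij.2 k - r ij.1 k * s ij.2 k))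
  have hcpos : ∀ k, 0 < (M : ℝ) / |(ω k).im| := fun k =>
    div_pos (by exact_mod_cast hM) (abs_pos.2 (hω k))
  have hval : ∀ i j, mix92_form w (fun k => (M : ℝ) / |(ω k).im|) (b i) (b j)
      = (M : ℝ) * ((∑ k, σ k * (s i k * r j k - r i k * s j k) : ℚ) : ℝ) := by
    intro i j
    rw [mix92_form_apply]
    push_cast
    rw [Finset.mul_sum]
    refine Finset.sum_congr rfl fun k _ => ?_
    rw [← hσ k, hrs i k, hrs j k]
    simp
    ring
  refine ⟨mix92_form w (fun k => (M : ℝ) / |(ω k).im|), ?_, ?_, ?_, ?_⟩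
  · intro v
    rw [mix92_form_apply]
    simp [mul_comm]
  · apply integral_on_lattice_of_basis
    intro i j
    obtain ⟨z, hz⟩ := hMq (i, j)
    refine ⟨z, ?_⟩
    rw [hval]
    exact_mod_cast congrArg (fun q : ℚ => (q : ℝ)) hz
  · intro v v'
    simp only [mix92_form_apply, map_smul, Finsupp.smul_apply, smul_eq_mul]
    refine Finset.sum_congr rfl fun k _ => ?_
    congr 1
    simp
    ring
  · intro v hv
    rw [mix92_form_apply]
    have hk : ∃ k, w.repr v k ≠ 0 := by
      by_contra hcon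
      push Not at hcon
      apply hv
      apply w.repr.injective
      ext k
      simp [hcon k]
    obtain ⟨k, hk⟩ := hk
    have hterm : ∀ k, (w.repr (I • v) k).im * (w.repr v k).re - (w.repr (I • v) k).re * (w.repr v k).im
        = Complex.normSq (w.repr v k) := by
      intro k
      rw [map_smul, Finsupp.smul_apply, Complex.normSq_apply]
      simp
    simp only [hterm]
    exact Finset.sum_pos' (fun k _ => mul_nonneg (hcpos k).le (Complex.normSq_nonneg _))
      ⟨k, Finset.mem_univ k, mul_pos (hcpos k) (Complex.normSq_pos.2 hk)⟩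

/-- POST C3 (adapt `isCM_of_quadratic_periods`: `F = ∏_k QuadraticAlgebra ℚ (r₀ k) (s₀ k)`; uses C1). -/
theorem isCM_of_mixed_periods (b : Basis ι ℝ V) {n : ℕ} (w : Basis (Fin n) ℂ V)
    (ω : Fin n → ℂ) (hω : ∀ k, (ω k).im ≠ 0) (hω2 : ∀ k, ∃ r s : ℚ, ω k ^ 2 = r + s * ω k)
    (hb : ∀ i k, ∃ r s : ℚ, w.repr (b i) k = r + s * ω k) : IsCM (lattice b) := by
  choose r₀ s₀ h₀ using hω2
  have : ∀ k, Fact (∀ x : ℚ, x ^ 2 ≠ r₀ k + s₀ k * x) := by
    intro k
    refine ⟨fun x hx => hω k ?_⟩
    have hx' : (x : ℂ) ^ 2 = r₀ k + s₀ k * x := by exact_mod_cast congrArg (fun q : ℚ => (q : ℂ)) hx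
    have h1 : (ω k - x) * (ω k + x - s₀ k) = 0 := by linear_combination h₀ k - hx'
    rcases mul_eq_zero.1 h1 with h | h
    · have : ω k = x := by linear_combination h
      rw [this]; simp
    · have : ω k = ((s₀ k - x : ℚ) : ℂ) := by push_cast; linear_combination h
      rw [this]; exact Complex.ratCast_im _
  let emb : ∀ k, QuadraticAlgebra ℚ (r₀ k) (s₀ k) →ₐ[ℚ] ℂ := fun k =>
    QuadraticAlgebra.lift ⟨ω k, by rw [← sq, h₀ k]; simp [Rat.smul_def]⟩
  have hemb : ∀ k a, emb k a = (a.re : ℂ) + (a.im : ℂ) * ω k := by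
    intro k a
    have h : emb k a = a.re • (1 : ℂ) + a.im • ω k := rfl
    rw [h]
    simp [Rat.smul_def]
  let E : (∀ k, QuadraticAlgebra ℚ (r₀ k) (s₀ k)) →+* (Fin n → ℂ) :=
    RingHom.pi fun k => (emb k).toRingHom.comp (Pi.evalRingHom _ k)
  have hE : ∀ a k, E a k = emb k (a k) := fun _ _ => rfl
  refine ⟨∀ k, QuadraticAlgebra ℚ (r₀ k) (s₀ k), inferInstance, inferInstance,
    (diagEnd w).comp E, inferInstance, ?_, ?_, ?_⟩
  · rw [Module.finrank_pi_fintype, Module.finrank_eq_card_basis w]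
    simp [QuadraticAlgebra.finrank_eq_two, mul_comm]
  · refine (diagEnd_injective w).comp ?_
    intro a a' h
    funext k
    exact (emb k).toRingHom.injective (congrFun h k)
  · intro a
    refine isRationalEndomorphism_of_coords_mixed b w ω hb _ fun i k => ?_
    obtain ⟨r, s, hrs⟩ := hb i k
    refine ⟨(a k).re * r + (a k).im * s * r₀ k, (a k).re * s + (a k).im * r + (a k).im * s * s₀ k, ?_⟩
    have : w.repr (((diagEnd w).comp E) a (b i)) k = emb k (a k) * w.repr (b i) k :=
      repr_diagEnd w _ _ k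
    rw [this, hemb, hrs]
    push_cast
    linear_combination ((a k).im : ℂ) * s * h₀ k

end Claimed.Open.R032
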