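import Claimed.Open.R032.PowerSpan

/-!
# The derivation of the multilinear forms induced by an endomorphism

For an `ℝ`-linear `X : V → V`, `derEnd X n` is the operator `(D_X ψ)(v) = ∑_i ψ(v₀, …, X v_i, …, v_{n-1})` on the
`ℝ`-multilinear maps `V^n → ℂ` (the action of `X ∈ Lie GL(V)` on `H^n(A,ℂ)`, up to sign).
-/

open Module

namespace Claimed.Open.R032

variable {V : Type*} [NormedAddCommGroup V] [InnerProductSpace ℂ V]

/-- The `ℝ`-multilinear maps `V^n → ℂ`. -/
abbrev MForm (V : Type*) [NormedAddCommGroup V] [InnerProductSpace ℂ V] (n : ℕ) :=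
  MultilinearMap ℝ (fun _ : Fin n => V) ℂ

/-- `(D_X ψ)(v) = ∑_i ψ(v₀, …, X v_i, …, v_{n-1})`. -/
noncomputable def derEnd (X : V →ₗ[ℝ] V) (n : ℕ) : Module.End ℂ (MForm V n) where
  toFun ψ := ∑ i, ψ.compLinearMap (Function.update (fun _ => LinearMap.id) i X)
  map_add' ψ ψ' := by
    rw [← Finset.sum_add_distrib]
    refine Finset.sum_congr rfl fun i _ => ?_
    ext v
    simp
  map_smul' c ψ := by
    rw [Finset.smul_sum]
    refine Finset.sum_congr rfl fun i _ => ?_
    ext v
    simp

theorem derEnd_apply (X : V →ₗ[ℝ] V) {n : ℕ} (ψ : MForm V n) (v : Fin n → V) :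
    derEnd X n ψ v = ∑ i, ψ (Function.update v i (X (v i))) := by
  have h : derEnd X n ψ = ∑ i, ψ.compLinearMap (Function.update (fun _ => LinearMap.id) i X) := rfl
  rw [h, sum_apply]
  refine Finset.sum_congr rfl fun i _ => ?_
  rw [MultilinearMap.compLinearMap_apply]
  congr 1
  funext j
  by_cases hj : j = i
  · subst hj; simp
  · simp [Function.update_of_ne hj]

/-- POST D1.  A wedge product of eigenforms of `X` is an eigenvector of `D_X`
(Leibniz formula: `wedgeOfForms_eq_det`, `Matrix.det_apply`). -/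
theorem derEnd_wedgeOfForms (X : V →ₗ[ℝ] V) {n : ℕ} (ℓ : Fin n → V →ₗ[ℝ] ℂ) (lam : Fin n → ℂ)
    (h : ∀ a v, ℓ a (X v) = lam a * ℓ a v) :
    derEnd X n (wedgeOfForms ℓ).toMultilinearMap = (∑ a, lam a) • (wedgeOfForms ℓ).toMultilinearMap := by
  classical
  ext v
  rw [derEnd_apply, smul_apply]
  simp only [AlternatingMap.coe_multilinearMap]
  have key : ∀ i, wedgeOfForms ℓ (Function.update v i (X (v i)))
      = ∑ σ : Equiv.Perm (Fin n), lam (σ i) * (Equiv.Perm.sign σ • ∏ j, ℓ (σ j) (v j)) := by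
    intro i
    rw [wedgeOfForms_eq_det, Matrix.det_apply]
    refine Finset.sum_congr rfl fun σ _ => ?_
    have hprod : ∏ j, (Matrix.of fun a j => ℓ a (Function.update v i (X (v i)) j)) (σ j) j
        = lam (σ i) * ∏ j, ℓ (σ j) (v j) := by
      rw [← Finset.mul_prod_erase _ _ (Finset.mem_univ i),
        ← Finset.mul_prod_erase _ (fun j => ℓ (σ j) (v j)) (Finset.mem_univ i)]
      simp only [Matrix.of_apply, Function.update_self, h]
      rw [mul_assoc]
      congr 2
      refine Finset.prod_congr rfl fun j hj => ?_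
      rw [Function.update_of_ne (Finset.ne_of_mem_erase hj)]
    rw [hprod, mul_smul_comm]
  simp_rw [key]
  rw [Finset.sum_comm, wedgeOfForms_eq_det, Matrix.det_apply, smul_eq_mul, Finset.mul_sum]
  refine Finset.sum_congr rfl fun σ _ => ?_
  rw [← Finset.sum_mul, Equiv.sum_comp σ lam]
  rfl

/-- POST D2 (from D1; `evenOddEquiv`, `interleave_evenOddEquiv_inl`, `interleave_evenOddEquiv_inr`). -/
theorem derEnd_pairWedge (X : V →ₗ[ℝ] V) {p : ℕ} (α β : Fin p → V →ₗ[ℝ] ℂ) (la lb : Fin p → ℂ)
    (hα : ∀ j v, α j (X v) = la j * α j v) (hβ : ∀ j v, β j (X v) = lb j * β j v) :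
    derEnd X (2 * p) (pairWedge α β).toMultilinearMap
      = (∑ j, la j + ∑ j, lb j) • (pairWedge α β).toMultilinearMap := by
  have h := derEnd_wedgeOfForms X (interleave α β) (interleave la lb) (by
    intro a v
    obtain ⟨x, rfl⟩ := (evenOddEquiv p).surjective a
    rcases x with j | j
    · simp only [interleave_evenOddEquiv_inl]
      exact hα j v
    · simp only [interleave_evenOddEquiv_inr]
      exact hβ j v)
  have hs : ∑ a, interleave la lb a = ∑ j, la j + ∑ j, lb j := by
    rw [← (evenOddEquiv p).sum_comp, Fintype.sum_sum_type]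
    simp only [interleave_evenOddEquiv_inl, interleave_evenOddEquiv_inr]
  rw [← hs]
  exact h

/-- POST D3.  `X ↦ D_X ψ` is `ℝ`-linear. -/
theorem derEnd_sum_smul {κ : Type*} (T : Finset κ) (c : κ → ℝ) (X : κ → V →ₗ[ℝ] V) {n : ℕ} (ψ : MForm V n) :
    derEnd (∑ k ∈ T, c k • X k) n ψ = ∑ k ∈ T, (c k : ℂ) • derEnd (X k) n ψ := by
  ext v
  rw [derEnd_apply, sum_apply]
  simp only [smul_apply, derEnd_apply, LinearMap.sum_apply, LinearMap.smul_apply,
    MultilinearMap.map_update_sum, MultilinearMap.map_update_smul]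
  rw [Finset.sum_comm]
  refine Finset.sum_congr rfl fun k _ => ?_
  rw [Finset.smul_sum]
  refine Finset.sum_congr rfl fun i _ => ?_
  rw [Complex.real_smul, smul_eq_mul]

/-- POST D4.  If `f ∈ End(A) ⊗ ℚ` and `φ` is rational, then `D_f φ` is rational. -/
theorem exists_rat_derEnd (Λ : Submodule ℤ V) (f : Module.End ℂ V) (hf : IsRationalEndomorphism Λ f) {n : ℕ}
    (φ : Form V n) (hφ : IsRational Λ φ) (v : Fin n → V) (hv : ∀ i, v i ∈ Λ) :
    ∃ q : ℚ, derEnd (f.restrictScalars ℝ) n φ.toMultilinearMap v = q := by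
  obtain ⟨N, hN, hf⟩ := hf
  rw [derEnd_apply]
  have key : ∀ i, ∃ q : ℚ,
      φ.toMultilinearMap (Function.update v i ((f.restrictScalars ℝ) (v i))) = (q : ℂ) := by
    intro i
    obtain ⟨q, hq⟩ := hφ (Function.update v i (N • f (v i))) (by
      intro j
      by_cases hj : j = i
      · subst hj
        simpa using hf _ (hv j)
      · simpa [Function.update_of_ne hj] using hv j)
    refine ⟨q / N, ?_⟩
    have h1 : φ (Function.update v i (N • f (v i)))
        = (N : ℝ) • φ (Function.update v i (f (v i))) := by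
      rw [← Nat.cast_smul_eq_nsmul ℝ, AlternatingMap.map_update_smul]
    have hN' : (N : ℂ) ≠ 0 := by exact_mod_cast hN.ne'
    have h2 : φ (Function.update v i (f (v i))) = (q : ℂ) / N := by
      rw [eq_div_iff hN', ← hq, h1, Complex.real_smul]
      push_cast
      ring
    show φ (Function.update v i (f (v i))) = _
    rw [h2]
    push_cast
    rfl
  choose q hq using key
  refine ⟨∑ i, q i, ?_⟩
  push_cast
  exact Finset.sum_congr rfl fun i _ => hq i

/-- POST D5.  A multilinear map which vanishes on the lattice vanishes (`Basis.ext_multilinear`). -/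
theorem mform_eq_zero_of_lattice {ι : Type*} (b : Basis ι ℝ V) {n : ℕ} (ψ : MForm V n)
    (h : ∀ v : Fin n → V, (∀ i, v i ∈ lattice b) → ψ v = 0) : ψ = 0 := by
  refine Basis.ext_multilinear (fun _ => b) fun w => ?_
  rw [h _ (fun i => Submodule.subset_span ⟨w i, rfl⟩)]
  rfl

end Claimed.Open.R032
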