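import Mathlib

/-!
# Two abstract lemmas for `SanityMixMain.lean`
-/

namespace Claimed.Open.R032

/-- POST G1.  If a sum of eigenvectors of `Δ` is killed by `Δ`, then it is the sum of the eigenvectors with eigenvalue `0`
(eigenvectors for distinct eigenvalues are independent: `Module.End.eigenspaces_iSupIndep`). -/
theorem sum_eq_sum_filter_of_eigen {M : Type*} [AddCommGroup M] [Module ℂ M] (Δ : Module.End ℂ M) {S : Type*}
    (T : Finset S) (m : S → M) (lam : S → ℂ) [DecidablePred fun s => lam s = 0]
    (hm : ∀ s ∈ T, Δ (m s) = lam s • m s) (h : Δ (∑ s ∈ T, m s) = 0) :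
    ∑ s ∈ T, m s = ∑ s ∈ T with lam s = 0, m s := by
  classical
  -- the block of the eigenvalue `μ`
  set v : ℂ → M := fun μ => ∑ s ∈ T with lam s = μ, m s with hv
  have hfib : ∀ g : S → M, ∑ s ∈ T, g s = ∑ μ ∈ T.image lam, ∑ s ∈ T with lam s = μ, g s := fun g =>
    (Finset.sum_fiberwise_of_maps_to (fun s hs => Finset.mem_image_of_mem lam hs) g).symm
  have hmem : ∀ μ, v μ ∈ Δ.eigenspace μ := by
    intro μ
    refine Submodule.sum_mem _ fun s hs => ?_
    obtain ⟨hsT, hsμ⟩ := Finset.mem_filter.1 hs
    rw [Module.End.mem_eigenspace_iff, hm s hsT, hsμ]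
  have hΔ : ∑ μ ∈ T.image lam, μ • v μ = 0 := by
    rw [← h, hfib m, map_sum]
    refine Finset.sum_congr rfl fun μ _ => ?_
    exact (Module.End.mem_eigenspace_iff.1 (hmem μ)).symm
  have hind := (iSupIndep_iff_finsetSum_eq_zero_imp_eq_zero Δ.eigenspace).1 Δ.eigenspaces_iSupIndep
    (T.image lam) (fun μ => μ • v μ) (fun μ _ => (Δ.eigenspace μ).smul_mem μ (hmem μ)) hΔ
  have hz : ∀ μ ∈ T.image lam, μ ≠ 0 → v μ = 0 := fun μ hμ h0 => (smul_eq_zero.1 (hind μ hμ)).resolve_left h0
  rw [hfib m]
  by_cases h0 : (0 : ℂ) ∈ T.image lam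
  · rw [Finset.sum_eq_single_of_mem 0 h0 (fun μ hμ hne => hz μ hμ hne)]
    exact Finset.sum_congr (by ext s; simp only [Finset.mem_filter]) (fun _ _ => rfl)
  · rw [Finset.sum_eq_zero (fun μ hμ => hz μ hμ (fun h' => h0 (h' ▸ hμ)))]
    symm
    refine Finset.sum_eq_zero fun s hs => ?_
    obtain ⟨hsT, hs0⟩ := Finset.mem_filter.1 hs
    exact (h0 (hs0 ▸ Finset.mem_image_of_mem lam hsT)).elim

/-- POST G2.  Two maps `k, l : Fin p → Fin n` which meet every class of an equivalence relation equally often differ by a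
permutation of `Fin p`, up to equivalence (`Equiv.ofFiberEquiv`). -/
theorem exists_perm_of_card_fiber_eq {n p : ℕ} (R : Fin n → Fin n → Prop) [DecidableRel R] (hR : Equivalence R)
    (k l : Fin p → Fin n)
    (h : ∀ k₀, (Finset.univ.filter fun j => R (k j) k₀).card = (Finset.univ.filter fun j => R (l j) k₀).card) :
    ∃ σ : Equiv.Perm (Fin p), ∀ j, R (k j) (l (σ j)) := by
  classical
  let st : Setoid (Fin n) := ⟨R, hR⟩
  let f : Fin p → Quotient st := fun j => Quotient.mk st (k j)
  let g : Fin p → Quotient st := fun j => Quotient.mk st (l j)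
  have hcard : ∀ c : Quotient st, Fintype.card { a // f a = c } = Fintype.card { b // g b = c } := by
    intro c
    induction c using Quotient.inductionOn with
    | h k₀ =>
      rw [Fintype.card_subtype, Fintype.card_subtype]
      have e1 : (Finset.univ.filter fun a => f a = Quotient.mk st k₀) = Finset.univ.filter fun j => R (k j) k₀ := by
        ext j
        simp only [Finset.mem_filter, Finset.mem_univ, true_and]
        exact Quotient.eq (r := st)
      have e2 : (Finset.univ.filter fun a => g a = Quotient.mk st k₀) = Finset.univ.filter fun j => R (l j) k₀ := by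
        ext j
        simp only [Finset.mem_filter, Finset.mem_univ, true_and]
        exact Quotient.eq (r := st)
      rw [e1, e2, h k₀]
  let σ : Equiv.Perm (Fin p) := Equiv.ofFiberEquiv (f := f) (g := g) fun c => Fintype.equivOfCardEq (hcard c)
  refine ⟨σ, fun j => ?_⟩
  have hj : g (σ j) = f j := Equiv.ofFiberEquiv_map _ j
  exact (Quotient.eq (r := st)).1 hj.symm

end Claimed.Open.R032
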