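import Claimed.Open.R032.SanityMixMain
import Claimed.Open.R032.SanityThetaTau

/-!
# Products of CM elliptic curves with different CM fields

* `HasMixedQuadraticPeriods b`: in some `ℂ`-basis of `V` the `k`-th coordinates of the periods lie in an imaginary
  quadratic field `K_k`, which may depend on `k`.  These are the abelian varieties isogenous to a product of CM elliptic
  curves.
* `ellProdBasis τ`: the product `∏_j ℂ / (ℤ + ℤ τ_j)`.
* `twoFieldsBasis`: `ℂ/ℤ[i] × ℂ/ℤ[√-2]`, which is NOT isogenous to a power of an elliptic curve.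
-/

open MeasureTheory Module Complex

namespace Claimed.Open.R032

/-- In some `ℂ`-basis `w` of `V` the `k`-th coordinates of the periods of `A = V / lattice b` lie in an imaginary quadratic
field `K_k = ℚ + ℚ ω_k` (depending on `k`).  Then `lattice b` is commensurable with `⊕_k (ℤ + ℤ ω_k) w_k`, so that `A` is
isogenous to the product of the CM elliptic curves `ℂ / (ℤ + ℤ ω_k)`; and every abelian variety isogenous to a product of CM
elliptic curves is of this form. -/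
def HasMixedQuadraticPeriods {V : Type*} [NormedAddCommGroup V] [InnerProductSpace ℂ V] {ι : Type*}
    (b : Basis ι ℝ V) : Prop :=
  ∃ (n : ℕ) (w : Basis (Fin n) ℂ V) (ω : Fin n → ℂ), (∀ k, (ω k).im ≠ 0) ∧
    (∀ k, ∃ r s : ℚ, ω k ^ 2 = r + s * ω k) ∧ ∀ i k, ∃ r s : ℚ, w.repr (b i) k = r + s * ω k

/-- The period basis of the product of elliptic curves `∏_j ℂ / (ℤ + ℤ τ_j)`. -/
noncomputable def ellProdBasis {p : ℕ} (τ : Fin p → ℂ) (hτ : ∀ j, (τ j).im ≠ 0) :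
    Basis (Σ _ : Fin p, Fin 2) ℝ (Cn p) :=
  prodBasis fun j => tauBasis (τ j) (hτ j)

/-- POST X1. -/
theorem ellProdBasis_apply {p : ℕ} (τ : Fin p → ℂ) (hτ : ∀ j, (τ j).im ≠ 0) (j : Fin p) (e : Fin 2) (k : Fin p) :
    (ellProdBasis τ hτ ⟨j, e⟩ : Cn p) k = if k = j then (![1, τ j] : Fin 2 → ℂ) e else 0 := by
  rw [ellProdBasis, prodBasis, Basis.map_apply, Pi.basis_apply]
  change (Pi.single j (tauBasis (τ j) (hτ j) e) : Fin p → ℂ) k = _
  rw [coe_tauBasis, Pi.single_apply]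

/-- POST X1.  A product of CM elliptic curves has mixed quadratic periods. -/
theorem hasMixedQuadraticPeriods_ellProdBasis {p : ℕ} (τ : Fin p → ℂ) (hτ : ∀ j, (τ j).im ≠ 0)
    (hτ2 : ∀ j, ∃ r s : ℚ, τ j ^ 2 = r + s * τ j) : HasMixedQuadraticPeriods (ellProdBasis τ hτ) := by
  refine ⟨p, (EuclideanSpace.basisFun (Fin p) ℂ).toBasis, τ, hτ, hτ2, ?_⟩
  rintro ⟨j, e⟩ k
  rw [OrthonormalBasis.coe_toBasis_repr_apply, EuclideanSpace.basisFun_repr, ellProdBasis_apply]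
  split_ifs with hkj
  · subst hkj
    fin_cases e
    · exact ⟨1, 0, by simp⟩
    · exact ⟨0, 1, by simp⟩
  · exact ⟨0, 0, by simp⟩

theorem twoFields_im_ne_zero : ∀ j, ((![I, (Real.sqrt 2 : ℂ) * I] : Fin 2 → ℂ) j).im ≠ 0 := by
  intro j
  fin_cases j
  · simp
  · simp

/-- The period basis `(1,0), (i,0), (0,1), (0,√-2)` of `ℂ/ℤ[i] × ℂ/ℤ[√-2]`. -/
noncomputable def twoFieldsBasis : Basis (Σ _ : Fin 2, Fin 2) ℝ (Cn 2) :=
  ellProdBasis ![I, (Real.sqrt 2 : ℂ) * I] twoFields_im_ne_zero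

/-- POST X1. -/
theorem twoFields_hasMixedQuadraticPeriods : HasMixedQuadraticPeriods twoFieldsBasis := by
  apply hasMixedQuadraticPeriods_ellProdBasis
  intro j
  fin_cases j
  · exact ⟨-1, 0, by simp⟩
  · refine ⟨-2, 0, ?_⟩
    have h2 : ((Real.sqrt 2 : ℂ)) ^ 2 = 2 := by
      rw [← Complex.ofReal_pow, Real.sq_sqrt (by norm_num)]
      norm_num
    simp [mul_pow, h2]

/-- Helper of POST X2: a nonzero vector has a nonzero coordinate. -/
theorem mix238_exists_repr_ne_zero {n : ℕ} (w : Basis (Fin n) ℂ (Cn 2)) {v : Cn 2} (hv : v ≠ 0) :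
    ∃ k, w.repr v k ≠ 0 := by
  by_contra hcon
  push Not at hcon
  apply hv
  apply w.repr.injective
  ext k
  simp [hcon k]

/-- Helper of POST X2: a real multiple `t (P + Q ρ) = P' + Q' ρ` of a nonzero element of `ℚ + ℚ ρ`, `ρ ∉ ℝ`, which lies in
`ℚ + ℚ ρ` again, has a rational factor `t`. -/
theorem mix238_rat_of_mul {ρ : ℂ} (hρ : ρ.im ≠ 0) {t : ℝ} {P Q P' Q' : ℚ}
    (h0 : (P : ℂ) + Q * ρ ≠ 0) (h : (t : ℂ) * (P + Q * ρ) = P' + Q' * ρ) : ∃ q : ℚ, (q : ℝ) = t := by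
  have him := congrArg Complex.im h
  have hre := congrArg Complex.re h
  simp only [Complex.mul_im, Complex.mul_re, Complex.add_im, Complex.add_re, Complex.ofReal_re, Complex.ofReal_im,
    Complex.ratCast_re, Complex.ratCast_im, zero_mul, add_zero, zero_add, sub_zero] at him hre
  have hQ : t * Q = Q' := by
    have : (t * Q - Q') * ρ.im = 0 := by linarith
    have := (mul_eq_zero.1 this).resolve_right hρ
    linarith
  have hP : t * P = P' := by
    have : t * P = P' + (Q' - t * Q) * ρ.re := by linarith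
    rw [this, hQ]
    ring
  by_cases hQ0 : Q = 0
  · have hP0 : P ≠ 0 := by
      rintro rfl
      apply h0
      simp [hQ0]
    refine ⟨P' / P, ?_⟩
    have : (P : ℝ) ≠ 0 := by exact_mod_cast hP0
    push_cast
    rw [← hP]
    field_simp
  · refine ⟨Q' / Q, ?_⟩
    have : (Q : ℝ) ≠ 0 := by exact_mod_cast hQ0
    push_cast
    rw [← hQ]
    field_simp

/-- POST X2.  `ℂ/ℤ[i] × ℂ/ℤ[√-2]` is not isogenous to a power of an elliptic curve: in no `ℂ`-basis do all the coordinates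
of the periods lie in ONE field `ℚ + ℚ ρ`.  (A coordinate form is `(z₁,z₂) ↦ α z₁ + β z₂`; its values on the periods are
`α, α i, β, β √-2`.  Take a coordinate with `α ≠ 0` and one with `β ≠ 0`: then `(β √-2) α = √2 · β (α i)`, where both
`(β √-2) α` and `β (α i) ≠ 0` lie in the ring `ℚ + ℚ ρ`; comparing real and imaginary parts, `√2` is rational, against
`irrational_sqrt_two`.) -/
theorem twoFields_not_one_field : ¬ ∃ (n : ℕ) (w : Basis (Fin n) ℂ (Cn 2)) (ρ : ℂ), ρ.im ≠ 0 ∧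
    (∃ r s : ℚ, ρ ^ 2 = r + s * ρ) ∧ ∀ i k, ∃ r s : ℚ, w.repr (twoFieldsBasis i) k = r + s * ρ := by
  rintro ⟨n, w, ρ, hρ, ⟨r0, s0, hρ2⟩, h⟩
  have hI : twoFieldsBasis ⟨0, 1⟩ = I • twoFieldsBasis ⟨0, 0⟩ := by
    ext k
    rw [PiLp.smul_apply, twoFieldsBasis, ellProdBasis_apply, ellProdBasis_apply]
    split_ifs <;> simp
  have hS : twoFieldsBasis ⟨1, 1⟩ = ((Real.sqrt 2 : ℂ) * I) • twoFieldsBasis ⟨1, 0⟩ := by
    ext k
    rw [PiLp.smul_apply, twoFieldsBasis, ellProdBasis_apply, ellProdBasis_apply]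
    split_ifs <;> simp
  obtain ⟨k, hk⟩ := mix238_exists_repr_ne_zero w (twoFieldsBasis.ne_zero ⟨0, 0⟩)
  obtain ⟨l, hl⟩ := mix238_exists_repr_ne_zero w (twoFieldsBasis.ne_zero ⟨1, 0⟩)
  obtain ⟨a, b, hα⟩ := h ⟨0, 0⟩ k
  obtain ⟨c, d, hα'⟩ := h ⟨0, 1⟩ k
  obtain ⟨a', b', hβ⟩ := h ⟨1, 0⟩ l
  obtain ⟨c', d', hβ'⟩ := h ⟨1, 1⟩ l
  rw [hI, map_smul, Finsupp.smul_apply, smul_eq_mul] at hα'
  rw [hS, map_smul, Finsupp.smul_apply, smul_eq_mul] at hβ'
  set α := w.repr (twoFieldsBasis ⟨0, 0⟩) k with hαdef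
  set β := w.repr (twoFieldsBasis ⟨1, 0⟩) l with hβdef
  -- `β (α i) = P + Q ρ`, `(β √-2) α = P' + Q' ρ`
  have e1 : β * (I * α) = ((a' * c + b' * d * r0 : ℚ) : ℂ) + ((a' * d + b' * c + b' * d * s0 : ℚ) : ℂ) * ρ := by
    rw [hα', hβ]
    push_cast
    linear_combination (b' * d : ℂ) * hρ2
  have e2 : ((Real.sqrt 2 : ℂ) * I * β) * α
      = ((c' * a + d' * b * r0 : ℚ) : ℂ) + ((c' * b + d' * a + d' * b * s0 : ℚ) : ℂ) * ρ := by
    rw [hβ', hα]
    push_cast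
    linear_combination (d' * b : ℂ) * hρ2
  have h0 : β * (I * α) ≠ 0 := mul_ne_zero hl (mul_ne_zero I_ne_zero hk)
  have e3 : ((Real.sqrt 2 : ℝ) : ℂ) * (((a' * c + b' * d * r0 : ℚ) : ℂ) + ((a' * d + b' * c + b' * d * s0 : ℚ) : ℂ) * ρ)
      = ((c' * a + d' * b * r0 : ℚ) : ℂ) + ((c' * b + d' * a + d' * b * s0 : ℚ) : ℂ) * ρ := by
    rw [← e1, ← e2]
    ring
  obtain ⟨q, hq⟩ := mix238_rat_of_mul hρ (e1 ▸ h0) e3
  exact irrational_sqrt_two ⟨q, hq⟩

end Claimed.Open.R032
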