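import Mathlib

/-!
# Square roots of rational numbers in distinct square classes are linearly independent over `ℚ`

`sum_sqClass_eq_zero`: let `x_k` be nonzero real numbers with `x_k² ∈ ℚ`.  In a relation `∑ a_k x_k = 0` with rational
coefficients, the part of the sum which belongs to one class `{k | x_k ∈ ℚ x_{k₀}}` vanishes.

Proof.  Let `L = ℚ(x_k)_k`, a number field.  Multiply the relation by `x_{k₀}` and take the trace `L → ℚ`: the number
`z = x_k x_{k₀}` has a rational square; if `z ∉ ℚ`, its minimal polynomial is `X² - z²` and its trace is `0`; if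
`z ∈ ℚ`, its trace is `[L : ℚ] z`.  And `z ∈ ℚ` iff `x_k ∈ ℚ x_{k₀}`.
-/

namespace Claimed.Open.R032

/-- POST N1.  An element of a number field whose square is rational and which is not rational has trace `0`. -/
theorem trace_eq_zero_of_sq_rat {L : Type*} [Field L] [Algebra ℚ L] [FiniteDimensional ℚ L] (z : L) (q : ℚ)
    (hz : z ^ 2 = algebraMap ℚ L q) (hz' : ∀ c : ℚ, z ≠ algebraMap ℚ L c) : Algebra.trace ℚ L z = 0 := by
  have hint : IsIntegral ℚ z := Algebra.IsIntegral.isIntegral z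
  have hmon : (Polynomial.X ^ 2 - Polynomial.C q : Polynomial ℚ).Monic :=
    Polynomial.monic_X_pow_sub_C q (by norm_num)
  have hroot : Polynomial.aeval z (Polynomial.X ^ 2 - Polynomial.C q : Polynomial ℚ) = 0 := by
    simp [hz]
  have hdvd := minpoly.dvd ℚ z hroot
  have hdeg : 2 ≤ (minpoly ℚ z).natDegree := by
    rw [minpoly.two_le_natDegree_iff hint]
    rintro ⟨c, hc⟩
    exact hz' c hc.symm
  have heq : (Polynomial.X ^ 2 - Polynomial.C q : Polynomial ℚ) = minpoly ℚ z :=
    Polynomial.eq_of_monic_of_dvd_of_natDegree_le (minpoly.monic hint) hmon hdvd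
      (by rw [Polynomial.natDegree_X_pow_sub_C]; exact hdeg)
  have hnc : (Polynomial.X ^ 2 - Polynomial.C q : Polynomial ℚ).nextCoeff = 0 := by
    rw [Polynomial.nextCoeff_of_natDegree_pos (by rw [Polynomial.natDegree_X_pow_sub_C]; norm_num),
      Polynomial.natDegree_X_pow_sub_C]
    simp [Polynomial.coeff_X_pow]
  rw [trace_eq_finrank_mul_minpoly_nextCoeff, ← heq, hnc]
  simp

open Classical in
/-- POST N2. -/
theorem sum_sqClass_eq_zero {κ : Type*} [Fintype κ] (x : κ → ℝ) (hx : ∀ k, ∃ q : ℚ, x k ^ 2 = q)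
    (hx0 : ∀ k, x k ≠ 0) (a : κ → ℚ) (h : ∑ k, (a k : ℝ) * x k = 0) (k₀ : κ) :
    ∑ k with (∃ c : ℚ, x k = c * x k₀), (a k : ℝ) * x k = 0 := by
  have hintx : ∀ y ∈ Set.range x, IsIntegral ℚ y := by
    rintro _ ⟨k, rfl⟩
    obtain ⟨q, hq⟩ := hx k
    refine ⟨Polynomial.X ^ 2 - Polynomial.C q, Polynomial.monic_X_pow_sub_C q (by norm_num), ?_⟩
    simp [hq]
  have : FiniteDimensional ℚ (IntermediateField.adjoin ℚ (Set.range x)) :=
    IntermediateField.finiteDimensional_adjoin hintx
  set L := IntermediateField.adjoin ℚ (Set.range x) with hL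
  let X : κ → L := fun k => ⟨x k, IntermediateField.subset_adjoin ℚ _ ⟨k, rfl⟩⟩
  have hXc : ∀ k, ((X k : L) : ℝ) = x k := fun _ => rfl
  choose q hq using hx
  have hq0 : q k₀ ≠ 0 := by
    intro h0
    have h1 := hq k₀
    rw [h0, Rat.cast_zero] at h1
    exact hx0 k₀ (pow_eq_zero_iff (by norm_num) |>.1 h1)
  let c : κ → ℚ := fun k => if hk : ∃ c : ℚ, x k = c * x k₀ then hk.choose else 0
  have hc1 : ∀ k, (∃ c : ℚ, x k = c * x k₀) → x k = c k * x k₀ := by
    intro k hk
    simp only [c, dif_pos hk]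
    exact hk.choose_spec
  have hc0 : ∀ k, ¬ (∃ c : ℚ, x k = c * x k₀) → c k = 0 := by
    intro k hk
    simp only [c, dif_neg hk]
  have htr : ∀ k, Algebra.trace ℚ L (X k * X k₀) = (Module.finrank ℚ L : ℚ) * (c k * q k₀) := by
    intro k
    by_cases hk : ∃ c : ℚ, x k = c * x k₀
    · have e : X k * X k₀ = algebraMap ℚ L (c k * q k₀) := by
        apply Subtype.ext
        show x k * x k₀ = ((c k * q k₀ : ℚ) : ℝ)
        rw [Rat.cast_mul, ← hq k₀, hc1 k hk]
        ring
      rw [e, Algebra.trace_algebraMap]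
      simp
    · rw [hc0 k hk, zero_mul, mul_zero]
      refine trace_eq_zero_of_sq_rat (X k * X k₀) (q k * q k₀) ?_ ?_
      · apply Subtype.ext
        show (x k * x k₀) ^ 2 = ((q k * q k₀ : ℚ) : ℝ)
        rw [Rat.cast_mul, ← hq k, ← hq k₀]
        ring
      · intro c' hc'
        apply hk
        have h1 : x k * x k₀ = (c' : ℝ) := congrArg (fun y : L => (y : ℝ)) hc'
        refine ⟨c' / q k₀, ?_⟩
        rw [Rat.cast_div, ← hq k₀, ← h1]
        field_simp [hx0 k₀]
  have hrel : ∑ k, a k • (X k * X k₀) = 0 := by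
    apply Subtype.ext
    have e1 : ((∑ k, a k • (X k * X k₀) : L) : ℝ) = ∑ k, (a k : ℝ) * (x k * x k₀) := by
      rw [← IntermediateField.coe_val, map_sum]
      refine Finset.sum_congr rfl fun k _ => ?_
      rw [IntermediateField.coe_val, IntermediateField.coe_smul, Rat.smul_def]
      rfl
    rw [e1]
    have e2 : ∑ k, (a k : ℝ) * (x k * x k₀) = (∑ k, (a k : ℝ) * x k) * x k₀ := by
      rw [Finset.sum_mul]
      exact Finset.sum_congr rfl fun k _ => by ring
    rw [e2, h, zero_mul]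
    rfl
  have hsum : ∑ k, a k * c k = 0 := by
    have h1 := congrArg (Algebra.trace ℚ L) hrel
    rw [map_sum, map_zero] at h1
    simp only [map_smul, htr, smul_eq_mul] at h1
    have h2 : ∑ k, a k * ((Module.finrank ℚ L : ℚ) * (c k * q k₀))
        = ((Module.finrank ℚ L : ℚ) * q k₀) * ∑ k, a k * c k := by
      rw [Finset.mul_sum]
      exact Finset.sum_congr rfl fun k _ => by ring
    rw [h2] at h1
    have h3 : ((Module.finrank ℚ L : ℚ) * q k₀) ≠ 0 :=
      mul_ne_zero (by exact_mod_cast (Module.finrank_pos (R := ℚ) (M := L)).ne') hq0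
    exact (mul_eq_zero.1 h1).resolve_left h3
  rw [Finset.sum_filter]
  have h4 : ∀ k, (if (∃ c : ℚ, x k = c * x k₀) then (a k : ℝ) * x k else 0) = ((a k * c k : ℚ) : ℝ) * x k₀ := by
    intro k
    by_cases hk : ∃ c : ℚ, x k = c * x k₀
    · rw [if_pos hk, Rat.cast_mul, mul_assoc, ← hc1 k hk]
    · rw [if_neg hk, hc0 k hk, mul_zero, Rat.cast_zero, zero_mul]
  rw [Finset.sum_congr rfl fun k _ => h4 k, ← Finset.sum_mul, ← Rat.cast_sum, hsum, Rat.cast_zero, zero_mul]

end Claimed.Open.R032
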