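import Claimed.Open.R032.PowerPolarise

/-!
# Polarisation, slot by slot

`pairWedge_mem_span_hermSquare_mixed` is `pairWedge_mem_span_hermSquare` (`PowerPolarise.lean`) with a group of forms
`L j` and a number `ω j` which depend on the slot `j`.
-/

open Module

namespace Claimed.Open.R032

variable {V : Type*} [NormedAddCommGroup V] [InnerProductSpace ℂ V]

/-- POST B1 (copy of `wedge_mem_span_hermSquare`). -/
theorem wedge_mem_span_hermSquare_mixed {p : ℕ} (L : Fin (p + 1) → AddSubgroup (V →ₗ[ℝ] ℂ)) {x : Form V (2 * p)}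
    {y : Form V 2}
    (hx : x ∈ Submodule.span ℂ {φ : Form V (2 * p) | ∃ m : Fin p → V →ₗ[ℝ] ℂ,
      (∀ j, m j ∈ L (Fin.castSucc j)) ∧ φ = hermSquare m})
    (hy : y ∈ Submodule.span ℂ {φ : Form V 2 | ∃ m ∈ L (Fin.last p), φ = wedgeOfForms ![m, conjForm m]}) :
    wedge x y ∈ Submodule.span ℂ {φ : Form V (2 * (p + 1)) | ∃ m : Fin (p + 1) → V →ₗ[ℝ] ℂ,
      (∀ j, m j ∈ L j) ∧ φ = hermSquare m} := by
  have h1 := Submodule.apply_mem_map₂ (wedgeLM V (2 * p) 2) hx hy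
  rw [Submodule.map₂_span_span] at h1
  refine (Submodule.span_le.2 ?_) h1
  rintro _ ⟨_, ⟨m, hm, rfl⟩, _, ⟨m', hm', rfl⟩, rfl⟩
  refine Submodule.subset_span ⟨Fin.snoc (α := fun _ => V →ₗ[ℝ] ℂ) m m', ?_, ?_⟩
  · intro k
    refine Fin.lastCases ?_ (fun k => ?_) k
    · simpa using hm'
    · simpa using hm k
  · show wedge (hermSquare m) (wedgeOfForms ![m', conjForm m']) = _
    rw [hermSquare, hermSquare, pairWedge_succ]
    congr 1
    · congr 1
      · funext k; simp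
      · funext k; simp
    · simp

/-- POST B1 (copy of `pairWedge_mem_span_hermSquare`).  **Polarisation, slot by slot.** -/
theorem pairWedge_mem_span_hermSquare_mixed : ∀ {p : ℕ} (ω : Fin p → ℂ) (_ : ∀ j, (ω j).im ≠ 0)
    (L : Fin p → AddSubgroup (V →ₗ[ℝ] ℂ)) (_ : ∀ j, ∀ m ∈ L j, ω j • m ∈ L j)
    (α β : Fin p → V →ₗ[ℝ] ℂ), (∀ j, α j ∈ L j) →
    (∀ j, β j ∈ L j) → pairWedge α (fun j => conjForm (β j)) ∈ Submodule.span ℂ
      {φ : Form V (2 * p) | ∃ m : Fin p → V →ₗ[ℝ] ℂ, (∀ j, m j ∈ L j) ∧ φ = hermSquare m}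
  | 0, _, _, _, _, α, β, _, _ => by
    refine Submodule.subset_span ⟨α, fun j => j.elim0, ?_⟩
    rw [hermSquare]
    congr 1
    funext j
    exact j.elim0
  | p + 1, ω, hω, L, hL, α, β, hα, hβ => by
    rw [pairWedge_succ]
    exact wedge_mem_span_hermSquare_mixed L
      (pairWedge_mem_span_hermSquare_mixed (ω ∘ Fin.castSucc) (fun j => hω _) (L ∘ Fin.castSucc)
        (fun j => hL _) (α ∘ Fin.castSucc) (β ∘ Fin.castSucc) (fun j => hα _) (fun j => hβ _))
      (pair_mem_span_square (ω (Fin.last p)) (hω _) (L (Fin.last p)) (hL _) (hα _) (hβ _))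

end Claimed.Open.R032
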