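import Claimed.Open.R032.PowerMain
import Claimed.Open.R032.SanityMixNum
import Claimed.Open.R032.SanityMixEig
import Claimed.Open.R032.SanityMixDer
import Claimed.Open.R032.SanityMixCM
import Claimed.Open.R032.SanityMixAlg
import Claimed.Open.R032.SanityMixPol

/-!
# The Hodge conjecture for all abelian varieties isogenous to a product of CM elliptic curves

Let `A = V / Λ` be a complex torus such that, in some `ℂ`-basis `w` of `V`, the `k`-th coordinates of the periods lie in an
imaginary quadratic field `K_k = ℚ + ℚ ω_k`, which may depend on `k`.  These are the abelian varieties isogenous to a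
product `∏_k ℂ/(ℤ + ℤ ω_k)` of CM elliptic curves; they are polarisable and of CM type (`SanityMixCM.lean`).

* `hodgeConjecture_of_mixed_periods` : **`HodgeConjecture b` holds for `A`** (all codimensions).

For ONE field this is `PowerMain.lean`.  The new point is that a Hodge class is *balanced*: it is a combination of
monomials `dz_{k₁} ∧ dz̄_{l₁} ∧ ⋯ ∧ dz_{k_p} ∧ dz̄_{l_p}` in which every field occurs as often among the `K_{k_j}` as among the
`K_{l_j}` (the Hodge group of `A` is the product of the Hodge groups of the isotypic factors; Imai, Tate, Murty).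

Proof.  For an `ℝ`-linear `X : V → V` let `(D_X φ)(v) = ∑_i φ(v₀, …, X v_i, …)` (`SanityMixDer.lean`).
1. `D_I φ = 0` for `φ` of type `(p,p)`, where `I` is the multiplication by `i` (`derEnd_I_eq_zero`).
2. `I = ∑_k (Im ω_k)⁻¹ J_k`, `J_k = diag(0, …, i Im ω_k, …, 0) ∈ End(A) ⊗ ℚ`, and `(D_{J_k} φ)(v) ∈ ℚ` for `φ` rational and `v` in
   the lattice.  The numbers `(Im ω_k)⁻¹` have rational squares, and two of them are proportional over `ℚ` iff the fields
   agree.  Square roots of rational numbers in distinct square classes are linearly independent over `ℚ`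
   (`sum_sqClass_eq_zero`, `SanityMixNum.lean`, by the trace of a number field).  Hence `D_{I_C} φ = 0` for every field `C`,
   where `I_C` is `i` on the coordinates with field `C` and `0` on the others (`derEnd_block_eq_zero`).
3. The monomials are eigenvectors of `D_{I_C}` with eigenvalue `i (#{j | K_{k_j} = C} - #{j | K_{l_j} = C})`
   (`derEnd_diagR_mono`), and eigenvectors for distinct eigenvalues are independent: `mem_span_balanced`.
4. In a balanced monomial the factors can be paired inside the fields (`exists_perm_of_card_fiber_eq`); polarisation, slot by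
   slot (`SanityMixPol.lean`), writes it as a combination of forms `m₁ ∧ m̄₁ ∧ ⋯ ∧ m_p ∧ m̄_p`, `m_j` a `ℂ`-linear form with
   values in ONE of the fields on `Λ`; such a form is a multiple of the class of the kernel of the homomorphism
   `(m_j)_j : A → ℂ^p / (m_j)_j(Λ)` onto a product of CM elliptic curves (`SanityMixAlg.lean`).  Descent from `ℂ` to `ℚ` as in
   `PowerMain.lean`.

(Typed by helpers 231, 36, 125, 5, 173, 92, 256, 215, 266, 61 and the steward.)
-/

open MeasureTheory Module Complex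

namespace Claimed.Open.R032

variable {V : Type*} [NormedAddCommGroup V] [InnerProductSpace ℂ V] [FiniteDimensional ℂ V]
variable {ι : Type*}

/-- `ℚ + ℚ ω_k = ℚ + ℚ ω_{k₀}`, written in terms of the imaginary parts (`Re ω_k ∈ ℚ`). -/
def SameField {n : ℕ} (ω : Fin n → ℂ) (k k₀ : Fin n) : Prop :=
  ∃ c : ℚ, ((ω k).im)⁻¹ = c * ((ω k₀).im)⁻¹

/-- The monomial `dz_{k₀} ∧ dz̄_{l₀} ∧ dz_{k₁} ∧ dz̄_{l₁} ∧ ⋯` in the coordinates of the `ℂ`-basis `w`. -/
noncomputable def mono {n p : ℕ} (w : Basis (Fin n) ℂ V) (k l : Fin p → Fin n) : Form V (2 * p) :=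
  pairWedge (fun j => (w.coord (k j)).restrictScalars ℝ)
    (fun j => conjForm ((w.coord (l j)).restrictScalars ℝ))

/-- The `ℝ`-linear map underlying the diagonal endomorphism `diag(a)`. -/
noncomputable def diagR {n : ℕ} (w : Basis (Fin n) ℂ V) (a : Fin n → ℂ) : V →ₗ[ℝ] V :=
  (diagEnd w a).restrictScalars ℝ

open Classical in
/-- `(k, l)` is balanced: every field occurs as often among the `k_j` as among the `l_j`. -/
def IsBalanced {n p : ℕ} (ω : Fin n → ℂ) (k l : Fin p → Fin n) : Prop :=
  ∀ k₀, (Finset.univ.filter fun j => SameField ω (k j) k₀).card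
    = (Finset.univ.filter fun j => SameField ω (l j) k₀).card

/-- POST E1. -/
theorem sameField_equivalence {n : ℕ} (ω : Fin n → ℂ) (hω : ∀ k, (ω k).im ≠ 0) :
    Equivalence (SameField ω) := by
  refine ⟨fun k => ⟨1, by simp⟩, ?_, ?_⟩
  · rintro k l ⟨c, hc⟩
    have hc0 : (c : ℝ) ≠ 0 := by
      intro h0
      rw [h0, zero_mul] at hc
      exact inv_ne_zero (hω k) hc
    refine ⟨c⁻¹, ?_⟩
    rw [hc]
    push_cast
    rw [inv_mul_cancel_left₀ hc0]
  · rintro k l j ⟨c, hc⟩ ⟨c', hc'⟩
    refine ⟨c * c', ?_⟩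
    rw [hc, hc']
    push_cast
    ring

/-- POST E1.  `Im ω` has a rational square, `Re ω` is rational. -/
theorem exists_rat_im_sq {ω : ℂ} (hω : ω.im ≠ 0) (hω2 : ∃ r s : ℚ, ω ^ 2 = r + s * ω) :
    (∃ q : ℚ, (ω.im)⁻¹ ^ 2 = q) ∧ ∃ t : ℚ, I * ω.im = t + ω := by
  obtain ⟨r, s, h⟩ := hω2
  have hre := congrArg Complex.re h
  have him := congrArg Complex.im h
  simp only [pow_two, Complex.mul_re, Complex.mul_im, Complex.add_re, Complex.add_im,
    Complex.ratCast_re, Complex.ratCast_im, zero_mul, sub_zero, zero_add, add_zero] at hre him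
  have hx : ω.re = (s : ℝ) / 2 := by
    have h1 : ω.im * (2 * ω.re - s) = 0 := by linear_combination him
    rcases mul_eq_zero.1 h1 with h2 | h2
    · exact absurd h2 hω
    · linarith
  have hy : ω.im ^ 2 = ((-r - s ^ 2 / 4 : ℚ) : ℝ) := by
    push_cast
    rw [hx] at hre
    linear_combination -hre
  refine ⟨⟨(-r - s ^ 2 / 4)⁻¹, ?_⟩, ⟨-(s / 2), ?_⟩⟩
  · rw [inv_pow, hy]
    push_cast
    rfl
  · apply Complex.ext
    · simp [hx]
    · simp

omit [FiniteDimensional ℂ V] in
/-- POST E1.  Forms with values in `ℚ + ℚ ω_l` have values in `ℚ + ℚ ω_k` if the fields agree. -/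
theorem mem_quadForms_of_sameField (b : Basis ι ℝ V) {n : ℕ} (ω : Fin n → ℂ) (hω : ∀ k, (ω k).im ≠ 0)
    (hω2 : ∀ k, ∃ r s : ℚ, ω k ^ 2 = r + s * ω k) {k l : Fin n} (h : SameField ω k l)
    {m : V →ₗ[ℝ] ℂ} (hm : m ∈ quadForms b (ω l)) : m ∈ quadForms b (ω k) := by
  obtain ⟨h1, h2⟩ := hm
  obtain ⟨c, hc⟩ := h
  obtain ⟨tk, htk⟩ := (exists_rat_im_sq (hω k) (hω2 k)).2
  obtain ⟨tl, htl⟩ := (exists_rat_im_sq (hω l) (hω2 l)).2
  have hy : (ω l).im = c * (ω k).im := by
    have hk := hω k
    have hl := hω l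
    field_simp at hc
    linarith
  have hyC : (((ω l).im : ℝ) : ℂ) = c * ((ω k).im : ℝ) := by
    rw [hy]; push_cast; rfl
  refine ⟨h1, fun i => ?_⟩
  obtain ⟨r, s, hrs⟩ := h2 i
  refine ⟨r + s * (c * tk - tl), s * c, ?_⟩
  rw [hrs]
  push_cast
  rw [hyC] at htl
  linear_combination (-(s : ℂ)) * htl + (s : ℂ) * c * htk

omit [FiniteDimensional ℂ V] in
/-- POST E2 (from D2 and `repr_diagEnd`).  The monomials are eigenvectors of the diagonal derivations. -/
theorem derEnd_diagR_mono {n p : ℕ} (w : Basis (Fin n) ℂ V) (a : Fin n → ℂ) (k l : Fin p → Fin n) :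
    derEnd (diagR w a) (2 * p) (mono w k l).toMultilinearMap
      = (∑ j, a (k j) + ∑ j, (starRingEnd ℂ) (a (l j))) • (mono w k l).toMultilinearMap := by
  refine derEnd_pairWedge (diagR w a) _ _ (fun j => a (k j)) (fun j => (starRingEnd ℂ) (a (l j)))
    (fun j v => ?_) (fun j v => ?_)
  · exact repr_diagEnd w a v (k j)
  · have h : w.repr (diagEnd w a v) (l j) = a (l j) * w.repr v (l j) := repr_diagEnd w a v (l j)
    show (starRingEnd ℂ) (w.repr (diagEnd w a v) (l j))
      = (starRingEnd ℂ) (a (l j)) * (starRingEnd ℂ) (w.repr v (l j))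
    rw [h, map_mul]

omit [FiniteDimensional ℂ V] in
/-- POST E2 (from the previous one and `hodgePiece_le_span_pairWedge`).  `D_I φ = 0` for `φ` of type `(p,p)`. -/
theorem derEnd_I_eq_zero {n p : ℕ} (w : Basis (Fin n) ℂ V) (φ : Form V (2 * p))
    (hφ : φ ∈ hodgePiece V p (2 * p)) :
    derEnd (diagR w fun _ => I) (2 * p) φ.toMultilinearMap = 0 := by
  have h := hodgePiece_le_span_pairWedge w p hφ
  clear hφ
  induction h using Submodule.span_induction with
  | mem x hx =>
    obtain ⟨k, l, rfl⟩ := hx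
    have h1 := derEnd_diagR_mono w (fun _ => I) k l
    rw [mono] at h1
    rw [h1]
    simp
  | zero =>
    have h0 : (0 : Form V (2 * p)).toMultilinearMap = 0 := rfl
    rw [h0, map_zero]
  | add x y _ _ hx hy =>
    have h0 : (x + y).toMultilinearMap = x.toMultilinearMap + y.toMultilinearMap := rfl
    rw [h0, map_add, hx, hy, add_zero]
  | smul c x _ hx =>
    have h0 : (c • x).toMultilinearMap = c • x.toMultilinearMap := rfl
    rw [h0, map_smul, hx, smul_zero]

open Classical in
/-- POST E3 (the key step).  A Hodge class is killed by the derivation `D_{I_C}`, where `I_C` is `i` on the coordinates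
`k` with `K_k = K_{k₀}` and `0` on the others.

Proof: `J_k = diag(0, …, i Im ω_k, …, 0) ∈ End(A) ⊗ ℚ` (C1, `exists_rat_im_sq`), so that `a_k = (D_{J_k} φ)(v) ∈ ℚ` for
lattice vectors `v` (D4).  `diag(i, …, i) = ∑_k (Im ω_k)⁻¹ J_k`, hence `∑_k a_k (Im ω_k)⁻¹ = 0` (D3, `derEnd_I_eq_zero`).  By
`sum_sqClass_eq_zero` the partial sum over the class of `k₀` vanishes, and this is `(D_{I_C} φ)(v)` (D3).
Finally D5. -/
theorem derEnd_block_eq_zero (b : Basis ι ℝ V) {n : ℕ} (w : Basis (Fin n) ℂ V)
    (ω : Fin n → ℂ) (hω : ∀ k, (ω k).im ≠ 0) (hω2 : ∀ k, ∃ r s : ℚ, ω k ^ 2 = r + s * ω k)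
    (hb : ∀ i k, ∃ r s : ℚ, w.repr (b i) k = r + s * ω k) {p : ℕ} (φ : Form V (2 * p))
    (hφ : IsHodgeClass (lattice b) p φ) (k₀ : Fin n) :
    derEnd (diagR w fun k => if SameField ω k k₀ then I else 0) (2 * p) φ.toMultilinearMap = 0 := by
  set x : Fin n → ℝ := fun k => ((ω k).im)⁻¹ with hx
  let J : Fin n → Module.End ℂ V := fun k => diagEnd w (Pi.single k (I * (ω k).im))
  have hJrat : ∀ k, IsRationalEndomorphism (lattice b) (J k) := by
    intro k
    refine isRationalEndomorphism_of_coords_mixed b w ω hb _ fun i k' => ?_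
    rw [repr_diagEnd]
    by_cases hk : k' = k
    · subst hk
      obtain ⟨r, s, hrs⟩ := hb i k'
      obtain ⟨r₀, s₀, h₀⟩ := hω2 k'
      obtain ⟨-, t, ht⟩ := exists_rat_im_sq (hω k') (hω2 k')
      refine ⟨t * r + s * r₀, t * s + r + s * s₀, ?_⟩
      rw [Pi.single_eq_same, ht, hrs]
      push_cast
      linear_combination (s : ℂ) * h₀
    · refine ⟨0, 0, ?_⟩
      rw [Pi.single_eq_of_ne hk]
      simp
  have hsum : ∀ T : Finset (Fin n), ∑ k ∈ T, x k • (J k).restrictScalars ℝ
      = diagR w (fun k => if k ∈ T then I else 0) := by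
    intro T
    apply LinearMap.ext
    intro v
    apply w.repr.injective
    ext k'
    have h1 : ∀ k, w.repr ((x k • (J k).restrictScalars ℝ) v) k'
        = if k' = k then I * w.repr v k' else 0 := by
      intro k
      have e : w.repr ((J k).restrictScalars ℝ v) k'
          = (Pi.single k (I * (ω k).im) : Fin n → ℂ) k' * w.repr v k' := repr_diagEnd w _ v k'
      rw [LinearMap.smul_apply, ← Complex.coe_smul, map_smul, Finsupp.smul_apply, smul_eq_mul, e,
        Pi.single_apply]
      split_ifs with hk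
      · have h0 : ((ω k).im : ℂ) ≠ 0 := by exact_mod_cast hω k
        simp only [hx]
        push_cast
        field_simp
      · simp
    have h2 : w.repr (diagR w (fun k => if k ∈ T then I else 0) v) k'
        = (if k' ∈ T then I else 0) * w.repr v k' := repr_diagEnd w _ v k'
    rw [LinearMap.sum_apply, map_sum, Finsupp.finsetSum_apply, h2]
    simp only [h1]
    rw [Finset.sum_ite_eq]
    split_ifs <;> simp
  apply mform_eq_zero_of_lattice b
  intro v hv
  choose a ha using fun k => exists_rat_derEnd (lattice b) (J k) (hJrat k) φ hφ.1 v hv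
  have hall : ∀ T : Finset (Fin n),
      derEnd (diagR w (fun k => if k ∈ T then I else 0)) (2 * p) φ.toMultilinearMap v
        = ((∑ k ∈ T, (a k : ℝ) * x k : ℝ) : ℂ) := by
    intro T
    rw [← hsum T, derEnd_sum_smul, sum_apply]
    push_cast
    refine Finset.sum_congr rfl fun k _ => ?_
    rw [Pi.smul_apply, ha k, smul_eq_mul, mul_comm]
  have h0 : ∑ k, (a k : ℝ) * x k = 0 := by
    have h1 := hall Finset.univ
    have h2 : (fun k : Fin n => if k ∈ Finset.univ then I else 0) = fun _ => I := by simp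
    rw [h2, derEnd_I_eq_zero w φ hφ.2, zero_apply] at h1
    exact_mod_cast h1.symm
  have h3 := sum_sqClass_eq_zero x (fun k => (exists_rat_im_sq (hω k) (hω2 k)).1)
    (fun k => inv_ne_zero (hω k)) a h0 k₀
  have h4 := hall (Finset.univ.filter fun k => SameField ω k k₀)
  simp only [Finset.mem_filter, Finset.mem_univ, true_and] at h4
  rw [h4]
  have h5 : ∑ k ∈ Finset.univ.filter (fun k => SameField ω k k₀), (a k : ℝ) * x k = 0 := by
    exact h3
  rw [h5]
  simp

omit [FiniteDimensional ℂ V] in
open Classical in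
/-- POST E4 (from E2 and G1, induction on a finset of `k₀`s).  A form of type `(p,p)` which is killed by all the `D_{I_C}` is
a combination of balanced monomials. -/
theorem mem_span_balanced {n : ℕ} (w : Basis (Fin n) ℂ V) (ω : Fin n → ℂ) {p : ℕ} (φ : Form V (2 * p))
    (hφ : φ ∈ hodgePiece V p (2 * p))
    (h : ∀ k₀, derEnd (diagR w fun k => if SameField ω k k₀ then I else 0) (2 * p) φ.toMultilinearMap = 0) :
    φ ∈ Submodule.span ℂ {ψ | ∃ k l : Fin p → Fin n, IsBalanced ω k l ∧ ψ = mono w k l} := by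
  have h1 := hodgePiece_le_span_pairWedge w p hφ
  have hset : {φ : Form V (2 * p) | ∃ k l : Fin p → Fin n,
      φ = pairWedge (fun j => (w.coord (k j)).restrictScalars ℝ)
        (fun j => conjForm ((w.coord (l j)).restrictScalars ℝ))}
      = Set.range (fun s : (Fin p → Fin n) × (Fin p → Fin n) => mono w s.1 s.2) := by
    ext ψ
    constructor
    · rintro ⟨k, l, rfl⟩
      exact ⟨(k, l), rfl⟩
    · rintro ⟨s, rfl⟩
      exact ⟨s.1, s.2, rfl⟩
  rw [hset, Submodule.mem_span_range_iff_exists_fun] at h1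
  obtain ⟨c, hc⟩ := h1
  set m : (Fin p → Fin n) × (Fin p → Fin n) → MForm V (2 * p) :=
    fun s => c s • (mono w s.1 s.2).toMultilinearMap with hm
  set a : Fin n → Fin n → ℂ := fun k₀ k => if SameField ω k k₀ then I else 0 with ha
  set lam : Fin n → (Fin p → Fin n) × (Fin p → Fin n) → ℂ :=
    fun k₀ s => ∑ j, a k₀ (s.1 j) + ∑ j, (starRingEnd ℂ) (a k₀ (s.2 j)) with hlam
  have hφM : φ.toMultilinearMap = ∑ s, m s := by
    rw [← hc]
    exact map_sum (AlternatingMap.toMultilinearMapLM (S := ℂ) (R := ℝ) (M := V) (N := ℂ) (ι := Fin (2 * p))) _ _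
  have heig : ∀ k₀ s, derEnd (diagR w (a k₀)) (2 * p) (m s) = lam k₀ s • m s := by
    intro k₀ s
    simp only [hm]
    rw [map_smul, derEnd_diagR_mono, smul_comm]
  have key : ∀ K : Finset (Fin n),
      φ.toMultilinearMap = ∑ s with (∀ k₀ ∈ K, lam k₀ s = 0), m s := by
    intro K
    induction K using Finset.induction_on with
    | empty => simpa using hφM
    | insert k₀ K hk ih =>
      have h2 := sum_eq_sum_filter_of_eigen (derEnd (diagR w (a k₀)) (2 * p))
        (Finset.univ.filter fun s => ∀ k ∈ K, lam k s = 0) m (lam k₀) (fun s _ => heig k₀ s)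
        (by rw [← ih]; exact h k₀)
      rw [ih, h2, Finset.filter_filter]
      refine Finset.sum_congr (Finset.filter_congr fun s _ => ?_) fun _ _ => rfl
      simp [and_comm]
  have hbal : ∀ s, (∀ k₀ ∈ (Finset.univ : Finset (Fin n)), lam k₀ s = 0) → IsBalanced ω s.1 s.2 := by
    intro s hs k₀
    have h3 := hs k₀ (Finset.mem_univ _)
    have e1 : ∑ j, a k₀ (s.1 j) = I * ((Finset.univ.filter fun j => SameField ω (s.1 j) k₀).card : ℂ) := by
      rw [← Finset.sum_boole, Finset.mul_sum]
      refine Finset.sum_congr rfl fun j _ => ?_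
      simp only [ha]
      split_ifs <;> simp
    have e2 : ∑ j, (starRingEnd ℂ) (a k₀ (s.2 j))
        = - (I * ((Finset.univ.filter fun j => SameField ω (s.2 j) k₀).card : ℂ)) := by
      rw [← Finset.sum_boole, Finset.mul_sum, ← Finset.sum_neg_distrib]
      refine Finset.sum_congr rfl fun j _ => ?_
      simp only [ha]
      split_ifs <;> simp
    simp only [hlam] at h3
    rw [e1, e2, ← sub_eq_add_neg, ← mul_sub, mul_eq_zero, sub_eq_zero] at h3
    rcases h3 with h3 | h3
    · exact absurd h3 I_ne_zero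
    · exact_mod_cast h3
  have hfin : φ = ∑ s with (∀ k₀ ∈ (Finset.univ : Finset (Fin n)), lam k₀ s = 0), c s • mono w s.1 s.2 := by
    apply AlternatingMap.coe_multilinearMap_injective
    rw [key Finset.univ]
    exact (map_sum (AlternatingMap.toMultilinearMapLM (S := ℂ) (R := ℝ) (M := V) (N := ℂ)
      (ι := Fin (2 * p))) (fun s : (Fin p → Fin n) × (Fin p → Fin n) => c s • mono w s.1 s.2) _).symm
  rw [hfin]
  refine Submodule.sum_mem _ fun s hs => Submodule.smul_mem _ _ (Submodule.subset_span ?_)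
  exact ⟨s.1, s.2, hbal s (Finset.mem_filter.1 hs).2, rfl⟩

variable [MeasurableSpace V] [BorelSpace V]

/-- **The Hodge conjecture for the complex tori isogenous to a product of CM elliptic curves.** -/
theorem hodgeConjecture_of_mixed_periods (b : Basis ι ℝ V) {n : ℕ} (w : Basis (Fin n) ℂ V)
    (ω : Fin n → ℂ) (hω : ∀ k, (ω k).im ≠ 0) (hω2 : ∀ k, ∃ r s : ℚ, ω k ^ 2 = r + s * ω k)
    (hb : ∀ i k, ∃ r s : ℚ, w.repr (b i) k = r + s * ω k) : HodgeConjecture b := by
  classical
  intro p φ hφ
  set S : Set (Form V (2 * p)) := {c | IsRational (lattice b) c ∧ c ∈ algebraicClasses b p} with hS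
  have hcoord : ∀ k, (w.coord k).restrictScalars ℝ ∈ quadForms b (ω k) := by
    intro k
    refine ⟨fun v => by simp, fun i => ?_⟩
    simpa using hb i k
  have h1 : φ ∈ Submodule.span ℂ S := by
    refine (Submodule.span_le.2 ?_) (mem_span_balanced w ω φ hφ.2
      (fun k₀ => derEnd_block_eq_zero b w ω hω hω2 hb φ hφ k₀))
    rintro _ ⟨k, l, hbal, rfl⟩
    obtain ⟨σ, hσ⟩ := exists_perm_of_card_fiber_eq (SameField ω) (sameField_equivalence ω hω) k l
      (fun k₀ => by convert hbal k₀)
    have h2 := pairWedge_mem_span_hermSquare_mixed (fun j => ω (k j)) (fun j => hω _)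
      (fun j => quadForms b (ω (k j))) (fun j m hm => smul_mem_quadForms b (hω2 _) hm)
      (fun j => (w.coord (k j)).restrictScalars ℝ) (fun j => (w.coord (l (σ j))).restrictScalars ℝ)
      (fun j => hcoord _) (fun j => mem_quadForms_of_sameField b ω hω hω2 (hσ j) (hcoord _))
    have h3 : pairWedge (fun j => (w.coord (k j)).restrictScalars ℝ)
        (fun j => conjForm ((w.coord (l (σ j))).restrictScalars ℝ)) ∈ Submodule.span ℂ S := by
      refine (Submodule.span_le.2 ?_) h2
      rintro _ ⟨m, hm, rfl⟩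
      exact hermSquare_mem_span_algebraic_mixed b (fun j => ω (k j)) (fun j => hω _) m hm
    have h4 := pairWedge_comp_perm_right (fun j => (w.coord (k j)).restrictScalars ℝ)
      (fun j => conjForm ((w.coord (l j)).restrictScalars ℝ)) σ
    have h5 : mono w k l = Equiv.Perm.sign σ • pairWedge (fun j => (w.coord (k j)).restrictScalars ℝ)
        (fun j => conjForm ((w.coord (l (σ j))).restrictScalars ℝ)) := by
      have h6 : ((fun j => conjForm ((w.coord (l j)).restrictScalars ℝ)) ∘ σ)
          = fun j => conjForm ((w.coord (l (σ j))).restrictScalars ℝ) := rfl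
      rw [← h6, h4, smul_smul, Int.units_mul_self, one_smul]
      rfl
    show mono w k l ∈ Submodule.span ℂ S
    rw [h5]
    rcases Int.units_eq_one_or (Equiv.Perm.sign σ) with h | h
    · rw [h, one_smul]; exact h3
    · rw [h, Units.neg_smul, one_smul]; exact Submodule.neg_mem _ h3
  have h3 := mem_span_rat_of_mem_span_complex b S (fun c hc => hc.1) φ hφ.1 h1
  exact (Submodule.span_le.2 fun c hc => hc.2) h3

end Claimed.Open.R032
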