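import Claimed.Open.R032.SanityCycles
import Claimed.Open.R032.SanityPullback

/-!
# Sanity checks for R032: kernels of homomorphisms of complex tori (abelian subvarieties)

Let `f : A = V / Λ → A' = V' / Λ'` be the homomorphism of complex tori induced by a `ℂ`-linear map
`N : V → V'` with `N Λ = Λ'` (i.e. `f` is surjective with connected kernel), and `W = ker N`.

* `isSubvariety_preimage_lattice`: `ker f` (i.e. the periodic set `N ⁻¹' Λ' = W + Λ`) is an
  irreducible subvariety of `A` of dimension `dim W`; every point is regular with tangent space `W`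
  (`isRegularPoint_preimage_lattice`).
* `MapsLatticeOnto.exists_kerBasis`: `W ∩ Λ` is a lattice in `W`.
* `MapsLatticeOnto.adaptedBasis`, `MapsLatticeOnto.lattice_adaptedBasis`: a period basis `(μ, ν)`
  of `Λ` consisting of a basis `μ` of `W ∩ Λ` and of lifts `ν` of the period basis of `A'`.
* `MapsLatticeOnto.integralOver_adaptedBasis`: `∫_{ker f} ψ` is the volume of the period
  parallelotope of `W ∩ Λ` times the density of `ψ` on `W`.
-/

open MeasureTheory Module

set_option linter.unusedSectionVars false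

namespace Claimed.Open.R032

variable {V : Type*} [NormedAddCommGroup V] [InnerProductSpace ℂ V] [FiniteDimensional ℂ V]
variable {V' : Type*} [NormedAddCommGroup V'] [InnerProductSpace ℂ V'] [FiniteDimensional ℂ V']
variable {ι ι' : Type*} (b : Basis ι ℝ V) (b' : Basis ι' ℝ V') (N : V →L[ℂ] V')

/-- `N Λ = Λ'`. -/
def MapsLatticeOnto : Prop := ∀ y, y ∈ lattice b' ↔ ∃ l ∈ lattice b, N l = y

variable {b b' N}

omit [FiniteDimensional ℂ V] [FiniteDimensional ℂ V'] in
theorem MapsLatticeOnto.surjective (hN : MapsLatticeOnto b b' N) : Function.Surjective N := by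
  have h1 : (⊤ : Submodule ℝ V') ≤ (LinearMap.range N.toLinearMap).restrictScalars ℝ := by
    rw [← b'.span_eq, Submodule.span_le]
    rintro _ ⟨i, rfl⟩
    obtain ⟨l, -, hl⟩ := (hN (b' i)).1 (Submodule.subset_span ⟨i, rfl⟩)
    exact ⟨l, hl⟩
  intro y
  exact h1 (Submodule.mem_top (x := y))

/-- The preimage in `V` of the kernel of `f : A → A'`. -/
theorem isSubvariety_preimage_lattice (hN : MapsLatticeOnto b b' N) :
    IsSubvariety (lattice b) (finrank ℂ (LinearMap.ker N.toLinearMap))
      (N ⁻¹' (lattice b' : Set V')) where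
  analytic := (isAnalyticSubset_lattice b').preimage N
  periodic := by
    intro l hl x hx
    have h1 : N l ∈ lattice b' := (hN _).2 ⟨l, hl, rfl⟩
    simpa using (lattice b').add_mem h1 hx
  nonempty := ⟨0, by simp⟩
  irreducible := by
    intro Z₁ Z₂ h₁ p₁ h₂ p₂ h
    set W := LinearMap.ker N.toLinearMap with hW
    have hWZ : ∀ w : W, (w : V) ∈ Z₁ ∪ Z₂ := by
      intro w
      rw [← h]
      have : N (w : V) = 0 := w.2
      simp [this]
    have key := (isSubvariety_univ (V := W) ⊥).irreducible (W.subtypeL ⁻¹' Z₁) (W.subtypeL ⁻¹' Z₂)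
      (h₁.preimage _) (by intro l hl x hx; simpa [(Submodule.mem_bot ℤ).1 hl] using hx)
      (h₂.preimage _) (by intro l hl x hx; simpa [(Submodule.mem_bot ℤ).1 hl] using hx)
      (by ext w; simpa using hWZ w)
    have aux : ∀ Z' : Set V, IsPeriodic (lattice b) Z' → Set.univ = W.subtypeL ⁻¹' Z' →
        N ⁻¹' (lattice b' : Set V') ⊆ Z' := by
      intro Z' hp hu z hz
      obtain ⟨l, hl, hlz⟩ := (hN _).1 hz
      have hw : z - l ∈ W := by
        simp [hW, hlz]
      have : (⟨z - l, hw⟩ : W) ∈ W.subtypeL ⁻¹' Z' := hu ▸ Set.mem_univ _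
      have h3 := hp l hl _ this
      simpa using h3
    rcases key with k | k
    · left
      exact Set.Subset.antisymm (aux Z₁ p₁ k) (h ▸ Set.subset_union_left)
    · right
      exact Set.Subset.antisymm (aux Z₂ p₂ k) (h ▸ Set.subset_union_right)
  dim_eq := by
    intro x hx
    refine subset_closure ⟨_, (isRegularPoint_lattice b' hx).preimage N hN.surjective, ?_⟩
    rfl

/-- Every point of the kernel is a regular point, with tangent space `ker N`. -/
theorem isRegularPoint_preimage_lattice (hN : MapsLatticeOnto b b' N) {x : V}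
    (hx : N x ∈ lattice b') :
    IsRegularPoint (N ⁻¹' (lattice b' : Set V')) x (LinearMap.ker N.toLinearMap) :=
  (isRegularPoint_lattice b' hx).preimage N hN.surjective


/-- `W ∩ Λ` as a subgroup of `W`. -/
def latticeIn (Λ : Submodule ℤ V) (W : Submodule ℂ V) : Submodule ℤ W :=
  Λ.comap (W.subtype.restrictScalars ℤ)

omit [FiniteDimensional ℂ V] in
theorem mem_latticeIn {Λ : Submodule ℤ V} {W : Submodule ℂ V} {w : W} :
    w ∈ latticeIn Λ W ↔ (w : V) ∈ Λ := Iff.rfl

/-- Lifts to `Λ` of the period basis of `A'`. -/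
noncomputable def MapsLatticeOnto.lift (hN : MapsLatticeOnto b b' N) (i : ι') : V :=
  ((hN (b' i)).1 (Submodule.subset_span ⟨i, rfl⟩)).choose

omit [FiniteDimensional ℂ V] [FiniteDimensional ℂ V'] in
theorem MapsLatticeOnto.lift_mem (hN : MapsLatticeOnto b b' N) (i : ι') :
    hN.lift i ∈ lattice b :=
  ((hN (b' i)).1 (Submodule.subset_span ⟨i, rfl⟩)).choose_spec.1

omit [FiniteDimensional ℂ V] [FiniteDimensional ℂ V'] in
theorem MapsLatticeOnto.map_lift (hN : MapsLatticeOnto b b' N) (i : ι') :
    N (hN.lift i) = b' i :=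
  ((hN (b' i)).1 (Submodule.subset_span ⟨i, rfl⟩)).choose_spec.2

omit [FiniteDimensional ℂ V] [FiniteDimensional ℂ V'] in
/-- `Λ = (W ∩ Λ) ⊕ ⨁ ℤ ν_i`. -/
theorem MapsLatticeOnto.exists_decomp [Fintype ι'] (hN : MapsLatticeOnto b b' N) {l : V}
    (hl : l ∈ lattice b) : ∃ n : ι' → ℤ, l - ∑ i, n i • hN.lift i ∈ lattice b ∧
      N (l - ∑ i, n i • hN.lift i) = 0 := by
  have h1 : N l ∈ lattice b' := (hN _).2 ⟨l, hl, rfl⟩
  have h2 := (Basis.mem_span_iff_repr_mem ℤ b' (N l)).1 h1
  choose n hn using h2
  refine ⟨n, ?_, ?_⟩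
  · exact (lattice b).sub_mem hl
      ((lattice b).sum_mem fun i _ => (lattice b).smul_mem _ (hN.lift_mem i))
  · rw [map_sub, map_sum]
    simp only [map_zsmul, hN.map_lift]
    conv_lhs => rw [← b'.sum_repr (N l)]
    rw [sub_eq_zero]
    refine Finset.sum_congr rfl fun i _ => ?_
    rw [← hn i]
    simp only [algebraMap_int_eq, eq_intCast]
    exact Int.cast_smul_eq_zsmul ℝ (n i) (b' i)

omit [FiniteDimensional ℂ V] [FiniteDimensional ℂ V'] in
theorem MapsLatticeOnto.sum_lift_eq_zero [Fintype ι'] (hN : MapsLatticeOnto b b' N) {t : ι' → ℝ}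
    (h : N (∑ i, t i • hN.lift i) = 0) : t = 0 := by
  rw [map_sum] at h
  have h2 : ∑ i, t i • b' i = 0 := by
    rw [← h]
    refine Finset.sum_congr rfl fun i _ => ?_
    rw [← hN.map_lift i]
    exact ((N.restrictScalars ℝ).map_smul (t i) (hN.lift i)).symm
  have := Fintype.linearIndependent_iff.1 b'.linearIndependent t h2
  exact funext this


instance discreteTopology_latticeIn (W : Submodule ℂ V) :
    DiscreteTopology (latticeIn (lattice b) W) := by
  have := finite_index b
  have h1 : DiscreteTopology (lattice b) :=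
    inferInstanceAs (DiscreteTopology (Submodule.span ℤ (Set.range b)))
  let f : latticeIn (lattice b) W → lattice b := fun w => ⟨(w : W), w.2⟩
  have hf : Continuous f := by
    refine Continuous.subtype_mk ?_ _
    exact continuous_subtype_val.comp continuous_subtype_val
  have hinj : Function.Injective f := by
    intro x y hxy
    have : ((x : W) : V) = ((y : W) : V) := congrArg (fun z : lattice b => (z : V)) hxy
    exact Subtype.ext (Subtype.ext this)
  exact DiscreteTopology.of_continuous_injective hf hinj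

theorem MapsLatticeOnto.span_latticeIn (hN : MapsLatticeOnto b b' N) :
    Submodule.span ℝ (latticeIn (lattice b) (LinearMap.ker N.toLinearMap) :
      Set (LinearMap.ker N.toLinearMap)) = ⊤ := by
  have := finite_index b'
  have := Fintype.ofFinite ι'
  set W := LinearMap.ker N.toLinearMap with hW
  set S : Submodule ℝ W := Submodule.span ℝ (latticeIn (lattice b) W : Set W) with hS
  let j : W →ₗ[ℝ] V := W.subtype.restrictScalars ℝ
  let T : Submodule ℝ V := Submodule.span ℝ (Set.range hN.lift)
  have htop : (⊤ : Submodule ℝ V) ≤ S.map j ⊔ T := by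
    rw [← b.span_eq, Submodule.span_le]
    rintro _ ⟨i, rfl⟩
    obtain ⟨n, h1, h2⟩ := hN.exists_decomp (l := b i) (Submodule.subset_span ⟨i, rfl⟩)
    have h3 : b i = (b i - ∑ i, n i • hN.lift i) + ∑ i, n i • hN.lift i := by abel
    rw [h3]
    refine Submodule.add_mem _ (Submodule.mem_sup_left ?_) (Submodule.mem_sup_right ?_)
    · refine ⟨⟨_, h2⟩, Submodule.subset_span ?_, rfl⟩
      exact h1
    · refine Submodule.sum_mem _ fun i _ => ?_
      rw [← Int.cast_smul_eq_zsmul ℝ]
      exact Submodule.smul_mem _ _ (Submodule.subset_span ⟨i, rfl⟩)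
  rw [eq_top_iff]
  intro w _
  obtain ⟨u, hu, t, ht, hut⟩ := Submodule.mem_sup.1 (htop (Submodule.mem_top (x := (w : V))))
  obtain ⟨s, hs, rfl⟩ := hu
  obtain ⟨c, rfl⟩ := (Submodule.mem_span_range_iff_exists_fun ℝ).1 ht
  have h0 : N (∑ i, c i • hN.lift i) = 0 := by
    have h1 : N (j s) = 0 := s.2
    have h2 : N (w : V) = 0 := w.2
    have h3 := congrArg N hut
    rw [map_add, h1, h2, zero_add] at h3
    exact h3
  have hc := hN.sum_lift_eq_zero h0
  have : s = w := by
    apply Subtype.ext
    rw [← hut, hc]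
    simp [j]
  rw [← this]
  exact hs

theorem MapsLatticeOnto.isZLattice (hN : MapsLatticeOnto b b' N) :
    IsZLattice ℝ (latticeIn (lattice b) (LinearMap.ker N.toLinearMap)) :=
  ⟨hN.span_latticeIn⟩

/-- `W ∩ Λ` has a `ℤ`-basis which is an `ℝ`-basis of `W = ker N`. -/
theorem MapsLatticeOnto.exists_kerBasis (hN : MapsLatticeOnto b b' N) :
    ∃ μ : Basis (Fin (2 * finrank ℂ (LinearMap.ker N.toLinearMap))) ℝ (LinearMap.ker N.toLinearMap),
      Submodule.span ℤ (Set.range μ) = latticeIn (lattice b) (LinearMap.ker N.toLinearMap) := by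
  set W := LinearMap.ker N.toLinearMap with hW
  have h1 : IsZLattice ℝ (latticeIn (lattice b) W) := hN.isZLattice
  have h2 : Module.Free ℤ (latticeIn (lattice b) W) := ZLattice.module_free ℝ _
  have h3 : Module.Finite ℤ (latticeIn (lattice b) W) := ZLattice.module_finite ℝ _
  let μ₀ := (Module.Free.chooseBasis ℤ (latticeIn (lattice b) W)).ofZLatticeBasis ℝ _
  have hcard : Fintype.card (Module.Free.ChooseBasisIndex ℤ (latticeIn (lattice b) W)) =
      2 * finrank ℂ W := by
    rw [← Module.finrank_eq_card_basis μ₀, finrank_real_of_complex]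
  let e := Fintype.equivFinOfCardEq hcard
  refine ⟨μ₀.reindex e, ?_⟩
  rw [Basis.range_reindex]
  exact Basis.ofZLatticeBasis_span ℝ _ _

/-- The family `(μ, ν)`: a basis of `W ∩ Λ` followed by lifts of the period basis of `A'`. -/
noncomputable def MapsLatticeOnto.adaptedFamily (hN : MapsLatticeOnto b b' N) {κ : Type*}
    (μ : Basis κ ℝ (LinearMap.ker N.toLinearMap)) : κ ⊕ ι' → V :=
  Sum.elim (fun k => (μ k : V)) hN.lift

theorem MapsLatticeOnto.linearIndependent_adaptedFamily (hN : MapsLatticeOnto b b' N) {κ : Type*}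
    (μ : Basis κ ℝ (LinearMap.ker N.toLinearMap)) : LinearIndependent ℝ (hN.adaptedFamily μ) := by
  have := finite_index b'
  have := Fintype.ofFinite ι'
  let j : LinearMap.ker N.toLinearMap →ₗ[ℝ] V :=
    (LinearMap.ker N.toLinearMap).subtype.restrictScalars ℝ
  have hj : Function.Injective j := Subtype.val_injective
  have h1 : LinearIndependent ℝ (fun k => (μ k : V)) :=
    μ.linearIndependent.map' j (LinearMap.ker_eq_bot.2 hj)
  have h2 : LinearIndependent ℝ hN.lift := by
    rw [Fintype.linearIndependent_iff]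
    intro t ht
    have := hN.sum_lift_eq_zero (t := t) (by rw [ht, map_zero])
    exact fun i => congrFun this i
  refine LinearIndependent.sum_type h1 h2 ?_
  rw [Submodule.disjoint_def]
  intro x hx1 hx2
  obtain ⟨c, rfl⟩ := (Submodule.mem_span_range_iff_exists_fun ℝ).1 hx2
  have hxW : N (∑ i, c i • hN.lift i) = 0 := by
    have : Submodule.span ℝ (Set.range fun k => (μ k : V)) ≤
        (LinearMap.ker N.toLinearMap).restrictScalars ℝ := by
      rw [Submodule.span_le]
      rintro _ ⟨k, rfl⟩
      exact (μ k).2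
    exact this hx1
  rw [hN.sum_lift_eq_zero hxW]
  simp

theorem MapsLatticeOnto.span_adaptedFamily (hN : MapsLatticeOnto b b' N) {κ : Type*}
    (μ : Basis κ ℝ (LinearMap.ker N.toLinearMap)) :
    ⊤ ≤ Submodule.span ℝ (Set.range (hN.adaptedFamily μ)) := by
  have := finite_index b'
  have := Fintype.ofFinite ι'
  intro v _
  have hv : v = (v - ∑ i, b'.repr (N v) i • hN.lift i) + ∑ i, b'.repr (N v) i • hN.lift i := by abel
  have hw : v - ∑ i, b'.repr (N v) i • hN.lift i ∈ LinearMap.ker N.toLinearMap := by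
    show N _ = 0
    rw [map_sub, map_sum, sub_eq_zero]
    conv_lhs => rw [← b'.sum_repr (N v)]
    refine Finset.sum_congr rfl fun i _ => ?_
    rw [← hN.map_lift i]
    exact ((N.restrictScalars ℝ).map_smul _ (hN.lift i)).symm
  rw [hv]
  refine Submodule.add_mem _ ?_ ?_
  · let j : LinearMap.ker N.toLinearMap →ₗ[ℝ] V :=
      (LinearMap.ker N.toLinearMap).subtype.restrictScalars ℝ
    have h1 : (⟨_, hw⟩ : LinearMap.ker N.toLinearMap) ∈ Submodule.span ℝ (Set.range μ) := by
      rw [μ.span_eq]; trivial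
    have h2 := Submodule.mem_map_of_mem (f := j) h1
    rw [Submodule.map_span, ← Set.range_comp] at h2
    refine Submodule.span_mono ?_ h2
    rintro _ ⟨k, rfl⟩
    exact ⟨Sum.inl k, rfl⟩
  · refine Submodule.sum_mem _ fun i _ => Submodule.smul_mem _ _ (Submodule.subset_span ?_)
    exact ⟨Sum.inr i, rfl⟩

/-- The adapted period basis `(μ, ν)` of `V`. -/
noncomputable def MapsLatticeOnto.adaptedBasis (hN : MapsLatticeOnto b b' N) {κ : Type*}
    (μ : Basis κ ℝ (LinearMap.ker N.toLinearMap)) : Basis (κ ⊕ ι') ℝ V :=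
  Basis.mk (hN.linearIndependent_adaptedFamily μ) (hN.span_adaptedFamily μ)

theorem MapsLatticeOnto.adaptedBasis_inl (hN : MapsLatticeOnto b b' N) {κ : Type*}
    (μ : Basis κ ℝ (LinearMap.ker N.toLinearMap)) (k : κ) :
    hN.adaptedBasis μ (Sum.inl k) = (μ k : V) := by
  simp [adaptedBasis, adaptedFamily]

theorem MapsLatticeOnto.adaptedBasis_inr (hN : MapsLatticeOnto b b' N) {κ : Type*}
    (μ : Basis κ ℝ (LinearMap.ker N.toLinearMap)) (i : ι') :
    hN.adaptedBasis μ (Sum.inr i) = hN.lift i := by
  simp [adaptedBasis, adaptedFamily]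

theorem MapsLatticeOnto.lattice_adaptedBasis (hN : MapsLatticeOnto b b' N) {κ : Type*}
    (μ : Basis κ ℝ (LinearMap.ker N.toLinearMap))
    (hμ : Submodule.span ℤ (Set.range μ) = latticeIn (lattice b) (LinearMap.ker N.toLinearMap)) :
    lattice (hN.adaptedBasis μ) = lattice b := by
  have := finite_index b'
  have := Fintype.ofFinite ι'
  have hμmem : ∀ w : LinearMap.ker N.toLinearMap, (w : V) ∈ lattice b →
      (w : V) ∈ lattice (hN.adaptedBasis μ) := by
    intro w hw
    have h1 : w ∈ Submodule.span ℤ (Set.range μ) := by rw [hμ]; exact hw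
    have h2 := Submodule.mem_map_of_mem
      (f := (LinearMap.ker N.toLinearMap).subtype.restrictScalars ℤ) h1
    rw [Submodule.map_span, ← Set.range_comp] at h2
    refine Submodule.span_mono ?_ h2
    rintro _ ⟨k, rfl⟩
    exact ⟨Sum.inl k, hN.adaptedBasis_inl μ k⟩
  apply le_antisymm
  · refine Submodule.span_le.2 ?_
    rintro _ ⟨k | i, rfl⟩
    · rw [hN.adaptedBasis_inl]
      have : μ k ∈ latticeIn (lattice b) (LinearMap.ker N.toLinearMap) := by
        rw [← hμ]; exact Submodule.subset_span ⟨k, rfl⟩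
      exact this
    · rw [hN.adaptedBasis_inr]
      exact hN.lift_mem i
  · intro l hl
    obtain ⟨n, h1, h2⟩ := hN.exists_decomp hl
    have h3 : l = (l - ∑ i, n i • hN.lift i) + ∑ i, n i • hN.lift i := by abel
    rw [h3]
    refine Submodule.add_mem _ (hμmem ⟨_, h2⟩ h1) ?_
    refine Submodule.sum_mem _ fun i _ => Submodule.smul_mem _ _ (Submodule.subset_span ?_)
    exact ⟨Sum.inr i, hN.adaptedBasis_inr μ i⟩

theorem MapsLatticeOnto.repr_map (hN : MapsLatticeOnto b b' N) {κ : Type*}
    (μ : Basis κ ℝ (LinearMap.ker N.toLinearMap)) (x : V) (i : ι') :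
    b'.repr (N x) i = (hN.adaptedBasis μ).repr x (Sum.inr i) := by
  classical
  have : (b'.coord i) ∘ₗ (N.restrictScalars ℝ).toLinearMap = (hN.adaptedBasis μ).coord (Sum.inr i) := by
    refine (hN.adaptedBasis μ).ext ?_
    rintro (k | i')
    · have h0 : (N.restrictScalars ℝ).toLinearMap (μ k : V) = 0 := (μ k).2
      simp only [LinearMap.comp_apply, Basis.coord_apply, Basis.repr_self]
      rw [hN.adaptedBasis_inl, h0]
      simp
    · simp only [LinearMap.comp_apply, Basis.coord_apply, Basis.repr_self]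
      rw [hN.adaptedBasis_inr]
      have : (N.restrictScalars ℝ).toLinearMap (hN.lift i') = b' i' := hN.map_lift i'
      rw [this, Basis.repr_self]
      simp [Finsupp.single_apply]
  exact congrArg (fun f => f x) this

theorem MapsLatticeOnto.repr_ker (hN : MapsLatticeOnto b b' N) {κ : Type*}
    (μ : Basis κ ℝ (LinearMap.ker N.toLinearMap)) (w : LinearMap.ker N.toLinearMap) (k : κ) :
    (hN.adaptedBasis μ).repr (w : V) (Sum.inl k) = μ.repr w k := by
  classical
  have : ((hN.adaptedBasis μ).coord (Sum.inl k)) ∘ₗ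
      ((LinearMap.ker N.toLinearMap).subtype.restrictScalars ℝ) = μ.coord k := by
    refine μ.ext fun k' => ?_
    simp only [LinearMap.comp_apply, Basis.coord_apply, Basis.repr_self,
      LinearMap.coe_restrictScalars, Submodule.subtype_apply]
    rw [← hN.adaptedBasis_inl μ k', Basis.repr_self]
    simp [Finsupp.single_apply]
  exact congrArg (fun f => f w) this

/-- In the period parallelotope of the adapted basis, the kernel of `f` is the period
parallelotope of `W ∩ Λ` in `W`. -/
theorem MapsLatticeOnto.preimage_inter_fundamentalDomain (hN : MapsLatticeOnto b b' N) {κ : Type*}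
    (μ : Basis κ ℝ (LinearMap.ker N.toLinearMap)) :
    N ⁻¹' (lattice b' : Set V') ∩ ZSpan.fundamentalDomain (hN.adaptedBasis μ) =
      Subtype.val '' ZSpan.fundamentalDomain μ := by
  ext x
  constructor
  · rintro ⟨hxZ, hxF⟩
    rw [ZSpan.mem_fundamentalDomain] at hxF
    have h1 := (Basis.mem_span_iff_repr_mem ℤ b' (N x)).1 hxZ
    have h2 : ∀ i, b'.repr (N x) i = 0 := by
      intro i
      obtain ⟨n, hn⟩ := h1 i
      have h3 := hxF (Sum.inr i)
      rw [← hN.repr_map μ x i, ← hn] at h3
      simp only [algebraMap_int_eq, eq_intCast, Set.mem_Ico] at h3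
      have h4 : (0 : ℤ) ≤ n := by exact_mod_cast h3.1
      have h5 : n < (1 : ℤ) := by exact_mod_cast h3.2
      have h6 : n = 0 := by omega
      rw [← hn, h6]; simp
    have h3 : N x = 0 := by
      apply b'.repr.injective
      ext i
      simp [h2 i]
    refine ⟨⟨x, h3⟩, ?_, rfl⟩
    rw [ZSpan.mem_fundamentalDomain]
    intro k
    rw [← hN.repr_ker μ ⟨x, h3⟩ k]
    exact hxF (Sum.inl k)
  · rintro ⟨w, hw, rfl⟩
    rw [ZSpan.mem_fundamentalDomain] at hw
    have h0 : N (w : V) = 0 := w.2
    refine ⟨?_, ?_⟩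
    · show N (w : V) ∈ lattice b'
      rw [h0]; exact (lattice b').zero_mem
    · rw [ZSpan.mem_fundamentalDomain]
      rintro (k | i)
      · rw [hN.repr_ker μ w k]; exact hw k
      · rw [← hN.repr_map μ (w : V) i, h0]; simp

variable [MeasurableSpace V] [BorelSpace V]

/-- `∫_{ker f} ψ`, computed in the adapted period parallelotope. -/
theorem MapsLatticeOnto.integralOver_adaptedBasis (hN : MapsLatticeOnto b b' N) {κ : Type*}
    (μ : Basis κ ℝ (LinearMap.ker N.toLinearMap)) {n : ℕ} (ψ : Form V n) :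
    integralOver (hN.adaptedBasis μ) (N ⁻¹' (lattice b' : Set V')) ψ =
      ((μHE[n] : Measure V).real (Subtype.val '' ZSpan.fundamentalDomain μ) : ℂ) *
        evalOn (LinearMap.ker N.toLinearMap) ψ := by
  have hfin := finite_index (hN.adaptedBasis μ)
  have hmeas : MeasurableSet (N ⁻¹' (lattice b' : Set V') ∩
      ZSpan.fundamentalDomain (hN.adaptedBasis μ)) :=
    (((isAnalyticSubset_lattice b').preimage N).isClosed.measurableSet).inter
      (ZSpan.fundamentalDomain_measurableSet _)
  rw [integralOver, setIntegral_congr_fun hmeas (g := fun _ => evalOn (LinearMap.ker N.toLinearMap) ψ)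
    (fun x hx => tangentEval_of_isRegularPoint (isRegularPoint_preimage_lattice hN hx.1) ψ),
    setIntegral_const, hN.preimage_inter_fundamentalDomain μ]
  simp

end Claimed.Open.R032
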