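import Mathlib

/-!
# The rational Hodge conjecture for complex CM abelian varieties

`Statement` is the conjunction of the following theorems of the papers of result 032.

* `HodgeCM`: Theorem 1.1 (`thm:cm`) of *The rational Hodge conjecture for CM abelian varieties*, the
  theorem named by the title of the result:

  > Let `A` be a complex CM abelian variety.  For every integer `p ≥ 0` the Betti cycle class map
  > `cl_B : CH^p(A)_ℚ → H^{2p}(A,ℚ) ∩ H^{p,p}(A)` is surjective
  > (the intersection is taken in `H^{2p}(A,ℂ)`).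

* `GeneralizedHodgeCM`: Corollary `cc:ghc` of the same paper (generalized Hodge conjecture for CM
  abelian varieties).
* `SplitWeilSixfolds`, `QuadraticFive`: Theorems `p3ab:split-sixfolds` and `p3ab:quadratic-five` of
  *Weil classes and Hodge classes on abelian powers*.

Everything is written in the classical transcendental model of a complex abelian variety
(Mumford, *Abelian varieties*, Ch. I; Birkenhake–Lange, *Complex abelian varieties*, Ch. 1 and 4):

* `A = V / Λ`, with `V` a finite dimensional complex vector space and `Λ ⊆ V` a lattice, given by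
  a period basis, which carries a polarisation (a Riemann form);
* `H^n(A,ℂ)` is the space of alternating `ℝ`-multilinear forms `V^n → ℂ` (the translation
  invariant differential forms), `H^n(A,ℚ)` consists of the forms which are rational on `Λ`, and
  `H^{p,q}(A)` is spanned by the wedge products of `p` complex linear and `q` complex antilinear
  forms;
* the subvarieties of `A` are its irreducible closed analytic subsets (Chow's theorem), written as
  `Λ`-periodic subsets of `V`;
* the class of a subvariety `Z` is the Poincaré dual of the current of integration over the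
  regular locus of `Z`.

See `CLAIM.md` for references, for the known deviations and for the theorems which are left out, and
`Sanity.lean` for checked examples.
-/

open MeasureTheory Module

namespace Claimed.Open.R032

noncomputable section

variable {V : Type*} [NormedAddCommGroup V] [InnerProductSpace ℂ V] [FiniteDimensional ℂ V]

/-! ## Complex tori, abelian varieties, complex multiplication -/

/-- The lattice `Λ ⊆ V` spanned by a period basis, i.e. by an `ℝ`-basis `b` of `V`.
The complex torus under consideration is `A = V / Λ`. -/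
def lattice {ι : Type*} (b : Basis ι ℝ V) : Submodule ℤ V := Submodule.span ℤ (Set.range b)

/-- `E` is a *Riemann form* (a polarisation) for the complex torus `V / Λ`: an alternating
`ℝ`-bilinear form, integral on the lattice `Λ`, such that `E (i v) (i w) = E v w` and such that the
symmetric form `(v, w) ↦ E (i v) w` is positive definite. -/
structure IsRiemannForm (Λ : Submodule ℤ V) (E : V →ₗ[ℝ] V →ₗ[ℝ] ℝ) : Prop where
  alt : ∀ v, E v v = 0
  integral : ∀ v ∈ Λ, ∀ w ∈ Λ, ∃ n : ℤ, E v w = n
  compat : ∀ v w, E (Complex.I • v) (Complex.I • w) = E v w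
  pos : ∀ v, v ≠ 0 → 0 < E (Complex.I • v) v

/-- The complex torus `V / Λ` is an abelian variety: it admits a polarisation. -/
def IsPolarizable (Λ : Submodule ℤ V) : Prop := ∃ E, IsRiemannForm Λ E

/-- `f ∈ End(A) ⊗ ℚ` for `A = V / Λ`.  The endomorphisms of `A` are the `ℂ`-linear maps `V → V`
which map `Λ` into `Λ`; hence `End(A) ⊗ ℚ` consists of the `ℂ`-linear maps `f` such that
`n f ∈ End(A)` for some integer `n ≥ 1`. -/
def IsRationalEndomorphism (Λ : Submodule ℤ V) (f : Module.End ℂ V) : Prop :=
  ∃ n : ℕ, 0 < n ∧ ∀ v ∈ Λ, n • f v ∈ Λ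

/-- `A = V / Λ` is of *CM type*: `End(A) ⊗ ℚ` contains a commutative semisimple `ℚ`-algebra `F`
of dimension `2 dim A`. -/
def IsCM (Λ : Submodule ℤ V) : Prop :=
  ∃ (F : Type) (_ : CommRing F) (_ : Algebra ℚ F) (ι : F →+* Module.End ℂ V),
    IsSemisimpleRing F ∧ finrank ℚ F = 2 * finrank ℂ V ∧ Function.Injective ι ∧
      ∀ a : F, IsRationalEndomorphism Λ (ι a)

/-! ## Cohomology and Hodge classes -/

/-- `H^n(A,ℂ)` for `A = V / Λ`: the alternating `ℝ`-multilinear forms `V^n → ℂ`. -/
abbrev Form (V : Type*) [NormedAddCommGroup V] [InnerProductSpace ℂ V] (n : ℕ) :=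
  V [⋀^Fin n]→ₗ[ℝ] ℂ

/-- The wedge (= cup) product `α ∧ β` of alternating forms,
`(α ∧ β)(v) = ∑_{σ a shuffle} sign σ • α (v_{σ 0}, …) * β (…, v_{σ (a+b-1)})`. -/
def wedge {a b : ℕ} (α : Form V a) (β : Form V b) : Form V (a + b) :=
  ((LinearMap.mul' ℝ ℂ).compAlternatingMap (α.domCoprod β)).domDomCongr finSumFinEquiv

/-- The wedge product `ℓ₀ ∧ ⋯ ∧ ℓ_{n-1}` of `ℝ`-linear forms `V → ℂ`:
`(v₀, …, v_{n-1}) ↦ ∑_σ sign σ ∏_i ℓ_i (v_{σ i}) = det (ℓ_i (v_j))`. -/
def wedgeOfForms {n : ℕ} (ℓ : Fin n → V →ₗ[ℝ] ℂ) : Form V n :=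
  MultilinearMap.alternatization ((MultilinearMap.mkPiAlgebra ℝ (Fin n) ℂ).compLinearMap ℓ)

/-- A class in `H^n(A,ℂ)` lies in `H^n(A,ℚ) = Alt^n_ℤ(Λ,ℚ)`: it takes rational values on the
lattice `Λ = H_1(A,ℤ)`. -/
def IsRational (Λ : Submodule ℤ V) {n : ℕ} (φ : Form V n) : Prop :=
  ∀ v : Fin n → V, (∀ i, v i ∈ Λ) → ∃ q : ℚ, φ v = (q : ℂ)

/-- `H^{p,n-p}(A) ⊆ H^n(A,ℂ)`: the complex span of the forms `ℓ₀ ∧ ⋯ ∧ ℓ_{n-1}` with `ℓ_i`
complex linear for `i < p` and complex antilinear for `p ≤ i`. -/
def hodgePiece (V : Type*) [NormedAddCommGroup V] [InnerProductSpace ℂ V] (p n : ℕ) :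
    Submodule ℂ (Form V n) :=
  Submodule.span ℂ {ω | ∃ ℓ : Fin n → V →ₗ[ℝ] ℂ,
    (∀ i : Fin n, (i : ℕ) < p → ∀ v, ℓ i (Complex.I • v) = Complex.I * ℓ i v) ∧
    (∀ i : Fin n, p ≤ (i : ℕ) → ∀ v, ℓ i (Complex.I • v) = -Complex.I * ℓ i v) ∧
    ω = wedgeOfForms ℓ}

/-- `φ ∈ H^{2p}(A,ℚ) ∩ H^{p,p}(A)`, the intersection being taken in `H^{2p}(A,ℂ)`. -/
def IsHodgeClass (Λ : Submodule ℤ V) (p : ℕ) (φ : Form V (2 * p)) : Prop :=
  IsRational Λ φ ∧ φ ∈ hodgePiece V p (2 * p)

/-! ## Subvarieties -/

/-- `Z` is a closed analytic subset of `V`: every point of `V` has an open neighbourhood on which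
`Z` is the common zero set of finitely many holomorphic functions. -/
def IsAnalyticSubset (Z : Set V) : Prop :=
  ∀ x : V, ∃ U : Set V, IsOpen U ∧ x ∈ U ∧ ∃ (m : ℕ) (f : V → Fin m → ℂ),
    AnalyticOnNhd ℂ f U ∧ Z ∩ U = {y ∈ U | f y = 0}

/-- `Z ⊆ V` is stable under translation by the lattice, i.e. it is the preimage of a subset of
`A = V / Λ`. -/
def IsPeriodic (Λ : Submodule ℤ V) (Z : Set V) : Prop :=
  ∀ l ∈ Λ, ∀ x ∈ Z, l + x ∈ Z

/-- `x` is a regular point of `Z` with (complex) tangent space `T`: near `x` the set `Z` is the zero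
set of a holomorphic submersion whose differential at `x` has kernel `T`. -/
def IsRegularPoint (Z : Set V) (x : V) (T : Submodule ℂ V) : Prop :=
  ∃ (U : Set V) (m : ℕ) (F : V → Fin m → ℂ), IsOpen U ∧ x ∈ U ∧ x ∈ Z ∧ AnalyticOnNhd ℂ F U ∧
    Z ∩ U = {y ∈ U | F y = 0} ∧ (fderiv ℂ F x).range = ⊤ ∧ (fderiv ℂ F x).ker = T

/-- `Z ⊆ V` is the preimage of an (irreducible, closed) subvariety of dimension `d` of
`A = V / Λ`: a nonempty closed analytic subset of `A`, which is not the union of two strictly
smaller closed analytic subsets of `A`, and in which the points where it is a complex manifold of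
dimension `d` are dense. -/
structure IsSubvariety (Λ : Submodule ℤ V) (d : ℕ) (Z : Set V) : Prop where
  analytic : IsAnalyticSubset Z
  periodic : IsPeriodic Λ Z
  nonempty : Z.Nonempty
  irreducible : ∀ Z₁ Z₂ : Set V, IsAnalyticSubset Z₁ → IsPeriodic Λ Z₁ → IsAnalyticSubset Z₂ →
    IsPeriodic Λ Z₂ → Z = Z₁ ∪ Z₂ → Z = Z₁ ∨ Z = Z₂
  dim_eq : Z ⊆ closure {x | ∃ T : Submodule ℂ V, IsRegularPoint Z x T ∧ finrank ℂ T = d}

/-! ## Integration and the cycle class -/

/-- The real frame `(e₀, i e₀, e₁, i e₁, …)` of the complex subspace `T ⊆ V` built from a unitary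
basis `(e₀, e₁, …)` of `T`: an orthonormal `ℝ`-basis of `T` which is positive for the canonical
orientation of the complex vector space `T`. -/
def complexFrame (T : Submodule ℂ V) (n : ℕ) (h : n = 2 * finrank ℂ T) : Fin n → V :=
  fun j =>
    if (j : ℕ) % 2 = 0 then ((stdOrthonormalBasis ℂ T ⟨(j : ℕ) / 2, by omega⟩ : T) : V)
    else Complex.I • ((stdOrthonormalBasis ℂ T ⟨(j : ℕ) / 2, by omega⟩ : T) : V)

open Classical in
/-- The density of `ψ|_T` with respect to the Euclidean volume form of the oriented real vector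
space `T` (and `0` if the degree of `ψ` is not the real dimension of `T`). -/
def evalOn (T : Submodule ℂ V) {n : ℕ} (ψ : Form V n) : ℂ :=
  if h : n = 2 * finrank ℂ T then ψ (complexFrame T n h) else 0

open Classical in
/-- The density of `ψ|_Z` at a regular point `x` of `Z` with respect to the Riemannian volume of
the complex manifold `Z_reg` (and `0` at the other points). -/
def tangentEval (Z : Set V) {n : ℕ} (ψ : Form V n) (x : V) : ℂ :=
  if h : ∃ T, IsRegularPoint Z x T then evalOn h.choose ψ else 0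

variable [MeasurableSpace V] [BorelSpace V]

/-- `∫_Z ψ`: the current of integration over the regular locus of the image in `A = V / Λ` of the
`Λ`-periodic set `Z`, evaluated at the translation invariant `n`-form `ψ`.  Here
`ZSpan.fundamentalDomain b` is the half-open period parallelotope, which contains exactly one point
of each class modulo `Λ`, and `μHE[n]` is the `n`-dimensional Hausdorff measure of the Hermitian
space `V`, normalised so that it is the Riemannian volume on `n`-dimensional real submanifolds. -/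
def integralOver {ι : Type*} (b : Basis ι ℝ V) (Z : Set V) {n : ℕ} (ψ : Form V n) : ℂ :=
  ∫ x in Z ∩ ZSpan.fundamentalDomain b, tangentEval Z ψ x ∂(μHE[n] : Measure V)

/-- `c ∈ H^{2p}(A,ℂ)` is the cohomology class of the `d`-dimensional `Z`, where `p + d = dim A`:
it is Poincaré dual to the current of integration over `Z`, i.e. `∫_A c ∧ ψ = ∫_Z ψ` for all
`ψ ∈ H^{2d}(A,ℂ)`. -/
def IsCycleClass {ι : Type*} (b : Basis ι ℝ V) (p d : ℕ) (Z : Set V) (c : Form V (2 * p)) : Prop :=
  ∀ ψ : Form V (2 * d), integralOver b Set.univ (wedge c ψ) = integralOver b Z ψ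

/-- The image of the cycle class map `CH^p(A)_ℚ → H^{2p}(A,ℂ)`: the `ℚ`-span of the cohomology
classes of the subvarieties of codimension `p` of `A = V / Λ`. -/
def algebraicClasses {ι : Type*} (b : Basis ι ℝ V) (p : ℕ) : Submodule ℚ (Form V (2 * p)) :=
  Submodule.span ℚ {c | ∃ (d : ℕ) (Z : Set V), p + d = finrank ℂ V ∧
    IsSubvariety (lattice b) d Z ∧ IsCycleClass b p d Z c}

/-! ## The Hodge conjecture for CM abelian varieties -/

/-- The rational Hodge conjecture, in every codimension, for the complex torus `A = V / lattice b`: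
every class in `H^{2p}(A,ℚ) ∩ H^{p,p}(A)` is a `ℚ`-linear combination of classes of subvarieties of
codimension `p`; i.e. the cycle class map `CH^p(A)_ℚ → H^{2p}(A,ℚ) ∩ H^{p,p}(A)` is surjective for
every `p`. -/
def HodgeConjecture {ι : Type*} (b : Basis ι ℝ V) : Prop :=
  ∀ (p : ℕ) (φ : Form V (2 * p)), IsHodgeClass (lattice b) p φ → φ ∈ algebraicClasses b p

/-- **Theorem `thm:cm`: the rational Hodge conjecture for complex CM abelian varieties.**
For every complex abelian variety `A = V / Λ` of CM type and every `p`, every class in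
`H^{2p}(A,ℚ) ∩ H^{p,p}(A)` is a `ℚ`-linear combination of classes of subvarieties of
codimension `p`; i.e. the cycle class map `CH^p(A)_ℚ → H^{2p}(A,ℚ) ∩ H^{p,p}(A)` is surjective. -/
def HodgeCM : Prop :=
  ∀ (V : Type) [NormedAddCommGroup V] [InnerProductSpace ℂ V] [FiniteDimensional ℂ V]
    [MeasurableSpace V] [BorelSpace V] (ι : Type) (b : Basis ι ℝ V),
    IsPolarizable (lattice b) → IsCM (lattice b) → HodgeConjecture b

/-! ## The generalized Hodge conjecture for CM abelian varieties

Conventions of the paper (Section 7): "A pure rational Hodge structure is effective if all its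
nonzero Hodge components have nonnegative indices.  Recall that `V(r)^{p,q} = V^{p+r,q+r}`."
So `W(r)` is effective iff `W^{p,q} = 0` unless `p ≥ r` and `q ≥ r`.

The restriction map to the open subvariety `A ∖ Z` is described by de Rham's theorem: the class in
`H^k(A ∖ Z,ℂ)` of the closed invariant form `φ` vanishes iff `φ` is exact on the manifold `A ∖ Z`,
i.e. iff `φ = dη` for a smooth `Λ`-periodic `(k-1)`-form `η` on the open set `V ∖ Z`; and
`H^k(A ∖ Z,ℚ) → H^k(A ∖ Z,ℂ)` is injective. -/

/-- `W_ℂ = W ⊗_ℚ ℂ ⊆ H^k(A,ℂ)`, for a `ℚ`-subspace `W` of `H^k(A,ℚ) ⊆ H^k(A,ℂ)`. -/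
def complexSpan {k : ℕ} (W : Submodule ℚ (Form V k)) : Submodule ℂ (Form V k) :=
  Submodule.span ℂ (W : Set (Form V k))

/-- `W` is a rational Hodge substructure of `H^k(A,ℚ)`, `A = V / Λ`: a `ℚ`-subspace of `H^k(A,ℚ)`
such that `W_ℂ` is the sum of its Hodge components `W^{p,k-p} = W_ℂ ∩ H^{p,k-p}(A)`, `0 ≤ p ≤ k`. -/
structure IsHodgeSubstructure (Λ : Submodule ℤ V) {k : ℕ} (W : Submodule ℚ (Form V k)) : Prop where
  rational : ∀ φ ∈ W, IsRational Λ φ
  decomp : complexSpan W ≤ ⨆ p : Fin (k + 1), complexSpan W ⊓ hodgePiece V p k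

/-- The Tate twist `W(r)` of `W ⊆ H^k(A,ℚ)` is effective: `W^{p,q} = 0` (`p + q = k`) unless `p ≥ r`
and `q ≥ r`. -/
def IsEffectiveTwist {k : ℕ} (W : Submodule ℚ (Form V k)) (r : ℕ) : Prop :=
  ∀ p q : ℕ, p + q = k → (p < r ∨ q < r) → complexSpan W ⊓ hodgePiece V p k = ⊥

/-- `Z ⊆ V` is the preimage of a closed algebraic subset of `A = V / Λ` of codimension at least `r`:
a finite union of subvarieties of dimension at most `dim A - r`. -/
def IsAlgebraicSubsetOfCodimGE (Λ : Submodule ℤ V) (r : ℕ) (Z : Set V) : Prop :=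
  ∃ (m : ℕ) (Y : Fin m → Set V) (d : Fin m → ℕ),
    (∀ j, IsSubvariety Λ (d j) (Y j)) ∧ (∀ j, d j + r ≤ finrank ℂ V) ∧ Z = ⋃ j, Y j

open scoped ContDiff in
/-- The class `φ ∈ H^k(A,ℂ)` lies in the kernel of the restriction `H^k(A,ℂ) → H^k(A ∖ Z,ℂ)`, where
`Z ⊆ V` is closed and `Λ`-periodic.  By de Rham's theorem this means that the invariant form `φ` is
exact on `A ∖ Z`: for `k = m + 1`, there is a smooth `Λ`-periodic `m`-form `η` on `V ∖ Z` with
`dη = φ`; for `k = 0`, the constant `φ` vanishes or `A ∖ Z` is empty. -/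
def RestrictsToZero (Λ : Submodule ℤ V) (Z : Set V) : {k : ℕ} → Form V k → Prop
  | 0, φ => φ = 0 ∨ Z = Set.univ
  | m + 1, φ => ∃ η : V → V [⋀^Fin m]→L[ℝ] ℂ, ContDiffOn ℝ ∞ η Zᶜ ∧
      (∀ l ∈ Λ, ∀ x ∈ Zᶜ, η (l + x) = η x) ∧ ∀ x ∈ Zᶜ, ∀ v, extDeriv η x v = φ v

/-- **Corollary `cc:ghc`** (Generalized Hodge conjecture for CM abelian varieties).
"Let `A` be a complex CM abelian variety.  For integers `k, r ≥ 0` and a rational Hodge substructure
`W ⊂ H^k(A,ℚ)` such that `W(r)` is effective, there is a closed algebraic subset `Z ⊂ A` of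
codimension at least `r` such that `W ⊂ ker (H^k(A,ℚ) → H^k(A ∖ Z,ℚ))`." -/
def GeneralizedHodgeCM : Prop :=
  ∀ (V : Type) [NormedAddCommGroup V] [InnerProductSpace ℂ V] [FiniteDimensional ℂ V]
    (ι : Type) (b : Basis ι ℝ V),
    IsPolarizable (lattice b) → IsCM (lattice b) →
      ∀ (k r : ℕ) (W : Submodule ℚ (Form V k)),
        IsHodgeSubstructure (lattice b) W → IsEffectiveTwist W r →
          ∃ Z : Set V, IsAlgebraicSubsetOfCodimGE (lattice b) r Z ∧
            ∀ φ ∈ W, RestrictsToZero (lattice b) Z φ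

/-! ## Hodge classes on self-powers of abelian varieties with an imaginary quadratic action -/

/-- The period basis of the self-power `A^m = V^m / Λ^m` of `A = V / Λ`: the vectors
`(0, …, 0, b_i, 0, …, 0)`.  Here `V^m` carries the Hermitian product structure. -/
def powerBasis {ι : Type*} (b : Basis ι ℝ V) (m : ℕ) :
    Basis (Σ _ : Fin m, ι) ℝ (PiLp 2 fun _ : Fin m => V) :=
  (Pi.basis fun _ : Fin m => b).map (WithLp.linearEquiv 2 ℝ (Fin m → V)).symm

/-- An action of the imaginary quadratic field `E = ℚ(√-d)` on `A = V / Λ`.  The paper: "An action of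
an imaginary quadratic field `E` on an abelian variety `A` means a unital embedding
`E ↪ End⁰(A)`.  Write `E = ℚ(u)`, with `u² = -d` and `d ∈ ℤ_{>0}`."  Such an embedding is the same as
an element `u ∈ End⁰(A) = End(A) ⊗ ℚ` with `u² = -d`. -/
def IsQuadraticAction (Λ : Submodule ℤ V) (d : ℕ) (u : Module.End ℂ V) : Prop :=
  0 < d ∧ IsRationalEndomorphism Λ u ∧ u * u = -(d : ℂ) • (1 : Module.End ℂ V)

/-- **Theorem `p3ab:quadratic-five`** (Quadratic actions in dimension at most five).
"Let `A` be a complex abelian variety of dimension at most five admitting an action of an imaginary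
quadratic field.  The rational Hodge conjecture holds in every codimension on `A^m`, for every
`m ≥ 1`." -/
def QuadraticFive : Prop :=
  ∀ (V : Type) [NormedAddCommGroup V] [InnerProductSpace ℂ V] [FiniteDimensional ℂ V]
    [MeasurableSpace V] [BorelSpace V] (ι : Type) (b : Basis ι ℝ V),
    IsPolarizable (lattice b) → finrank ℂ V ≤ 5 →
    (∃ d u, IsQuadraticAction (lattice b) d u) →
      ∀ m : ℕ, 1 ≤ m → HodgeConjecture (powerBasis b m)

/-- **Theorem `p3ab:split-sixfolds`** (Split Weil sixfolds).
"Let `E` be an imaginary quadratic field and let `A` be a complex abelian sixfold with an `E`-action.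
Suppose a compatible polarization has hyperbolic rational Hermitian form of signature `(3,3)`.  Then
the rational Hodge conjecture holds in every codimension on `A^m`, for every `m ≥ 1`."

The Riemann form `e` is compatible with the action if `e(a x, y) = e(x, ā y)` for `a ∈ E`, i.e. if
`e(u x, y) = - e(x, u y)`.  Its Hermitian form is `h(x,y) = e(x, u y) + u e(x,y)` on the
six-dimensional `E`-vector space `H_1(A,ℚ) = Λ ⊗ ℚ`, and `h` is hyperbolic if there is a totally
isotropic three-dimensional `E`-subspace.  Such a subspace has an `E`-basis `x₀, x₁, x₂` in `Λ`;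
the vectors `x_i` are `E`-linearly independent iff the six vectors `x_i, u x_i` of `Λ ⊗ ℚ` are linearly
independent over `ℚ`, equivalently over `ℝ` in `V = Λ ⊗ ℝ`; and their `E`-span is totally isotropic iff
`h(x_i, x_j) = 0`, i.e. `e(x_i, x_j) = 0 = e(x_i, u x_j)`, for all `i, j`.
A nondegenerate Hermitian form of rank six with a totally isotropic subspace of dimension three has
signature `(3,3)`, so that the signature is not a separate hypothesis. -/
def SplitWeilSixfolds : Prop :=
  ∀ (V : Type) [NormedAddCommGroup V] [InnerProductSpace ℂ V] [FiniteDimensional ℂ V]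
    [MeasurableSpace V] [BorelSpace V] (ι : Type) (b : Basis ι ℝ V),
    finrank ℂ V = 6 → ∀ (d : ℕ) (u : Module.End ℂ V), IsQuadraticAction (lattice b) d u →
    ∀ e : V →ₗ[ℝ] V →ₗ[ℝ] ℝ, IsRiemannForm (lattice b) e → (∀ x y, e (u x) y = -e x (u y)) →
    (∃ x : Fin 3 → V, (∀ i, x i ∈ lattice b) ∧
      LinearIndependent ℝ (Sum.elim x (fun i => u (x i))) ∧
      ∀ i j, e (x i) (x j) = 0 ∧ e (x i) (u (x j)) = 0) →
      ∀ m : ℕ, 1 ≤ m → HodgeConjecture (powerBasis b m)

/-! ## The statement -/

/-- The conjunction of Theorem `thm:cm` (the rational Hodge conjecture for complex CM abelian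
varieties), of its Corollary `cc:ghc`, and of Theorems `p3ab:split-sixfolds` and
`p3ab:quadratic-five` of the companion paper on self-powers. -/
def Statement : Prop :=
  HodgeCM ∧ GeneralizedHodgeCM ∧ SplitWeilSixfolds ∧ QuadraticFive

end

end Claimed.Open.R032
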